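import Vale.Agent.P188.Z1.RModel

/-!
# P188, Z1: additional facts about the real model (Prop structure, so `RModel` does not change)
-/

set_option linter.all false

open MeasureTheory Set

namespace Vale.Agent.P188.Z1

namespace RModel

variable {S : Type} [Group S] [MeasurableSpace S] {Γ : Type} [Group Γ]
  {V : Type} [AddCommGroup V] [Module ℝ V] {k : ℕ} (M : RModel S Γ V k)

/-- A crossed homomorphism of the whole group `S` of weight `b`, with a letter detecting it. -/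
structure CrossS (b : Ht k →L[ℝ] ℝ) where
  D : S → ℂ
  ρ : S → ℂ
  D_meas : Measurable D
  ρ_meas : Measurable ρ
  D_mul : ∀ x y, D (x * y) = D x + ρ x * D y
  ρ_mul : ∀ x y, ρ (x * y) = ρ x * ρ y
  norm_ρ : ∀ x, ‖ρ x‖ = Real.exp (b (M.θ x))
  ρ_ker : ∀ x, M.η x = 1 → ρ x = 1
  i : M.ι
  wt_i : M.wt i = b
  d : ℂ
  d_ne : d ≠ 0
  D_ex : ∀ x : ℝ, D (M.ex (x • M.X i)) = x * d
  /-- `D` vanishes on the letters of the other weights -/
  D_other : ∀ j, M.wt j ≠ b → ∀ x : ℝ, D (M.ex (x • M.X j)) = 0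
  C : ℝ
  /-- exponential upper bound -/
  D_le : ∀ x, ‖D x‖ ≤ Real.exp (C * (M.l x + 1))

/-- additional facts -/
structure Extra : Prop where
  /-- products of many exponentials (428's `prod_Ex_bound`, 615's `nm_prod_le`) -/
  ex_list : ∃ (C : ℝ) (e : ℕ), ∀ A : ℝ, 0 ≤ A → ∀ L : List V, (∀ v ∈ L, M.nm v ≤ A) →
    ∃ u, M.ex u = (L.map M.ex).prod ∧ M.nm u ≤ C * (1 + A + L.length) ^ e
  /-- crossed homomorphisms (329, 131) -/
  crossS : ∀ b ∈ M.Φ, Nonempty (M.CrossS b)

end RModel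

end Vale.Agent.P188.Z1
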