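import Vale.Agent.P188.Z1.InvT

/-!
# P188, Z1, block FAT: calculus of the Cartan words `CB n` and of the fat balls `FB δ R`
-/

set_option linter.all false

open MeasureTheory Set Filter
open scoped ENNReal
open Agent.P188.H428 (IsLen)
open Vale.Agent.P188.H530 (hgt hgt_mul)

namespace Vale.Agent.P188.Z1

/-- polynomials are dominated by exponentials -/
theorem ev_poly (A : ℝ) (m : ℕ) {ε : ℝ} (hε : 0 < ε) :
    ∀ᶠ R : ℝ in atTop, A * (1 + R) ^ m ≤ Real.exp (ε * R) := by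
  filter_upwards [eventually_ge_atTop (1 : ℝ),
    eventually_ge_atTop (|A| * 2 ^ m * (m + 1).factorial / ε ^ (m + 1))] with R h1 h2
  have hR0 : 0 < R := by linarith
  have h3 := Real.pow_div_factorial_le_exp (ε * R) (by positivity) (m + 1)
  refine le_trans ?_ h3
  rw [le_div_iff₀ (by positivity)]
  rw [div_le_iff₀ (by positivity)] at h2
  calc A * (1 + R) ^ m * (m + 1).factorial ≤ |A| * (2 * R) ^ m * (m + 1).factorial := by
        gcongr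
        · exact le_abs_self A
        · linarith
    _ = (|A| * 2 ^ m * (m + 1).factorial) * R ^ m := by ring
    _ ≤ (R * ε ^ (m + 1)) * R ^ m := by gcongr
    _ = (ε * R) ^ (m + 1) := by ring

/-- constants are dominated by exponentials -/
theorem ev_const (A : ℝ) {ε : ℝ} (hε : 0 < ε) :
    ∀ᶠ R : ℝ in atTop, A ≤ Real.exp (ε * R) := by
  filter_upwards [ev_poly A 0 hε] with R h
  simpa using h

/-- constants are dominated by linear functions -/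
theorem ev_lin (A B : ℝ) {ε : ℝ} (hε : A < ε) :
    ∀ᶠ R : ℝ in atTop, A * R + B ≤ ε * R := by
  filter_upwards [eventually_ge_atTop (B / (ε - A))] with R h
  rw [div_le_iff₀ (by linarith)] at h
  nlinarith

namespace RModel

variable {S : Type} [Group S] [MeasurableSpace S] {Γ : Type} [Group Γ]
  {V : Type} [AddCommGroup V] [Module ℝ V] {k : ℕ} (M : RModel S Γ V k)

theorem C0_pos : 0 < M.C0 := zero_lt_one.trans_le M.one_le_C0

theorem nm_nonneg (v : V) : 0 ≤ M.nm v := apply_nonneg _ _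

theorem nm_neg (v : V) : M.nm (-v) = M.nm v := map_neg_eq_map _ _

/-! ### exponentials -/

theorem ex_neg (v : V) : M.ex (-v) = (M.ex v)⁻¹ := by
  have h := M.ex_add 1 (-1) v
  rw [add_neg_cancel, zero_smul, M.ex_zero, one_smul, neg_one_smul] at h
  exact (inv_eq_of_mul_eq_one_right h.symm).symm

theorem ex_nsmul (n : ℕ) (v : V) : M.ex ((n : ℝ) • v) = M.ex v ^ n := by
  induction n with
  | zero => simp [M.ex_zero]
  | succ n ih =>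
    rw [Nat.cast_succ, M.ex_add, ih, one_smul, pow_succ]

theorem θ_one : M.θ (1 : S) = 0 := by
  have := M.θ_mul 1 1
  rw [mul_one] at this
  simpa using this

theorem θ_ex (v : V) : M.θ (M.ex v) = 0 := by
  funext i
  simp [θ, hgt, M.η_ex]

theorem θ_τ (w : Fin k → ℤ) : M.θ (M.τ w) = fun i => (w i : ℝ) := by
  funext i
  simp [θ, hgt, M.η_τ]

theorem θ_of_η {x y : S} (h : M.η x = M.η y) : M.θ x = M.θ y := by
  funext i
  simp [θ, hgt, h]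

/-! ### words in the Cartan group -/

theorem one_mem_CB (n : ℕ) : (1 : S) ∈ M.CB n := ⟨[], by simp, by simp, by simp⟩

theorem CB_mono {m n : ℕ} (h : m ≤ n) : M.CB m ⊆ M.CB n := by
  rintro c ⟨L, h1, h2, h3⟩
  exact ⟨L, h1.trans h, h2, h3⟩

theorem CB_mul {m n : ℕ} {a b : S} (ha : a ∈ M.CB m) (hb : b ∈ M.CB n) :
    a * b ∈ M.CB (m + n) := by
  obtain ⟨L, h1, h2, h3⟩ := ha
  obtain ⟨L', h1', h2', h3'⟩ := hb
  refine ⟨L ++ L', by rw [List.length_append]; omega, by rw [List.prod_append, h2, h2'], ?_⟩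
  intro x hx
  rcases List.mem_append.1 hx with hx | hx
  · exact h3 x hx
  · exact h3' x hx

theorem CB_inv {n : ℕ} {a : S} (ha : a ∈ M.CB n) : a⁻¹ ∈ M.CB n := by
  obtain ⟨L, h1, h2, h3⟩ := ha
  refine ⟨(L.map fun x => x⁻¹).reverse, by simpa using h1, by
    rw [← h2, List.prod_inv_reverse], ?_⟩
  intro x hx
  rw [List.mem_reverse, List.mem_map] at hx
  obtain ⟨y, hy, rfl⟩ := hx
  rcases h3 y hy with ⟨v, hv, hv1, hv2⟩ | ⟨w, hw, hw2⟩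
  · exact Or.inl ⟨-v, neg_mem hv, by rwa [M.nm_neg], by rw [M.ex_neg, hv2]⟩
  · refine Or.inr ⟨w, hw, ?_⟩
    rcases hw2 with h | h
    · exact Or.inr (by rw [h])
    · exact Or.inl (by rw [← h, inv_inv])

theorem CB_pow {n : ℕ} {a : S} (ha : a ∈ M.CB n) (m : ℕ) : a ^ m ∈ M.CB (m * n) := by
  induction m with
  | zero => simpa using M.one_mem_CB _
  | succ m ih =>
    rw [pow_succ, Nat.succ_mul]
    exact M.CB_mul ih ha

theorem ex_mem_CB {y : V} (hy : y ∈ M.Vw 0) {n : ℕ} (hn : M.nm y ≤ n) : M.ex y ∈ M.CB n := by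
  rcases Nat.eq_zero_or_pos n with rfl | h0
  · have h1 : M.nm y = 0 := le_antisymm (by simpa using hn) (M.nm_nonneg y)
    rw [M.nm_zero y h1, M.ex_zero]
    exact M.one_mem_CB _
  · have hn0 : (0 : ℝ) < n := by exact_mod_cast h0
    have h1 : M.ex ((n : ℝ)⁻¹ • y) ∈ M.CB 1 := by
      refine ⟨[M.ex ((n : ℝ)⁻¹ • y)], by simp, by simp, ?_⟩
      intro a ha
      rw [List.mem_singleton] at ha
      subst ha
      refine Or.inl ⟨(n : ℝ)⁻¹ • y, Submodule.smul_mem _ _ hy, ?_, rfl⟩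
      rw [map_smul_eq_mul, Real.norm_of_nonneg (by positivity), inv_mul_le_iff₀ hn0, mul_one]
      exact hn
    have h2 := M.CB_pow h1 n
    rw [mul_one, ← M.ex_nsmul, smul_smul, mul_inv_cancel₀ hn0.ne', one_smul] at h2
    exact h2

/-- a neutral exponential is a Cartan word -/
theorem ex_mem_CB' {y : V} (hy : y ∈ M.Vw 0) : M.ex y ∈ M.CB ⌈M.nm y⌉₊ :=
  M.ex_mem_CB hy (Nat.le_ceil _)

theorem τ_mem_CB {w : Fin k → ℤ} {R : ℝ} (hR : 0 ≤ R) (hw : ∀ i, |(w i : ℝ)| ≤ R) :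
    M.τ w ∈ M.CB ⌈M.C0 * (1 + R)⌉₊ := by
  refine M.CB_mono ?_ (M.τ_CB w)
  refine Nat.ceil_mono (mul_le_mul_of_nonneg_left ?_ M.C0_pos.le)
  have : ‖(fun i => (w i : ℝ))‖ ≤ R := (pi_norm_le_iff_of_nonneg hR).2 hw
  linarith

/-- length of Cartan words -/
theorem l_CB : ∃ C : ℝ, 1 ≤ C ∧ ∀ n, ∀ c ∈ M.CB n, (M.l c : ℝ) ≤ C * n := by
  have hfin : (Icc (fun _ : Fin k => (-1 : ℤ)) (fun _ => 1)).Finite := Set.finite_Icc _ _
  obtain ⟨B, hB⟩ := (hfin.image fun w => (M.l (M.τ w) : ℝ)).bddAbove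
  refine ⟨max (max B (2 * M.C0)) 1, le_max_right _ _, ?_⟩
  have hone : ∀ a, ((∃ v ∈ M.Vw 0, M.nm v ≤ 1 ∧ M.ex v = a) ∨
      (∃ w : Fin k → ℤ, (∀ i, |w i| ≤ 1) ∧ (M.τ w = a ∨ (M.τ w)⁻¹ = a))) →
      (M.l a : ℝ) ≤ max (max B (2 * M.C0)) 1 := by
    intro a ha
    refine le_trans ?_ (le_max_left _ _)
    rcases ha with ⟨v, _, h1, rfl⟩ | ⟨w, hw, h⟩
    · refine le_trans ?_ (le_max_right _ _)
      refine (M.met_V v).trans ?_
      nlinarith [M.C0_pos]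
    · refine le_trans ?_ (le_max_left _ _)
      have h1 : (M.l a : ℝ) = M.l (M.τ w) := by
        rcases h with h | h
        · rw [h]
        · rw [← h, M.len.inv]
      rw [h1]
      refine hB ⟨w, ?_, rfl⟩
      rw [Set.mem_Icc, Pi.le_def, Pi.le_def]
      exact ⟨fun i => (abs_le.1 (hw i)).1, fun i => (abs_le.1 (hw i)).2⟩
  have hmain : ∀ L : List S, (∀ a ∈ L, (∃ v ∈ M.Vw 0, M.nm v ≤ 1 ∧ M.ex v = a) ∨
      (∃ w : Fin k → ℤ, (∀ i, |w i| ≤ 1) ∧ (M.τ w = a ∨ (M.τ w)⁻¹ = a))) →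
      (M.l L.prod : ℝ) ≤ max (max B (2 * M.C0)) 1 * L.length := by
    intro L
    induction L with
    | nil => intro _; simp [M.len.one]
    | cons a L ih =>
      intro h
      rw [List.prod_cons, List.length_cons]
      have h1 : (M.l (a * L.prod) : ℝ) ≤ M.l a + M.l L.prod := by exact_mod_cast M.len.mul _ _
      have h2 := hone a (h a (by simp))
      have h3 := ih fun b hb => h b (List.mem_cons_of_mem _ hb)
      push_cast
      linarith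
  rintro n c ⟨L, h1, rfl, h3⟩
  refine (hmain L h3).trans ?_
  have : (L.length : ℝ) ≤ n := by exact_mod_cast h1
  exact mul_le_mul_of_nonneg_left this (le_trans zero_le_one (le_max_right _ _))

theorem l_τ : ∃ C : ℝ, 1 ≤ C ∧ ∀ w : Fin k → ℤ, ∀ R : ℝ, 0 ≤ R → (∀ i, |(w i : ℝ)| ≤ R) →
    (M.l (M.τ w) : ℝ) ≤ C * (1 + R) := by
  obtain ⟨C, hC, h⟩ := M.l_CB
  refine ⟨C * (M.C0 + 1), by nlinarith [M.C0_pos], fun w R hR hw => ?_⟩
  refine (h _ _ (M.τ_mem_CB hR hw)).trans ?_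
  have h1 : (⌈M.C0 * (1 + R)⌉₊ : ℝ) ≤ M.C0 * (1 + R) + 1 :=
    (Nat.ceil_lt_add_one (by have := M.C0_pos; positivity)).le
  rw [mul_assoc]
  refine mul_le_mul_of_nonneg_left ?_ (by linarith)
  nlinarith [M.C0_pos]

/-- length of exponentials of vectors of `e` -/
theorem len_e {v : V} (hv : v ∈ M.e) {R : ℝ} (hR : 0 ≤ R) (h : M.nm v ≤ Real.exp R) :
    (M.l (M.ex v) : ℝ) ≤ 2 * M.C0 * (R + 1) := by
  refine (M.met_e v hv).trans ?_
  have h0 := M.nm_nonneg v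
  have h1 : Real.log (1 + M.nm v) ≤ R + 1 := by
    rw [Real.log_le_iff_le_exp (by linarith), Real.exp_add]
    have h2 : (2 : ℝ) ≤ Real.exp 1 := by have := Real.add_one_le_exp (1 : ℝ); linarith
    have h3 : 1 ≤ Real.exp R := Real.one_le_exp hR
    nlinarith
  have := M.C0_pos
  nlinarith

/-! ### neutral vectors -/

/-- product of neutral exponentials -/
theorem ex_mul0 {v w : V} (hv : v ∈ M.Vw 0) (hw : w ∈ M.Vw 0) :
    ∃ u ∈ M.Vw 0, M.ex u = M.ex v * M.ex w ∧ M.nm u ≤ M.C0 * (1 + M.nm v + M.nm w) ^ M.C0 := by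
  obtain ⟨u, hu, hue, _⟩ := M.C_ker _ _ (M.CB_mul (M.ex_mem_CB' hv) (M.ex_mem_CB' hw))
    (by rw [map_mul, M.η_ex, M.η_ex, mul_one])
  exact ⟨u, hu, hue, M.ex_mul_le v w u hue.symm⟩

/-- product of exponentials of vectors of `e` -/
theorem ex_mule {v w : V} (hv : v ∈ M.e) (hw : w ∈ M.e) :
    ∃ u ∈ M.e, M.ex u = M.ex v * M.ex w ∧ M.nm u ≤ M.C0 * (1 + M.nm v + M.nm w) ^ M.C0 := by
  obtain ⟨u, hu, hue⟩ := (M.mem_E _).1 (M.E.mul_mem ((M.mem_E _).2 ⟨v, hv, rfl⟩)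
    ((M.mem_E _).2 ⟨w, hw, rfl⟩))
  exact ⟨u, hu, hue, M.ex_mul_le v w u hue.symm⟩

theorem Ad_mem_e {v : V} (hv : v ∈ M.e) (s : S) : M.Ad s v ∈ M.e := by
  have h1 : M.ex (M.Ad s v) ∈ M.E := by
    rw [M.ex_Ad]
    exact M.E_normal.conj_mem _ ((M.mem_E _).2 ⟨v, hv, rfl⟩) _
  obtain ⟨u, hu, hue⟩ := (M.mem_E _).1 h1
  rwa [M.ex_inj hue] at hu

/-- Cartan words preserve weight spaces -/
theorem Ad_CB {n : ℕ} {c : S} (hc : c ∈ M.CB n) {b : Ht k →L[ℝ] ℝ} {v : V} (hv : v ∈ M.Vw b) :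
    M.Ad c v ∈ M.Vw b := M.C_inv n c hc b v hv

theorem Ad_ex_Vw {y : V} (hy : y ∈ M.Vw 0) {b : Ht k →L[ℝ] ℝ} {v : V} (hv : v ∈ M.Vw b) :
    M.Ad (M.ex y) v ∈ M.Vw b := M.Ad_CB (M.ex_mem_CB' hy) hv

/-- Cartan words on neutral vectors -/
theorem Ad_CB_0 {n : ℕ} {c : S} (hc : c ∈ M.CB n) {v : V} (hv : v ∈ M.Vw 0) :
    M.nm (M.Ad c v) ≤ M.C0 * (1 + n) ^ M.deg * M.nm v := by
  have := M.C_le n c hc 0 M.zero_mem_Wt v hv
  simpa using this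

/-- the cocycle of `τ` -/
theorem τ_mul (w w' : Fin k → ℤ) {R : ℝ} (hR : 0 ≤ R) (hw : ∀ i, |(w i : ℝ)| ≤ R)
    (hw' : ∀ i, |(w' i : ℝ)| ≤ R) :
    ∃ y ∈ M.Vw 0, M.τ w * M.τ w' = M.ex y * M.τ (w + w') ∧
      M.nm y ≤ M.C0 * (4 * (M.C0 + 1)) ^ M.deg * (1 + R) ^ M.deg := by
  have hw2 : ∀ i, |(((w + w') i : ℤ) : ℝ)| ≤ 2 * R := by
    intro i
    rw [Pi.add_apply]; push_cast
    refine (abs_add_le _ _).trans ?_
    linarith [hw i, hw' i]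
  have h1 := M.CB_mul (M.CB_mul (M.τ_mem_CB hR hw) (M.τ_mem_CB hR hw'))
    (M.CB_inv (M.τ_mem_CB (by positivity) hw2))
  obtain ⟨y, hy, hye, hyn⟩ := M.C_ker _ _ h1 (by
    rw [map_mul, map_mul, map_inv, M.η_τ, M.η_τ, M.η_τ, ofAdd_add, mul_inv_cancel])
  refine ⟨y, hy, by rw [hye]; group, hyn.trans ?_⟩
  rw [mul_assoc, ← mul_pow]
  have hC := M.C0_pos
  refine mul_le_mul_of_nonneg_left ?_ hC.le
  refine pow_le_pow_left₀ (by positivity) ?_ _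
  have e1 := (Nat.ceil_lt_add_one (show 0 ≤ M.C0 * (1 + R) by positivity)).le
  have e2 := (Nat.ceil_lt_add_one (show 0 ≤ M.C0 * (1 + 2 * R) by positivity)).le
  push_cast
  nlinarith [mul_nonneg hC.le hR]

theorem τ_inv (w : Fin k → ℤ) {R : ℝ} (hR : 0 ≤ R) (hw : ∀ i, |(w i : ℝ)| ≤ R) :
    ∃ y ∈ M.Vw 0, (M.τ w)⁻¹ = M.ex y * M.τ (-w) ∧
      M.nm y ≤ M.C0 * (4 * (M.C0 + 1)) ^ M.deg * (1 + R) ^ M.deg := by
  have hw2 : ∀ i, |(((-w) i : ℤ) : ℝ)| ≤ R := by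
    intro i
    rw [Pi.neg_apply]; push_cast
    rw [abs_neg]; exact hw i
  have h1 := M.CB_mul (M.CB_inv (M.τ_mem_CB hR hw)) (M.CB_inv (M.τ_mem_CB hR hw2))
  obtain ⟨y, hy, hye, hyn⟩ := M.C_ker _ _ h1 (by
    rw [map_mul, map_inv, map_inv, M.η_τ, M.η_τ, ofAdd_neg]; simp)
  refine ⟨y, hy, by rw [hye]; group, hyn.trans ?_⟩
  rw [mul_assoc, ← mul_pow]
  have hC := M.C0_pos
  refine mul_le_mul_of_nonneg_left ?_ hC.le
  refine pow_le_pow_left₀ (by positivity) ?_ _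
  have e1 := (Nat.ceil_lt_add_one (show 0 ≤ M.C0 * (1 + R) by positivity)).le
  push_cast
  nlinarith [mul_nonneg hC.le hR]

/-! ### the neutral-Cartan part of fat balls -/

/-- products `ex y * τ w` -/
def PB (B R : ℝ) : Set S :=
  {g | ∃ y ∈ M.Vw 0, M.nm y ≤ B ∧ ∃ w : Fin k → ℤ, (∀ i, |(w i : ℝ)| ≤ R) ∧ g = M.ex y * M.τ w}

theorem PB_mono {B B' R R' : ℝ} (hB : B ≤ B') (hR : R ≤ R') : M.PB B R ⊆ M.PB B' R' := by
  rintro g ⟨y, hy, h1, w, h2, rfl⟩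
  exact ⟨y, hy, h1.trans hB, w, fun i => (h2 i).trans hR, rfl⟩

theorem mem_FB {δ R : ℝ} {g : S} : g ∈ M.FB δ R ↔
    ∃ v ∈ M.e, M.nm v ≤ Real.exp R ∧ ∃ p ∈ M.PB (Real.exp (δ * R)) R, g = M.ex v * p := by
  constructor
  · rintro ⟨v, hv, h1, y, hy, h2, w, h3, rfl⟩
    exact ⟨v, hv, h1, M.ex y * M.τ w, ⟨y, hy, h2, w, h3, rfl⟩, by rw [mul_assoc]⟩
  · rintro ⟨v, hv, h1, p, ⟨y, hy, h2, w, h3, rfl⟩, rfl⟩
    exact ⟨v, hv, h1, y, hy, h2, w, h3, by rw [mul_assoc]⟩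

theorem FB_mono {δ δ' R R' : ℝ} (hR : R ≤ R') (h : δ * R ≤ δ' * R') :
    M.FB δ R ⊆ M.FB δ' R' := by
  rintro g ⟨v, hv, h1, y, hy, h2, w, h3, rfl⟩
  exact ⟨v, hv, h1.trans (Real.exp_le_exp.2 hR), y, hy, h2.trans (Real.exp_le_exp.2 h), w,
    fun i => (h3 i).trans hR, rfl⟩

theorem FB_mono' {δ δ' R R' : ℝ} (hδ : 0 ≤ δ) (hR0 : 0 ≤ R) (hR : R ≤ R') (h : δ ≤ δ') :
    M.FB δ R ⊆ M.FB δ' R' :=
  M.FB_mono hR (mul_le_mul h hR hR0 (hδ.trans h))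

/-- product of neutral exponentials, exponential form -/
theorem ev_mul0 : ∃ C : ℝ, 1 ≤ C ∧ ∀ δ : ℝ, 0 < δ → ∀ᶠ R : ℝ in atTop, ∀ v ∈ M.Vw 0, ∀ w ∈ M.Vw 0,
    M.nm v ≤ Real.exp (δ * R) → M.nm w ≤ Real.exp (δ * R) →
    ∃ u ∈ M.Vw 0, M.ex u = M.ex v * M.ex w ∧ M.nm u ≤ Real.exp (C * δ * R) := by
  refine ⟨M.C0 + 1, by linarith [M.C0_pos], fun δ hδ => ?_⟩
  filter_upwards [eventually_ge_atTop (0 : ℝ), ev_const (M.C0 * 3 ^ M.C0) hδ] with R hR h v hv w hw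
    h1 h2
  obtain ⟨u, hu, hue, hun⟩ := M.ex_mul0 hv hw
  refine ⟨u, hu, hue, hun.trans ?_⟩
  have e0 : 1 ≤ Real.exp (δ * R) := Real.one_le_exp (by positivity)
  have e1 : 1 + M.nm v + M.nm w ≤ 3 * Real.exp (δ * R) := by linarith
  have n1 := M.nm_nonneg v
  have n2 := M.nm_nonneg w
  calc M.C0 * (1 + M.nm v + M.nm w) ^ M.C0 ≤ M.C0 * (3 * Real.exp (δ * R)) ^ M.C0 := by
        refine mul_le_mul_of_nonneg_left ?_ M.C0_pos.le
        exact Real.rpow_le_rpow (by positivity) e1 M.C0_pos.le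
    _ = (M.C0 * 3 ^ M.C0) * Real.exp (M.C0 * (δ * R)) := by
        rw [Real.mul_rpow (by norm_num) (by positivity), ← Real.exp_mul]
        ring_nf
    _ ≤ Real.exp (δ * R) * Real.exp (M.C0 * (δ * R)) := by gcongr
    _ = Real.exp ((M.C0 + 1) * δ * R) := by rw [← Real.exp_add]; ring_nf

/-- product of exponentials of vectors of `e`, exponential form -/
theorem ev_mule : ∃ C : ℝ, 1 ≤ C ∧ ∀ A : ℝ, 0 < A → ∀ᶠ R : ℝ in atTop, ∀ v ∈ M.e, ∀ w ∈ M.e,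
    M.nm v ≤ Real.exp (A * R) → M.nm w ≤ Real.exp (A * R) →
    ∃ u ∈ M.e, M.ex u = M.ex v * M.ex w ∧ M.nm u ≤ Real.exp (C * A * R) := by
  refine ⟨M.C0 + 1, by linarith [M.C0_pos], fun δ hδ => ?_⟩
  filter_upwards [eventually_ge_atTop (0 : ℝ), ev_const (M.C0 * 3 ^ M.C0) hδ] with R hR h v hv w hw
    h1 h2
  obtain ⟨u, hu, hue, hun⟩ := M.ex_mule hv hw
  refine ⟨u, hu, hue, hun.trans ?_⟩
  have e0 : 1 ≤ Real.exp (δ * R) := Real.one_le_exp (by positivity)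
  have e1 : 1 + M.nm v + M.nm w ≤ 3 * Real.exp (δ * R) := by linarith
  have n1 := M.nm_nonneg v
  have n2 := M.nm_nonneg w
  calc M.C0 * (1 + M.nm v + M.nm w) ^ M.C0 ≤ M.C0 * (3 * Real.exp (δ * R)) ^ M.C0 := by
        refine mul_le_mul_of_nonneg_left ?_ M.C0_pos.le
        exact Real.rpow_le_rpow (by positivity) e1 M.C0_pos.le
    _ = (M.C0 * 3 ^ M.C0) * Real.exp (M.C0 * (δ * R)) := by
        rw [Real.mul_rpow (by norm_num) (by positivity), ← Real.exp_mul]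
        ring_nf
    _ ≤ Real.exp (δ * R) * Real.exp (M.C0 * (δ * R)) := by gcongr
    _ = Real.exp ((M.C0 + 1) * δ * R) := by rw [← Real.exp_add]; ring_nf

/-- `τ w` acts on neutral vectors polynomially -/
theorem ev_Adτ0 {ε : ℝ} (hε : 0 < ε) : ∀ᶠ R : ℝ in atTop, ∀ w : Fin k → ℤ,
    (∀ i, |(w i : ℝ)| ≤ R) → ∀ y ∈ M.Vw 0, M.Ad (M.τ w) y ∈ M.Vw 0 ∧
      M.Ad (M.τ w)⁻¹ y ∈ M.Vw 0 ∧
      M.nm (M.Ad (M.τ w) y) ≤ Real.exp (ε * R) * M.nm y ∧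
      M.nm (M.Ad (M.τ w)⁻¹ y) ≤ Real.exp (ε * R) * M.nm y := by
  filter_upwards [eventually_ge_atTop (0 : ℝ),
    ev_poly (M.C0 * (M.C0 + 2) ^ M.deg) M.deg hε] with R hR h w hw y hy
  have hC := M.C0_pos
  have e1 := (Nat.ceil_lt_add_one (show 0 ≤ M.C0 * (1 + R) by positivity)).le
  have e2 : M.C0 * (1 + (⌈M.C0 * (1 + R)⌉₊ : ℝ)) ^ M.deg ≤ Real.exp (ε * R) := by
    refine le_trans ?_ h
    rw [mul_assoc, ← mul_pow]
    refine mul_le_mul_of_nonneg_left ?_ hC.le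
    refine pow_le_pow_left₀ (by positivity) ?_ _
    nlinarith
  have m1 := M.τ_mem_CB hR hw
  have m2 := M.CB_inv m1
  refine ⟨M.Ad_CB m1 hy, M.Ad_CB m2 hy, ?_, ?_⟩
  · exact (M.Ad_CB_0 m1 hy).trans (mul_le_mul_of_nonneg_right e2 (M.nm_nonneg _))
  · exact (M.Ad_CB_0 m2 hy).trans (mul_le_mul_of_nonneg_right e2 (M.nm_nonneg _))

theorem PB_mul : ∃ C : ℝ, 1 ≤ C ∧ ∀ δ : ℝ, 0 < δ → ∀ᶠ R : ℝ in atTop,
    ∀ g ∈ M.PB (Real.exp (δ * R)) R, ∀ g' ∈ M.PB (Real.exp (δ * R)) R,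
    g * g' ∈ M.PB (Real.exp (C * δ * R)) (2 * R) := by
  obtain ⟨C, hC, hmul⟩ := M.ev_mul0
  refine ⟨C * (2 * C), by nlinarith, fun δ hδ => ?_⟩
  filter_upwards [eventually_ge_atTop (0 : ℝ), hmul (2 * δ) (by positivity),
    hmul (C * (2 * δ)) (by positivity), M.ev_Adτ0 hδ,
    ev_poly (M.C0 * (4 * (M.C0 + 1)) ^ M.deg) M.deg hδ] with R hR h1 h2 h3 h4
  rintro g ⟨y, hy, hyn, w, hw, rfl⟩ g' ⟨y', hy', hyn', w', hw', rfl⟩
  obtain ⟨z, hz, hze, hzn⟩ := M.τ_mul w w' hR hw hw'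
  obtain ⟨a1, _, a2, _⟩ := h3 w hw y' hy'
  obtain ⟨u, hu, hue, hun⟩ := h1 y hy _ a1
    (hyn.trans (Real.exp_le_exp.2 (by nlinarith))) (a2.trans (by
      rw [show 2 * δ * R = δ * R + δ * R by ring, Real.exp_add]
      exact mul_le_mul_of_nonneg_left hyn' (Real.exp_pos _).le))
  obtain ⟨u', hu', hue', hun'⟩ := h2 u hu z hz hun
    (hzn.trans (h4.trans (Real.exp_le_exp.2 (by
      have : δ * R ≤ C * (2 * δ) * R := by nlinarith [mul_nonneg hδ.le hR]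
      exact this))))
  refine ⟨u', hu', hun'.trans (le_of_eq (by ring_nf)), w + w', fun i => ?_, ?_⟩
  · rw [Pi.add_apply]; push_cast
    refine (abs_add_le _ _).trans ?_
    linarith [hw i, hw' i]
  · rw [hue', hue, M.ex_Ad]
    have : M.ex z = M.τ w * M.τ w' * (M.τ (w + w'))⁻¹ := by rw [hze]; group
    rw [this]; group

theorem PB_inv : ∃ C : ℝ, 1 ≤ C ∧ ∀ δ : ℝ, 0 < δ → ∀ᶠ R : ℝ in atTop,
    ∀ g ∈ M.PB (Real.exp (δ * R)) R, g⁻¹ ∈ M.PB (Real.exp (C * δ * R)) R := by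
  obtain ⟨C, hC, hmul⟩ := M.ev_mul0
  refine ⟨2 * C, by nlinarith, fun δ hδ => ?_⟩
  filter_upwards [eventually_ge_atTop (0 : ℝ), hmul (2 * δ) (by positivity), M.ev_Adτ0 hδ,
    ev_poly (M.C0 * (4 * (M.C0 + 1)) ^ M.deg) M.deg hδ] with R hR h1 h3 h4
  rintro g ⟨y, hy, hyn, w, hw, rfl⟩
  obtain ⟨z, hz, hze, hzn⟩ := M.τ_inv w hR hw
  obtain ⟨_, a1, _, a2⟩ := h3 w hw (-y) (neg_mem hy)
  rw [M.nm_neg] at a2
  obtain ⟨u, hu, hue, hun⟩ := h1 _ a1 z hz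
    (a2.trans (by
      rw [show 2 * δ * R = δ * R + δ * R by ring, Real.exp_add]
      exact mul_le_mul_of_nonneg_left hyn (Real.exp_pos _).le))
    (hzn.trans (h4.trans (Real.exp_le_exp.2 (by nlinarith))))
  refine ⟨u, hu, hun.trans (le_of_eq (by ring_nf)), -w, fun i => ?_, ?_⟩
  · rw [Pi.neg_apply]; push_cast
    rw [abs_neg]; exact hw i
  · rw [hue, M.ex_Ad, M.ex_neg]
    have : M.ex z = (M.τ w)⁻¹ * (M.τ (-w))⁻¹ := by rw [hze]; group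
    rw [this]; group

/-- `Ad` of elements of `PB` on `e` -/
theorem ev_Ad_PB : ∃ C : ℝ, 1 ≤ C ∧ ∀ δ : ℝ, 0 < δ → δ ≤ 1 → ∀ᶠ R : ℝ in atTop,
    ∀ g ∈ M.PB (Real.exp (δ * R)) R, ∀ v,
    M.nm (M.Ad g v) ≤ Real.exp (C * R) * M.nm v ∧
    M.nm (M.Ad g⁻¹ v) ≤ Real.exp (C * R) * M.nm v := by
  obtain ⟨Cτ, hCτ, hτ⟩ := M.l_τ
  have hC := M.C0_pos
  refine ⟨M.C0 + M.C0 * Cτ + 1, by nlinarith [mul_nonneg hC.le (zero_le_one.trans hCτ)],
    fun δ hδ hδ1 => ?_⟩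
  filter_upwards [eventually_ge_atTop (0 : ℝ),
    ev_const (M.C0 * 2 ^ M.C0 * Real.exp (M.C0 * Cτ)) one_pos] with R hR h1
  rintro g ⟨y, hy, hyn, w, hw, rfl⟩ v
  have e0 : 1 ≤ Real.exp R := Real.one_le_exp hR
  have hyn' : M.nm y ≤ Real.exp R := hyn.trans (Real.exp_le_exp.2 (by nlinarith))
  have key : ∀ y' : V, M.nm y' ≤ Real.exp R → ∀ v', M.nm (M.Ad (M.ex y') v') ≤
      M.C0 * 2 ^ M.C0 * Real.exp (M.C0 * R) * M.nm v' := by
    intro y' hy' v'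
    refine (M.Ad_ex_le y' v').trans (mul_le_mul_of_nonneg_right ?_ (M.nm_nonneg _))
    rw [mul_assoc]
    refine mul_le_mul_of_nonneg_left ?_ hC.le
    have n1 := M.nm_nonneg y'
    calc (1 + M.nm y') ^ M.C0 ≤ (2 * Real.exp R) ^ M.C0 :=
          Real.rpow_le_rpow (by positivity) (by linarith) hC.le
      _ = _ := by
        rw [Real.mul_rpow (by norm_num) (by positivity), ← Real.exp_mul]
        ring_nf
  have key2 : ∀ v', M.nm (M.Ad (M.τ w) v') ≤ Real.exp (M.C0 * Cτ * (1 + R)) * M.nm v' := by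
    intro v'
    refine (M.Ad_le _ v').trans (mul_le_mul_of_nonneg_right (Real.exp_le_exp.2 ?_)
      (M.nm_nonneg _))
    rw [mul_assoc]
    exact mul_le_mul_of_nonneg_left (hτ w R hR hw) hC.le
  have key3 : ∀ v', M.nm (M.Ad (M.τ w)⁻¹ v') ≤ Real.exp (M.C0 * Cτ * (1 + R)) * M.nm v' := by
    intro v'
    refine (M.Ad_le _ v').trans (mul_le_mul_of_nonneg_right (Real.exp_le_exp.2 ?_)
      (M.nm_nonneg _))
    rw [mul_assoc, M.len.inv]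
    exact mul_le_mul_of_nonneg_left (hτ w R hR hw) hC.le
  have fin : M.C0 * 2 ^ M.C0 * Real.exp (M.C0 * R) * Real.exp (M.C0 * Cτ * (1 + R)) ≤
      Real.exp ((M.C0 + M.C0 * Cτ + 1) * R) := by
    calc _ = (M.C0 * 2 ^ M.C0 * Real.exp (M.C0 * Cτ)) *
          Real.exp ((M.C0 + M.C0 * Cτ) * R) := by
          rw [show M.C0 * Cτ * (1 + R) = M.C0 * Cτ + M.C0 * Cτ * R by ring, Real.exp_add,
            show (M.C0 + M.C0 * Cτ) * R = M.C0 * R + M.C0 * Cτ * R by ring, Real.exp_add]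
          ring
      _ ≤ Real.exp (1 * R) * Real.exp ((M.C0 + M.C0 * Cτ) * R) := by gcongr
      _ = _ := by rw [← Real.exp_add]; ring_nf
  have hv0 := M.nm_nonneg v
  constructor
  · rw [map_mul, Module.End.mul_apply]
    refine (key y hyn' _).trans ?_
    calc _ ≤ M.C0 * 2 ^ M.C0 * Real.exp (M.C0 * R) *
          (Real.exp (M.C0 * Cτ * (1 + R)) * M.nm v) := by
          refine mul_le_mul_of_nonneg_left (key2 v) (by positivity)
      _ = (M.C0 * 2 ^ M.C0 * Real.exp (M.C0 * R) * Real.exp (M.C0 * Cτ * (1 + R))) * M.nm v := by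
          ring
      _ ≤ _ := mul_le_mul_of_nonneg_right fin hv0
  · rw [mul_inv_rev, map_mul, Module.End.mul_apply, ← M.ex_neg]
    refine (key3 _).trans ?_
    calc _ ≤ Real.exp (M.C0 * Cτ * (1 + R)) *
          (M.C0 * 2 ^ M.C0 * Real.exp (M.C0 * R) * M.nm v) := by
          refine mul_le_mul_of_nonneg_left (key (-y) (by rwa [M.nm_neg]) v) (by positivity)
      _ = (M.C0 * 2 ^ M.C0 * Real.exp (M.C0 * R) * Real.exp (M.C0 * Cτ * (1 + R))) * M.nm v := by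
          ring
      _ ≤ _ := mul_le_mul_of_nonneg_right fin hv0

/-- **Products of fat balls.** -/
theorem fb_mul : ∃ C : ℝ, 1 ≤ C ∧ ∀ δ : ℝ, 0 < δ → δ ≤ 1 → ∀ᶠ R : ℝ in atTop,
    ∀ g ∈ M.FB δ R, ∀ g' ∈ M.FB δ R, g * g' ∈ M.FB (C * δ) (C * R) := by
  obtain ⟨C1, hC1, hP⟩ := M.PB_mul
  obtain ⟨C2, hC2, hA⟩ := M.ev_Ad_PB
  obtain ⟨C3, hC3, hE⟩ := M.ev_mule
  refine ⟨max C1 (C3 * (C2 + 1) + 2), le_max_of_le_left hC1, fun δ hδ hδ1 => ?_⟩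
  set C := max C1 (C3 * (C2 + 1) + 2) with hCdef
  have c1 : C1 ≤ C := le_max_left _ _
  have c2 : C3 * (C2 + 1) + 2 ≤ C := le_max_right _ _
  have hC1' : 1 ≤ C := hC1.trans c1
  filter_upwards [eventually_ge_atTop (0 : ℝ), hP δ hδ, hA δ hδ hδ1,
    hE (C2 + 1) (by positivity)] with R hR h1 h2 h3 g hg g' hg'
  rw [mem_FB] at hg hg' ⊢
  obtain ⟨v, hv, hvn, p, hp, rfl⟩ := hg
  obtain ⟨v', hv', hvn', p', hp', rfl⟩ := hg'
  have h4 := (h2 p hp v').1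
  obtain ⟨u, hu, hue, hun⟩ := h3 v hv _ (M.Ad_mem_e hv' p)
    (hvn.trans (Real.exp_le_exp.2 (by nlinarith))) (h4.trans (by
      rw [show (C2 + 1) * R = C2 * R + R by ring, Real.exp_add]
      exact mul_le_mul_of_nonneg_left hvn' (Real.exp_pos _).le))
  refine ⟨u, hu, hun.trans (Real.exp_le_exp.2 ?_), p * p', ?_, ?_⟩
  · have : C3 * (C2 + 1) ≤ C := by linarith
    exact mul_le_mul_of_nonneg_right this hR
  · refine M.PB_mono (Real.exp_le_exp.2 ?_) ?_ (h1 p hp p' hp')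
    · have e1 : C1 * δ * R ≤ C * δ * R := by gcongr
      have e2 : 0 ≤ C * δ * R := by positivity
      nlinarith
    · have : (2 : ℝ) ≤ C := by nlinarith
      exact mul_le_mul_of_nonneg_right this hR
  · rw [hue, M.ex_Ad]; group

/-- **Inverses.** -/
theorem fb_inv : ∃ C : ℝ, 1 ≤ C ∧ ∀ δ : ℝ, 0 < δ → δ ≤ 1 → ∀ᶠ R : ℝ in atTop,
    ∀ g ∈ M.FB δ R, g⁻¹ ∈ M.FB (C * δ) (C * R) := by
  obtain ⟨C1, hC1, hP⟩ := M.PB_inv
  obtain ⟨C2, hC2, hA⟩ := M.ev_Ad_PB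
  refine ⟨max C1 (C2 + 1), le_max_of_le_left hC1, fun δ hδ hδ1 => ?_⟩
  set C := max C1 (C2 + 1) with hCdef
  have c1 : C1 ≤ C := le_max_left _ _
  have c2 : C2 + 1 ≤ C := le_max_right _ _
  have hC1' : 1 ≤ C := hC1.trans c1
  filter_upwards [eventually_ge_atTop (0 : ℝ), hP δ hδ, hA δ hδ hδ1] with R hR h1 h2 g hg
  rw [mem_FB] at hg ⊢
  obtain ⟨v, hv, hvn, p, hp, rfl⟩ := hg
  refine ⟨M.Ad p⁻¹ (-v), M.Ad_mem_e (neg_mem hv) _, ?_, p⁻¹, ?_, ?_⟩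
  · refine ((h2 p hp (-v)).2).trans ?_
    rw [M.nm_neg]
    calc Real.exp (C2 * R) * M.nm v ≤ Real.exp (C2 * R) * Real.exp R := by gcongr
      _ = Real.exp ((C2 + 1) * R) := by rw [← Real.exp_add]; ring_nf
      _ ≤ _ := Real.exp_le_exp.2 (mul_le_mul_of_nonneg_right c2 hR)
  · refine M.PB_mono (Real.exp_le_exp.2 ?_) ?_ (h1 p hp)
    · have e1 : C1 * δ * R ≤ C * δ * R := by gcongr
      have e2 : 0 ≤ C * δ * R := by positivity
      nlinarith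
    · nlinarith
  · rw [M.ex_Ad, M.ex_neg]; group

/-- **Balls are contained in fat balls.** -/
theorem fb_of_len : ∃ C : ℝ, 1 ≤ C ∧ ∀ δ : ℝ, 0 < δ → ∀ᶠ R : ℝ in atTop,
    ∀ g, (M.l g : ℝ) ≤ R → g ∈ M.FB δ (C * R) := by
  obtain ⟨C1, hC1, hl⟩ := M.l_CB
  have hC := M.C0_pos
  -- `n ≤ C0 R + 1`, `l c ≤ C1 (C0 R + 1)`, `l (ex v) ≤ R + C1 (C0 R + 1)`
  set A : ℝ := M.C0 * (2 + C1 * (M.C0 + 1)) + C1 * M.C0 * (M.C0 + 1) + 1 with hA
  have hA1 : 1 ≤ A := by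
    rw [hA]
    have : 0 ≤ M.C0 * (2 + C1 * (M.C0 + 1)) + C1 * M.C0 * (M.C0 + 1) := by positivity
    linarith
  refine ⟨A, hA1, fun δ hδ => ?_⟩
  filter_upwards [eventually_ge_atTop (1 : ℝ),
    ev_poly (M.C0 * (M.C0 + 1 + (M.C0 * (1 + A) + 1)) ^ M.deg) M.deg hδ] with R hR h1 g hg
  have hR0 : 0 < R := by linarith
  obtain ⟨v, hv, c, hc, rfl⟩ := M.dec g
  obtain ⟨n, hn⟩ : ∃ n : ℕ, n = ⌈M.C0 * (M.l (M.ex v * c) : ℝ)⌉₊ := ⟨_, rfl⟩
  rw [← hn] at hc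
  have hnR : (n : ℝ) ≤ (M.C0 + 1) * R := by
    rw [hn]
    have e1 := (Nat.ceil_lt_add_one (show 0 ≤ M.C0 * (M.l (M.ex v * c) : ℝ) by positivity)).le
    have e2 : M.C0 * (M.l (M.ex v * c) : ℝ) ≤ M.C0 * R := mul_le_mul_of_nonneg_left hg hC.le
    nlinarith
  have hlc : (M.l c : ℝ) ≤ C1 * ((M.C0 + 1) * R) := (hl n c hc).trans
    (mul_le_mul_of_nonneg_left hnR (by linarith))
  have hlv : (M.l (M.ex v) : ℝ) ≤ R + C1 * ((M.C0 + 1) * R) := by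
    have h2 : M.l (M.ex v * c * c⁻¹) ≤ M.l (M.ex v * c) + M.l c⁻¹ := M.len.mul _ _
    rw [mul_inv_cancel_right, M.len.inv] at h2
    have h3 : (M.l (M.ex v) : ℝ) ≤ M.l (M.ex v * c) + M.l c := by exact_mod_cast h2
    linarith
  have hvn : M.nm v ≤ Real.exp (A * R) := by
    refine (M.met_lo v).trans (Real.exp_le_exp.2 ?_)
    rw [hA]
    have h2 : M.C0 * (1 + (M.l (M.ex v) : ℝ)) ≤ M.C0 * (R + (R + C1 * ((M.C0 + 1) * R))) := by
      refine mul_le_mul_of_nonneg_left ?_ hC.le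
      linarith
    have h3 : 0 ≤ C1 * M.C0 * (M.C0 + 1) * R := by positivity
    nlinarith
  -- heights
  obtain ⟨w, hw⟩ : ∃ w : Fin k → ℤ, w = Multiplicative.toAdd (M.η c) := ⟨_, rfl⟩
  have hwc : M.η (M.τ w) = M.η c := by rw [M.η_τ, hw, ofAdd_toAdd]
  have hwR : ∀ i, |(w i : ℝ)| ≤ A * R := by
    intro i
    have h2 : ‖M.θ c‖ ≤ M.C0 * (C1 * ((M.C0 + 1) * R)) :=
      (M.θ_le c).trans (mul_le_mul_of_nonneg_left hlc hC.le)
    have h3 : |(w i : ℝ)| ≤ ‖M.θ c‖ := by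
      have : M.θ c i = (w i : ℝ) := by rw [hw]; rfl
      rw [← this]
      exact norm_le_pi_norm (M.θ c) i
    refine h3.trans (h2.trans ?_)
    rw [hA]
    have h4 : 0 ≤ M.C0 * (2 + C1 * (M.C0 + 1)) * R := by positivity
    nlinarith
  have hAR : 0 ≤ A * R := by positivity
  obtain ⟨y, hy, hye, hyn⟩ := M.C_ker _ _ (M.CB_mul hc (M.CB_inv (M.τ_mem_CB hAR hwR))) (by
    rw [map_mul, map_inv, hwc, mul_inv_cancel])
  refine ⟨v, hv, hvn, y, hy, ?_, w, hwR, ?_⟩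
  · refine hyn.trans (le_trans ?_ (h1.trans (Real.exp_le_exp.2 ?_)))
    · rw [mul_assoc, ← mul_pow]
      refine mul_le_mul_of_nonneg_left ?_ hC.le
      refine pow_le_pow_left₀ (by positivity) ?_ _
      have e1 := (Nat.ceil_lt_add_one (show 0 ≤ M.C0 * (1 + A * R) by positivity)).le
      push_cast
      nlinarith [mul_nonneg hC.le (zero_le_one.trans hA1)]
    · have e3 : R ≤ A * R := by nlinarith
      exact mul_le_mul_of_nonneg_left e3 hδ.le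
  · rw [mul_assoc, hye]; group

/-! ### measurability and the Lipschitz property of the height function -/

theorem measurable_of_fl {β : Type*} [MeasurableSpace β] (φ : Γ → β) :
    Measurable fun z => φ (M.fl z) := by
  intro B _
  have : (fun z => φ (M.fl z)) ⁻¹' B = M.cells (φ ⁻¹' B) := rfl
  rw [this]
  exact M.measurableSet_cells _

theorem measurable_f (F : Γ → Γ) : Measurable (M.f F) :=
  M.measurable_of_fl fun g => M.θ (M.inG (F g))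

theorem measurable_θ : Measurable M.θ := by
  have h : ∀ B : Set (Ht k), M.θ ⁻¹' B =
      ⋃ w ∈ {w : Multiplicative (Fin k → ℤ) |
        (fun i => (Multiplicative.toAdd w i : ℝ)) ∈ B}, {x | M.η x = w} := by
    intro B
    ext x
    simp only [mem_preimage, mem_iUnion, mem_setOf_eq, exists_prop, exists_eq_right']
    rfl
  intro B _
  rw [h B]
  have : Countable (Multiplicative (Fin k → ℤ)) := Multiplicative.ofAdd.symm.injective.countable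
  exact MeasurableSet.biUnion (Set.to_countable _) fun w _ => M.η_meas w

theorem QIm.K_nonneg {M : RModel S Γ V k} {K : ℝ} {F F' : Γ → Γ} (h : M.QIm K F F') : 0 ≤ K :=
  (Nat.cast_nonneg _).trans (h.inv 1)

theorem QIm.f_lip {M : RModel S Γ V k} {K : ℝ} {F F' : Γ → Γ} (h : M.QIm K F F') (x s : S) :
    ‖M.f F (x * s) - M.f F x‖ ≤ M.C0 * K * (2 * M.C0 + 1) * (M.l s + 1) := by
  have hC := M.C0_pos
  have hK := h.K_nonneg
  obtain ⟨y, hy⟩ : ∃ y, y = (M.fl x)⁻¹ * M.fl (x * s) := ⟨_, rfl⟩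
  have hy' : M.fl (x * s) = M.fl x * y := by rw [hy]; group
  have h1 := h.lip (M.fl x) y
  have h2 : (M.l (M.inG y) : ℝ) ≤ M.l s + 2 * M.C0 := by
    have t1 := M.fl_close x
    have t2 := M.fl_close (x * s)
    have t3 := M.l_triR (M.inG (M.fl x)) x (M.inG (M.fl (x * s)))
    have t4 := M.l_triR x (x * s) (M.inG (M.fl (x * s)))
    rw [M.l_comm (x * s), inv_mul_cancel_left] at t4
    rw [hy, map_mul, map_inv]
    linarith
  have h3 : M.f F (x * s) - M.f F x = M.θ (M.inG ((F (M.fl x))⁻¹ * F (M.fl x * y))) := by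
    rw [map_mul, map_inv, M.θ_inv_mul, ← hy']; rfl
  rw [h3]
  refine (M.θ_le _).trans ?_
  calc M.C0 * (M.l (M.inG ((F (M.fl x))⁻¹ * F (M.fl x * y))) : ℝ)
      ≤ M.C0 * (K * (M.l (M.inG y) + 1)) := by gcongr
    _ ≤ M.C0 * (K * (M.l s + 2 * M.C0 + 1)) := by gcongr
    _ ≤ M.C0 * (K * ((2 * M.C0 + 1) * (M.l s + 1))) := by
        gcongr
        have : (0 : ℝ) ≤ M.l s := Nat.cast_nonneg _
        nlinarith
    _ = _ := by ring

/-! ### almost invariant sets -/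

variable {M}

theorem Fat.mono {R R' κ κ' : ℝ} {D Dp : Set S} (h : M.Fat R κ D Dp) (hR : R' ≤ R) (hκ : κ ≤ κ') :
    M.Fat R' κ' D Dp :=
  ⟨h.meas, h.meas', h.pos, h.fin, fun z hz g hg => h.sub z hz g (hg.trans hR),
    h.le.trans (by gcongr)⟩

theorem FFat.mono {δ δ' R R' κ κ' : ℝ} {D Dp : Set S} (h : M.FFat δ R κ D Dp) (hR : R' ≤ R)
    (hδ : δ' * R' ≤ δ * R) (hκ : κ ≤ κ') : M.FFat δ' R' κ' D Dp :=
  { h.toFat.mono hR hκ with
    subf := fun z hz g hg => h.subf z hz g (M.FB_mono hR hδ hg) }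

theorem Fat.sdiff_le {R κ : ℝ} {D Dp : Set S} (h : M.Fat R κ D Dp) (hR : 0 ≤ R) (hκ : 0 ≤ κ) :
    M.μ (Dp \ D) ≤ ENNReal.ofReal κ * M.μ D := by
  have hDDp : D ⊆ Dp := by
    intro z hz
    have := h.sub z hz 1 (by rw [M.len.one]; simpa using hR)
    rwa [mul_one] at this
  rw [measure_sdiff hDDp h.meas.nullMeasurableSet h.fin]
  refine tsub_le_iff_right.2 (h.le.trans ?_)
  rw [ENNReal.ofReal_add zero_le_one hκ, ENNReal.ofReal_one, add_mul, one_mul, add_comm]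

/-- almost invariance under a right translation -/
theorem fol_of_sub {R κ : ℝ} {D Dp : Set S} (h : M.Fat R κ D Dp) (hR : 0 ≤ R) (hκ : 0 ≤ κ)
    {w : S} (hw : ∀ z ∈ D, z * w ∈ Dp) :
    M.μ {x | x ∈ D ∧ x * w ∉ D} ≤ ENNReal.ofReal κ * M.μ D := by
  haveI := M.mm
  refine le_trans ?_ (h.sdiff_le hR hκ)
  rw [← (M.mp w).measure_preimage (h.meas'.diff h.meas).nullMeasurableSet]
  exact measure_mono fun x hx => ⟨hw x hx.1, hx.2⟩

theorem Fat.fol {R κ : ℝ} {D Dp : Set S} (h : M.Fat R κ D Dp) (hR : 0 ≤ R) (hκ : 0 ≤ κ)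
    {w : S} (hw : (M.l w : ℝ) ≤ R) :
    M.μ {x | x ∈ D ∧ x * w ∉ D} ≤ ENNReal.ofReal κ * M.μ D :=
  fol_of_sub h hR hκ fun z hz => h.sub z hz w hw

theorem FFat.folf {δ R κ : ℝ} {D Dp : Set S} (h : M.FFat δ R κ D Dp) (hR : 0 ≤ R) (hκ : 0 ≤ κ)
    {w : S} (hw : w ∈ M.FB δ R) :
    M.μ {x | x ∈ D ∧ x * w ∉ D} ≤ ENNReal.ofReal κ * M.μ D :=
  fol_of_sub h.toFat hR hκ fun z hz => h.subf z hz w hw

end RModel

end Vale.Agent.P188.Z1
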