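import Vale.Agent.P188.Z1.Flat

/-!
# P188, Z1, block STRAIGHT

The statement `RModel.STRAIGHT` (of 616); the proof is in `Z1/LineA.lean` ..
-/

set_option linter.all false

open MeasureTheory Set

namespace Vale.Agent.P188.Z1

namespace RModel

variable {S : Type} [Group S] [MeasurableSpace S] {Γ : Type} [Group Γ]
  {V : Type} [AddCommGroup V] [Module ℝ V] {k : ℕ} (M : RModel S Γ V k)

/-- the points of `D` at distance `r` from the complement -/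
def In (r : ℝ) (D : Set S) : Set S := {x | ∀ g, (M.l g : ℝ) ≤ r → x * g ∈ D}

/-- **STRAIGHT** (owner 654; from COH, PEAK, NFp): `σ` is a measurable family of good labels, constant
on most of the points connected by Cartan paths of length `≤ A s` or by class-dependent fat neutral
moves (size `e ^ (d s)`, `d` does not depend on `δ`), and `f` is affine along them, up to `ε s`. A
common scale for a finite family. The positions stay at distance `κ₁ s` from the boundary of `D`. -/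
def STRAIGHT : Prop := ∀ (p : ℕ) (K : ℝ) (Φ₁ : Finset (Ht k →L[ℝ] ℝ)), M.Rays Φ₁ →
  ∀ V₁ : Finset (Fin k → ℤ), M.Dirs Φ₁ V₁ → ∃ (c₀ L : ℝ), 0 < c₀ ∧
  ∀ (A B : ℕ) (ε κ₁ : ℝ), 0 < ε → 0 < κ₁ → ∃ (d κ₂ : ℝ), 0 < d ∧ 0 < κ₂ ∧
  ∀ κ₃ δ : ℝ, 0 < κ₃ → 0 < δ → ∃ (lam s₀ : ℝ), 0 < lam ∧
  ∃ T : ℕ → (V₁ → Set (Ht k →L[ℝ] ℝ)) → (Ht k →L[ℝ] Ht k),
  ∀ s : ℝ, s₀ ≤ s → ∀ (F F' : Fin p → Γ → Γ) (D Dp : Fin p → Set S),
  (∀ α, M.QIm K (F α) (F' α)) → (∀ α, M.FFat δ (κ₃ * s) κ₂ (D α) (Dp α)) →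
  ∃ ρ : ℕ, lam * s ≤ ρ ∧ (ρ : ℝ) ≤ s ∧ ∀ α, ∃ σ : S → V₁ → Set (Ht k →L[ℝ] ℝ),
    (∀ a, MeasurableSet {z | σ z = a}) ∧ (∀ z, GoodLab Φ₁ V₁ c₀ L (T ρ (σ z)) (σ z)) ∧
    (∀ n : ℕ, (n : ℝ) ≤ A * s → ∀ q : ℕ → S, q 0 = 1 → (∀ i < n, (q i)⁻¹ * q (i + 1) ∈ M.CB B) →
      ∀ Din : Set S, (∀ z ∈ Din, ∀ i ≤ n, z * q i ∈ M.In (κ₁ * s) (D α)) →
      M.μ {z | z ∈ Din ∧ (σ (z * q n) ≠ σ z ∨
        ∃ i ≤ n, ε * s < ‖M.f (F α) (z * q i) - M.f (F α) z - T ρ (σ z) (M.θ (q i))‖)} ≤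
        ENNReal.ofReal ε * M.μ (D α)) ∧
    (∀ y : Multiplicative (Fin k → ℤ) → V, (∀ w, y w ∈ M.Vw 0 ∧ M.nm (y w) ≤ Real.exp (d * s)) →
      ∀ Din : Set S, (∀ z ∈ Din, ‖M.θ z‖ ≤ A * s ∧
        ∀ x : ℝ, 0 ≤ x → x ≤ 1 → z * M.ex (x • y (M.η z)) ∈ M.In (κ₁ * s) (D α)) →
      M.μ {z | z ∈ Din ∧ (σ (z * M.ex (y (M.η z))) ≠ σ z ∨
        ε * s < ‖M.f (F α) (z * M.ex (y (M.η z))) - M.f (F α) z‖)} ≤
        ENNReal.ofReal ε * M.μ (D α))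

end RModel

end Vale.Agent.P188.Z1
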