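import Vale.Agent.P188.Z1.Flat

/-!
# P188, Z1, block LAB: statement of the output
-/

set_option linter.all false

open MeasureTheory Set

namespace Vale.Agent.P188.Z1

namespace RModel

variable {S : Type} [Group S] [MeasurableSpace S] {Γ : Type} [Group Γ]
  {V : Type} [AddCommGroup V] [Module ℝ V] {k : ℕ} (M : RModel S Γ V k)

/-- **Output of LAB** (FLATG + labels): for the maps of the family `𝓕` all slices of the natural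
boxes, at EVERY location `Y : S`, are flat with linear part `1`. -/
def FLAT1 (B : M.NatBox) (𝓕 : Set (Γ → Γ)) : Prop := ∀ c₂ : ℝ, 0 < c₂ → ∃ c₁ : ℝ, 0 < c₁ ∧
  ∀ ε κ A : ℝ, 0 < ε → 0 < κ → κ < 1 → ∃ dm : ℝ, 0 < dm ∧ ∀ d₁ : ℝ, 0 < d₁ → d₁ ≤ dm →
  ∃ s₀ : ℝ, ∀ s : ℝ, s₀ ≤ s → ∀ h : (Ht k →L[ℝ] ℝ) → ℝ, M.HGood c₂ h →
  ∀ F ∈ 𝓕, ∀ Y : S, ∃ c : Ht k,
    (∀ x : S, (M.l x : ℝ) ≤ c₁ * s →
      M.μ {v | v ∈ B.Bx (M.szh h d₁ s) ∧ ε * s < ‖M.f F (Y * (v * x)) - c - M.θ x‖} ≤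
        ENNReal.ofReal ε * M.μ (B.Bx (M.szh h d₁ s))) ∧
    (∀ n : ℕ, (n : ℝ) ≤ A * s → ∀ x ∈ M.CB n, (∀ b ∈ M.Φ, b (M.θ x) ≤ (1 - κ) * s * h b) →
      M.μ {v | v ∈ B.Bx (M.szh h d₁ s) ∧ ε * s < ‖M.f F (Y * (v * x)) - c - M.θ x‖} ≤
        ENNReal.ofReal ε * M.μ (B.Bx (M.szh h d₁ s)))

/-- A family of quasi-isometries of `Γ` indexed by a group `H`, multiplicative up to bounded
errors. -/
structure Fam (K : ℝ) {H : Type} [Group H] (Ps : H → Γ → Γ) : Prop where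
  qi : ∀ h, M.QIm K (Ps h) (Ps h⁻¹)
  mul : ∀ h h' g, (M.l (M.inG ((Ps (h * h') g)⁻¹ * Ps h (Ps h' g))) : ℝ) ≤ K
  one : ∀ g, (M.l (M.inG (g⁻¹ * Ps 1 g)) : ℝ) ≤ K

/-- **LAB** (owner 671): on a subgroup of finite index (contained in all subgroups of index `≤ N`)
the linear part is `1`. -/
def LAB (B : M.NatBox) : Prop := ∃ N : ℕ, ∀ (K : ℝ) (H : Type) [Group H] (Ps : H → Γ → Γ),
  M.Fam K Ps → ∀ H₀ : Subgroup H, (∀ H₁ : Subgroup H, H₁.index ≠ 0 → H₁.index ≤ N → H₀ ≤ H₁) →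
  M.FLAT1 B {F | ∃ h ∈ H₀, F = Ps h}

end RModel

end Vale.Agent.P188.Z1
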