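import Vale.Agent.P188.Z1.RModel

/-!
# P188, Z1: RAY and PEAK from GCL
-/

set_option linter.all false

open MeasureTheory Set Filter
open Agent.P188.H428 (IsLen)
open Vale.Agent.P188.H530 (hgt hgt_mul)

namespace Vale.Agent.P188.Z1

namespace RModel

variable {S : Type} [Group S] [MeasurableSpace S] {Γ : Type} [Group Γ]
  {V : Type} [AddCommGroup V] [Module ℝ V] {k : ℕ} (M : RModel S Γ V k)

private lemma rp_CB_one (n : ℕ) : (1 : S) ∈ M.CB n :=
  ⟨[], by simp, by simp, by simp⟩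

private lemma rp_CB_mul {m n : ℕ} {x y : S} (hx : x ∈ M.CB m) (hy : y ∈ M.CB n) :
    x * y ∈ M.CB (m + n) := by
  obtain ⟨L, h1, h2, h3⟩ := hx
  obtain ⟨L', h1', h2', h3'⟩ := hy
  refine ⟨L ++ L', by rw [List.length_append]; omega, by rw [List.prod_append, h2, h2'], ?_⟩
  intro a ha
  rcases List.mem_append.1 ha with h | h
  · exact h3 a h
  · exact h3' a h

private lemma rp_ex_neg (v : V) : M.ex (-v) = (M.ex v)⁻¹ := by
  have h := M.ex_add (-1) 1 v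
  rw [neg_add_cancel, zero_smul, M.ex_zero, one_smul, neg_one_smul] at h
  exact eq_inv_of_mul_eq_one_left h.symm

private lemma rp_CB_inv {n : ℕ} {x : S} (hx : x ∈ M.CB n) : x⁻¹ ∈ M.CB n := by
  obtain ⟨L, h1, h2, h3⟩ := hx
  refine ⟨(L.map fun a => a⁻¹).reverse, by simpa using h1, ?_, ?_⟩
  · rw [← h2, List.prod_inv_reverse]
  · intro a ha
    rw [List.mem_reverse, List.mem_map] at ha
    obtain ⟨b, hb, rfl⟩ := ha
    rcases h3 b hb with ⟨v, hv, hv1, rfl⟩ | ⟨w, hw, hw1⟩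
    · exact Or.inl ⟨-v, (M.Vw 0).neg_mem hv, by rw [map_neg_eq_map]; exact hv1, rp_ex_neg M v⟩
    · refine Or.inr ⟨w, hw, ?_⟩
      rcases hw1 with rfl | rfl
      · exact Or.inr rfl
      · left; rw [inv_inv]

private lemma rp_CB_pow {N : ℕ} {x : S} (hx : x ∈ M.CB N) (n : ℕ) : x ^ n ∈ M.CB (n * N) := by
  induction n with
  | zero => simpa using rp_CB_one M 0
  | succ n ih =>
    rw [pow_succ, Nat.succ_mul]
    exact rp_CB_mul M ih hx

private lemma rp_θ_mul (x y : S) : M.θ (x * y) = M.θ x + M.θ y := hgt_mul M.η x y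

private lemma rp_θ_one : M.θ 1 = 0 := by
  have := rp_θ_mul M 1 1
  rw [mul_one] at this
  simpa using this.symm

private lemma rp_θ_inv (x : S) : M.θ x⁻¹ = - M.θ x := by
  have := rp_θ_mul M x⁻¹ x
  rw [inv_mul_cancel, rp_θ_one] at this
  exact eq_neg_of_add_eq_zero_left this.symm

private lemma rp_θ_pow (x : S) (n : ℕ) : M.θ (x ^ n) = (n : ℝ) • M.θ x := by
  induction n with
  | zero => simp [rp_θ_one]
  | succ n ih => rw [pow_succ, rp_θ_mul, ih]; push_cast; rw [add_smul, one_smul]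

private lemma rp_poly_exp (a c : ℝ) (hc : 0 < c) (N d : ℕ) :
    ∀ᶠ r : ℝ in atTop, a * (1 + r * N) ^ d ≤ Real.exp (c * r) := by
  have h1 := (isLittleO_pow_exp_pos_mul_atTop d hc).bound
    (c := 1 / ((|a| + 1) * (1 + N) ^ d)) (by positivity)
  filter_upwards [h1, eventually_ge_atTop (1 : ℝ)] with r hr hr1
  have h2 : 1 + r * N ≤ (1 + N) * r := by nlinarith [(Nat.cast_nonneg N : (0 : ℝ) ≤ N)]
  have h3 : (1 + r * N) ^ d ≤ (1 + N) ^ d * r ^ d := by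
    rw [← mul_pow]
    exact pow_le_pow_left₀ (by positivity) h2 d
  rw [Real.norm_eq_abs, abs_of_nonneg (by positivity : 0 ≤ r ^ d), Real.norm_eq_abs,
    abs_of_pos (Real.exp_pos _), div_mul_eq_mul_div, one_mul, le_div_iff₀ (by positivity)] at hr
  calc a * (1 + r * N) ^ d ≤ (|a| + 1) * (1 + r * N) ^ d :=
        mul_le_mul_of_nonneg_right ((le_abs_self a).trans (by linarith)) (by positivity)
    _ ≤ (|a| + 1) * ((1 + N) ^ d * r ^ d) := mul_le_mul_of_nonneg_left h3 (by positivity)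
    _ = r ^ d * ((|a| + 1) * (1 + N) ^ d) := by ring
    _ ≤ Real.exp (c * r) := hr

/-- GCL for the paths given by the powers of elements of the Cartan group. -/
theorem gcl_path (hG : M.GCL) (K A c : ℝ) (N : ℕ) (hc : 0 < c) :
    ∃ (η c₀ CR r₀ : ℝ), 0 < η ∧ 0 < c₀ ∧ ∀ r : ℝ, r₀ ≤ r →
    ∀ F F' : Γ → Γ, M.QIm K F F' → ∀ b ∈ M.Φ, ∀ D Dp : Set S, M.Fat (CR * r) 1 D Dp →
    ∀ t : M.ι → S, (∀ i, (M.l (t i) : ℝ) ≤ A) →
      (∀ i, M.wt i ≠ 0 → t i ∈ M.CB N ∧ c ≤ M.wt i (M.θ (t i))) →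
      M.μ (D ∩ {x | ∀ i, M.wt i ≠ 0 → ∀ n : ℕ, (n : ℝ) ≤ r →
        b (M.f F (x * t i ^ n)) ≤ b (M.f F x) + η * r}) ≤
        ENNReal.ofReal (Real.exp (-(c₀ * r))) * M.μ D := by
  obtain ⟨η, c₀, CR, r₀, hη, hc₀, H⟩ := hG K |A| (c / 2) (by positivity)
  have ev1 : ∀ᶠ r : ℝ in atTop, (1 : ℝ) * (1 + r * 1) ^ 1 ≤ Real.exp (η * r) := by
    simpa using rp_poly_exp 1 η hη 1 1
  have ev2 := rp_poly_exp (M.C0 * Real.exp c) (c / 2) (by positivity) N M.deg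
  obtain ⟨r₁, hr₁⟩ := ((ev1.and ev2).and (eventually_ge_atTop (1 : ℝ))).exists_forall_of_atTop
  refine ⟨η, c₀, CR, max r₀ r₁, hη, hc₀, fun r hr F F' hF b hb D Dp hD t hA ht => ?_⟩
  obtain ⟨⟨h1, h2⟩, h3⟩ := hr₁ r ((le_max_right _ _).trans hr)
  set m : ℕ := ⌊r⌋₊ with hm
  have hmr : (m : ℝ) ≤ r := Nat.floor_le (by linarith)
  have hmr' : r - 1 ≤ m := by
    have := Nat.lt_floor_add_one r
    linarith
  classical
  set γ : M.ι → ℕ → S := fun i n => if M.wt i = 0 then 1 else t i ^ n with hγ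
  have hA0 : ∀ i, (M.l (t i) : ℝ) ≤ |A| := fun i => (hA i).trans (le_abs_self A)
  refine le_trans (measure_mono ?_) (H r ((le_max_left _ _).trans hr) F F' hF b hb D Dp hD γ m
    ?_ ?_ ?_ ?_ ?_)
  · rintro x ⟨hxD, hx⟩
    refine ⟨hxD, fun i n hn => ?_⟩
    show b (M.f F (x * γ i n)) ≤ b (M.f F x) + η * r
    by_cases hi : M.wt i = 0
    · rw [hγ]
      simp only [if_pos hi, mul_one]
      have : 0 ≤ η * r := by positivity
      linarith
    · rw [hγ]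
      simp only [if_neg hi]
      exact hx i hi n (by
        have : (n : ℝ) ≤ m := by exact_mod_cast hn
        linarith)
  · have : (m : ℝ) ≤ (1 : ℝ) * (1 + r * 1) ^ 1 := by linarith
    exact this.trans h1
  · intro i
    rw [hγ]
    simp
  · intro i n _
    rw [hγ]
    by_cases hi : M.wt i = 0
    · simp only [if_pos hi, inv_one, mul_one, M.len.one, Nat.cast_zero]
      exact abs_nonneg A
    · simp only [if_neg hi]
      rw [pow_succ, inv_mul_cancel_left]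
      exact hA0 i
  · intro i hi n
    rw [hγ]
    simp only [if_pos hi]
  · intro i hi
    rw [hγ]
    simp only [if_neg hi]
    obtain ⟨htC, htc⟩ := ht i hi
    have hmem : (t i ^ m)⁻¹ ∈ M.CB (m * N) := rp_CB_inv M (rp_CB_pow M htC m)
    have hwt : M.wt i ∈ M.Wt := by
      rcases M.wt_mem i with h | h
      · exact M.Φ_sub h
      · exact absurd h hi
    have h4 := M.C_le (m * N) _ hmem (M.wt i) hwt (M.X i) (M.X_mem i)
    have h5 : hgt M.η (t i ^ m)⁻¹ = -((m : ℝ) • M.θ (t i)) := by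
      show M.θ _ = _
      rw [rp_θ_inv, rp_θ_pow]
    rw [h5, map_neg, map_smul, smul_eq_mul] at h4
    refine h4.trans ?_
    have hC0 : 0 < M.C0 := lt_of_lt_of_le one_pos M.one_le_C0
    have h6 : ((m * N : ℕ) : ℝ) ≤ r * N := by
      push_cast
      exact mul_le_mul_of_nonneg_right hmr (Nat.cast_nonneg _)
    have h7 : -((m : ℝ) * M.wt i (M.θ (t i))) ≤ c - c * r := by
      have h8 : (m : ℝ) * c ≤ m * M.wt i (M.θ (t i)) :=
        mul_le_mul_of_nonneg_left htc (Nat.cast_nonneg _)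
      nlinarith
    calc M.C0 * (1 + ((m * N : ℕ) : ℝ)) ^ M.deg *
          Real.exp (-((m : ℝ) * M.wt i (M.θ (t i)))) * M.nm (M.X i)
        ≤ M.C0 * (1 + r * N) ^ M.deg * Real.exp (c - c * r) * 1 := by
          refine mul_le_mul (mul_le_mul (mul_le_mul_of_nonneg_left
            (pow_le_pow_left₀ (by positivity) (by linarith) _) hC0.le)
            (Real.exp_le_exp.2 h7) (Real.exp_pos _).le (by positivity)) (M.X_le i)
            (apply_nonneg M.nm _) (by positivity)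
      _ = (M.C0 * Real.exp c * (1 + r * N) ^ M.deg) * Real.exp (-(c * r)) := by
          rw [sub_eq_add_neg, Real.exp_add]; ring
      _ ≤ Real.exp (c / 2 * r) * Real.exp (-(c * r)) :=
          mul_le_mul_of_nonneg_right h2 (Real.exp_pos _).le
      _ = Real.exp (-(c / 2 * r)) := by
          rw [← Real.exp_add]; congr 1; ring

private lemma rp_θ_τ (v : Fin k → ℤ) : M.θ (M.τ v) = ht v := by
  funext i
  show ((Multiplicative.toAdd (M.η (M.τ v)) i : ℤ) : ℝ) = _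
  rw [M.η_τ]
  rfl

/-- **Choice of rays.** -/
theorem ray_of_gcl (hG : M.GCL) : M.RAY := by
  classical
  intro K V₀ hV₀
  -- constants
  obtain ⟨A, hA⟩ : ∃ A : ℝ, ∀ v ∈ V₀, (M.l (M.τ v) : ℝ) ≤ A :=
    ⟨∑ v ∈ V₀, (M.l (M.τ v) : ℝ), fun v hv => Finset.single_le_sum
      (f := fun v => (M.l (M.τ v) : ℝ)) (fun _ _ => Nat.cast_nonneg _) hv⟩
  obtain ⟨N, hN⟩ : ∃ N : ℕ, ∀ v ∈ V₀, M.τ v ∈ M.CB N := by
    refine ⟨∑ v ∈ V₀, ⌈M.C0 * (1 + ‖(fun i => (v i : ℝ))‖)⌉₊, fun v hv => ?_⟩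
    obtain ⟨L, h1, h2, h3⟩ := M.τ_CB v
    refine ⟨L, h1.trans ?_, h2, h3⟩
    exact Finset.single_le_sum (f := fun v : Fin k → ℤ => ⌈M.C0 * (1 + ‖(fun i => (v i : ℝ))‖)⌉₊)
      (fun _ _ => Nat.zero_le _) hv
  obtain ⟨c, hc, hc'⟩ : ∃ c : ℝ, 0 < c ∧ ∀ b ∈ M.Φ, ∀ v ∈ V₀, 0 < b (ht v) → c ≤ b (ht v) := by
    set T : Finset ℝ := insert 1 (((M.Φ ×ˢ V₀).filter fun q => 0 < q.1 (ht q.2)).image
      fun q => q.1 (ht q.2)) with hT
    have hTn : T.Nonempty := ⟨1, Finset.mem_insert_self _ _⟩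
    refine ⟨T.min' hTn, ?_, fun b hb v hv h => ?_⟩
    · rw [Finset.lt_min'_iff]
      intro y hy
      rcases Finset.mem_insert.1 hy with rfl | hy
      · exact one_pos
      · obtain ⟨q, hq, rfl⟩ := Finset.mem_image.1 hy
        exact (Finset.mem_filter.1 hq).2
    · apply Finset.min'_le
      refine Finset.mem_insert_of_mem (Finset.mem_image.2 ⟨(b, v), ?_, rfl⟩)
      exact Finset.mem_filter.2 ⟨Finset.mem_product.2 ⟨hb, hv⟩, h⟩
  obtain ⟨η, c₀, CR, r₀, hη, hc₀, H⟩ := gcl_path M hG K A c N hc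
  -- choice functions
  set G : Finset (M.Φ → V₀) := Finset.univ.filter fun g => ∀ b : M.Φ, 0 < b.1 (ht (g b).1) with hGG
  set r₁ : ℝ := G.card * 2 / c₀ with hr₁
  refine ⟨η, c₀ / 2, CR, max r₀ (max r₁ 0), hη, by positivity, fun r hr F F' hF b hb D Dp hD => ?_⟩
  have hr0 : 0 ≤ r := ((le_max_right _ _).trans (le_max_right _ _)).trans hr
  have hrr : r₁ ≤ r := ((le_max_left _ _).trans (le_max_right _ _)).trans hr
  have hcard : (G.card : ℝ) ≤ Real.exp (c₀ / 2 * r) := by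
    rw [hr₁, div_le_iff₀ hc₀] at hrr
    have := Real.add_one_le_exp (c₀ / 2 * r)
    linarith
  -- the letters
  have hsub : {x | x ∈ D ∧ ∀ b' ∈ M.Φ, ∃ v ∈ V₀, 0 < b' (ht v) ∧
        ∀ n : ℕ, (n : ℝ) ≤ r → b (M.f F (x * M.τ v ^ n)) ≤ b (M.f F x) + η * r} ⊆
      ⋃ g ∈ G, (D ∩ {x | ∀ b' : M.Φ, ∀ n : ℕ, (n : ℝ) ≤ r →
        b (M.f F (x * M.τ (g b').1 ^ n)) ≤ b (M.f F x) + η * r}) := by
    rintro x ⟨hxD, hx⟩
    have hx' : ∀ b' : M.Φ, ∃ v : V₀, 0 < b'.1 (ht v.1) ∧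
        ∀ n : ℕ, (n : ℝ) ≤ r → b (M.f F (x * M.τ v.1 ^ n)) ≤ b (M.f F x) + η * r := by
      intro b'
      obtain ⟨v, hv, h1, h2⟩ := hx b'.1 b'.2
      exact ⟨⟨v, hv⟩, h1, h2⟩
    choose g hg1 hg2 using hx'
    rw [Set.mem_iUnion₂]
    exact ⟨g, Finset.mem_filter.2 ⟨Finset.mem_univ _, hg1⟩, hxD, hg2⟩
  have hone : ∀ g ∈ G, M.μ (D ∩ {x | ∀ b' : M.Φ, ∀ n : ℕ, (n : ℝ) ≤ r →
        b (M.f F (x * M.τ (g b').1 ^ n)) ≤ b (M.f F x) + η * r}) ≤
      ENNReal.ofReal (Real.exp (-(c₀ * r))) * M.μ D := by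
    intro g hg
    have hgpos := (Finset.mem_filter.1 hg).2
    have hwt : ∀ i, M.wt i ≠ 0 → M.wt i ∈ M.Φ := fun i hi =>
      (M.wt_mem i).resolve_right hi
    set t : M.ι → S := fun i => if h : M.wt i = 0 then 1 else M.τ (g ⟨M.wt i, hwt i h⟩).1 with ht'
    have hA0 : 0 ≤ A := by
      obtain ⟨b0, hb0⟩ : ∃ b0, b0 ∈ M.Φ := ⟨b, hb⟩
      exact (Nat.cast_nonneg _).trans (hA (g ⟨b0, hb0⟩).1 (g ⟨b0, hb0⟩).2)
    refine le_trans (measure_mono ?_) (H r ((le_max_left _ _).trans hr) F F' hF b hb D Dp hD t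
      ?_ ?_)
    · rintro x ⟨hxD, hx⟩
      refine ⟨hxD, fun i hi n hn => ?_⟩
      rw [ht']
      simp only [dif_neg hi]
      exact hx ⟨M.wt i, hwt i hi⟩ n hn
    · intro i
      rw [ht']
      by_cases hi : M.wt i = 0
      · simp only [dif_pos hi, M.len.one, Nat.cast_zero]
        exact hA0
      · simp only [dif_neg hi]
        exact hA _ (g ⟨M.wt i, hwt i hi⟩).2
    · intro i hi
      rw [ht']
      simp only [dif_neg hi]
      refine ⟨hN _ (g ⟨M.wt i, hwt i hi⟩).2, ?_⟩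
      rw [rp_θ_τ]
      exact hc' _ (hwt i hi) _ (g ⟨M.wt i, hwt i hi⟩).2 (hgpos ⟨M.wt i, hwt i hi⟩)
  calc M.μ {x | x ∈ D ∧ ∀ b' ∈ M.Φ, ∃ v ∈ V₀, 0 < b' (ht v) ∧
        ∀ n : ℕ, (n : ℝ) ≤ r → b (M.f F (x * M.τ v ^ n)) ≤ b (M.f F x) + η * r}
      ≤ M.μ (⋃ g ∈ G, (D ∩ {x | ∀ b' : M.Φ, ∀ n : ℕ, (n : ℝ) ≤ r →
        b (M.f F (x * M.τ (g b').1 ^ n)) ≤ b (M.f F x) + η * r})) := measure_mono hsub
    _ ≤ ∑ g ∈ G, M.μ (D ∩ {x | ∀ b' : M.Φ, ∀ n : ℕ, (n : ℝ) ≤ r →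
        b (M.f F (x * M.τ (g b').1 ^ n)) ≤ b (M.f F x) + η * r}) := measure_biUnion_finset_le _ _
    _ ≤ ∑ g ∈ G, ENNReal.ofReal (Real.exp (-(c₀ * r))) * M.μ D := Finset.sum_le_sum hone
    _ = (G.card : ENNReal) * (ENNReal.ofReal (Real.exp (-(c₀ * r))) * M.μ D) := by
        rw [Finset.sum_const, nsmul_eq_mul]
    _ ≤ ENNReal.ofReal (Real.exp (c₀ / 2 * r)) *
          (ENNReal.ofReal (Real.exp (-(c₀ * r))) * M.μ D) := by
        gcongr
        rw [← ENNReal.ofReal_natCast]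
        exact ENNReal.ofReal_le_ofReal hcard
    _ = ENNReal.ofReal (Real.exp (-(c₀ / 2 * r))) * M.μ D := by
        rw [← mul_assoc, ← ENNReal.ofReal_mul (Real.exp_pos _).le, ← Real.exp_add]
        congr 3
        ring

/-- **Few peaks.** -/
theorem peak_of_gcl (hG : M.GCL) : M.PEAK := by
  classical
  intro K v hv
  obtain ⟨N, hN⟩ : ∃ N : ℕ, M.τ v ∈ M.CB N := ⟨_, M.τ_CB v⟩
  obtain ⟨c, hc, hc'⟩ : ∃ c : ℝ, 0 < c ∧ ∀ b ∈ M.Φ, c ≤ |b (ht v)| := by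
    set T : Finset ℝ := insert 1 (M.Φ.image fun b => |b (ht v)|) with hT
    have hTn : T.Nonempty := ⟨1, Finset.mem_insert_self _ _⟩
    refine ⟨T.min' hTn, ?_, fun b hb => ?_⟩
    · rw [Finset.lt_min'_iff]
      intro y hy
      rcases Finset.mem_insert.1 hy with rfl | hy
      · exact one_pos
      · obtain ⟨b, hb, rfl⟩ := Finset.mem_image.1 hy
        exact abs_pos.2 (hv b (M.Φ_sub hb) (M.Φ_ne b hb))
    · exact Finset.min'_le _ _ (Finset.mem_insert_of_mem (Finset.mem_image_of_mem _ hb))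
  obtain ⟨η, c₀, CR, r₀, hη, hc₀, H⟩ := gcl_path M hG K (M.l (M.τ v)) c N hc
  refine ⟨η, c₀, CR, r₀, hη, hc₀, fun r hr F F' hF b hb D Dp hD => ?_⟩
  set t : M.ι → S := fun i => if 0 < M.wt i (ht v) then M.τ v else (M.τ v)⁻¹ with ht'
  refine le_trans (measure_mono ?_) (H r hr F F' hF b hb D Dp hD t ?_ ?_)
  · rintro x ⟨hxD, hx⟩
    refine ⟨hxD, fun i hi n hn => ?_⟩
    rw [ht']
    by_cases h : 0 < M.wt i (ht v)
    · simp only [if_pos h]
      have := hx (n : ℤ) (by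
        rw [abs_of_nonneg (by positivity)]
        exact_mod_cast hn)
      rwa [zpow_natCast] at this
    · simp only [if_neg h]
      have := hx (-(n : ℤ)) (by
        push_cast
        rw [abs_neg, abs_of_nonneg (Nat.cast_nonneg _)]
        exact hn)
      rwa [zpow_neg, zpow_natCast, ← inv_pow] at this
  · intro i
    rw [ht']
    by_cases h : 0 < M.wt i (ht v)
    · simp only [if_pos h]; exact le_rfl
    · simp only [if_neg h]; rw [M.len.inv]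
  · intro i hi
    have hΦ : M.wt i ∈ M.Φ := (M.wt_mem i).resolve_right hi
    have h1 := hc' _ hΦ
    rw [ht']
    by_cases h : 0 < M.wt i (ht v)
    · simp only [if_pos h]
      rw [abs_of_pos h] at h1
      exact ⟨hN, by rw [rp_θ_τ]; exact h1⟩
    · simp only [if_neg h]
      rw [abs_of_nonpos (not_lt.1 h)] at h1
      exact ⟨rp_CB_inv M hN, by rw [rp_θ_inv, rp_θ_τ, map_neg]; exact h1⟩

end RModel

end Vale.Agent.P188.Z1
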