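import Vale.Agent.P188.Z1.RModel

/-!
# P188, Z1, block TRANS

The image of a set with small boundary under a quasi-isometry of the lattice, and the comparison
of measures.
-/

set_option linter.all false

open MeasureTheory Set
open scoped ENNReal
open Agent.P188.H428 (IsLen)

namespace Vale.Agent.P188.Z1

namespace RModel

variable {S : Type} [Group S] [MeasurableSpace S] {Γ : Type} [Group Γ]
  {V : Type} [AddCommGroup V] [Module ℝ V] {k : ℕ} (M : RModel S Γ V k)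

/-- the union of the cells of the elements of `B` -/
def cells (B : Set Γ) : Set S := M.fl ⁻¹' B

theorem measurableSet_cells (B : Set Γ) : MeasurableSet (M.cells B) := by
  haveI := M.countable
  have : M.cells B = ⋃ g ∈ B, M.fl ⁻¹' {g} := by
    ext z; simp [cells]
  rw [this]
  exact MeasurableSet.biUnion (Set.to_countable B) fun g _ => M.fl_meas g

/-- the measure of a cell -/
noncomputable def cv : ℝ≥0∞ := M.μ (M.fl ⁻¹' {1})

theorem mu_cell (g : Γ) : M.μ (M.fl ⁻¹' {g}) = M.cv := by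
  have h := (M.mpl (M.inG g⁻¹)).measure_preimage (M.fl_meas 1).nullMeasurableSet
  rw [cv, ← h]
  congr 1
  ext z
  simp only [mem_preimage, mem_singleton_iff, M.fl_mul]
  constructor
  · intro hz; rw [hz]; group
  · intro hz
    have := congrArg (fun x => g * x) hz
    simpa using this

theorem mu_cells (B : Set Γ) : M.μ (M.cells B) = B.encard * M.cv := by
  haveI := M.countable
  have : M.cells B = ⋃ g : B, M.fl ⁻¹' {(g : Γ)} := by
    ext z; simp [cells]
  rw [this, measure_iUnion]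
  · simp_rw [mu_cell]
    exact ENNReal.tsum_set_const B M.cv
  · intro a b hab
    refine Disjoint.preimage _ ?_
    rw [Set.disjoint_singleton]
    exact fun h => hab (Subtype.ext h)
  · exact fun g => M.fl_meas _

theorem cv_ne_zero : M.cv ≠ 0 := by
  intro h
  have h1 : M.μ univ = 0 := by
    have : (univ : Set S) = M.cells univ := by ext; simp [cells]
    rw [this, mu_cells, h, mul_zero]
  exact M.ball_pos (measure_mono_null (subset_univ _) h1)

theorem ball_ne_top (R : ℕ) : M.μ {x | M.l x ≤ R} ≠ ⊤ :=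
  ne_top_of_le_ne_top ENNReal.ofReal_ne_top (M.ball_lt R)

theorem cv_ne_top : M.cv ≠ ⊤ := by
  refine ne_top_of_le_ne_top (M.ball_ne_top ⌈M.C0⌉₊) (measure_mono ?_)
  intro z hz
  have h := M.fl_close z
  have hz' : M.fl z = 1 := hz
  rw [hz', map_one, inv_one, one_mul] at h
  have : (M.l z : ℝ) ≤ ⌈M.C0⌉₊ := h.trans (Nat.le_ceil _)
  exact_mod_cast this

/-- length of a difference -/
theorem l_comm (x y : S) : M.l (x⁻¹ * y) = M.l (y⁻¹ * x) := by
  rw [← M.len.inv]; congr 1; group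

theorem l_tri (x y z : S) : M.l (x⁻¹ * z) ≤ M.l (x⁻¹ * y) + M.l (y⁻¹ * z) := by
  have := M.len.mul (x⁻¹ * y) (y⁻¹ * z)
  have e : x⁻¹ * y * (y⁻¹ * z) = x⁻¹ * z := by group
  rwa [e] at this

theorem l_triR (x y z : S) : (M.l (x⁻¹ * z) : ℝ) ≤ M.l (x⁻¹ * y) + M.l (y⁻¹ * z) := by
  exact_mod_cast M.l_tri x y z

/-- the constant of comparison -/
noncomputable def mlt (K : ℝ) : ℝ≥0∞ := M.μ {x | M.l x ≤ ⌈K + M.C0⌉₊} / M.cv

theorem mlt_ne_top (K : ℝ) : M.mlt K ≠ ⊤ :=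
  ENNReal.div_ne_top (M.ball_ne_top _) M.cv_ne_zero

/-- **Comparison of measures.** -/
theorem mu_pull {K : ℝ} {φ : Γ → Γ}
    (hφ : ∀ g g', φ g = φ g' → (M.l (M.inG (g⁻¹ * g')) : ℝ) ≤ K) (B : Set Γ) :
    M.μ {z | φ (M.fl z) ∈ B} ≤ M.mlt K * M.μ (M.cells B) := by
  haveI := M.countable
  have h1 : {z | φ (M.fl z) ∈ B} = ⋃ g : B, {z | φ (M.fl z) = g} := by
    ext z; simp
  rw [h1]
  refine (measure_iUnion_le _).trans ?_
  rw [mu_cells]
  have h2 : M.mlt K * (B.encard * M.cv) = ∑' _ : B, (M.mlt K * M.cv) := by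
    rw [ENNReal.tsum_set_const]; ring
  rw [h2]
  refine ENNReal.tsum_le_tsum fun g => ?_
  have h3 : M.mlt K * M.cv = M.μ {x | M.l x ≤ ⌈K + M.C0⌉₊} :=
    ENNReal.div_mul_cancel M.cv_ne_zero M.cv_ne_top
  rw [h3]
  by_cases hne : ∃ z0, φ (M.fl z0) = g
  · obtain ⟨z0, hz0⟩ := hne
    have h4 := (M.mpl (M.inG (M.fl z0))⁻¹).measure_preimage
      (measurableSet_toMeasurable M.μ {x | M.l x ≤ ⌈K + M.C0⌉₊}).nullMeasurableSet
    rw [measure_toMeasurable] at h4
    rw [← h4]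
    refine measure_mono ?_
    intro z hz
    rw [mem_preimage]
    refine subset_toMeasurable _ _ ?_
    have hz' : φ (M.fl z) = g := hz
    have h5 := hφ (M.fl z0) (M.fl z) (hz0.trans hz'.symm)
    have h6 := M.fl_close z
    have h7 := M.l_triR (M.inG (M.fl z0)) (M.inG (M.fl z)) z
    rw [map_mul, map_inv] at h5
    have h8 : (M.l ((M.inG (M.fl z0))⁻¹ * z) : ℝ) ≤ ⌈K + M.C0⌉₊ :=
      (h7.trans (add_le_add h5 h6)).trans (Nat.le_ceil _)
    show M.l ((M.inG (M.fl z0))⁻¹ * z) ≤ ⌈K + M.C0⌉₊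
    exact_mod_cast h8
  · have : {z | φ (M.fl z) = (g : Γ)} = ∅ := by
      ext z
      simp only [mem_setOf_eq, mem_empty_iff_false, iff_false]
      exact fun h => hne ⟨z, h⟩
    rw [this]
    simp

theorem QIm.symm {M : RModel S Γ V k} {K : ℝ} {F F' : Γ → Γ} (h : M.QIm K F F') :
    M.QIm K F' F := ⟨h.lip', h.lip, h.inv', h.inv⟩

theorem QIm.mult {M : RModel S Γ V k} {K : ℝ} {F F' : Γ → Γ} (h : M.QIm K F F') (g g' : Γ)
    (hg : F g = F g') : (M.l (M.inG (g⁻¹ * g')) : ℝ) ≤ 2 * K := by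
  have h1 := h.inv g
  have h2 := h.inv g'
  rw [map_mul, map_inv] at h1 h2 ⊢
  rw [← hg, M.l_comm] at h2
  have := M.l_triR (M.inG g) (M.inG (F' (F g))) (M.inG g')
  linarith

/-- **Comparison of measures for a quasi-isometry.** -/
theorem QIm.mu_le {M : RModel S Γ V k} {K : ℝ} {F F' : Γ → Γ} (h : M.QIm K F F') (B : Set Γ) :
    M.μ {z | F (M.fl z) ∈ B} ≤ M.mlt (2 * K) * M.μ (M.cells B) := M.mu_pull h.mult B

/-- **Comparison of measures for a quasi-isometry**: the points whose image cell is contained in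
`B'`. (Also for the translated image cells.) -/
theorem QIm.pull {M : RModel S Γ V k} {K : ℝ} {F F' : Γ → Γ} (h : M.QIm K F F') (g : Γ)
    (B' : Set S) :
    M.μ {z | M.fl ⁻¹' {F (M.fl z) * g} ⊆ B'} ≤ M.mlt (2 * K) * M.μ B' := by
  have h1 := M.mu_pull (φ := fun x => F x * g) (K := 2 * K)
    (fun a b hab => h.mult a b (mul_right_cancel hab)) {γ | M.fl ⁻¹' {γ} ⊆ B'}
  refine h1.trans (mul_le_mul_right (measure_mono ?_) _)
  intro z hz
  have hz' : M.fl ⁻¹' {M.fl z} ⊆ B' := hz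
  exact hz' rfl

/-- **TRANS.** -/
theorem QIm.trans {M : RModel S Γ V k} {K : ℝ} {F F' : Γ → Γ} (h : M.QIm K F F') {R R' κ : ℝ}
    (hκ : 0 ≤ κ) (hR' : 0 ≤ R') {D Dp : Set S} (hD : M.Fat R κ D Dp) {C2 : ℝ} (hC2 : K ≤ C2)
    (hR : 2 * M.C0 + K + K * (C2 + 2 * M.C0 + R' + 1) ≤ R) :
    let G' : Set Γ := {γ | ∃ z ∈ D, (M.l (M.inG (γ⁻¹ * F (M.fl z))) : ℝ) ≤ C2}
    let Gp' : Set Γ :=
      {γ | ∃ z ∈ D, (M.l (M.inG (γ⁻¹ * F (M.fl z))) : ℝ) ≤ C2 + 2 * M.C0 + R'}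
    M.Fat R' ((M.mlt (2 * K)).toReal ^ 2 * κ) (M.cells G') (M.cells Gp') ∧
      (∀ z ∈ D, F (M.fl z) ∈ G') ∧
      M.μ D ≤ M.mlt (2 * K) * M.μ (M.cells G') ∧
      M.μ (M.cells Gp') ≤ M.mlt (2 * K) * M.μ Dp := by
  intro G' Gp'
  have hK0 : 0 ≤ K := le_trans (Nat.cast_nonneg _) (h.inv 1)
  have hC0 : 0 ≤ M.C0 := zero_le_one.trans M.one_le_C0
  set m := M.mlt (2 * K) with hm
  have hmt : m ≠ ⊤ := M.mlt_ne_top _
  have hDG : ∀ z ∈ D, F (M.fl z) ∈ G' := by
    intro z hz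
    refine ⟨z, hz, ?_⟩
    rw [inv_mul_cancel, map_one, M.len.one]
    simpa using hK0.trans hC2
  have hDm : M.μ D ≤ m * M.μ (M.cells G') :=
    (measure_mono (show D ⊆ {z | F (M.fl z) ∈ G'} from hDG)).trans (h.mu_le G')
  -- the cells of `F' γ`
  have hin : ∀ γ ∈ Gp', M.fl ⁻¹' {F' γ} ⊆ Dp := by
    rintro γ ⟨z, hz, hzγ⟩ x hx
    have hx' : M.fl x = F' γ := hx
    have h1 := M.fl_close z
    rw [M.l_comm] at h1
    have h2 := h.inv (M.fl z)
    have h3 := h.lip' (F (M.fl z)) ((F (M.fl z))⁻¹ * γ)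
    rw [mul_inv_cancel_left] at h3
    have h4 := M.fl_close x
    rw [hx'] at h4
    have h5 : M.l (M.inG ((F (M.fl z))⁻¹ * γ)) = M.l (M.inG (γ⁻¹ * F (M.fl z))) := by
      rw [← M.len.inv, ← map_inv]; congr 2; group
    rw [h5] at h3
    rw [map_mul, map_inv] at h2
    rw [map_mul, map_inv] at h3
    have t1 := M.l_triR z (M.inG (M.fl z)) x
    have t2 := M.l_triR (M.inG (M.fl z)) (M.inG (F' (F (M.fl z)))) x
    have t3 := M.l_triR (M.inG (F' (F (M.fl z)))) (M.inG (F' γ)) x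
    have t4 : K * (M.l (M.inG (γ⁻¹ * F (M.fl z))) + 1) ≤ K * (C2 + 2 * M.C0 + R' + 1) :=
      mul_le_mul_of_nonneg_left (by linarith) hK0
    have := hD.sub z hz (z⁻¹ * x) (by linarith)
    rwa [mul_inv_cancel_left] at this
  have hout : ∀ γ ∉ G', M.fl ⁻¹' {F' γ} ⊆ Dᶜ := by
    intro γ hγ x hx hxD
    have hx' : M.fl x = F' γ := hx
    refine hγ ⟨x, hxD, ?_⟩
    rw [hx']
    exact (h.inv' γ).trans hC2
  have hDDp : D ⊆ Dp := by
    intro z hz
    have hR0 : (0:ℝ) ≤ R := by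
      refine le_trans ?_ hR
      have : 0 ≤ K * (C2 + 2 * M.C0 + R' + 1) := mul_nonneg hK0 (by linarith)
      linarith
    have := hD.sub z hz 1 (by rw [M.len.one]; simpa using hR0)
    rwa [mul_one] at this
  have hDpf : M.μ Dp ≠ ⊤ :=
    ne_top_of_le_ne_top (ENNReal.mul_ne_top ENNReal.ofReal_ne_top hD.fin) hD.le
  have hGp : M.μ (M.cells Gp') ≤ m * M.μ Dp := by
    have h1 : M.cells Gp' ⊆ {z | F' (M.fl z) ∈ {g | M.fl ⁻¹' {g} ⊆ Dp}} := fun z hz => hin _ hz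
    refine (measure_mono h1).trans ((h.symm.mu_le _).trans (mul_le_mul_right (measure_mono ?_) _))
    intro z hz
    have hz' : M.fl ⁻¹' {M.fl z} ⊆ Dp := hz
    exact hz' rfl
  have hsub : G' ⊆ Gp' := by
    rintro γ ⟨z, hz, hzγ⟩
    exact ⟨z, hz, by linarith⟩
  have hcs : M.cells G' ⊆ M.cells Gp' := preimage_mono hsub
  have hfinG : M.μ (M.cells G') ≠ ⊤ :=
    ne_top_of_le_ne_top (ENNReal.mul_ne_top hmt hDpf) ((measure_mono hcs).trans hGp)
  have hdiff : M.μ (M.cells (Gp' \ G')) ≤ m * M.μ (Dp \ D) := by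
    have h1 : M.cells (Gp' \ G') ⊆ {z | F' (M.fl z) ∈ {g | M.fl ⁻¹' {g} ⊆ Dp \ D}} := by
      intro z hz x hx
      exact ⟨hin _ hz.1 hx, hout _ hz.2 hx⟩
    refine (measure_mono h1).trans ((h.symm.mu_le _).trans (mul_le_mul_right (measure_mono ?_) _))
    intro z hz
    have hz' : M.fl ⁻¹' {M.fl z} ⊆ Dp \ D := hz
    exact hz' rfl
  have hDpD : M.μ (Dp \ D) ≤ ENNReal.ofReal κ * M.μ D := by
    rw [measure_sdiff hDDp hD.meas.nullMeasurableSet hD.fin]
    refine tsub_le_iff_right.2 (hD.le.trans ?_)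
    rw [ENNReal.ofReal_add zero_le_one hκ, ENNReal.ofReal_one, add_mul, one_mul, add_comm]
  refine ⟨⟨M.measurableSet_cells _, M.measurableSet_cells _, ?_, hfinG, ?_, ?_⟩, hDG, hDm, hGp⟩
  · intro h0
    rw [h0, mul_zero] at hDm
    exact hD.pos (le_antisymm hDm bot_le)
  · rintro z hz g hg
    have hz' : M.fl z ∈ G' := hz
    obtain ⟨x, hx, hxz⟩ := hz'
    refine ⟨x, hx, ?_⟩
    have h1 := M.fl_close z
    have h2 := M.fl_close (z * g)
    rw [map_mul, map_inv] at hxz ⊢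
    have h3 : M.l ((z * g)⁻¹ * z) = M.l g := by
      rw [← M.len.inv]; congr 1; group
    have t1 := M.l_triR (M.inG (M.fl (z * g))) (z * g) (M.inG (F (M.fl x)))
    have t2 := M.l_triR (z * g) z (M.inG (F (M.fl x)))
    have t3 := M.l_triR z (M.inG (M.fl z)) (M.inG (F (M.fl x)))
    rw [M.l_comm z (M.inG (M.fl z))] at t3
    have h3' : (M.l ((z * g)⁻¹ * z) : ℝ) = M.l g := by exact_mod_cast h3
    linarith
  · have h1 : M.cells Gp' ⊆ M.cells G' ∪ M.cells (Gp' \ G') := by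
      intro z hz
      by_cases hz2 : M.fl z ∈ G'
      · exact Or.inl hz2
      · exact Or.inr ⟨hz, hz2⟩
    have hm2 : m = ENNReal.ofReal m.toReal := (ENNReal.ofReal_toReal hmt).symm
    calc M.μ (M.cells Gp') ≤ M.μ (M.cells G') + M.μ (M.cells (Gp' \ G')) :=
          (measure_mono h1).trans (measure_union_le _ _)
      _ ≤ M.μ (M.cells G') + m * (ENNReal.ofReal κ * (m * M.μ (M.cells G'))) := by
          gcongr
          refine hdiff.trans ?_
          gcongr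
          refine hDpD.trans ?_
          gcongr
      _ = ENNReal.ofReal (1 + m.toReal ^ 2 * κ) * M.μ (M.cells G') := by
          rw [ENNReal.ofReal_add zero_le_one (by positivity), ENNReal.ofReal_one,
            ENNReal.ofReal_mul (by positivity), ENNReal.ofReal_pow ENNReal.toReal_nonneg, ← hm2]
          ring

end RModel

end Vale.Agent.P188.Z1
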