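import Vale.Agent.P188.Z1.Flat
import Vale.Agent.P188.Z1.Trans
import Vale.Agent.P188.Z1.Fat
import Vale.Agent.P188.H893.Spread

/-!
# P188, Z1, block SPREAD (owner 131): coordinates and spreading in the model
-/

set_option linter.all false

open MeasureTheory Set
open scoped ENNReal
open Vale.Agent.P188.H789 (Bl)
open Vale.Agent.P188.H530 (hgt Crossed)
open Vale.Agent.P188.H616 (Coord)
open Vale.Agent.P188.H893 (Cells Tgt dg dg_length)

namespace Vale.Agent.P188.Z1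

namespace RModel

variable {S : Type} [Group S] [MeasurableSpace S] {Γ : Type} [Group Γ]
  {V : Type} [AddCommGroup V] [Module ℝ V] {k : ℕ} (M : RModel S Γ V k)

variable {M} in
/-- crossed homomorphisms of `Γ` grow at most exponentially -/
theorem crossed_exp {b : Ht k →L[ℝ] ℝ} (c : Crossed (hgt (M.η.comp M.inG)) b) :
    ∃ C1 : ℝ, 0 ≤ C1 ∧ ∀ w : Γ, ‖c.D w‖ ≤ Real.exp (C1 * (M.l (M.inG w) + 1)) := by
  obtain ⟨D1, hD1⟩ := (M.md.fin.image fun a => ‖c.D a‖).bddAbove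
  have hD1' : ∀ a ∈ M.A, ‖c.D a‖ ≤ D1 := fun a ha => hD1 ⟨a, ha, rfl⟩
  have hD0 : 0 ≤ D1 := (norm_nonneg _).trans (hD1' 1 M.md.one)
  set β : ℝ := ‖b‖ * M.md.ℓ with hβ
  have hρ : ∀ a ∈ M.A, ‖c.ρ a‖ ≤ Real.exp β := by
    intro a ha
    rw [c.norm_ρ]
    refine Real.exp_le_exp.2 ?_
    calc b (hgt (M.η.comp M.inG) a) ≤ ‖b (hgt (M.η.comp M.inG) a)‖ := Real.le_norm_self _
      _ ≤ ‖b‖ * ‖hgt (M.η.comp M.inG) a‖ := b.le_opNorm _
      _ ≤ β := mul_le_mul_of_nonneg_left (M.md.hℓ a ha) (norm_nonneg _)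
  set Λ : ℝ := 1 + D1 + Real.exp β with hΛ
  have hΛ1 : 1 ≤ Λ := by have := Real.exp_pos β; linarith
  have key : ∀ L : List Γ, (∀ a ∈ L, a ∈ M.A) → ‖c.D L.prod‖ ≤ Λ ^ L.length - 1 := by
    intro L
    induction L with
    | nil => intro _; rw [List.prod_nil, c.D_one]; simp
    | cons a L ih =>
      intro h
      have h1 := ih fun x hx => h x (List.mem_cons_of_mem _ hx)
      have ha := h a List.mem_cons_self
      rw [List.prod_cons, c.D_mul, List.length_cons, pow_succ]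
      refine (norm_add_le _ _).trans ?_
      rw [norm_mul]
      have h2 := hD1' a ha
      have h3 := hρ a ha
      have hp : 1 ≤ Λ ^ L.length := one_le_pow₀ hΛ1
      have h4 : ‖c.ρ a‖ * ‖c.D L.prod‖ ≤ Real.exp β * (Λ ^ L.length - 1) := by gcongr
      have h5 := Real.exp_pos β
      nlinarith
  have hC0 : 0 ≤ M.C0 := zero_le_one.trans M.one_le_C0
  refine ⟨Real.log Λ * (M.C0 + 1), mul_nonneg (Real.log_nonneg hΛ1) (by linarith), fun w => ?_⟩
  obtain ⟨L, h1, h2, h3⟩ := M.wordG w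
  have h4 : ∀ a ∈ L, a ∈ M.A := by
    intro a ha
    rcases h2 a ha with h | h
    · exact h
    · have := M.md.inv _ h
      rwa [inv_inv] at this
  have h5 := key L h4
  rw [h3] at h5
  have h6 : Λ ^ L.length ≤ Real.exp (Real.log Λ * (M.C0 + 1) * (M.l (M.inG w) + 1)) := by
    have e1 : Λ ^ L.length = Real.exp (Real.log Λ * L.length) := by
      rw [mul_comm, Real.exp_nat_mul, Real.exp_log (by linarith)]
    rw [e1]
    refine Real.exp_le_exp.2 ?_
    rw [mul_assoc]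
    refine mul_le_mul_of_nonneg_left ?_ (Real.log_nonneg hΛ1)
    have e2 : (L.length : ℝ) ≤ ⌈M.C0 * (M.l (M.inG w) + 1)⌉₊ := by exact_mod_cast h1
    have hl : (0 : ℝ) ≤ M.l (M.inG w) := Nat.cast_nonneg _
    have e3 : (⌈M.C0 * (M.l (M.inG w) + 1)⌉₊ : ℝ) ≤ M.C0 * (M.l (M.inG w) + 1) + 1 :=
      (Nat.ceil_lt_add_one (by positivity)).le
    nlinarith
  linarith

variable {M} in
/-- displacement of the image -/
theorem QIm.disp {K : ℝ} {F F' : Γ → Γ} (h : M.QIm K F F') (z g : S) :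
    (M.l (M.inG ((F (M.fl z))⁻¹ * F (M.fl (z * g)))) : ℝ) ≤ K * (M.l g + 2 * M.C0 + 1) := by
  have hK0 : 0 ≤ K := le_trans (Nat.cast_nonneg _) (h.inv 1)
  have h1 := h.lip (M.fl z) ((M.fl z)⁻¹ * M.fl (z * g))
  rw [mul_inv_cancel_left] at h1
  refine h1.trans (mul_le_mul_of_nonneg_left ?_ hK0)
  rw [map_mul, map_inv]
  have h2 := M.fl_close z
  have h3 := M.fl_close (z * g)
  rw [M.l_comm] at h3
  have h4 := M.l_triR (M.inG (M.fl z)) z (M.inG (M.fl (z * g)))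
  have h5 := M.l_triR z (z * g) (M.inG (M.fl (z * g)))
  rw [inv_mul_cancel_left] at h5
  linarith

variable {M} in
theorem fb_eq {b : Ht k →L[ℝ] ℝ} (c : Crossed (hgt (M.η.comp M.inG)) b) (F : Γ → Γ) (z : S) :
    Real.exp (b (M.f F z)) = ‖c.ρ (F (M.fl z))‖ := (c.norm_ρ _).symm

variable {M} in
theorem fb_sub {b : Ht k →L[ℝ] ℝ} (F : Γ → Γ) (z g : S) :
    b (M.f F (z * g)) - b (M.f F z) =
      b (M.θ (M.inG ((F (M.fl z))⁻¹ * F (M.fl (z * g))))) := by
  have h1 : M.f F (z * g) = M.f F z + M.θ (M.inG ((F (M.fl z))⁻¹ * F (M.fl (z * g)))) := by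
    unfold f
    rw [← M.θ_mul, ← map_mul, mul_inv_cancel_left]
  rw [h1, map_add, add_sub_cancel_left]

variable {M} in
/-- the coordinate of a quasi-isometry -/
theorem coord_of {b : Ht k →L[ℝ] ℝ} (c : Crossed (hgt (M.η.comp M.inG)) b) (K : ℝ) :
    ∃ C : ℝ, 0 ≤ C ∧ ∀ C' : ℝ, C ≤ C' → ∀ F F' : Γ → Γ, M.QIm K F F' →
      Coord (fun z => (M.l z : ℝ)) (fun z => b (M.f F z)) (fun z => c.D (F (M.fl z))) C' C' := by
  obtain ⟨C1, hC1, h1⟩ := crossed_exp c
  have hC0 : 0 ≤ M.C0 := zero_le_one.trans M.one_le_C0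
  set A1 : ℝ := Real.exp (C1 * (|K| * (2 * M.C0 + 1) + 1)) with hA1
  set L1 : ℝ := C1 * |K| with hL1
  set L2 : ℝ := ‖b‖ * (M.C0 * (|K| * (2 * M.C0 + 2))) with hL2
  have hA0 : 0 ≤ A1 := (Real.exp_pos _).le
  have hL10 : 0 ≤ L1 := by positivity
  have hL20 : 0 ≤ L2 := by positivity
  refine ⟨A1 + L1 + L2, by positivity, fun C' hC' F F' h => ?_⟩
  have hK0 : 0 ≤ K := le_trans (Nat.cast_nonneg _) (h.inv 1)
  have hKa : |K| = K := abs_of_nonneg hK0
  refine
    { A0 := by linarith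
      L0 := by linarith
      l0 := fun g => Nat.cast_nonneg _
      linv := fun g => by rw [M.len.inv]
      step := fun z g => ?_
      lip := fun z g => ?_ }
  · set w := (F (M.fl z))⁻¹ * F (M.fl (z * g)) with hw
    have e1 : c.D (F (M.fl (z * g))) - c.D (F (M.fl z)) = c.ρ (F (M.fl z)) * c.D w := by
      have := c.D_mul (F (M.fl z)) w
      rw [hw, mul_inv_cancel_left] at this
      rw [this, add_sub_cancel_left]
    rw [e1, norm_mul, ← fb_eq c]
    have hl : (0 : ℝ) ≤ M.l g := Nat.cast_nonneg _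
    have e2 : ‖c.D w‖ ≤ A1 * Real.exp (L1 * M.l g) := by
      refine (h1 w).trans ?_
      rw [hA1, ← Real.exp_add]
      refine Real.exp_le_exp.2 ?_
      have := h.disp z g
      rw [← hw] at this
      rw [hL1, hKa]
      nlinarith
    calc Real.exp (b (M.f F z)) * ‖c.D w‖
        ≤ Real.exp (b (M.f F z)) * (A1 * Real.exp (L1 * M.l g)) := by gcongr
      _ = A1 * (1 * Real.exp (b (M.f F z) + L1 * M.l g)) := by rw [Real.exp_add]; ring
      _ ≤ C' * ((1 + M.l g) * Real.exp (b (M.f F z) + C' * M.l g)) := by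
          gcongr <;> linarith
      _ = C' * (1 + M.l g) * Real.exp (b (M.f F z) + C' * M.l g) := by ring
  · by_cases hg : M.l g = 0
    · have := M.l_zero g hg
      rw [this, mul_one, sub_self, abs_zero]
      have hC'0 : 0 ≤ C' := by linarith
      positivity
    · have hl1 : (1 : ℝ) ≤ M.l g := by exact_mod_cast Nat.one_le_iff_ne_zero.2 hg
      rw [fb_sub]
      have e1 := h.disp z g
      calc |b (M.θ (M.inG ((F (M.fl z))⁻¹ * F (M.fl (z * g)))))|
          ≤ ‖b‖ * ‖M.θ (M.inG ((F (M.fl z))⁻¹ * F (M.fl (z * g))))‖ := b.le_opNorm _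
        _ ≤ ‖b‖ * (M.C0 * (K * (M.l g + 2 * M.C0 + 1))) := by
            gcongr
            exact (M.θ_le _).trans (mul_le_mul_of_nonneg_left e1 hC0)
        _ ≤ L2 * M.l g := by
            rw [hL2, hKa]
            have e2 : (M.l g : ℝ) + 2 * M.C0 + 1 ≤ (2 * M.C0 + 2) * M.l g := by nlinarith
            calc ‖b‖ * (M.C0 * (K * (M.l g + 2 * M.C0 + 1)))
                ≤ ‖b‖ * (M.C0 * (K * ((2 * M.C0 + 2) * M.l g))) := by gcongr
              _ = _ := by ring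
        _ ≤ C' * M.l g := by gcongr; linarith

/-- an element of `Γ` expanded by `b` -/
theorem exists_t {b : Ht k →L[ℝ] ℝ} (hb : b ≠ 0) (B : ℝ) : ∃ t : Γ, B ≤ b (M.θ (M.inG t)) := by
  -- an integral vector with `b ≠ 0`
  have h1 : ∃ i : Fin k, b (Pi.single i 1) ≠ 0 := by
    by_contra hcon
    push Not at hcon
    apply hb
    refine ContinuousLinearMap.ext fun x => ?_
    have e : x = ∑ i, x i • (Pi.single i 1 : Fin k → ℝ) := by
      funext j
      simp [Finset.sum_apply, Pi.single_apply]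
    rw [e, map_sum]
    simp [hcon]
  obtain ⟨i, hi⟩ := h1
  have hC0 : 0 ≤ M.C0 := zero_le_one.trans M.one_le_C0
  obtain ⟨n, hn⟩ := exists_nat_gt ((B + ‖b‖ * (M.C0 * M.C0)) / |b (Pi.single i 1)|)
  have hbi : 0 < |b (Pi.single i 1)| := abs_pos.2 hi
  rw [div_lt_iff₀ hbi] at hn
  obtain ⟨m, hm⟩ : ∃ m : ℤ, (m : ℝ) * b (Pi.single i 1) = n * |b (Pi.single i 1)| := by
    rcases le_or_gt 0 (b (Pi.single i 1)) with h | h
    · exact ⟨n, by rw [abs_of_nonneg h]; push_cast; ring⟩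
    · exact ⟨-n, by rw [abs_of_neg h]; push_cast; ring⟩
  obtain ⟨s, hs⟩ := M.η_surj (Multiplicative.ofAdd (Pi.single i m))
  have h2 : M.θ s = (m : ℝ) • (Pi.single i 1 : Fin k → ℝ) := by
    funext j
    simp only [θ, hgt, hs, Pi.smul_apply, smul_eq_mul]
    by_cases hij : j = i
    · subst hij; simp
    · simp [Pi.single_apply, hij]
  refine ⟨M.fl s, ?_⟩
  have h3 : M.θ s = M.θ (M.inG (M.fl s)) + M.θ ((M.inG (M.fl s))⁻¹ * s) := by
    rw [← M.θ_mul, mul_inv_cancel_left]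
  have h4 : b (M.θ s) = n * |b (Pi.single i 1)| := by rw [h2, map_smul, smul_eq_mul, hm]
  have h5 : |b (M.θ ((M.inG (M.fl s))⁻¹ * s))| ≤ ‖b‖ * (M.C0 * M.C0) := by
    refine (b.le_opNorm _).trans ?_
    gcongr
    exact (M.θ_le _).trans (mul_le_mul_of_nonneg_left (M.fl_close s) hC0)
  rw [h3, map_add] at h4
  have := abs_le.1 h5
  linarith

variable {M} in
/-- the cells of the points of the target -/
theorem QIm.cells {K : ℝ} {F F' : Γ → Γ} (h : M.QIm K F F') :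
    Cells M.μ (fun z => F (M.fl z)) (fun g => M.fl ⁻¹' {F' g}) M.cv (M.mlt (2 * K) * M.cv)
      ⌈(M.mlt (2 * K)).toReal⌉₊ where
  m0_ne := M.cv_ne_zero
  m1_ne := ENNReal.mul_ne_top (M.mlt_ne_top _) M.cv_ne_top
  fib g := by
    have h1 := h.mu_le {g}
    rw [mu_cells, encard_singleton] at h1
    simp only [mem_singleton_iff, ENat.toENNReal_one, one_mul] at h1
    exact h1
  big g := (M.mu_cell _).ge
  mult B := by
    classical
    have h1 : ∀ g ∈ B, M.μ (M.fl ⁻¹' {F' g}) = M.cv := fun g _ => M.mu_cell _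
    rw [Finset.sum_congr rfl h1, Finset.sum_const, nsmul_eq_mul]
    have h2 : (⋃ g ∈ B, M.fl ⁻¹' {F' g}) = M.cells (F' '' B) := by
      ext z
      simp only [mem_iUnion, mem_preimage, mem_singleton_iff, RModel.cells, mem_image,
        Finset.mem_coe, exists_prop]
      exact ⟨fun ⟨g, hg, h⟩ => ⟨g, hg, h.symm⟩, fun ⟨g, hg, h⟩ => ⟨g, hg, h.symm⟩⟩
    rw [h2]
    -- the cells of `B`
    have h3 := (h.symm).mu_le (F' '' B)
    have h4 : M.μ (M.cells (B : Set Γ)) ≤ M.μ {z | F' (M.fl z) ∈ F' '' B} :=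
      measure_mono fun z hz => ⟨_, hz, rfl⟩
    rw [mu_cells, Set.encard_coe_eq_coe_finsetCard] at h4
    have h5 : ((B.card : ℕ∞) : ℝ≥0∞) = (B.card : ℝ≥0∞) := rfl
    have h6 := h4.trans h3
    refine (le_trans (le_of_eq ?_) h6).trans ?_
    · simp
    · refine mul_le_mul' ?_ le_rfl
      conv_lhs => rw [← ENNReal.ofReal_toReal (M.mlt_ne_top (2 * K))]
      rw [← ENNReal.ofReal_natCast]
      exact ENNReal.ofReal_le_ofReal (Nat.le_ceil _)

/-- **SPREAD** -/
theorem spread_holds : M.SPREAD := by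
  intro K
  -- constants for one class
  have main : ∀ b ∈ M.Φ, ∃ C : ℝ, 1 ≤ C ∧ ∀ C' : ℝ, C ≤ C' → ∀ F F' : Γ → Γ, M.QIm K F F' →
      ∃ X : S → ℂ, Coord (fun z => (M.l z : ℝ)) (fun z => b (M.f F z)) X C' C' ∧
      ∀ (q j N m' : ℕ) (θ : ENNReal) (DD Dp : Set S), M.μ DD ≠ ⊤ → M.μ Dp ≤ m' * M.μ DD →
      (∀ z ∈ DD, ∀ g, (M.l g : ℝ) ≤ C' * (q + 1) → z * g ∈ Dp) →
      (N * 2 ^ j : ℕ) * (ENNReal.ofReal C' * m') < 2 ^ q * θ →
      ∀ Γ₀ : Set S, MeasurableSet Γ₀ → Γ₀ ⊆ DD → θ * M.μ DD ≤ M.μ Γ₀ → M.μ Γ₀ ≠ 0 → ∃ z0 : S,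
      ∀ (Y : Finset S) (φ : S → S), Y.card ≤ N →
        (∀ z ∈ Γ₀ ∩ {z | (M.l (z0⁻¹ * z) : ℝ) ≤ C' * (q + 1)}, φ z ∈ Y) →
        ∃ z ∈ Γ₀ ∩ {z | (M.l (z0⁻¹ * z) : ℝ) ≤ C' * (q + 1)},
        ∃ z' ∈ Γ₀ ∩ {z | (M.l (z0⁻¹ * z) : ℝ) ≤ C' * (q + 1)},
          φ z = φ z' ∧ |b (M.f F z) - b (M.f F z')| ≤ 0 ∧
            Real.exp (b (M.f F z) + (j - C')) < ‖X z - X z'‖ := by
    intro b hb
    obtain ⟨c, -⟩ := M.crossed b hb
    obtain ⟨t, ht⟩ := M.exists_t (M.Φ_ne b hb) (Real.log 3)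
    obtain ⟨C2, hC2, hcoord⟩ := coord_of c K
    have hC0 : 0 ≤ M.C0 := zero_le_one.trans M.one_le_C0
    have T : Tgt c.ρ c.D t c.u :=
      { D_mul := c.D_mul
        ρ_mul := c.ρ_mul
        ρ_one := c.ρ_one
        ρ_u := c.ρ_ker _ c.θ_u
        D_u := c.D_u
        ρ_t := by
          rw [c.norm_ρ]
          have : Real.log 3 ≤ b (hgt (M.η.comp M.inG) t) := ht
          calc (3 : ℝ) = Real.exp (Real.log 3) := (Real.exp_log (by norm_num)).symm
            _ ≤ _ := Real.exp_le_exp.2 this }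
    set m : ℝ≥0∞ := M.mlt (2 * K) with hm
    have hmt : m ≠ ⊤ := M.mlt_ne_top _
    set CM : ℕ := ⌈m.toReal⌉₊ with hCM
    set W : ℝ := (M.l (M.inG c.u) : ℝ) + 2 * M.l (M.inG t) with hW
    have hW0 : 0 ≤ W := by positivity
    -- length constant
    set C3 : ℝ := 2 * M.C0 + |K| + |K| * (W + 1) with hC3
    have hC30 : 0 ≤ C3 := by positivity
    set C4 : ℝ := |Real.log (‖c.D c.u‖ / 2)| with hC4
    have hC40 : 0 ≤ C4 := abs_nonneg _
    set C5 : ℝ := (CM : ℝ) * m.toReal with hC5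
    have hC50 : 0 ≤ C5 := by positivity
    refine ⟨1 + C2 + C3 + C4 + C5, by linarith, fun C' hC' F F' h => ?_⟩
    have hK0 : 0 ≤ K := le_trans (Nat.cast_nonneg _) (h.inv 1)
    have hKa : |K| = K := abs_of_nonneg hK0
    refine ⟨fun z => c.D (F (M.fl z)), hcoord C' (by linarith) F F' h, ?_⟩
    intro q j N m' θ DD Dp hDfin hDp hsub hbig Γ₀ hΓm hΓD hΓ hΓ0
    -- the key length estimate
    have hlen : ∀ z : S, ∀ J : Finset ℕ,
        (M.l (z⁻¹ * M.inG (F' (F (M.fl z) * (dg t c.u J q)⁻¹))) : ℝ) ≤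
          M.C0 + K + K * (q * W + 1) := by
      intro z J
      have e1 : (M.l (M.inG (dg t c.u J q)) : ℝ) ≤ q * W := by
        have := dg_length (l := fun g : Γ => (M.l (M.inG g) : ℝ))
          (by simp [M.len.one]) (fun x y => by
            simp only [map_mul]; exact_mod_cast M.len.mul _ _)
          (fun x => by simp only [map_inv, M.len.inv]) t c.u J q
        exact this
      have e2 := h.lip' (F (M.fl z)) (dg t c.u J q)⁻¹
      rw [map_inv M.inG (dg t c.u J q), M.len.inv] at e2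
      have e3 := h.inv (M.fl z)
      have e4 := M.fl_close z
      rw [M.l_comm] at e4
      have e5 := M.l_triR z (M.inG (M.fl z)) (M.inG (F' (F (M.fl z) * (dg t c.u J q)⁻¹)))
      have e6 := M.l_triR (M.inG (M.fl z)) (M.inG (F' (F (M.fl z))))
        (M.inG (F' (F (M.fl z) * (dg t c.u J q)⁻¹)))
      rw [map_mul, map_inv] at e2 e3
      have e7 : K * ((M.l (M.inG (dg t c.u J q)) : ℝ) + 1) ≤ K * (q * W + 1) := by gcongr
      linarith
    have hball : 2 * M.C0 + K + K * (q * W + 1) ≤ C' * (q + 1) := by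
      have hq : (0 : ℝ) ≤ q := Nat.cast_nonneg _
      have e1 : 2 * M.C0 + K + K * (q * W + 1) ≤ C3 * (q + 1) := by
        rw [hC3, hKa]
        have : 0 ≤ K * W := by positivity
        nlinarith [mul_nonneg hK0 hq, mul_nonneg hC0 hq, mul_nonneg this hq]
      refine e1.trans ?_
      gcongr
      linarith
    -- apply the abstract theorem
    have hκ : Real.exp ((j : ℝ) - C') < ‖c.D c.u‖ * ‖c.ρ t‖ ^ j / 2 := by
      have h3 : (3 : ℝ) ≤ ‖c.ρ t‖ := T.ρ_t
      have hDu : 0 < ‖c.D c.u‖ / 2 := by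
        have := norm_pos_iff.2 c.D_u
        linarith
      have e1 : Real.exp (j : ℝ) ≤ ‖c.ρ t‖ ^ j := by
        have : Real.exp (j : ℝ) = Real.exp 1 ^ j := by rw [← Real.exp_nat_mul, mul_one]
        rw [this]
        have he : Real.exp 1 ≤ 3 := by
          have := Real.exp_one_lt_d9
          linarith
        exact pow_le_pow_left₀ (Real.exp_pos _).le (he.trans h3) j
      have e2 : Real.exp (-C') < ‖c.D c.u‖ / 2 := by
        rw [← Real.exp_log hDu]
        refine Real.exp_lt_exp.2 ?_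
        have := neg_abs_le (Real.log (‖c.D c.u‖ / 2))
        have h4 : C4 = |Real.log (‖c.D c.u‖ / 2)| := hC4
        linarith
      rw [sub_eq_add_neg, Real.exp_add]
      have e3 : 0 < Real.exp (j : ℝ) := Real.exp_pos _
      calc Real.exp (j : ℝ) * Real.exp (-C') < Real.exp (j : ℝ) * (‖c.D c.u‖ / 2) := by gcongr
        _ ≤ ‖c.ρ t‖ ^ j * (‖c.D c.u‖ / 2) := by gcongr
        _ = _ := by ring
    have hbig' : (N * 2 ^ j : ℕ) * ((CM : ℝ≥0∞) * m' * (m * M.cv)) < 2 ^ q * (M.cv * θ) := by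
      have e1 : (CM : ℝ≥0∞) * m ≤ ENNReal.ofReal C' := by
        have : (CM : ℝ≥0∞) * m = ENNReal.ofReal C5 := by
          rw [hC5, ENNReal.ofReal_mul (by positivity), ENNReal.ofReal_natCast,
            ENNReal.ofReal_toReal hmt]
        rw [this]
        exact ENNReal.ofReal_le_ofReal (by linarith)
      calc ((N * 2 ^ j : ℕ) : ℝ≥0∞) * ((CM : ℝ≥0∞) * m' * (m * M.cv))
          = M.cv * (((N * 2 ^ j : ℕ) : ℝ≥0∞) * (((CM : ℝ≥0∞) * m) * m')) := by ring
        _ ≤ M.cv * (((N * 2 ^ j : ℕ) : ℝ≥0∞) * (ENNReal.ofReal C' * m')) := by gcongr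
        _ < M.cv * (2 ^ q * θ) :=
            ENNReal.mul_lt_mul_right M.cv_ne_zero M.cv_ne_top hbig
        _ = _ := by ring
    obtain ⟨z0, hz0⟩ := Vale.Agent.P188.H893.spread (μ := M.μ) T h.cells
      (h := fun z => b (M.f F z)) (X := fun z => c.D (F (M.fl z)))
      (fun z => fb_eq c F z) (fun z => rfl) (DD := DD) (Dp := Dp) (M := m') hDp hDfin
      (q := q) (j := j) (N := N) (κ0 := (j : ℝ) - C') (C0 := 0) le_rfl
      (by
        intro z hz J hJ x hx
        have hx' : M.fl x = F' (F (M.fl z) * (dg t c.u J q)⁻¹) := hx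
        have e1 := hlen z J
        rw [← hx'] at e1
        have e2 := M.fl_close x
        have e3 := M.l_triR z (M.inG (M.fl x)) x
        have e4 := hsub z hz (z⁻¹ * x) (by linarith)
        rwa [mul_inv_cancel_left] at e4)
      (B := fun z0 => {z | (M.l (z0⁻¹ * z) : ℝ) ≤ C' * (q + 1)}) (Φ' := fun g => M.inG (F' g))
      (by
        intro z hz J hJ
        show (M.l ((M.inG (F' (F (M.fl z) * (dg t c.u J q)⁻¹)))⁻¹ * z) : ℝ) ≤ C' * (q + 1)
        rw [M.l_comm]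
        have e1 := hlen z J
        linarith)
      hbig' hκ Γ₀ hΓD hΓ hΓ0
    exact ⟨z0, fun Y φ hY hφ => hz0 Y φ hY hφ⟩
  -- a common constant
  choose! Cb hCb1 hCb using main
  obtain ⟨C, hC⟩ := (M.Φ.image Cb).exists_le
  refine ⟨max C 1, le_max_right _ _, fun F F' h b hb => ?_⟩
  exact hCb b hb (max C 1) ((hC _ (Finset.mem_image_of_mem _ hb)).trans (le_max_left _ _)) F F' h

end RModel

end Vale.Agent.P188.Z1
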