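import Vale.Agent.P188.Z1.Gcl
import Vale.Agent.P188.Z1.Spread
import Vale.Agent.P188.Z1.RayPeak
import Vale.Agent.P188.H893.GclCor

/-!
# P188, Z1: neutral flatness

`nfp_holds : M.NFp`, `nf_holds : M.NF` (and `gcl_holds`, `ray_holds`, `peak_holds`).
-/

set_option linter.all false

open MeasureTheory Set Filter
open Agent.P188.H428 (IsLen)
open Vale.Agent.P188.H530 (hgt hgt_mul)
open Vale.Agent.P188.H616 (Coord)
open Vale.Agent.P188.H893 (Tol fwd bwd neutral_flat)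

namespace Vale.Agent.P188.Z1

namespace RModel

variable {S : Type} [Group S] [MeasurableSpace S] {Γ : Type} [Group Γ]
  {V : Type} [AddCommGroup V] [Module ℝ V] {k : ℕ} (M : RModel S Γ V k)

theorem gclp_holds : M.GCLp := M.gclp_of_spread M.spread_holds
theorem gcl_holds : M.GCL := M.gcl_of_gclp M.gclp_holds
theorem ray_holds : M.RAY := M.ray_of_gcl M.gcl_holds
theorem peak_holds : M.PEAK := M.peak_of_gcl M.gcl_holds

/-- the functionals of `Φ` control the norm -/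
theorem norm_of_Φ : ∃ L : ℝ, 0 < L ∧ ∀ w : Ht k, ∀ B : ℝ, 0 ≤ B → (∀ b ∈ M.Φ, |b w| ≤ B) →
    ‖w‖ ≤ L * B := by
  classical
  set T : Ht k →ₗ[ℝ] (M.Φ → ℝ) := LinearMap.pi fun b => (b.1 : Ht k →L[ℝ] ℝ).toLinearMap with hT
  have hker : LinearMap.ker T = ⊥ := by
    rw [LinearMap.ker_eq_bot']
    intro w hw
    apply M.Φ_span w
    intro b hb
    have := congrFun hw ⟨b, hb⟩
    simpa [hT] using this
  obtain ⟨K, hK, hKl⟩ := T.exists_antilipschitzWith hker
  refine ⟨K, hK, fun w B hB hw => ?_⟩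
  have h1 := hKl.le_mul_dist w 0
  rw [map_zero, dist_zero_right, dist_zero_right] at h1
  refine h1.trans (mul_le_mul_of_nonneg_left ?_ K.2)
  rw [pi_norm_le_iff_of_nonneg hB]
  rintro ⟨b, hb⟩
  rw [Real.norm_eq_abs]
  exact hw b hb

/-- a functional which is not zero is positive on some integral vector -/
theorem exists_pos (b : Ht k →L[ℝ] ℝ) (hb : b ≠ 0) : ∃ v : Fin k → ℤ, 0 < b (ht v) := by
  classical
  obtain ⟨j, hj⟩ : ∃ j : Fin k, b (Pi.single j 1) ≠ 0 := by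
    by_contra hcon
    push Not at hcon
    apply hb
    ext w
    rw [ContinuousLinearMap.zero_apply, pi_eq_sum_univ' w, map_sum]
    refine Finset.sum_eq_zero fun i _ => ?_
    rw [map_smul, hcon i, smul_zero]
  have e1 : ht (Pi.single j (1 : ℤ)) = Pi.single j (1 : ℝ) := by
    funext i
    unfold ht
    by_cases h : i = j
    · subst h; simp
    · simp [Pi.single_apply, h]
  have e2 : ht (-Pi.single j (1 : ℤ)) = -Pi.single j (1 : ℝ) := by
    rw [← e1]; funext i; simp [ht]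
  rcases lt_or_gt_of_ne hj with h | h
  · refine ⟨-Pi.single j 1, ?_⟩
    rw [e2, map_neg]
    linarith
  · refine ⟨Pi.single j 1, ?_⟩
    rw [e1]
    exact h

/-- contracting elements for the letters -/
theorem contr : ∃ (t : M.ι → S) (A c : ℝ) (N : ℕ), 0 < c ∧ 0 ≤ A ∧ (∀ i, (M.l (t i) : ℝ) ≤ A) ∧
    ∀ i, M.wt i ≠ 0 → t i ∈ M.CB N ∧ c ≤ M.wt i (M.θ (t i)) := by
  classical
  have h1 : ∀ i, ∃ v : Fin k → ℤ, M.wt i ≠ 0 → 0 < M.wt i (ht v) := by
    intro i
    by_cases hi : M.wt i = 0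
    · exact ⟨0, fun h => absurd hi h⟩
    · obtain ⟨v, hv⟩ := exists_pos (M.wt i) hi
      exact ⟨v, fun _ => hv⟩
  choose v hv using h1
  have h2 : ∀ i, ∃ N : ℕ, M.τ (v i) ∈ M.CB N := fun i => ⟨_, M.τ_CB (v i)⟩
  choose N hN using h2
  have h3 : ∀ i, M.θ (M.τ (v i)) = ht (v i) := fun i => by rw [M.θ_τ]; rfl
  obtain ⟨c, hc, hc'⟩ : ∃ c : ℝ, 0 < c ∧ ∀ i, M.wt i ≠ 0 → c ≤ M.wt i (ht (v i)) := by
    set T : Finset ℝ := insert 1 ((Finset.univ.filter fun i => M.wt i ≠ 0).image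
      fun i => M.wt i (ht (v i))) with hT
    have hTn : T.Nonempty := ⟨1, Finset.mem_insert_self _ _⟩
    refine ⟨T.min' hTn, ?_, fun i hi => ?_⟩
    · rw [Finset.lt_min'_iff]
      intro y hy
      rcases Finset.mem_insert.1 hy with rfl | hy
      · exact one_pos
      · obtain ⟨i, hi, rfl⟩ := Finset.mem_image.1 hy
        exact hv i (Finset.mem_filter.1 hi).2
    · refine Finset.min'_le _ _ (Finset.mem_insert_of_mem (Finset.mem_image.2 ⟨i, ?_, rfl⟩))
      exact Finset.mem_filter.2 ⟨Finset.mem_univ _, hi⟩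
  refine ⟨fun i => M.τ (v i), ∑ i, (M.l (M.τ (v i)) : ℝ), c, ∑ i, N i, hc,
    Finset.sum_nonneg fun i _ => Nat.cast_nonneg _, fun i => ?_, fun i hi => ⟨?_, ?_⟩⟩
  · exact Finset.single_le_sum (f := fun i => (M.l (M.τ (v i)) : ℝ))
      (fun _ _ => Nat.cast_nonneg _) (Finset.mem_univ i)
  · exact M.CB_mono (Finset.single_le_sum (f := N) (fun _ _ => Nat.zero_le _)
      (Finset.mem_univ i)) (hN i)
  · rw [h3]; exact hc' i hi

/-- a path `a` of length `p` followed by powers of `t` -/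
def pth (a : ℕ → S) (p : ℕ) (t : S) (n : ℕ) : S := if n ≤ p then a n else a p * t ^ (n - p)

theorem pth_end (a : ℕ → S) (p m : ℕ) (t : S) : pth a p t (p + m) = a p * t ^ m := by
  unfold pth
  by_cases h : p + m ≤ p
  · rw [if_pos h]
    have : m = 0 := by omega
    subst this
    simp
  · rw [if_neg h, Nat.add_sub_cancel_left]

theorem pth_step {a : ℕ → S} {p : ℕ} {t : S} {A : ℝ}
    (ha : ∀ n < p, (M.l ((a n)⁻¹ * a (n + 1)) : ℝ) ≤ A) (ht : (M.l t : ℝ) ≤ A) (n : ℕ) :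
    (M.l ((pth a p t n)⁻¹ * pth a p t (n + 1)) : ℝ) ≤ A := by
  unfold pth
  by_cases h1 : n + 1 ≤ p
  · rw [if_pos (by omega), if_pos h1]
    exact ha n (by omega)
  · rw [if_neg h1]
    by_cases h2 : n ≤ p
    · have : n = p := by omega
      subst this
      rw [if_pos le_rfl, Nat.add_sub_cancel_left, pow_one, inv_mul_cancel_left]
      exact ht
    · rw [if_neg h2]
      have e : n + 1 - p = (n - p) + 1 := by omega
      rw [e, pow_succ]
      have e2 : (a p * t ^ (n - p))⁻¹ * (a p * (t ^ (n - p) * t)) = t := by group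
      rw [e2]
      exact ht

/-- **GCL for paths beginning with a neutral path.** -/
theorem gcl_tail (K C₁ : ℝ) (t : M.ι → S) {A c κ1 : ℝ} {N : ℕ} (hc : 0 < c)
    (hκ1 : 0 < κ1) (hA : ∀ i, (M.l (t i) : ℝ) ≤ A)
    (htc : ∀ i, M.wt i ≠ 0 → t i ∈ M.CB N ∧ c ≤ M.wt i (M.θ (t i))) :
    ∃ (δ η c₀ CR r₀ : ℝ), 0 < δ ∧ 0 < η ∧ 0 < c₀ ∧ δ ≤ c₀ / 4 ∧ ∀ r : ℝ, r₀ ≤ r →
    ∀ F F' : Γ → Γ, M.QIm K F F' → ∀ b ∈ M.Φ, ∀ D Dp : Set S, M.Fat (CR * r) C₁ D Dp →
    ∀ (a : ℕ → S) (p : ℕ) (w : V), a 0 = 1 →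
      (∀ n < p, (M.l ((a n)⁻¹ * a (n + 1)) : ℝ) ≤ 2 * M.C0) →
      (p : ℝ) ≤ Real.exp (δ * r) + 1 → a p = M.ex w → w ∈ M.Vw 0 → M.nm w ≤ Real.exp (δ * r) →
      M.μ (D ∩ {z | ∀ i, M.wt i ≠ 0 → ∀ n ≤ p + ⌊κ1 * r⌋₊,
        b (M.f F (z * pth a p (t i) n)) ≤ b (M.f F z) + η * r}) ≤
        ENNReal.ofReal (Real.exp (-(c₀ * r))) * M.μ D := by
  classical
  obtain ⟨η, c₀, CR, r₀, hη, hc₀, H⟩ := M.gclp_holds K (max (2 * M.C0) A) (κ1 * c / 4) C₁
    (by positivity)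
  have hC0 := M.C0_pos
  set δ : ℝ := min (min (η / 2) (c₀ / 4)) (κ1 * c / (4 * M.C0)) with hδ
  have hδ0 : 0 < δ := by
    rw [hδ]
    exact lt_min (lt_min (by positivity) (by positivity)) (by positivity)
  have hδ1 : δ ≤ η / 2 := (min_le_left _ _).trans (min_le_left _ _)
  have hδ2 : δ ≤ c₀ / 4 := (min_le_left _ _).trans (min_le_right _ _)
  have hδ3 : M.C0 * δ ≤ κ1 * c / 4 := by
    have h1 : δ ≤ κ1 * c / (4 * M.C0) := min_le_right _ _
    rw [le_div_iff₀ (by positivity)] at h1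
    linarith
  have ev1 := ev_poly (2 + κ1) 1 (ε := η / 2) (by positivity)
  have ev2 := ev_poly (M.C0 * (1 + κ1 * N) ^ M.deg * Real.exp c * (M.C0 * 2 ^ M.C0)) M.deg
    (ε := κ1 * c / 2) (by positivity)
  obtain ⟨r₁, hr₁⟩ := ((ev1.and ev2).and (eventually_ge_atTop (1 : ℝ))).exists_forall_of_atTop
  refine ⟨δ, η, c₀, CR, max r₀ r₁, hδ0, hη, hc₀, hδ2, ?_⟩
  intro r hr F F' hF b hb D Dp hD a p w ha0 hastep hp hap hw hwn
  obtain ⟨⟨h1, h2⟩, h3⟩ := hr₁ r ((le_max_right _ _).trans hr)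
  have hr0 : 0 ≤ r := by linarith
  obtain ⟨m, hm⟩ : ∃ m : ℕ, m = ⌊κ1 * r⌋₊ := ⟨_, rfl⟩
  have hm1 : (m : ℝ) ≤ κ1 * r := by rw [hm]; exact Nat.floor_le (by positivity)
  have hm2 : κ1 * r - 1 ≤ m := by
    have := Nat.lt_floor_add_one (κ1 * r)
    rw [← hm] at this
    linarith
  rw [← hm]
  set γ : M.ι → ℕ → S := fun i n => if M.wt i = 0 then 1 else pth a p (t i) n with hγ
  refine le_trans (measure_mono ?_) (H r ((le_max_left _ _).trans hr) F F' hF b hb D Dp hD γ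
    (p + m) ?_ ?_ ?_ ?_ ?_)
  · rintro z ⟨hzD, hz⟩
    refine ⟨hzD, fun i n hn => ?_⟩
    show b (M.f F (z * γ i n)) ≤ b (M.f F z) + η * r
    by_cases hi : M.wt i = 0
    · rw [hγ]
      simp only [if_pos hi, mul_one]
      have : 0 ≤ η * r := by positivity
      linarith
    · rw [hγ]
      simp only [if_neg hi]
      exact hz i hi n hn
  · -- number of steps
    push_cast
    have e1 : Real.exp (δ * r) ≤ Real.exp (η / 2 * r) :=
      Real.exp_le_exp.2 (mul_le_mul_of_nonneg_right hδ1 hr0)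
    have e2 : (1 + κ1 * r) + 1 ≤ Real.exp (η / 2 * r) := by
      refine le_trans ?_ h1
      rw [pow_one]
      nlinarith
    have e3 : Real.exp (η * r) = Real.exp (η / 2 * r) * Real.exp (η / 2 * r) := by
      rw [← Real.exp_add]; congr 1; ring
    have e4 : 2 ≤ Real.exp (η / 2 * r) := by
      have : 0 ≤ κ1 * r := by positivity
      linarith
    rw [e3]
    nlinarith
  · intro i
    rw [hγ]
    by_cases hi : M.wt i = 0
    · simp only [if_pos hi]
    · simp only [if_neg hi]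
      unfold pth
      rw [if_pos (Nat.zero_le _), ha0]
  · intro i n _
    rw [hγ]
    by_cases hi : M.wt i = 0
    · simp only [if_pos hi, inv_one, mul_one, M.len.one, Nat.cast_zero]
      have : 2 * M.C0 ≤ max (2 * M.C0) A := le_max_left _ _
      linarith
    · simp only [if_neg hi]
      exact M.pth_step (fun n hn => (hastep n hn).trans (le_max_left _ _))
        ((hA i).trans (le_max_right _ _)) n
  · intro i hi n
    rw [hγ]
    simp only [if_pos hi]
  · -- contraction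
    intro i hi
    rw [hγ]
    simp only [if_neg hi]
    obtain ⟨htC, htc'⟩ := htc i hi
    have hmem : (t i ^ m)⁻¹ ∈ M.CB (m * N) := M.CB_inv (M.CB_pow htC m)
    have hwt : M.wt i ∈ M.Wt := by
      rcases M.wt_mem i with h | h
      · exact M.Φ_sub h
      · exact absurd h hi
    rw [pth_end, hap, mul_inv_rev, map_mul, Module.End.mul_apply]
    have hin : M.Ad (M.ex w)⁻¹ (M.X i) ∈ M.Vw (M.wt i) := by
      rw [← M.ex_neg]
      exact M.Ad_ex_Vw ((M.Vw 0).neg_mem hw) (M.X_mem i)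
    have hsz : M.nm (M.Ad (M.ex w)⁻¹ (M.X i)) ≤ M.C0 * 2 ^ M.C0 * Real.exp (M.C0 * δ * r) := by
      rw [← M.ex_neg]
      refine (M.Ad_ex_le _ _).trans ?_
      rw [M.nm_neg]
      have e1 : 1 + M.nm w ≤ 2 * Real.exp (δ * r) := by
        have := Real.one_le_exp (show 0 ≤ δ * r by positivity)
        linarith
      have e2 : (1 + M.nm w) ^ M.C0 ≤ (2 * Real.exp (δ * r)) ^ M.C0 :=
        Real.rpow_le_rpow (by have := M.nm_nonneg w; linarith) e1 hC0.le
      rw [Real.mul_rpow (by norm_num) (Real.exp_pos _).le, ← Real.exp_mul] at e2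
      calc M.C0 * (1 + M.nm w) ^ M.C0 * M.nm (M.X i)
          ≤ M.C0 * (2 ^ M.C0 * Real.exp (δ * r * M.C0)) * 1 := by
            refine mul_le_mul (mul_le_mul_of_nonneg_left e2 hC0.le) (M.X_le i)
              (M.nm_nonneg _) (by positivity)
        _ = _ := by
            rw [mul_one, show δ * r * M.C0 = M.C0 * δ * r by ring]
            exact (mul_assoc _ _ _).symm
    have h4 := M.C_le (m * N) _ hmem (M.wt i) hwt _ hin
    have h5 : hgt M.η (t i ^ m)⁻¹ = -((m : ℝ) • M.θ (t i)) := by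
      show M.θ _ = _
      rw [M.θ_inv]
      congr 1
      clear hmem hm1 hm2 hm h4
      induction m with
      | zero => simp [M.θ_one]
      | succ n ih => rw [pow_succ, M.θ_mul, ih]; push_cast; rw [add_smul, one_smul]
    rw [h5, map_neg, map_smul, smul_eq_mul] at h4
    refine h4.trans ?_
    have h6 : 1 + ((m * N : ℕ) : ℝ) ≤ (1 + κ1 * N) * (1 + r) := by
      push_cast
      have e1 : (m : ℝ) * N ≤ κ1 * r * N := mul_le_mul_of_nonneg_right hm1 (Nat.cast_nonneg _)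
      have e2 : 0 ≤ κ1 * N := by positivity
      nlinarith
    have h7 : -((m : ℝ) * M.wt i (M.θ (t i))) ≤ c - κ1 * c * r := by
      have h8 : (m : ℝ) * c ≤ m * M.wt i (M.θ (t i)) :=
        mul_le_mul_of_nonneg_left htc' (Nat.cast_nonneg _)
      nlinarith
    have h8 : M.C0 * (1 + ((m * N : ℕ) : ℝ)) ^ M.deg ≤
        M.C0 * ((1 + κ1 * N) ^ M.deg * (1 + r) ^ M.deg) := by
      rw [← mul_pow]
      exact mul_le_mul_of_nonneg_left (pow_le_pow_left₀ (by positivity) h6 _) hC0.le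
    calc M.C0 * (1 + ((m * N : ℕ) : ℝ)) ^ M.deg *
          Real.exp (-((m : ℝ) * M.wt i (M.θ (t i)))) * M.nm (M.Ad (M.ex w)⁻¹ (M.X i))
        ≤ (M.C0 * ((1 + κ1 * N) ^ M.deg * (1 + r) ^ M.deg)) * Real.exp (c - κ1 * c * r) *
          (M.C0 * 2 ^ M.C0 * Real.exp (M.C0 * δ * r)) := by
          refine mul_le_mul (mul_le_mul h8 (Real.exp_le_exp.2 h7) (Real.exp_pos _).le
            (by positivity)) hsz (M.nm_nonneg _) (by positivity)
      _ = (M.C0 * (1 + κ1 * N) ^ M.deg * Real.exp c * (M.C0 * 2 ^ M.C0) * (1 + r) ^ M.deg) *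
          Real.exp (M.C0 * δ * r) * Real.exp (-(κ1 * c * r)) := by
          rw [sub_eq_add_neg, Real.exp_add]; ring
      _ ≤ Real.exp (κ1 * c / 2 * r) * Real.exp (κ1 * c / 4 * r) * Real.exp (-(κ1 * c * r)) := by
          refine mul_le_mul_of_nonneg_right (mul_le_mul h2 (Real.exp_le_exp.2
            (mul_le_mul_of_nonneg_right hδ3 hr0)) (Real.exp_pos _).le (Real.exp_pos _).le)
            (Real.exp_pos _).le
      _ = Real.exp (-(κ1 * c / 4 * r)) := by
          rw [← Real.exp_add, ← Real.exp_add]; congr 1; ring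

/-- differences along a one-parameter path -/
theorem zeta_inv_mul (y : V) (x x' : ℝ) : (M.ex (x • y))⁻¹ * M.ex (x' • y) =
    M.ex ((x' - x) • y) := by
  have h := M.ex_add x (x' - x) y
  rw [add_sub_cancel] at h
  rw [h, inv_mul_cancel_left]

theorem mu_preimage_le (g : S) (B : Set S) : M.μ ((fun z => z * g) ⁻¹' B) ≤ M.μ B := by
  calc M.μ ((fun z => z * g) ⁻¹' B) ≤ M.μ ((fun z => z * g) ⁻¹' (toMeasurable M.μ B)) :=
        measure_mono (preimage_mono (subset_toMeasurable _ _))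
    _ = M.μ (toMeasurable M.μ B) :=
        (M.mp g).measure_preimage (measurableSet_toMeasurable _ _).nullMeasurableSet
    _ = M.μ B := measure_toMeasurable _

/-- neutral flatness of one functional, path form -/
theorem nfp_one (K κ C₁ : ℝ) (hκ : 0 < κ) : ∃ (δ c₀ CR r₀ : ℝ), 0 < δ ∧ 0 < c₀ ∧
  ∀ r : ℝ, r₀ ≤ r →
  ∀ F F' : Γ → Γ, M.QIm K F F' → ∀ b ∈ M.Φ, ∀ D Dp : Set S, M.Fat (CR * r) C₁ D Dp →
  ∀ y ∈ M.Vw 0, M.nm y ≤ Real.exp (δ * r) →
  ∀ Din : Set S, (∀ z ∈ Din, ∀ x : ℝ, 0 ≤ x → x ≤ 1 → z * M.ex (x • y) ∈ D) →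
    M.μ {x | x ∈ Din ∧ κ * r < |b (M.f F (x * M.ex y)) - b (M.f F x)|} ≤
      ENNReal.ofReal (Real.exp (-(c₀ * r))) * M.μ D := by
  classical
  obtain ⟨t, A, c, N, hc, hA0, hA, htc⟩ := M.contr
  obtain ⟨L, hL, HS⟩ := M.spread_holds K
  have hL0 : 0 < L := by linarith
  have hC0 := M.C0_pos
  obtain ⟨κ1, hκ1⟩ : ∃ κ1 : ℝ, κ1 = κ / (L * (A + 1)) := ⟨_, rfl⟩
  have hκ10 : 0 < κ1 := by rw [hκ1]; positivity
  obtain ⟨δ, η, c₀, CR, r₀, hδ, hη, hc₀, hδc, H⟩ := M.gcl_tail K C₁ t hc hκ10 hA htc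
  have ev1 := ev_const (6 : ℝ) (ε := c₀ / 4) (by positivity)
  obtain ⟨r₁, hr₁⟩ := (ev1.and (eventually_ge_atTop (1 : ℝ))).exists_forall_of_atTop
  refine ⟨δ, c₀ / 2, CR, max r₀ r₁, hδ, by positivity, ?_⟩
  intro r hr F F' hF b hb D Dp hD y hy hyn Din hDin
  obtain ⟨h1, h2⟩ := hr₁ r ((le_max_right _ _).trans hr)
  have hrr : r₀ ≤ r := (le_max_left _ _).trans hr
  have hr0 : 0 ≤ r := by linarith
  obtain ⟨X, hX, -⟩ := HS F F' hF b hb
  obtain ⟨n, hn⟩ : ∃ n : ℕ, n = ⌈Real.exp (δ * r)⌉₊ := ⟨_, rfl⟩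
  have hn1 : Real.exp (δ * r) ≤ n := by rw [hn]; exact Nat.le_ceil _
  have hn2 : (n : ℝ) ≤ Real.exp (δ * r) + 1 := by
    rw [hn]; exact (Nat.ceil_lt_add_one (Real.exp_pos _).le).le
  have hn0 : (0 : ℝ) < n := lt_of_lt_of_le (Real.exp_pos _) hn1
  have hn0' : (n : ℝ) ≠ 0 := hn0.ne'
  obtain ⟨m, hm⟩ : ∃ m : ℕ, m = ⌊κ1 * r⌋₊ := ⟨_, rfl⟩
  have hm1 : (m : ℝ) ≤ κ1 * r := by rw [hm]; exact Nat.floor_le (by positivity)
  set ζ : ℕ → S := fun j => M.ex (((j : ℝ) / n) • y) with hζ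
  have hζ0 : ζ 0 = 1 := by
    rw [hζ]; simp [M.ex_zero]
  have hζn : ζ n = M.ex y := by
    rw [hζ]; simp only; rw [div_self hn0', one_smul]
  have hζd : ∀ j j' : ℕ, (ζ j)⁻¹ * ζ j' = M.ex (((j' : ℝ) / n - (j : ℝ) / n) • y) :=
    fun j j' => M.zeta_inv_mul y _ _
  have hstep : ∀ x : ℝ, |x| ≤ 1 / n → (M.l (M.ex (x • y)) : ℝ) ≤ 2 * M.C0 := by
    intro x hx
    refine (M.met_V _).trans ?_
    rw [map_smul_eq_mul, Real.norm_eq_abs]
    have e1 : |x| * M.nm y ≤ 1 := by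
      have e2 : |x| * M.nm y ≤ 1 / n * n :=
        mul_le_mul hx (hyn.trans hn1) (M.nm_nonneg _) (by positivity)
      rwa [one_div, inv_mul_cancel₀ hn0'] at e2
    have := mul_le_mul_of_nonneg_left e1 hC0.le
    linarith
  have hwn : ∀ x : ℝ, |x| ≤ 1 → M.nm (x • y) ≤ Real.exp (δ * r) := by
    intro x hx
    rw [map_smul_eq_mul, Real.norm_eq_abs]
    have := M.nm_nonneg y
    nlinarith
  -- the two families of paths
  have hfw : ∀ j ≤ n, M.μ (D ∩ Tol (fun z => b (M.f F z))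
      (fwd ζ (fun i k => t i ^ k) n j) (n - j + m) (η * r)) ≤
      ENNReal.ofReal (Real.exp (-(c₀ * r))) * M.μ D := by
    intro j hj
    have hjr : (j : ℝ) ≤ n := by exact_mod_cast hj
    have hcast : ((n - j : ℕ) : ℝ) = n - j := by push_cast [hj]; ring
    refine le_trans (measure_mono ?_) (H r hrr F F' hF b hb D Dp hD
      (fun q => (ζ j)⁻¹ * ζ (j + q)) (n - j) ((1 - (j : ℝ) / n) • y) ?_ ?_ ?_ ?_ ?_ ?_)
    · rintro z ⟨hzD, hz⟩
      refine ⟨hzD, fun i hi q hq => ?_⟩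
      rw [← hm] at hq
      have h3 := hz i q hq
      have e : fwd ζ (fun i k => t i ^ k) n j i q =
          pth (fun q => (ζ j)⁻¹ * ζ (j + q)) (n - j) (t i) q := by
        unfold fwd pth
        by_cases h4 : q ≤ n - j
        · rw [if_pos h4, if_pos h4]
        · rw [if_neg h4, if_neg h4]
          have : j + (n - j) = n := by omega
          simp only [this]
      rw [← e]
      exact h3
    · simp only [add_zero, inv_mul_cancel]
    · intro q hq
      have e : ((ζ j)⁻¹ * ζ (j + q))⁻¹ * ((ζ j)⁻¹ * ζ (j + (q + 1))) =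
          (ζ (j + q))⁻¹ * ζ (j + (q + 1)) := by group
      rw [e, hζd]
      apply hstep
      push_cast
      have : ((j : ℝ) + (q + 1)) / n - ((j : ℝ) + q) / n = 1 / n := by ring
      rw [this, abs_of_pos (by positivity)]
    · have : ((n - j : ℕ) : ℝ) ≤ n := by rw [hcast]; have : (0 : ℝ) ≤ j := Nat.cast_nonneg _; linarith
      exact this.trans hn2
    · rw [hζd]
      congr 2
      have : j + (n - j) = n := by omega
      rw [this, div_self hn0']
    · exact (M.Vw 0).smul_mem _ hy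
    · apply hwn
      have e1 : (j : ℝ) / n ≤ 1 := by rw [div_le_one hn0]; exact hjr
      have e2 : 0 ≤ (j : ℝ) / n := by positivity
      rw [abs_le]
      constructor <;> linarith
  have hbw : ∀ j ≤ n, M.μ (D ∩ Tol (fun z => b (M.f F z))
      (bwd ζ (fun i k => t i ^ k) j) (j + m) (η * r)) ≤
      ENNReal.ofReal (Real.exp (-(c₀ * r))) * M.μ D := by
    intro j hj
    have hjr : (j : ℝ) ≤ n := by exact_mod_cast hj
    refine le_trans (measure_mono ?_) (H r hrr F F' hF b hb D Dp hD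
      (fun q => (ζ j)⁻¹ * ζ (j - q)) j ((0 - (j : ℝ) / n) • y) ?_ ?_ ?_ ?_ ?_ ?_)
    · rintro z ⟨hzD, hz⟩
      refine ⟨hzD, fun i hi q hq => ?_⟩
      rw [← hm] at hq
      have h3 := hz i q hq
      have e : bwd ζ (fun i k => t i ^ k) j i q =
          pth (fun q => (ζ j)⁻¹ * ζ (j - q)) j (t i) q := by
        unfold bwd pth
        by_cases h4 : q ≤ j
        · rw [if_pos h4, if_pos h4]
        · rw [if_neg h4, if_neg h4]
          simp only [Nat.sub_self]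
      rw [← e]
      exact h3
    · simp only [Nat.sub_zero, inv_mul_cancel]
    · intro q hq
      have e : ((ζ j)⁻¹ * ζ (j - q))⁻¹ * ((ζ j)⁻¹ * ζ (j - (q + 1))) =
          (ζ (j - q))⁻¹ * ζ (j - (q + 1)) := by group
      rw [e, hζd]
      apply hstep
      have c1 : ((j - q : ℕ) : ℝ) = (j : ℝ) - q := by
        rw [Nat.cast_sub (by omega)]
      have c2 : ((j - (q + 1) : ℕ) : ℝ) = (j : ℝ) - (q + 1) := by
        rw [Nat.cast_sub (by omega)]; push_cast; ring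
      rw [c1, c2]
      have : ((j : ℝ) - (q + 1)) / n - ((j : ℝ) - q) / n = -(1 / n) := by ring
      rw [this, abs_neg, abs_of_pos (by positivity)]
    · exact hjr.trans hn2
    · rw [hζd]
      simp
    · exact (M.Vw 0).smul_mem _ hy
    · apply hwn
      have e1 : (j : ℝ) / n ≤ 1 := by rw [div_le_one hn0]; exact hjr
      have e2 : 0 ≤ (j : ℝ) / n := by positivity
      rw [abs_le]
      constructor <;> linarith
  have hmain := neutral_flat M.μ hX M.mu_preimage_le hζ0 (u := fun i k => t i ^ k) (n := n)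
    (m := m) (κ := κ * r) (τ := η * r) (by positivity) (by
      intro i q hq
      have e1 : (M.l (t i ^ q) : ℝ) ≤ q * A := by
        clear hq
        induction q with
        | zero => simp [M.len.one]
        | succ q ih =>
          rw [pow_succ]
          have h3 := M.len.mul (t i ^ q) (t i)
          have h4 : (M.l (t i ^ q * t i) : ℝ) ≤ M.l (t i ^ q) + M.l (t i) := by exact_mod_cast h3
          push_cast
          linarith [hA i]
      have e2 : (q : ℝ) * A ≤ κ1 * r * (A + 1) := by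
        have : (q : ℝ) ≤ κ1 * r := by
          have : (q : ℝ) ≤ m := by exact_mod_cast hq
          linarith
        exact mul_le_mul this (by linarith) hA0 (by positivity)
      have e3 : L * (κ1 * r * (A + 1)) = κ * r := by
        rw [hκ1]; field_simp
      calc L * (M.l (t i ^ q) : ℝ) ≤ L * (κ1 * r * (A + 1)) :=
            mul_le_mul_of_nonneg_left (e1.trans e2) hL0.le
        _ = κ * r := e3)
    (D := Din) (Dp := D) (by
      intro z hz j hj
      apply hDin z hz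
      · positivity
      · rw [div_le_one hn0]; exact_mod_cast hj)
    (θ := ENNReal.ofReal (Real.exp (-(c₀ * r))) * M.μ D) hfw hbw
  rw [hζn] at hmain
  refine hmain.trans ?_
  rw [← mul_assoc]
  gcongr
  rw [← ENNReal.ofReal_natCast, ← ENNReal.ofReal_mul (Nat.cast_nonneg _)]
  apply ENNReal.ofReal_le_ofReal
  push_cast
  have e0 : 1 ≤ Real.exp (δ * r) := Real.one_le_exp (by positivity)
  have e1 : 2 * ((n : ℝ) + 1) ≤ 6 * Real.exp (c₀ / 4 * r) := by
    have : Real.exp (δ * r) ≤ Real.exp (c₀ / 4 * r) :=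
      Real.exp_le_exp.2 (mul_le_mul_of_nonneg_right hδc hr0)
    linarith
  calc 2 * ((n : ℝ) + 1) * Real.exp (-(c₀ * r))
      ≤ (Real.exp (c₀ / 4 * r) * Real.exp (c₀ / 4 * r)) * Real.exp (-(c₀ * r)) := by
        refine mul_le_mul_of_nonneg_right (e1.trans ?_) (Real.exp_pos _).le
        exact mul_le_mul_of_nonneg_right h1 (Real.exp_pos _).le
    _ = Real.exp (-(c₀ / 2 * r)) := by
        rw [← Real.exp_add, ← Real.exp_add]; congr 1; ring

/-- **Neutral flatness, path form.** -/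
theorem nfp_holds : M.NFp := by
  classical
  intro K κ C₁ hκ
  obtain ⟨L, hL, hnorm⟩ := M.norm_of_Φ
  obtain ⟨δ, c₀, CR, r₀, hδ, hc₀, H⟩ := M.nfp_one K (κ / L) C₁ (by positivity)
  have ev1 := ev_const (M.Φ.card : ℝ) (ε := c₀ / 2) (by positivity)
  obtain ⟨r₁, hr₁⟩ := (ev1.and (eventually_ge_atTop (0 : ℝ))).exists_forall_of_atTop
  refine ⟨δ, c₀ / 2, CR, max r₀ r₁, hδ, by positivity, ?_⟩
  intro r hr F F' hF D Dp hD y hy hyn Din hDin
  obtain ⟨h1, h2⟩ := hr₁ r ((le_max_right _ _).trans hr)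
  have hsub : {x | x ∈ Din ∧ κ * r < ‖M.f F (x * M.ex y) - M.f F x‖} ⊆
      ⋃ b ∈ M.Φ, {x | x ∈ Din ∧ κ / L * r < |b (M.f F (x * M.ex y)) - b (M.f F x)|} := by
    rintro x ⟨hx, hlt⟩
    by_contra hcon
    rw [mem_iUnion₂] at hcon
    push Not at hcon
    have h3 := hnorm (M.f F (x * M.ex y) - M.f F x) (κ / L * r) (by positivity) (by
      intro b hb
      rw [map_sub]
      by_contra h4
      exact hcon b hb ⟨hx, not_le.1 h4⟩)
    have h4 : L * (κ / L * r) = κ * r := by field_simp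
    rw [h4] at h3
    exact absurd hlt (not_lt.2 h3)
  calc M.μ {x | x ∈ Din ∧ κ * r < ‖M.f F (x * M.ex y) - M.f F x‖}
      ≤ M.μ (⋃ b ∈ M.Φ, {x | x ∈ Din ∧
          κ / L * r < |b (M.f F (x * M.ex y)) - b (M.f F x)|}) := measure_mono hsub
    _ ≤ ∑ b ∈ M.Φ, M.μ {x | x ∈ Din ∧
          κ / L * r < |b (M.f F (x * M.ex y)) - b (M.f F x)|} := measure_biUnion_finset_le _ _
    _ ≤ ∑ b ∈ M.Φ, ENNReal.ofReal (Real.exp (-(c₀ * r))) * M.μ D :=
        Finset.sum_le_sum fun b hb => H r ((le_max_left _ _).trans hr) F F' hF b hb D Dp hD y hy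
          hyn Din hDin
    _ = (M.Φ.card : ENNReal) * (ENNReal.ofReal (Real.exp (-(c₀ * r))) * M.μ D) := by
        rw [Finset.sum_const, nsmul_eq_mul]
    _ ≤ ENNReal.ofReal (Real.exp (c₀ / 2 * r)) *
          (ENNReal.ofReal (Real.exp (-(c₀ * r))) * M.μ D) := by
        gcongr
        rw [← ENNReal.ofReal_natCast]
        exact ENNReal.ofReal_le_ofReal h1
    _ = ENNReal.ofReal (Real.exp (-(c₀ / 2 * r))) * M.μ D := by
        rw [← mul_assoc, ← ENNReal.ofReal_mul (Real.exp_pos _).le, ← Real.exp_add]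
        congr 3
        ring

/-- **Neutral flatness, fat version.** -/
theorem nf_holds : M.NF := by
  classical
  intro K κ C₁ hκ
  obtain ⟨δp, c₀, CRp, r₀, hδp, hc₀, H⟩ := M.nfp_holds K κ C₁ hκ
  obtain ⟨Ca, hCa, hlen⟩ := M.fb_of_len
  obtain ⟨Cb, hCb, hmul⟩ := M.fb_mul
  have hC0 := M.C0_pos
  refine ⟨min δp 1, lt_min hδp one_pos, fun δ hδ hδ1 => ?_⟩
  have hδp' : δ ≤ δp := hδ1.trans (min_le_left _ _)
  have hδ1' : δ ≤ 1 := hδ1.trans (min_le_right _ _)
  obtain ⟨q, hq⟩ : ∃ q : ℝ, q = |CRp| + 1 := ⟨_, rfl⟩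
  have hq1 : 1 ≤ q := by rw [hq]; linarith [abs_nonneg CRp]
  obtain ⟨r₁, hr₁⟩ := (hlen δ hδ).exists_forall_of_atTop
  obtain ⟨r₂, hr₂⟩ := (hmul δ hδ hδ1').exists_forall_of_atTop
  have ev1 := ev_const (1 + |C₁|) (ε := c₀ / 2) (by positivity)
  obtain ⟨r₃, hr₃⟩ := (ev1.and (eventually_ge_atTop
    (1 + 2 * M.C0 + M.l (M.τ 0)))).exists_forall_of_atTop
  refine ⟨c₀ / 2, Cb * (Cb * (Ca * q)), max (max r₀ r₁) (max r₂ r₃), by positivity, ?_⟩
  intro r hr F F' hF D Dp hD y hy hyn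
  have hR0 : r₀ ≤ r := ((le_max_left _ _).trans (le_max_left _ _)).trans hr
  have hR1 : r₁ ≤ r := ((le_max_right _ _).trans (le_max_left _ _)).trans hr
  have hR2 : r₂ ≤ r := ((le_max_left _ _).trans (le_max_right _ _)).trans hr
  obtain ⟨h1, h2⟩ := hr₃ r (((le_max_right _ _).trans (le_max_right _ _)).trans hr)
  have hl0 : (0 : ℝ) ≤ M.l (M.τ 0) := Nat.cast_nonneg _
  have hr1 : 1 ≤ r := by linarith
  have hr0 : 0 ≤ r := by linarith
  have hqr : r ≤ q * r := by nlinarith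
  have hCaq : q * r ≤ Ca * (q * r) := by nlinarith
  have hCaq0 : 0 ≤ Ca * (q * r) := by linarith
  have hCbq : Ca * (q * r) ≤ Cb * (Ca * (q * r)) := by nlinarith
  have hCbq2 : Cb * (Ca * (q * r)) ≤ Cb * (Cb * (Ca * (q * r))) := by nlinarith
  have hCRe : Cb * (Cb * (Ca * q)) * r = Cb * (Cb * (Ca * (q * r))) := by ring
  have hρ : |CRp| * r + M.C0 + M.C0 + M.l (M.τ 0) ≤ q * r := by
    rw [hq]; linarith
  -- the inner set
  obtain ⟨B, hB⟩ : ∃ B : Set Γ, B = {γ | ∀ g, (M.l g : ℝ) ≤ |CRp| * r + M.C0 →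
    M.inG γ * g ∈ Dp} := ⟨_, rfl⟩
  have hmemB : ∀ z, z ∈ M.cells B ↔ ∀ g, (M.l g : ℝ) ≤ |CRp| * r + M.C0 →
      M.inG (M.fl z) * g ∈ Dp := by
    intro z
    rw [hB]
    rfl
  have hfl : ∀ z g : S, (M.l ((M.inG (M.fl z))⁻¹ * z * g) : ℝ) ≤ M.C0 + M.l g := by
    intro z g
    have e1 := M.len.mul ((M.inG (M.fl z))⁻¹ * z) g
    have e2 : (M.l ((M.inG (M.fl z))⁻¹ * z * g) : ℝ) ≤ M.l ((M.inG (M.fl z))⁻¹ * z) + M.l g := by
      exact_mod_cast e1
    have e3 := M.fl_close z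
    linarith
  have hfl' : ∀ z g : S, (M.l (z⁻¹ * M.inG (M.fl z) * g) : ℝ) ≤ M.C0 + M.l g := by
    intro z g
    have e1 := M.len.mul (z⁻¹ * M.inG (M.fl z)) g
    have e2 : (M.l (z⁻¹ * M.inG (M.fl z) * g) : ℝ) ≤ M.l (z⁻¹ * M.inG (M.fl z)) + M.l g := by
      exact_mod_cast e1
    have e3 := M.fl_close z
    rw [← M.l_comm] at e3
    linarith
  have hDB : ∀ z ∈ D, ∀ x : ℝ, 0 ≤ x → x ≤ 1 → z * M.ex (x • y) ∈ M.cells B := by
    intro z hz x hx0 hx1
    rw [hmemB]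
    intro g hg
    set z' : S := z * M.ex (x • y) with hz'
    have e1 : M.inG (M.fl z') * g =
        z * ((M.ex (x • y) * M.τ 0) * ((M.τ 0)⁻¹ * (z'⁻¹ * M.inG (M.fl z') * g))) := by
      rw [hz']; group
    rw [e1]
    apply hD.subf z hz
    have e2 : (M.l ((M.τ 0)⁻¹ * (z'⁻¹ * M.inG (M.fl z') * g)) : ℝ) ≤ q * r := by
      have e3 := M.len.mul (M.τ 0)⁻¹ (z'⁻¹ * M.inG (M.fl z') * g)
      rw [M.len.inv] at e3
      have e4 : (M.l ((M.τ 0)⁻¹ * (z'⁻¹ * M.inG (M.fl z') * g)) : ℝ) ≤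
          M.l (M.τ 0) + M.l (z'⁻¹ * M.inG (M.fl z') * g) := by exact_mod_cast e3
      have e5 := hfl' z' g
      linarith
    have e6 := hr₁ (q * r) (hR1.trans hqr) _ e2
    have e7 : M.ex (x • y) * M.τ 0 ∈ M.FB δ (Ca * (q * r)) := by
      refine ⟨0, M.e.zero_mem, ?_, x • y, (M.Vw 0).smul_mem _ hy, ?_, 0, ?_, ?_⟩
      · rw [map_zero]; exact (Real.exp_pos _).le
      · rw [map_smul_eq_mul, Real.norm_eq_abs, abs_of_nonneg hx0]
        have e8 : x * M.nm y ≤ 1 * M.nm y := mul_le_mul_of_nonneg_right hx1 (M.nm_nonneg y)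
        have e9 : Real.exp (δ * r) ≤ Real.exp (δ * (Ca * (q * r))) :=
          Real.exp_le_exp.2 (mul_le_mul_of_nonneg_left (hqr.trans hCaq) hδ.le)
        linarith
      · intro i
        simpa using hCaq0
      · rw [M.ex_zero, one_mul]
    refine M.FB_mono ?_ ?_ (hr₂ (Ca * (q * r)) (hR2.trans (hqr.trans hCaq)) _ e7 _ e6)
    · rw [hCRe]; exact hCbq2
    · rw [hCRe]
      exact le_of_eq (by ring)
  have hDsub : D ⊆ M.cells B := by
    intro z hz
    have := hDB z hz 0 le_rfl zero_le_one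
    rwa [zero_smul, M.ex_zero, mul_one] at this
  have hBDp : ∀ z ∈ M.cells B, ∀ g, (M.l g : ℝ) ≤ |CRp| * r → z * g ∈ Dp := by
    intro z hz g hg
    have := (hmemB z).1 hz ((M.inG (M.fl z))⁻¹ * z * g) ((hfl z g).trans (by linarith))
    have e : M.inG (M.fl z) * ((M.inG (M.fl z))⁻¹ * z * g) = z * g := by group
    rwa [e] at this
  have hBsub : M.cells B ⊆ Dp := by
    intro z hz
    have := hBDp z hz 1 (by rw [M.len.one]; simp; positivity)
    rwa [mul_one] at this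
  have hμ : M.μ (M.cells B) ≤ ENNReal.ofReal (1 + |C₁|) * M.μ D := by
    refine (measure_mono hBsub).trans (hD.le.trans ?_)
    gcongr
    exact le_abs_self _
  have hFat : M.Fat (CRp * r) C₁ (M.cells B) Dp :=
    { meas := M.measurableSet_cells B
      meas' := hD.meas'
      pos := fun h => hD.pos (le_antisymm ((measure_mono hDsub).trans h.le) zero_le)
      fin := ne_top_of_le_ne_top (ENNReal.mul_ne_top ENNReal.ofReal_ne_top hD.fin) hμ
      sub := fun z hz g hg => hBDp z hz g (hg.trans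
        (mul_le_mul_of_nonneg_right (le_abs_self _) hr0))
      le := hD.le.trans (by gcongr) }
  have hfin := H r hR0 F F' hF (M.cells B) Dp hFat y hy (hyn.trans (Real.exp_le_exp.2
    (mul_le_mul_of_nonneg_right hδp' hr0))) D hDB
  refine hfin.trans ?_
  calc ENNReal.ofReal (Real.exp (-(c₀ * r))) * M.μ (M.cells B)
      ≤ ENNReal.ofReal (Real.exp (-(c₀ * r))) * (ENNReal.ofReal (1 + |C₁|) * M.μ D) := by gcongr
    _ ≤ ENNReal.ofReal (Real.exp (-(c₀ * r))) *
          (ENNReal.ofReal (Real.exp (c₀ / 2 * r)) * M.μ D) := by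
        gcongr
    _ = ENNReal.ofReal (Real.exp (-(c₀ / 2 * r))) * M.μ D := by
        rw [← mul_assoc, ← ENNReal.ofReal_mul (Real.exp_pos _).le, ← Real.exp_add]
        congr 3
        ring

end RModel

end Vale.Agent.P188.Z1
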