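import Vale.Agent.P188.Z1.Neut2
import Vale.Agent.P188.Z1.Nf

/-!
# P188, Z1: NEUT holds for every model
-/

namespace Vale.Agent.P188.Z1

/-- **NEUT** holds for every natural box structure. -/
theorem RModel.neut_holds {S : Type} [Group S] [MeasurableSpace S] {Γ : Type} [Group Γ]
    {V : Type} [AddCommGroup V] [Module ℝ V] {k : ℕ} (M : RModel S Γ V k) (B : M.NatBox)
    (hB : B.Fine) : M.NEUT B :=
  DB.neut B hB M.nfp_holds

end Vale.Agent.P188.Z1
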