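import Vale.Agent.P188.Z1.InB1
import Vale.Agent.P188.Z1.LabS
import Vale.Agent.P188.Z1.Neut3
import Vale.Agent.P188.H789.Geo1

/-!
# P188, route B: the hypothesis INPUT of `Geo` from FLAT1 (first part: the constants)
-/

set_option linter.all false

open MeasureTheory Set Filter Topology
open Vale.Agent.P188.H615 (RayD)
open Vale.P188.H532 (Geo Input IsC NFl Wd)
open scoped ENNReal

namespace Vale.Agent.P188.Z1

variable {S : Type} [Group S] [MeasurableSpace S] {Γ : Type} [Group Γ]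
  {V : Type} [AddCommGroup V] [Module ℝ V] {k : ℕ} {M : RModel S Γ V k}
  {J L : Type} [Fintype J] [DecidableEq J] [Fintype L]

namespace InB

open RModel

/-- the dictionary between the geometric interface and the real model -/
structure FitsI (B : M.NatBox) (Rd : RayD M J) (G : Geo S M.NR (Ht k) J L) (δ₁ : ℝ) : Prop where
  θ : ∀ z, G.θ z = M.θ z
  l : ∀ z, G.l z = M.l z
  inc : ∀ n : M.NR, G.inc n = (n : S)
  ν : G.ν = M.nu
  N : ∀ ρ, G.N ρ = Rd.NE B ρ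
  b : ∀ j v, G.b j v = Rd.b j v
  t : ∃ v : J → Fin k → ℤ, ∀ j, G.t j = M.τ (v j)
  p : ∀ j, G.p j = en (Rd.b j)
  δ0 : G.δ0 ≤ δ₁
  Y0 : ∃ A : ℝ, ∀ r, 0 ≤ r → ∀ y ∈ G.Y0 r, ∃ v ∈ M.Vw 0, M.nm v ≤ Real.exp (A * (r + 1)) ∧
    (y : S) = M.ex v

variable {B : M.NatBox} {Rd : RayD M J} {G : Geo S M.NR (Ht k) J L} {δ₁ : ℝ}

/-- measures of sets of slices -/
theorem FitsI.meas_eq (hG : FitsI B Rd G δ₁) (ρ : Option J → ℝ) (P : S → Prop) :
    G.ν {n | n ∈ G.N ρ ∧ P (G.inc n)} = M.μ {v | v ∈ B.Bx (Rd.sz ρ) ∧ P v} := by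
  rw [hG.ν, hG.N]
  have h1 : {n : M.NR | n ∈ Rd.NE B ρ ∧ P (G.inc n)} =
      Subtype.val ⁻¹' {v | v ∈ B.Bx (Rd.sz ρ) ∧ P v} := by
    ext n
    simp only [mem_setOf_eq, mem_preimage, hG.inc]
    rfl
  rw [h1]
  exact M.nu_preimage fun x hx => B.sub _ x hx.1

theorem FitsI.meas_N (hG : FitsI B Rd G δ₁) (ρ : Option J → ℝ) :
    G.ν (G.N ρ) = M.μ (B.Bx (Rd.sz ρ)) := by
  have h := hG.meas_eq ρ fun _ => True
  simpa using h

theorem FitsI.Wd_eq (hG : FitsI B Rd G δ₁) (F : Γ → Γ) (z : S) :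
    Wd G (H789.lf M F) z = M.f F z - M.θ z := by
  unfold Wd
  rw [hG.θ, hG.θ]
  rfl

theorem l_pow_le (x : S) (n : ℕ) : (M.l (x ^ n) : ℝ) ≤ n * M.l x := by
  induction n with
  | zero => rw [pow_zero, M.len.one]; simp
  | succ n ih =>
    rw [pow_succ]
    have h1 : (M.l (x ^ n * x) : ℝ) ≤ M.l (x ^ n) + M.l x := by exact_mod_cast M.len.mul _ _
    push_cast
    linarith

theorem θ_pow (x : S) (n : ℕ) : M.θ (x ^ n) = (n : ℝ) • M.θ x := by
  induction n with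
  | zero => rw [pow_zero, M.θ_one]; simp
  | succ n ih =>
    rw [pow_succ, M.θ_mul, ih]
    push_cast
    rw [add_smul, one_smul]

/-- transfer of the flatness of a slice `h'` to a slice `h` -/
theorem FitsI.slice (hG : FitsI B Rd G δ₁) {F : Γ → Γ} {x η ε : ℝ} {ρ : Option J → ℝ}
    {g h h' : S} {c : Ht k} (hε : ε ≤ η)
    (herr : ∀ z : S, ‖M.f F (z * h) - M.f F (z * h') - (M.θ h - M.θ h')‖ ≤ (η - ε) * x)
    (H : M.μ {v | v ∈ B.Bx (Rd.sz ρ) ∧ ε * x < ‖M.f F (g * (v * h')) - c - M.θ h'‖} ≤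
      ENNReal.ofReal ε * M.μ (B.Bx (Rd.sz ρ))) :
    G.ν {n | n ∈ G.N ρ ∧ η * x < ‖Wd G (H789.lf M F) (g * G.inc n * h) - (c - M.θ g)‖} ≤
      ENNReal.ofReal η * G.ν (G.N ρ) := by
  rw [hG.meas_eq ρ fun v => η * x < ‖Wd G (H789.lf M F) (g * v * h) - (c - M.θ g)‖, hG.meas_N]
  refine (measure_mono ?_).trans (H.trans (mul_le_mul' (ENNReal.ofReal_le_ofReal hε) le_rfl))
  rintro v ⟨hv, h1⟩
  refine ⟨hv, ?_⟩
  have hθv : M.θ v = 0 := by
    have := M.θ_of_η (x := v) (y := 1) (by rw [B.sub _ v hv, map_one])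
    rw [this, M.θ_one]
  rw [hG.Wd_eq, M.θ_mul, M.θ_mul, hθv, add_zero] at h1
  have h2 := herr (g * v)
  have e1 : M.f F (g * v * h) - (M.θ g + M.θ h) - (c - M.θ g) =
      (M.f F (g * v * h) - M.f F (g * v * h') - (M.θ h - M.θ h')) +
      (M.f F (g * (v * h')) - c - M.θ h') := by
    rw [← mul_assoc g v h']
    abel
  rw [e1] at h1
  have h3 := norm_add_le (M.f F (g * v * h) - M.f F (g * v * h') - (M.θ h - M.θ h'))
    (M.f F (g * (v * h')) - c - M.θ h')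
  linarith

/-- cutting the exponent -/
theorem exists_cut {ρi β κ : ℝ} {m : ℕ} (hβ : 0 < β) (hρ : 0 ≤ ρi) (hκ1 : κ ≤ 1)
    (hm : m * β ≤ ρi) : ∃ m' : ℕ, m' ≤ m ∧ m' * β ≤ (1 - κ) * ρi ∧
      (m : ℝ) - m' ≤ max 0 κ * ρi / β + 1 := by
  by_cases h : m * β ≤ (1 - κ) * ρi
  · refine ⟨m, le_rfl, h, ?_⟩
    rw [sub_self]
    have : 0 ≤ max 0 κ := le_max_left _ _
    positivity
  · push Not at h
    have h0 : 0 ≤ (1 - κ) * ρi / β := by
      have : 0 ≤ 1 - κ := by linarith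
      positivity
    have h1 := Nat.floor_le h0
    have h2 := Nat.lt_floor_add_one ((1 - κ) * ρi / β)
    rw [le_div_iff₀ hβ] at h1
    refine ⟨⌊(1 - κ) * ρi / β⌋₊, ?_, h1, ?_⟩
    · have h3 : ((⌊(1 - κ) * ρi / β⌋₊ : ℕ) : ℝ) < m := by
        have : ((⌊(1 - κ) * ρi / β⌋₊ : ℕ) : ℝ) * β < m * β := by linarith
        exact lt_of_mul_lt_mul_right this hβ.le
      exact_mod_cast h3.le
    · have h3 : (m : ℝ) ≤ ρi / β := by rw [le_div_iff₀ hβ]; exact hm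
      have h4 : (1 - κ) * ρi / β = ρi / β - κ * (ρi / β) := by ring
      have h5 : κ * (ρi / β) ≤ max 0 κ * (ρi / β) :=
        mul_le_mul_of_nonneg_right (le_max_right _ _) (by positivity)
      have h6 : max 0 κ * ρi / β = max 0 κ * (ρi / β) := by ring
      rw [h6]
      linarith

/-- the error of cutting a power -/
theorem pow_err {K : ℝ} {F F' : Γ → Γ} (hF : M.QIm K F F') {t : S} {Lt : ℝ}
    (ht : (M.l t : ℝ) ≤ Lt) {m m' : ℕ} (hm : m' ≤ m) (z : S) :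
    ‖M.f F (z * t ^ m) - M.f F (z * t ^ m') - (M.θ (t ^ m) - M.θ (t ^ m'))‖ ≤
      (M.C0 * K * (2 * M.C0 + 1) * Lt + M.C0 * Lt) * (m - m' : ℝ) +
        M.C0 * K * (2 * M.C0 + 1) := by
  obtain ⟨n, rfl⟩ := Nat.exists_eq_add_of_le hm
  have hL : 0 ≤ M.C0 * K * (2 * M.C0 + 1) := by
    have := hF.K_nonneg
    have := M.one_le_C0
    positivity
  have e1 : ((m' + n : ℕ) : ℝ) - m' = n := by push_cast; ring
  rw [e1, pow_add, ← mul_assoc, M.θ_mul (t ^ m'), add_sub_cancel_left]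
  have h1 := hF.f_lip (z * t ^ m') (t ^ n)
  have h2 := l_pow_le (M := M) t n
  have h3 : (M.l (t ^ n) : ℝ) ≤ n * Lt := h2.trans (mul_le_mul_of_nonneg_left ht (Nat.cast_nonneg _))
  have h4 := M.θ_le (t ^ n)
  have h5 : M.C0 * (M.l (t ^ n) : ℝ) ≤ M.C0 * (n * Lt) :=
    mul_le_mul_of_nonneg_left h3 (by linarith [M.one_le_C0])
  have h6 : M.C0 * K * (2 * M.C0 + 1) * ((M.l (t ^ n) : ℝ) + 1) ≤
      M.C0 * K * (2 * M.C0 + 1) * (n * Lt + 1) := mul_le_mul_of_nonneg_left (by linarith) hL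
  have h7 := norm_sub_le (M.f F (z * t ^ m' * t ^ n) - M.f F (z * t ^ m')) (M.θ (t ^ n))
  calc _ ≤ M.C0 * K * (2 * M.C0 + 1) * (n * Lt + 1) + M.C0 * (n * Lt) := by linarith
    _ = _ := by ring

end InB

end Vale.Agent.P188.Z1
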