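import Vale.Agent.P188.Z1.DBox2

/-!
# P188, Z1, block DBOX: the theorems DBOX and DVOL
-/

set_option linter.all false

open MeasureTheory Set Filter Topology
open Vale.Agent.P188.H530 (hgt hgt_mul)
open Vale.Agent.P188.H540 (vec LP LP_finite lat_ratio vec_injective tendsto_LP)
open scoped Pointwise ENNReal

namespace Vale.Agent.P188.Z1

namespace DB

variable {S : Type} [Group S] [MeasurableSpace S] {Γ : Type} [Group Γ]
  {V : Type} [AddCommGroup V] [Module ℝ V] {k : ℕ} {M : RModel S Γ V k}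

open RModel

theorem exists_pos_lt {α : Type*} (s : Finset α) (f : α → ℝ) (hf : ∀ a ∈ s, 0 < f a) :
    ∃ x : ℝ, 0 < x ∧ x ≤ 1 ∧ ∀ a ∈ s, x < f a := by
  classical
  induction s using Finset.induction_on with
  | empty => exact ⟨1, one_pos, le_rfl, by simp⟩
  | insert a s ha ih =>
    obtain ⟨x, hx, hx1, h⟩ := ih fun b hb => hf b (Finset.mem_insert_of_mem hb)
    have h1 := hf a (Finset.mem_insert_self a s)
    refine ⟨min x (f a / 2), lt_min hx (by linarith), (min_le_left _ _).trans hx1, ?_⟩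
    intro b hb
    rcases Finset.mem_insert.1 hb with rfl | hb
    · have := min_le_right x (f b / 2)
      linarith
    · exact lt_of_le_of_lt (min_le_left _ _) (h b hb)

/-- multiplication of a point of the box set by a small element -/
theorem mul_mem_BW (B : M.NatBox) {d₁ s Λ ε δm t u : ℝ} (hΛ : 0 < Λ)
    (hmul : ∀ R : M.ι → ℝ, (∀ i, 0 ≤ R i) → ∀ x ∈ B.Bx R, ∀ y ∈ B.Bx (fun i => δm * R i),
      x * y ∈ B.Bx (fun i => (1 + ε) * R i) ∧ y * x ∈ B.Bx (fun i => (1 + ε) * R i))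
    {z g : S} (hz : z ∈ BW M (B.Bx fun i => Λ * M.sz d₁ s i) (Wn M u))
    (hx : M.τ (Multiplicative.toAdd (M.η z)) * g *
      (M.sec (M.τ (Multiplicative.toAdd (M.η z)) * g))⁻¹ ∈ B.Bx (fun i => (δm * Λ) * M.sz d₁ s i))
    (hg : ∀ b ∈ M.Φ, b (M.θ g) ≤ (t - 1) * u * en b) :
    z * g ∈ BW M (B.Bx fun i => (1 + ε) * (Λ * M.sz d₁ s i)) (Wn M (t * u)) := by
  have hsz : ∀ i, 0 ≤ Λ * M.sz d₁ s i := by
    intro i
    unfold sz
    split_ifs <;> positivity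
  refine ⟨?_, ?_⟩
  · rw [part_mul]
    have h1 : (fun i => (δm * Λ) * M.sz d₁ s i) = fun i => δm * (Λ * M.sz d₁ s i) := by
      funext i; ring
    rw [h1] at hx
    exact (hmul _ hsz _ hz.1 _ hx).1
  · intro b hb
    have h1 : b (M.θ z) ≤ u * en b := hz.2 b hb
    have h2 := hg b hb
    show b (M.θ (z * g)) ≤ t * u * en b
    rw [M.θ_mul, map_add]
    linarith

theorem natCast_le_ofReal {a b : ℕ} {c : ℝ} (hc : 0 ≤ c) (h : (a : ℝ) ≤ c * b) :
    (a : ℝ≥0∞) ≤ ENNReal.ofReal c * b := by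
  rw [← ENNReal.ofReal_natCast, ← ENNReal.ofReal_natCast, ← ENNReal.ofReal_mul hc]
  exact ENNReal.ofReal_le_ofReal h

/-- **DBOX** -/
theorem dbox (B : M.NatBox) (hB : B.Fine) : M.DBOX B := by
  classical
  intro κ hκ hκ1 Λ hΛ κ₂ hκ₂
  set κ' : ℝ := min κ₂ 1 / 4 with hκ'
  have hκ'0 : 0 < κ' := by have := lt_min hκ₂ one_pos; positivity
  have hκ'2 : (1 + κ') * (1 + κ') ≤ 1 + κ₂ := by
    have h1 : 4 * κ' ≤ κ₂ := by rw [hκ']; have := min_le_left κ₂ 1; linarith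
    have h2 : 4 * κ' ≤ 1 := by rw [hκ']; have := min_le_right κ₂ 1; linarith
    nlinarith
  obtain ⟨t, ht, s₁, hs₁, hratio⟩ := Wn_ratio (M := M) hκ'0
  obtain ⟨δv, hδv, hvol⟩ := hB.fvol κ' hκ'0
  obtain ⟨δm, hδm, hδm1, hmul⟩ := hB.fmul δv hδv
  obtain ⟨C', hC'1, hsmall⟩ := small_mem B
  obtain ⟨C'', hC''1, hdec⟩ := exists_dec_small M
  have hC0 := M.one_le_C0
  obtain ⟨κ₁, hκ₁, hκ₁1, hκ₁b⟩ := exists_pos_lt M.Φ
    (fun b => min (κ * en b / C') ((t - 1) * (1 - κ) * en b / (M.C0 * (‖b‖ + 1)))) (by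
      intro b hb
      have := en_pos (M.Φ_ne b hb)
      refine lt_min (by positivity) ?_
      have h1 : 0 < t - 1 := by linarith
      have h2 : 0 < 1 - κ := by linarith
      positivity)
  refine ⟨κ₁, hκ₁, ?_⟩
  intro d₁ δ hd₁ hδ hδd
  have hb1 : ∀ b ∈ M.Φ, C' * κ₁ < κ * en b := by
    intro b hb
    have h1 := lt_of_lt_of_le (hκ₁b b hb) (min_le_left _ _)
    rw [lt_div_iff₀ (by linarith)] at h1
    linarith
  have hb2 : ∀ b ∈ M.Φ, ‖b‖ * (M.C0 * κ₁) ≤ (t - 1) * (1 - κ) * en b := by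
    intro b hb
    have h1 := lt_of_lt_of_le (hκ₁b b hb) (min_le_right _ _)
    rw [lt_div_iff₀ (by positivity)] at h1
    have h2 := norm_nonneg b
    have h3 : 0 < M.C0 * κ₁ := by positivity
    nlinarith
  have hev := hsmall κ κ₁ δ d₁ (δm * Λ) hκ hκ1 hκ₁ hκ₁1 hb1 hδ hδd (by positivity)
  obtain ⟨s₀, hs₀⟩ := hev.exists_forall_of_atTop
  refine ⟨max (max s₀ 1) (s₁ / (1 - κ)), fun s hs => ?_⟩
  have hss₀ : s₀ ≤ s := (le_max_left _ _).trans ((le_max_left _ _).trans hs)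
  have hs1 : 1 ≤ s := (le_max_right _ _).trans ((le_max_left _ _).trans hs)
  have hss₁ : s₁ ≤ (1 - κ) * s := by
    have h1 : s₁ / (1 - κ) ≤ s := (le_max_right _ _).trans hs
    rw [div_le_iff₀ (by linarith)] at h1
    linarith
  have hu0 : 0 < (1 - κ) * s := hs₁.trans_le hss₁
  have hsz : ∀ i, 0 < Λ * M.sz d₁ s i := by
    intro i
    unfold sz
    split_ifs <;> positivity
  set D : Set S := BW M (B.Bx fun i => Λ * M.sz d₁ s i) (Wn M ((1 - κ) * s)) with hD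
  set Dp : Set S := BW M (B.Bx fun i => (1 + δv) * (Λ * M.sz d₁ s i)) (Wn M (t * ((1 - κ) * s)))
    with hDp
  have hsub : ∀ z ∈ D, ∀ g, ((M.l g : ℝ) ≤ κ₁ * s ∨ g ∈ M.FB δ (κ₁ * s)) → z * g ∈ Dp := by
    intro z hz g hg
    refine mul_mem_BW B hΛ hmul hz (hs₀ s hss₀ _ hz.2 g hg) ?_
    intro b hb
    obtain ⟨_, _, _, _, _, _, _, _, _, _, _, hθ⟩ := hdec κ₁ δ s hκ₁ hκ₁1 hδ hs1 g hg
    have h1 : b (M.θ g) ≤ ‖b‖ * ‖M.θ g‖ := (le_abs_self _).trans (b.le_opNorm _)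
    have h2 : ‖b‖ * ‖M.θ g‖ ≤ ‖b‖ * (M.C0 * (κ₁ * s)) :=
      mul_le_mul_of_nonneg_left hθ (norm_nonneg _)
    have h3 := mul_le_mul_of_nonneg_right (hb2 b hb) (by linarith : (0 : ℝ) ≤ s)
    calc b (M.θ g) ≤ ‖b‖ * (M.C0 * (κ₁ * s)) := h1.trans h2
      _ = ‖b‖ * (M.C0 * κ₁) * s := by ring
      _ ≤ (t - 1) * (1 - κ) * en b * s := h3
      _ = (t - 1) * ((1 - κ) * s) * en b := by ring
  have hμD : M.μ D = (Wn M ((1 - κ) * s)).ncard * M.μ (B.Bx fun i => Λ * M.sz d₁ s i) :=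
    BW_measure (B.meas _) (B.sub _) (Wn_finite hu0)
  have hμDp : M.μ Dp = (Wn M (t * ((1 - κ) * s))).ncard *
      M.μ (B.Bx fun i => (1 + δv) * (Λ * M.sz d₁ s i)) :=
    BW_measure (B.meas _) (B.sub _) (Wn_finite (by positivity))
  have hne : (Wn M ((1 - κ) * s)).ncard ≠ 0 :=
    ((Set.ncard_pos (Wn_finite hu0)).2 ⟨0, zero_mem_Wn hu0.le⟩).ne'
  refine ⟨Dp, ⟨⟨?_, ?_, ?_, ?_, ?_, ?_⟩, ?_⟩⟩
  · show MeasurableSet D
    exact BW_meas (B.meas _) (B.sub _) _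
  · show MeasurableSet Dp
    exact BW_meas (B.meas _) (B.sub _) _
  · show M.μ D ≠ 0
    rw [hμD]
    exact mul_ne_zero (by exact_mod_cast hne) (B.pos _ hsz)
  · show M.μ D ≠ ⊤
    rw [hμD]
    exact ENNReal.mul_ne_top (ENNReal.natCast_ne_top _) (B.fin _)
  · intro z hz g hg
    exact hsub z hz g (Or.inl hg)
  · show M.μ Dp ≤ ENNReal.ofReal (1 + κ₂) * M.μ D
    rw [hμD, hμDp]
    have h1 : ((Wn M (t * ((1 - κ) * s))).ncard : ℝ≥0∞) ≤
        ENNReal.ofReal (1 + κ') * (Wn M ((1 - κ) * s)).ncard :=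
      natCast_le_ofReal (by linarith) (hratio _ hss₁)
    have h2 := hvol _ hsz
    calc ((Wn M (t * ((1 - κ) * s))).ncard : ℝ≥0∞) *
          M.μ (B.Bx fun i => (1 + δv) * (Λ * M.sz d₁ s i))
        ≤ (ENNReal.ofReal (1 + κ') * (Wn M ((1 - κ) * s)).ncard) *
          (ENNReal.ofReal (1 + κ') * M.μ (B.Bx fun i => Λ * M.sz d₁ s i)) := mul_le_mul' h1 h2
      _ = (ENNReal.ofReal (1 + κ') * ENNReal.ofReal (1 + κ')) *
          ((Wn M ((1 - κ) * s)).ncard * M.μ (B.Bx fun i => Λ * M.sz d₁ s i)) := by ring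
      _ ≤ ENNReal.ofReal (1 + κ₂) *
          ((Wn M ((1 - κ) * s)).ncard * M.μ (B.Bx fun i => Λ * M.sz d₁ s i)) := by
          gcongr
          rw [← ENNReal.ofReal_mul (by linarith)]
          exact ENNReal.ofReal_le_ofReal hκ'2
  · intro z hz g hg
    exact hsub z hz g (Or.inr hg)

/-- lattice points of two homothetic windows -/
theorem Wn_dbl {A a : ℝ} (hA : 0 < A) (ha : 0 < a) : ∃ C s₀ : ℝ, 0 < s₀ ∧ 0 ≤ C ∧ ∀ s : ℝ, s₀ ≤ s →
    ((Wn M (A * s)).ncard : ℝ) ≤ C * (Wn M (a * s)).ncard := by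
  have hT := tendsto_LP Pw_convex (Pw_bounded (M := M)) Pw_closed.measurableSet
    (interior_subset Pw_interior)
  have hv : 0 < volume.real (Pw M) := by
    rw [Measure.real, ENNReal.toReal_pos_iff]
    refine ⟨?_, Pw_bounded.measure_lt_top⟩
    exact lt_of_lt_of_le (isOpen_interior.measure_pos volume ⟨0, Pw_interior⟩)
      (measure_mono interior_subset)
  have hA' : Tendsto (fun s : ℝ => ((LP (Pw M) (A * s)).ncard : ℝ) / (A * s) ^ k) atTop
      (𝓝 (volume.real (Pw M))) := hT.comp (tendsto_id.const_mul_atTop hA)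
  have ha' : Tendsto (fun s : ℝ => ((LP (Pw M) (a * s)).ncard : ℝ) / (a * s) ^ k) atTop
      (𝓝 (volume.real (Pw M))) := hT.comp (tendsto_id.const_mul_atTop ha)
  set v := volume.real (Pw M) with hvdef
  have h1 := hA'.eventually_lt_const (show v < 2 * v by linarith)
  have h2 := ha'.eventually_const_lt (show v / 2 < v by linarith)
  obtain ⟨s₀, hs₀⟩ := ((h1.and h2).and (eventually_gt_atTop 0)).exists_forall_of_atTop
  refine ⟨4 * (A / a) ^ k, max s₀ 1, by positivity, by positivity, fun s hs => ?_⟩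
  obtain ⟨⟨h3, h4⟩, h5⟩ := hs₀ s ((le_max_left _ _).trans hs)
  rw [Wn_eq (M := M) (t := A * s) (by positivity), Wn_eq (M := M) (t := a * s) (by positivity)]
  have hAs : 0 < (A * s) ^ k := by positivity
  have has : 0 < (a * s) ^ k := by positivity
  rw [div_lt_iff₀ hAs] at h3
  rw [lt_div_iff₀ has] at h4
  have h6 : (A * s) ^ k = (A / a) ^ k * (a * s) ^ k := by
    rw [← mul_pow]
    congr 1
    field_simp
  calc ((LP (Pw M) (A * s)).ncard : ℝ) ≤ 2 * v * (A * s) ^ k := h3.le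
    _ = 4 * (A / a) ^ k * (v / 2 * (a * s) ^ k) := by rw [h6]; ring
    _ ≤ 4 * (A / a) ^ k * (LP (Pw M) (a * s)).ncard := by gcongr

/-- **DVOL** -/
theorem dvol (B : M.NatBox) : M.DVOL B := by
  classical
  intro d₁ κ κ₄ Λ δ hd₁ hκ hκ1 hκ₄ hΛ hδ
  obtain ⟨CP, hCP0, hCP⟩ := exists_window_bdd M
  obtain ⟨C', hC'⟩ := B.dbl (max 1 (Λ / δ)) (le_max_left _ _)
  have h1κ : 0 < 1 - κ := by linarith
  obtain ⟨C, s₀, hs₀, hC0, hC⟩ := Wn_dbl (M := M) h1κ (a := κ₄ / CP) (by positivity)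
  refine ⟨C * max C' 0, max s₀ 1, fun s hs => ?_⟩
  have hss₀ : s₀ ≤ s := (le_max_left _ _).trans hs
  have hs1 : 1 ≤ s := (le_max_right _ _).trans hs
  have hs0 : 0 < s := by linarith
  have hszp : ∀ i, 0 < M.sz d₁ s i := by
    intro i
    unfold sz
    split_ifs <;> positivity
  set W4 : Set (Fin k → ℤ) := {w | ‖vec w‖ ≤ κ₄ * s} with hW4
  have hW4f : W4.Finite := by
    have h1 := LP_finite (k := k) (P := Metric.closedBall 0 (κ₄ * s)) Metric.isBounded_closedBall 1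
    refine h1.subset fun w hw => ?_
    show vec w ∈ (1 : ℝ) • Metric.closedBall (0 : Fin k → ℝ) (κ₄ * s)
    rw [one_smul, mem_closedBall_zero_iff]
    exact hw
  have hsub : Wn M (κ₄ / CP * s) ⊆ W4 := by
    intro w hw
    have h1 := hCP (vec w) (κ₄ / CP * s) (by positivity) hw
    have h2 : CP * (κ₄ / CP * s) = κ₄ * s := by field_simp
    rw [h2] at h1
    exact h1
  have hDsm : M.μ (B.Dsm δ d₁ κ₄ s) = W4.ncard * M.μ (B.Bx fun i => δ * M.sz d₁ s i) :=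
    BW_measure (B.meas _) (B.sub _) hW4f
  have hDb : M.μ (B.Dbox Λ d₁ κ s) = (Wn M ((1 - κ) * s)).ncard *
      M.μ (B.Bx fun i => Λ * M.sz d₁ s i) :=
    BW_measure (B.meas _) (B.sub _) (Wn_finite (by positivity))
  rw [hDb, hDsm]
  have h1 : ((Wn M ((1 - κ) * s)).ncard : ℝ≥0∞) ≤ ENNReal.ofReal C * W4.ncard := by
    refine natCast_le_ofReal hC0 ((hC s hss₀).trans ?_)
    apply mul_le_mul_of_nonneg_left _ hC0
    exact_mod_cast Set.ncard_le_ncard hsub hW4f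
  have h2 : M.μ (B.Bx fun i => Λ * M.sz d₁ s i) ≤
      ENNReal.ofReal (max C' 0) * M.μ (B.Bx fun i => δ * M.sz d₁ s i) := by
    have h3 := hC' (fun i => δ * M.sz d₁ s i) fun i => mul_pos hδ (hszp i)
    have h4 : B.Bx (fun i => Λ * M.sz d₁ s i) ⊆
        B.Bx (fun i => max 1 (Λ / δ) * (δ * M.sz d₁ s i)) := by
      refine B.mono _ _ (fun i => (mul_pos hΛ (hszp i)).le) fun i => ?_
      have h5 : Λ / δ ≤ max 1 (Λ / δ) := le_max_right _ _
      have h6 : Λ * M.sz d₁ s i = Λ / δ * (δ * M.sz d₁ s i) := by field_simp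
      rw [h6]
      exact mul_le_mul_of_nonneg_right h5 (mul_pos hδ (hszp i)).le
    calc M.μ (B.Bx fun i => Λ * M.sz d₁ s i) ≤ _ := measure_mono h4
      _ ≤ ENNReal.ofReal C' * M.μ (B.Bx fun i => δ * M.sz d₁ s i) := h3
      _ ≤ _ := by
        gcongr
        exact le_max_left _ _
  calc ((Wn M ((1 - κ) * s)).ncard : ℝ≥0∞) * M.μ (B.Bx fun i => Λ * M.sz d₁ s i)
      ≤ (ENNReal.ofReal C * W4.ncard) *
        (ENNReal.ofReal (max C' 0) * M.μ (B.Bx fun i => δ * M.sz d₁ s i)) := mul_le_mul' h1 h2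
    _ = (ENNReal.ofReal C * ENNReal.ofReal (max C' 0)) *
        (W4.ncard * M.μ (B.Bx fun i => δ * M.sz d₁ s i)) := by ring
    _ = ENNReal.ofReal (C * max C' 0) *
        (W4.ncard * M.μ (B.Bx fun i => δ * M.sz d₁ s i)) := by rw [ENNReal.ofReal_mul hC0]

end DB

end Vale.Agent.P188.Z1
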