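import Vale.Agent.P188.Z1.Dec
import Vale.Agent.P188.Z1.DBox3

/-!
# P188, Z1, block BOXQ: isotropic fat boxes
-/

set_option linter.all false

open MeasureTheory Set Filter
open Vale.Agent.P188.H530 (hgt hgt_mul)

namespace Vale.Agent.P188.Z1

namespace RModel

variable {S : Type} [Group S] [MeasurableSpace S] {Γ : Type} [Group Γ]
  {V : Type} [AddCommGroup V] [Module ℝ V] {k : ℕ} (M : RModel S Γ V k)

/-! ### products in fat balls, any bound on `δ` -/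

theorem fb_mul_gen (D : ℝ) (hD : 1 ≤ D) : ∃ C : ℝ, 1 ≤ C ∧ ∀ δ : ℝ, 0 < δ → δ ≤ D →
    ∃ R₀ : ℝ, ∀ R : ℝ, R₀ ≤ R → ∀ g ∈ M.FB δ R, ∀ g' ∈ M.FB δ R, g * g' ∈ M.FB (C * δ) (C * R) := by
  obtain ⟨C, hC, h⟩ := M.fb_mulD
  refine ⟨C * D, by nlinarith, fun δ hδ hδD => ?_⟩
  have hD0 : 0 < D := by linarith
  obtain ⟨R₀, h'⟩ := h (δ / D) (by positivity) (by rw [div_le_one hD0]; exact hδD)
  refine ⟨max R₀ 0, fun R hR g hg g' hg' => ?_⟩
  have hR0 : 0 ≤ R := (le_max_right _ _).trans hR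
  have hRR : R₀ ≤ R := (le_max_left _ _).trans hR
  have h1 : M.FB δ R ⊆ M.FB (δ / D) (D * R) := by
    refine M.FB_mono (by nlinarith) (le_of_eq ?_)
    field_simp
  refine M.FB_mono ?_ ?_ (h' (D * R) (by nlinarith) g (h1 hg) g' (h1 hg'))
  · exact le_of_eq (by ring)
  · have e : C * (δ / D) * (C * (D * R)) = C * δ * (C * R) := by field_simp
    have e2 : C * D * δ * (C * D * R) = C * δ * (C * R) * (D * D) := by ring
    rw [e, e2]
    have : 0 ≤ C * δ * (C * R) := by positivity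
    exact le_mul_of_one_le_right this (by nlinarith)

theorem one_mem_FB : ∃ C : ℝ, 1 ≤ C ∧ ∀ δ : ℝ, 0 < δ → ∃ R₀ : ℝ, ∀ R : ℝ, R₀ ≤ R →
    (1 : S) ∈ M.FB (C * δ) R := by
  obtain ⟨C, hC, h⟩ := M.fb_neutral
  refine ⟨C, hC, fun δ hδ => ?_⟩
  obtain ⟨R₀, h'⟩ := h δ hδ
  refine ⟨R₀, fun R hR => ?_⟩
  have := h' R hR 0 (Submodule.zero_mem _) (by rw [map_zero]; exact (Real.exp_pos _).le)
  rwa [M.ex_zero] at this

/-- products of bounded length -/
theorem fb_prod (n : ℕ) : ∀ D : ℝ, 1 ≤ D → ∃ C : ℝ, 1 ≤ C ∧ ∀ δ : ℝ, 0 < δ → δ ≤ D →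
    ∃ R₀ : ℝ, ∀ R : ℝ, R₀ ≤ R → ∀ L : List S, L.length ≤ n → (∀ a ∈ L, a ∈ M.FB δ R) →
      L.prod ∈ M.FB (C * δ) (C * R) := by
  induction n with
  | zero =>
    intro D hD
    obtain ⟨C, hC, h⟩ := M.one_mem_FB
    refine ⟨C, hC, fun δ hδ _ => ?_⟩
    obtain ⟨R₀, h'⟩ := h δ hδ
    refine ⟨max R₀ 0, fun R hR L hL _ => ?_⟩
    have hR0 : 0 ≤ R := (le_max_right _ _).trans hR
    have hRR : R₀ ≤ R := (le_max_left _ _).trans hR
    have : L = [] := List.eq_nil_of_length_eq_zero (by omega)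
    rw [this, List.prod_nil]
    exact M.fb_monoD (by positivity) le_rfl hR0 (by nlinarith) (h' R hRR)
  | succ n ih =>
    intro D hD
    obtain ⟨C₁, hC₁, h1⟩ := ih D hD
    obtain ⟨C₂, hC₂, h2⟩ := M.fb_mul_gen (C₁ * D) (by nlinarith)
    refine ⟨C₂ * C₁, by nlinarith, fun δ hδ hδD => ?_⟩
    obtain ⟨R₁, h1'⟩ := h1 δ hδ hδD
    obtain ⟨R₂, h2'⟩ := h2 (C₁ * δ) (by positivity) (mul_le_mul_of_nonneg_left hδD (by linarith))
    refine ⟨max (max R₁ R₂) 0, fun R hR L hL hLm => ?_⟩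
    have hR0 : 0 ≤ R := (le_max_right _ _).trans hR
    have hR1 : R₁ ≤ R := le_trans (by simp) hR
    have hR2 : R₂ ≤ R := le_trans (by simp) hR
    cases L with
    | nil =>
      have h3 := h1' R hR1 [] (by simp) (by simp)
      refine M.fb_monoD (by positivity) ?_ (by positivity) ?_ h3
      · rw [mul_assoc]; exact le_mul_of_one_le_left (by positivity) hC₂
      · rw [mul_assoc]; exact le_mul_of_one_le_left (by positivity) hC₂
    | cons a L =>
      rw [List.prod_cons]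
      rw [List.length_cons] at hL
      have h3 := h1' R hR1 L (by omega) fun b hb => hLm b (List.mem_cons_of_mem _ hb)
      have h4 : a ∈ M.FB (C₁ * δ) (C₁ * R) :=
        M.fb_monoD hδ.le (le_mul_of_one_le_left hδ.le hC₁) hR0 (le_mul_of_one_le_left hR0 hC₁)
          (hLm a (List.mem_cons_self ..))
      have h5 := h2' (C₁ * R) (hR2.trans (le_mul_of_one_le_left hR0 hC₁)) a h4 _ h3
      rwa [← mul_assoc, ← mul_assoc] at h5

/-- exponentials of vectors of `e` -/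
theorem e_mem_FB : ∃ C : ℝ, 1 ≤ C ∧ ∀ δ : ℝ, 0 < δ → ∃ R₀ : ℝ, ∀ R : ℝ, R₀ ≤ R → ∀ v ∈ M.e,
    M.nm v ≤ Real.exp R → M.ex v ∈ M.FB (C * δ) R := by
  have hη : M.η (M.τ 0)⁻¹ = 1 := by rw [map_inv, M.η_τ]; simp
  obtain ⟨y₀, hy₀, hy₀e, -⟩ := M.C_ker _ _ (M.CB_inv (M.τ_CB 0)) hη
  refine ⟨1, le_rfl, fun δ hδ => ?_⟩
  obtain ⟨R₀, h'⟩ := Filter.eventually_atTop.mp (ev_const (M.nm y₀) hδ)
  refine ⟨max R₀ 0, fun R hR v hv hvn => ?_⟩
  have hR0 : 0 ≤ R := (le_max_right _ _).trans hR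
  have hRR : R₀ ≤ R := (le_max_left _ _).trans hR
  refine ⟨v, hv, hvn, y₀, hy₀, by rw [one_mul]; exact h' R hRR, 0, fun i => by simpa using hR0, ?_⟩
  rw [hy₀e]
  group

theorem τ_mem_FB : ∃ C : ℝ, 1 ≤ C ∧ ∀ δ : ℝ, 0 < δ → ∃ R₀ : ℝ, ∀ R : ℝ, R₀ ≤ R →
    ∀ w : Fin k → ℤ, (∀ i, |(w i : ℝ)| ≤ R) → M.τ w ∈ M.FB (C * δ) R := by
  refine ⟨1, le_rfl, fun δ hδ => ⟨0, fun R hR w hw => ?_⟩⟩
  exact ⟨0, Submodule.zero_mem _, by rw [map_zero]; exact (Real.exp_pos _).le, 0,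
    Submodule.zero_mem _, by rw [map_zero]; exact (Real.exp_pos _).le, w, hw, by
    rw [M.ex_zero]; group⟩

/-! ### isotropic boxes -/

variable {M} in
/-- isotropic box -/
noncomputable def NatBox.Iso (B : M.NatBox) (δ R : ℝ) : Set S :=
  {z | z * (M.sec z)⁻¹ ∈ B.Bx (M.two (Real.exp (δ * R)) (Real.exp R)) ∧ ‖M.θ z‖ ≤ R}

variable {M}

theorem NatBox.Iso_meas (B : M.NatBox) (δ R : ℝ) : MeasurableSet (B.Iso δ R) := by
  have h : B.Iso δ R = BW M (B.Bx (M.two (Real.exp (δ * R)) (Real.exp R)))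
      {w | ‖(fun i => (w i : ℝ) : Fin k → ℝ)‖ ≤ R} := rfl
  rw [h]
  exact BW_meas (B.meas _) (B.sub _) _

theorem two_nonneg {x y : ℝ} (hx : 0 ≤ x) (hy : 0 ≤ y) (i : M.ι) : 0 ≤ M.two x y i := by
  unfold two; split_ifs <;> assumption

theorem two_le {x y x' y' : ℝ} (hx : x ≤ x') (hy : y ≤ y') (i : M.ι) :
    M.two x y i ≤ M.two x' y' i := by
  unfold two; split_ifs <;> assumption

/-- fat balls are contained in isotropic boxes -/
theorem NatBox.FB_sub_Iso (B : M.NatBox) : ∀ δ : ℝ, 0 < δ → ∃ R₀ : ℝ, ∀ R : ℝ, R₀ ≤ R →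
    M.FB δ R ⊆ B.Iso (2 * δ) (2 * R) := by
  intro δ hδ
  have hB := B.one_le
  obtain ⟨R₁, h1⟩ := Filter.eventually_atTop.mp (ev_const (B.C * (B.C * 2)) hδ)
  obtain ⟨R₂, h2⟩ := Filter.eventually_atTop.mp (ev_const (B.C * (B.C * 2)) (one_pos : (0:ℝ) < 1))
  refine ⟨max (max R₁ R₂) 0, fun R hR g hg => ?_⟩
  have hR0 : 0 ≤ R := (le_max_right _ _).trans hR
  have hR1 : R₁ ≤ R := le_trans (by simp) hR
  have hR2 : R₂ ≤ R := le_trans (by simp) hR
  have h1' := h1 R hR1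
  have h2' := h2 R hR2
  rw [one_mul] at h2'
  obtain ⟨v, hv, hvn, y, hy, hyn, w, hw, rfl⟩ := hg
  have hη : M.η (M.ex v * M.ex y * M.τ w) = Multiplicative.ofAdd w := by
    rw [map_mul, map_mul, M.η_ex, M.η_ex, M.η_τ]; simp
  have hE : 1 ≤ Real.exp (δ * R) := Real.one_le_exp (by positivity)
  have hE' : 1 ≤ Real.exp R := Real.one_le_exp hR0
  have hn1 := M.nm_nonneg v
  have hn2 := M.nm_nonneg y
  refine ⟨?_, ?_⟩
  · rw [sec_of_η hη]
    have e : M.ex v * M.ex y * M.τ w * (M.τ w)⁻¹ = M.ex v * M.ex y := by group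
    rw [e]
    set R' : M.ι → ℝ := M.two (B.C * (2 * Real.exp (δ * R))) (B.C * (2 * Real.exp R)) with hR'
    have hR'0 : ∀ i, 0 ≤ R' i := fun i => two_nonneg (by positivity) (by positivity) i
    have a1 : M.ex v ∈ B.Bx R' := by
      refine B.mono _ _ (fun i => two_nonneg zero_le_one (by positivity) i) (fun i => ?_)
        (B.ball_e v hv)
      exact two_le (by nlinarith) (mul_le_mul_of_nonneg_left (by linarith) (by linarith)) i
    have a2 : M.ex y ∈ B.Bx R' := by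
      refine B.mono _ _ (fun i => two_nonneg (by positivity) zero_le_one i) (fun i => ?_)
        (B.ball_0 y hy)
      exact two_le (mul_le_mul_of_nonneg_left (by linarith) (by linarith)) (by nlinarith) i
    have a3 := B.mul R' hR'0 _ a1 _ a2
    refine B.mono _ _ (fun i => mul_nonneg (by linarith) (hR'0 i)) (fun i => ?_) a3
    simp only [hR', two]
    split_ifs
    · have : Real.exp (2 * δ * (2 * R)) = Real.exp (δ * R) * Real.exp (δ * R) *
          (Real.exp (δ * R) * Real.exp (δ * R)) := by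
        rw [← Real.exp_add, ← Real.exp_add]; congr 1; ring
      rw [this]
      calc B.C * (B.C * (2 * Real.exp (δ * R))) = (B.C * (B.C * 2)) * Real.exp (δ * R) := by ring
        _ ≤ Real.exp (δ * R) * Real.exp (δ * R) :=
            mul_le_mul_of_nonneg_right h1' (by positivity)
        _ ≤ _ := le_mul_of_one_le_right (by positivity) (by nlinarith)
    · have : Real.exp (2 * R) = Real.exp R * Real.exp R := by
        rw [← Real.exp_add]; congr 1; ring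
      rw [this]
      calc B.C * (B.C * (2 * Real.exp R)) = (B.C * (B.C * 2)) * Real.exp R := by ring
        _ ≤ _ := mul_le_mul_of_nonneg_right h2' (by positivity)
  · have h3 : M.θ (M.ex v * M.ex y * M.τ w) = M.θ (M.τ w) :=
      M.θ_of_η (by rw [hη, M.η_τ])
    rw [h3, M.θ_τ]
    exact (norm_int_le hR0 hw).trans (by linarith)

/-- isotropic boxes are contained in fat balls -/
theorem NatBox.Iso_sub_FB (B : M.NatBox) (D : ℝ) (hD : 1 ≤ D) : ∃ C : ℝ, 1 ≤ C ∧ ∀ δ : ℝ, 0 < δ →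
    δ ≤ D → ∃ R₀ : ℝ, ∀ R : ℝ, R₀ ≤ R → B.Iso δ R ⊆ M.FB (C * δ) (C * R) := by
  have hB := B.one_le
  obtain ⟨C₁, hC₁, h1⟩ := M.fb_neutral
  obtain ⟨C₂, hC₂, h2⟩ := M.e_mem_FB
  obtain ⟨C₃, hC₃, h3⟩ := M.τ_mem_FB
  obtain ⟨C₄, hC₄, h4⟩ := M.fb_prod (B.m + 1) (D := C₁ * C₂ * C₃ * D) (by
    have : 1 ≤ C₁ * C₂ := by nlinarith
    have : 1 ≤ C₁ * C₂ * C₃ := by nlinarith
    nlinarith)
  refine ⟨2 * (C₄ * (C₁ * C₂ * C₃)), by
    have : 1 ≤ C₁ * C₂ := by nlinarith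
    have : 1 ≤ C₁ * C₂ * C₃ := by nlinarith
    nlinarith, ?_⟩
  intro δ hδ hδD
  have hC12 : 1 ≤ C₁ * C₂ := by nlinarith
  have hC123 : 1 ≤ C₁ * C₂ * C₃ := by nlinarith
  obtain ⟨R₁, h1'⟩ := h1 δ hδ
  obtain ⟨R₂, h2'⟩ := h2 δ hδ
  obtain ⟨R₃, h3'⟩ := h3 δ hδ
  obtain ⟨R₄, h4'⟩ := h4 (C₁ * C₂ * C₃ * δ) (by positivity)
    (mul_le_mul_of_nonneg_left hδD (by positivity))
  obtain ⟨R₅, h5⟩ := Filter.eventually_atTop.mp (ev_const B.C hδ)
  obtain ⟨R₆, h6⟩ := Filter.eventually_atTop.mp (ev_const B.C (one_pos : (0:ℝ) < 1))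
  refine ⟨max (max (max R₁ R₂) (max R₃ R₄)) (max (max R₅ R₆) 0), fun R hR z hz => ?_⟩
  have b1 : R₁ ≤ R := le_trans (by simp) hR
  have b2 : R₂ ≤ R := le_trans (by simp) hR
  have b3 : R₃ ≤ R := le_trans (by simp) hR
  have b4 : R₄ ≤ R := le_trans (by simp) hR
  have b5 : R₅ ≤ R := le_trans (by simp) hR
  have b6 : R₆ ≤ R := le_trans (by simp) hR
  have hR0 : 0 ≤ R := le_trans (by simp) hR
  clear hR
  have h5' := h5 R b5
  have h6' := h6 R b6
  rw [one_mul] at h6'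
  obtain ⟨hz1, hz2⟩ := hz
  obtain ⟨x, hx, hxe⟩ := B.gen _ (fun i => two_nonneg (Real.exp_pos _).le (Real.exp_pos _).le i) _ hz1
  set w : Fin k → ℤ := Multiplicative.toAdd (M.η z) with hw
  have hzw : z = (z * (M.sec z)⁻¹) * M.τ w := by
    have : M.sec z = M.τ w := rfl
    rw [this]; group
  -- all factors are in one fat ball
  have f1 : ∀ t, M.ex (x t • M.X (B.J t)) ∈ M.FB (C₁ * C₂ * C₃ * δ) (2 * R) := by
    intro t
    have hn : M.nm (x t • M.X (B.J t)) ≤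
        B.C * M.two (Real.exp (δ * R)) (Real.exp R) (B.J t) := by
      rw [M.nm_smul]
      exact (mul_le_of_le_one_right (abs_nonneg _) (M.X_le _)).trans (hx t)
    by_cases h0 : M.wt (B.J t) = 0
    · have hmem : x t • M.X (B.J t) ∈ M.Vw 0 := by
        have := Submodule.smul_mem _ (x t) (M.X_mem (B.J t))
        rwa [h0] at this
      have h7 := h1' (2 * R) (b1.trans (by linarith)) _ hmem (by
        refine hn.trans ?_
        unfold two
        rw [if_pos h0]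
        have e : Real.exp (δ * (2 * R)) = Real.exp (δ * R) * Real.exp (δ * R) := by
          rw [← Real.exp_add]; congr 1; ring
        rw [e]
        exact mul_le_mul_of_nonneg_right h5' (Real.exp_pos _).le)
      refine M.fb_monoD (by positivity) ?_ (by positivity) le_rfl h7
      have : C₁ * δ * 1 ≤ C₁ * δ * (C₂ * C₃) :=
        mul_le_mul_of_nonneg_left (by nlinarith) (by positivity)
      nlinarith
    · have hmem : x t • M.X (B.J t) ∈ M.e :=
        M.Vw_e _ h0 (Submodule.smul_mem _ _ (M.X_mem _))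
      have h7 := h2' (2 * R) (b2.trans (by linarith)) _ hmem (by
        refine hn.trans ?_
        unfold two
        rw [if_neg h0]
        have e : Real.exp (2 * R) = Real.exp R * Real.exp R := by
          rw [← Real.exp_add]; congr 1; ring
        rw [e]
        exact mul_le_mul_of_nonneg_right h6' (Real.exp_pos _).le)
      refine M.fb_monoD (by positivity) ?_ (by positivity) le_rfl h7
      have : C₂ * δ * 1 ≤ C₂ * δ * (C₁ * C₃) :=
        mul_le_mul_of_nonneg_left (by nlinarith) (by positivity)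
      nlinarith
  have f2 : M.τ w ∈ M.FB (C₁ * C₂ * C₃ * δ) (2 * R) := by
    have hwb : ∀ i, |(w i : ℝ)| ≤ 2 * R := by
      intro i
      have e1 := norm_le_pi_norm (M.θ z) i
      have e2 : M.θ z i = (w i : ℝ) := rfl
      rw [e2, Real.norm_eq_abs] at e1
      linarith
    have h7 := h3' (2 * R) (b3.trans (by linarith)) w hwb
    refine M.fb_monoD (by positivity) ?_ (by positivity) le_rfl h7
    have : C₃ * δ * 1 ≤ C₃ * δ * (C₁ * C₂) :=
      mul_le_mul_of_nonneg_left (by nlinarith) (by positivity)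
    nlinarith
  have h8 := h4' (2 * R) (b4.trans (by linarith))
    ((List.ofFn fun t => M.ex (x t • M.X (B.J t))) ++ [M.τ w]) (by simp) (by
      intro a ha
      rw [List.mem_append, List.mem_singleton, List.mem_ofFn] at ha
      rcases ha with ⟨t, rfl⟩ | rfl
      · exact f1 t
      · exact f2)
  have h9 : ((List.ofFn fun t => M.ex (x t • M.X (B.J t))) ++ [M.τ w]).prod = z := by
    rw [List.prod_append, List.prod_singleton, ← hxe]
    exact hzw.symm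
  rw [h9] at h8
  refine M.fb_monoD (by positivity) ?_ (by positivity) ?_ h8
  · have : 0 ≤ C₄ * (C₁ * C₂ * C₃) * δ := by positivity
    nlinarith
  · have : C₄ * (2 * R) * 1 ≤ C₄ * (2 * R) * (C₁ * C₂ * C₃) :=
      mul_le_mul_of_nonneg_left hC123 (by positivity)
    nlinarith

/-- the box sets are contained in isotropic boxes -/
theorem NatBox.Dbox_sub_Iso (B : M.NatBox) (κ₁ : ℝ) (hκ₁ : 0 < κ₁) : ∃ C : ℝ, 1 ≤ C ∧
    ∀ δ : ℝ, 0 < δ → ∀ r : ℝ, 0 ≤ r →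
      B.Dbox 1 (2 * δ * κ₁) (1 / 2) (r / κ₁) ⊆ B.Iso (2 * δ) (C * r) := by
  obtain ⟨Cw, hCw, hw⟩ := DB.exists_window_bdd M
  obtain ⟨E, hE1, hE⟩ := exists_top M.Φ fun b => en b
  have hc : 1 ≤ (Cw + E) / κ₁ + 1 := by
    have : 0 ≤ (Cw + E) / κ₁ := by positivity
    linarith
  refine ⟨(Cw + E) / κ₁ + 1, hc, fun δ hδ r hr z hz => ?_⟩
  obtain ⟨hz1, hz2⟩ := hz
  have hrκ : 0 ≤ r / κ₁ := by positivity
  refine ⟨?_, ?_⟩
  · refine B.mono _ _ (fun i => ?_) (fun i => ?_) hz1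
    · unfold sz
      split_ifs <;> positivity
    · unfold sz two
      rw [one_mul]
      split_ifs with h
      · refine Real.exp_le_exp.mpr ?_
        have e : 2 * δ * κ₁ * (r / κ₁) = 2 * δ * r := by field_simp
        rw [e]
        have : 2 * δ * r * 1 ≤ 2 * δ * r * ((Cw + E) / κ₁ + 1) :=
          mul_le_mul_of_nonneg_left hc (by positivity)
        nlinarith
      · refine Real.exp_le_exp.mpr ?_
        have h1 : M.wt i ∈ M.Φ := (M.wt_mem i).resolve_right h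
        have h2 := hE _ h1
        have e : ((Cw + E) / κ₁ + 1) * r = r / κ₁ * E + (Cw * (r / κ₁) + r) := by
          field_simp
          ring
        rw [e]
        have h3 : r / κ₁ * en (M.wt i) ≤ r / κ₁ * E := mul_le_mul_of_nonneg_left h2 hrκ
        have h4 : 0 ≤ Cw * (r / κ₁) + r := by positivity
        linarith
  · have h1 := hw (M.θ z) ((1 - 1 / 2) * (r / κ₁)) (by positivity) hz2
    refine h1.trans ?_
    have e : ((Cw + E) / κ₁ + 1) * r = Cw * (r / κ₁) + (E * (r / κ₁) + r) := by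
      field_simp
      ring
    rw [e]
    have h4 : 0 ≤ E * (r / κ₁) + r := by positivity
    have h5 : Cw * ((1 - 1 / 2) * (r / κ₁)) ≤ Cw * (r / κ₁) :=
      mul_le_mul_of_nonneg_left (by linarith) hCw.le
    linarith

/-- **BOXQ from DBOX** -/
theorem boxq_of_dbox (B : M.NatBox) (hB : M.DBOX B) : M.BOXQ := by
  obtain ⟨κ₁, hκ₁, h1⟩ := hB (1 / 2) (by norm_num) (by norm_num) 1 one_pos (1 / 8) (by norm_num)
  obtain ⟨C₂, hC₂, h2⟩ := B.Dbox_sub_Iso κ₁ hκ₁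
  obtain ⟨C₃, hC₃, h3⟩ := B.Iso_sub_FB 2 (by norm_num)
  obtain ⟨C₄, hC₄, h4⟩ := M.fb_of_lenD
  obtain ⟨C₅, hC₅, h5⟩ := M.fb_mul_gen (C₃ * 2) (by nlinarith)
  obtain ⟨C₆, hC₆, h6⟩ := B.Iso_sub_FB (2 * (C₅ * (C₃ * 2))) (by nlinarith)
  set C' : ℝ := C₃ * C₂ + C₄ with hC'
  have hC'1 : 1 ≤ C' := by rw [hC']; nlinarith
  refine ⟨C₆ * (2 * (C₅ * (C₃ * 2))) + C₆ * (2 * (C₅ * C')), fun δ hδ hδ1 => ?_⟩
  obtain ⟨s₀, h1'⟩ := h1 (2 * δ * κ₁) δ (by positivity) hδ (by nlinarith)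
  obtain ⟨R₃, h3'⟩ := h3 (2 * δ) (by positivity) (by linarith)
  obtain ⟨R₄, h4'⟩ := h4 (C₃ * (2 * δ)) (by positivity)
  obtain ⟨R₅, h5'⟩ := h5 (C₃ * (2 * δ)) (by positivity) (by nlinarith)
  obtain ⟨R₆, h6'⟩ := B.FB_sub_Iso (C₅ * (C₃ * (2 * δ))) (by positivity)
  obtain ⟨R₇, h7'⟩ := h6 (2 * (C₅ * (C₃ * (2 * δ)))) (by positivity) (by
    have : C₅ * C₃ * δ ≤ C₅ * C₃ * 1 := mul_le_mul_of_nonneg_left hδ1 (by positivity)
    nlinarith)
  refine ⟨max (max (s₀ * κ₁) (max R₃ R₄)) (max (max R₅ R₆) (max R₇ 1)), fun r hr => ?_⟩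
  have b0 : s₀ * κ₁ ≤ r := le_trans (by simp) hr
  have b3 : R₃ ≤ r := le_trans (by simp) hr
  have b4 : R₄ ≤ r := le_trans (by simp) hr
  have b5 : R₅ ≤ r := le_trans (by simp) hr
  have b6 : R₆ ≤ r := le_trans (by simp) hr
  have b7 : R₇ ≤ r := le_trans (by simp) hr
  have hr1 : 1 ≤ r := le_trans (by simp) hr
  clear hr
  have hr0 : 0 ≤ r := by linarith
  have hs : s₀ ≤ r / κ₁ := by rw [le_div_iff₀ hκ₁]; exact b0
  obtain ⟨Dp, hDp⟩ := h1' (r / κ₁) hs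
  have e1 : κ₁ * (r / κ₁) = r := by field_simp
  rw [e1] at hDp
  set Q := B.Dbox 1 (2 * δ * κ₁) (1 / 2) (r / κ₁) with hQ
  -- the enlarged set
  have hrC' : r ≤ C' * r := by nlinarith
  have hQFB : Q ⊆ M.FB (C₃ * (2 * δ)) (C' * r) := by
    intro z hz
    have a1 := h2 δ hδ r hr0 hz
    have a2 := h3' (C₂ * r) (b3.trans (by nlinarith)) a1
    refine M.fb_monoD (by positivity) le_rfl (by positivity) ?_ a2
    rw [hC']
    have : 0 ≤ C₄ * r := by positivity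
    nlinarith
  have hlen : ∀ g, (M.l g : ℝ) ≤ r → g ∈ M.FB (C₃ * (2 * δ)) (C' * r) := by
    intro g hg
    refine M.fb_monoD (by positivity) le_rfl (by positivity) ?_ (h4' r b4 g hg)
    rw [hC']
    have : 0 ≤ C₃ * C₂ * r := by positivity
    nlinarith
  have hfat : ∀ g ∈ M.FB δ r, g ∈ M.FB (C₃ * (2 * δ)) (C' * r) := fun g hg =>
    M.fb_monoD hδ.le (by nlinarith) hr0 hrC' hg
  have hmain : ∀ z ∈ Q, ∀ g ∈ M.FB (C₃ * (2 * δ)) (C' * r),
      z * g ∈ B.Iso (2 * (C₅ * (C₃ * (2 * δ)))) (2 * (C₅ * (C' * r))) := by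
    intro z hz g hg
    have a1 := h5' (C' * r) (b5.trans hrC') z (hQFB hz) g hg
    exact h6' (C₅ * (C' * r)) (b6.trans (hrC'.trans (by nlinarith))) a1
  refine ⟨Q, Dp ∩ B.Iso (2 * (C₅ * (C₃ * (2 * δ)))) (2 * (C₅ * (C' * r))), ?_, ?_⟩
  · refine ⟨⟨hDp.meas, hDp.meas'.inter (B.Iso_meas _ _), hDp.pos, hDp.fin, ?_, ?_⟩, ?_⟩
    · exact fun z hz g hg => ⟨hDp.sub z hz g hg, hmain z hz g (hlen g hg)⟩
    · exact (measure_mono inter_subset_left).trans hDp.le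
    · exact fun z hz g hg => ⟨hDp.subf z hz g hg, hmain z hz g (hfat g hg)⟩
  · refine inter_subset_right.trans ((h7' _ (b7.trans ?_)).trans ?_)
    · have : 1 * (C' * r) ≤ C₅ * (C' * r) := mul_le_mul_of_nonneg_right hC₅ (by positivity)
      have : 0 ≤ C₅ * (C' * r) := by positivity
      linarith
    · have q1 : 0 ≤ C₆ * (2 * (C₅ * (C₃ * 2))) := by positivity
      have q2 : 0 ≤ C₆ * (2 * (C₅ * C')) := by positivity
      refine M.fb_monoD (by positivity) ?_ (by positivity) ?_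
      · have : 0 ≤ C₆ * (2 * (C₅ * C')) * δ := by positivity
        nlinarith
      · have : 0 ≤ C₆ * (2 * (C₅ * (C₃ * 2))) * r := by positivity
        nlinarith

/-- **BOXQ** -/
theorem boxq (B : M.NatBox) (hB : B.Fine) : M.BOXQ := boxq_of_dbox B (DB.dbox B hB)

end RModel

end Vale.Agent.P188.Z1
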