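import Vale.Agent.P188.Z1.Coh

/-!
# P188, Z1, block COH: `LIN` and `RAY` imply `COH`
-/

set_option linter.all false

open MeasureTheory Set
open scoped ENNReal

namespace Vale.Agent.P188.Z1

namespace RModel

variable {S : Type} [Group S] [MeasurableSpace S] {Γ : Type} [Group Γ]
  {V : Type} [AddCommGroup V] [Module ℝ V] {k : ℕ} {M : RModel S Γ V k}

/-- choice of the precision of `LIN` -/
theorem exists_epsL {εi ε₀ ε c₀ B VB Ci kk : ℝ} (hεi : 0 < εi) (hε₀ : 0 < ε₀) (hε : 0 < ε)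
    (hc₀ : 0 < c₀) (hB : 0 < B) (hVB : 0 < VB) (hCi : 0 ≤ Ci) (hk : 0 ≤ kk) :
    ∃ εL : ℝ, 0 < εL ∧ εL ≤ 1 ∧ εL ≤ εi ∧ (1 + 2 * kk + 2 * Ci) * εL ≤ ε₀ ∧
      (1 + 2 * kk + 2 * Ci) * εL ≤ ε / 2 ∧ 2 * εL ≤ ε / 4 ∧ B * (εL * VB) < c₀ := by
  have hE : 0 < 1 + 2 * kk + 2 * Ci := by positivity
  refine ⟨min (min (min 1 εi) (min ε₀ (ε / 2) / (1 + 2 * kk + 2 * Ci)))
    (min (ε / 8) (c₀ / (2 * (B * VB)))), ?_, ?_, ?_, ?_, ?_, ?_, ?_⟩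
  · exact lt_min (lt_min (lt_min one_pos hεi) (div_pos (lt_min hε₀ (by positivity)) hE))
      (lt_min (by positivity) (by positivity))
  · exact (min_le_left _ _).trans ((min_le_left _ _).trans (min_le_left _ _))
  · exact (min_le_left _ _).trans ((min_le_left _ _).trans (min_le_right _ _))
  · have h1 : min (min (min 1 εi) (min ε₀ (ε / 2) / (1 + 2 * kk + 2 * Ci)))
      (min (ε / 8) (c₀ / (2 * (B * VB)))) ≤ min ε₀ (ε / 2) / (1 + 2 * kk + 2 * Ci) :=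
      (min_le_left _ _).trans (min_le_right _ _)
    rw [le_div_iff₀ hE] at h1
    have := min_le_left ε₀ (ε / 2)
    linarith
  · have h1 : min (min (min 1 εi) (min ε₀ (ε / 2) / (1 + 2 * kk + 2 * Ci)))
      (min (ε / 8) (c₀ / (2 * (B * VB)))) ≤ min ε₀ (ε / 2) / (1 + 2 * kk + 2 * Ci) :=
      (min_le_left _ _).trans (min_le_right _ _)
    rw [le_div_iff₀ hE] at h1
    have := min_le_right ε₀ (ε / 2)
    linarith
  · have h1 : min (min (min 1 εi) (min ε₀ (ε / 2) / (1 + 2 * kk + 2 * Ci)))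
      (min (ε / 8) (c₀ / (2 * (B * VB)))) ≤ ε / 8 := (min_le_right _ _).trans (min_le_left _ _)
    linarith
  · have h1 : min (min (min 1 εi) (min ε₀ (ε / 2) / (1 + 2 * kk + 2 * Ci)))
      (min (ε / 8) (c₀ / (2 * (B * VB)))) ≤ c₀ / (2 * (B * VB)) :=
      (min_le_right _ _).trans (min_le_right _ _)
    rw [le_div_iff₀ (by positivity)] at h1
    nlinarith

/-- **COH.** -/
theorem coh_of (M : RModel S Γ V k) (hLIN : M.LIN) (hRAY : M.RAY) : M.COH := by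
  intro p K Φ₁ hΦ₁ V₁ hV₁
  obtain ⟨Ln, rn, hLn0, Hn⟩ := normT M K
  obtain ⟨c₁, εi, Ci, ri, hc₁, hεi, hCi, Hi⟩ := M.invT K
  obtain ⟨L, t₀, t₁, δr, δ₁, VB, B, hLnL, hc⟩ := exists_cohConst M K hΦ₁ hV₁ (Lm := Ln) hc₁
  have hc₀ : 0 < t₀ * δ₁ / 2 := by
    have := hc.t₀0
    have := hc.δ₁0
    positivity
  refine ⟨t₀ * δ₁ / 2, L, hc₀, fun ε hε => ?_⟩
  have hC0 := M.C0_nn
  have hC1 := M.one_le_C0
  have hk0 : (0 : ℝ) ≤ k := Nat.cast_nonneg _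
  obtain ⟨q, q1, q2, q3, q4, q5, Λ₂, hΛ₂, ε₀, Cf, n₀, hε₀, H⟩ := exists_par M hRAY K hΦ₁ hV₁ hc
    (κψ := ε / (4 * M.C0)) (κ' := ε / 2) (by positivity) (by positivity)
  obtain ⟨εL, l0, l1, l2, l3, l4, l5, l6⟩ := exists_epsL hεi hε₀ hε hc₀ hc.B0 hc.VB0 hCi hk0
  obtain ⟨κL, lamL, CRL, hκL, hlamL, hlamL1, HLIN⟩ := hLIN p K εL l0
  refine ⟨min κL εL, lamL / 2, max CRL (max |Cf| 1), lt_min hκL l0, by positivity, by linarith,
    fun δf hδf => ?_⟩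
  obtain ⟨δ', aL, hδ'0, hδ'δ, HL⟩ := HLIN δf hδf
  refine ⟨δ', max (max aL 0) (max (max rn ri) (4 * Λ₂ * ((n₀ : ℝ) + 3)) / lamL), hδ'0, hδ'δ,
    fun ρ s => M.selT Φ₁ V₁ q ⌊(ρ : ℝ) / Λ₂⌋₊ s, ?_⟩
  intro a ha F F' D Dp hqi hfat
  obtain ⟨ha1, ha2⟩ := max_le_iff.mp ha
  obtain ⟨ha3, ha4⟩ := max_le_iff.mp ha1
  rw [div_le_iff₀ hlamL, mul_comm a lamL] at ha2
  obtain ⟨ha5, ha6⟩ := max_le_iff.mp ha2
  obtain ⟨ha7, ha8⟩ := max_le_iff.mp ha5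
  have hCR1 : CRL * a ≤ max CRL (max |Cf| 1) * a :=
    mul_le_mul_of_nonneg_right (le_max_left _ _) ha4
  obtain ⟨r, hr1, hr2, Hα⟩ := HL a ha3 F F' D Dp hqi fun α =>
    (hfat α).mono hCR1 (mul_le_mul_of_nonneg_left hCR1 hδf.le) (min_le_left _ _)
  obtain ⟨s1, s2, s3, s4, s5, s6⟩ := coh_scale hΛ₂ hlamL hr1 ha6
  refine ⟨⌊r⌋₊, s1, s2.trans hr2, fun α => ?_⟩
  obtain ⟨D₀, T, hD₀D, hD₀m, hD₀, hlin⟩ := Hα α
  have hr0 : 0 ≤ r := (Nat.cast_nonneg _).trans s2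
  have hκ0 : 0 ≤ min κL εL := (lt_min hκL l0).le
  have hκl : min κL εL ≤ εL := min_le_right _ _
  have hRr : r ≤ max CRL (max |Cf| 1) * a := by
    refine hr2.trans ?_
    have : 1 * a ≤ max CRL (max |Cf| 1) * a :=
      mul_le_mul_of_nonneg_right ((le_max_right _ _).trans (le_max_right _ _)) ha4
    linarith
  have hRC : Cf * r ≤ max CRL (max |Cf| 1) * a := by
    calc Cf * r ≤ |Cf| * r := mul_le_mul_of_nonneg_right (le_abs_self _) hr0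
      _ ≤ max CRL (max |Cf| 1) * r :=
          mul_le_mul_of_nonneg_right ((le_max_left _ _).trans (le_max_right _ _)) hr0
      _ ≤ _ := mul_le_mul_of_nonneg_left hr2
          (zero_le_one.trans ((le_max_right _ _).trans (le_max_right _ _)))
  have hfr : M.Fat r (min κL εL) (D α) (Dp α) := (hfat α).toFat.mono hRr le_rfl
  have hlin1 : ∀ x ∈ D₀, ∀ x' ∈ D₀, (M.l (x⁻¹ * x') : ℝ) ≤ r →
      ‖M.f (F α) x' - M.f (F α) x - T x (M.θ (x⁻¹ * x'))‖ ≤ εL * r ∧ ‖T x' - T x‖ ≤ εL :=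
    fun x hx x' hx' hl => hlin x hx x' hx' (Or.inl hl)
  have hnorm := Hn r (ha7.trans hr1) εL l0.le l1 _ hκ0 (F α) (F' α) (hqi α) (D α) (Dp α) D₀ hfr
    hD₀D hD₀ T fun x hx x' hx' hl => (hlin1 x hx x' hx' hl).1
  have hinv := Hi r (ha8.trans hr1) εL l0.le l2 _ hκ0 (F α) (F' α) (hqi α) (D α) (Dp α) D₀ hfr
    hD₀D hD₀m hD₀ T fun x hx x' hx' hl => (hlin1 x hx x' hx' hl).1
  have hnorm' : M.μ {x | x ∈ D₀ ∧ ¬ ‖T x‖ ≤ q.L} ≤
      ENNReal.ofReal (k * (εL + min κL εL)) * M.μ (D α) := by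
    refine (measure_mono ?_).trans hnorm
    rintro x ⟨hx, h1⟩
    exact ⟨hx, fun h2 => h1 (h2.trans (by rw [q1]; exact hLnL))⟩
  rw [← q2] at hinv
  obtain ⟨D₁, d1, d2, d3, d4⟩ := coh_set (M := M) (ε' := (1 + 2 * (k : ℝ) + 2 * Ci) * εL)
    (κ' := ε / 2) (R := max CRL (max |Cf| 1) * a) (ε := ε)
    (M.GT Φ₁ q ⌊(⌊r⌋₊ : ℝ) / Λ₂⌋₊) (hqi α) (hfat α).toFat hD₀D hD₀ l0.le
    (by positivity) (by positivity) hr0 hnorm' hinv hlin1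
    (by
      have h1 : (k : ℝ) * (εL + min κL εL) ≤ k * (εL + εL) := by gcongr
      have h2 : Ci * (εL + min κL εL) ≤ Ci * (εL + εL) := by gcongr
      linarith)
    (fun Da hDa hDa' => (H _ s4).2 r s5 s6 _ _ _ (by positivity) l3 hκ0
      (hκl.trans (le_trans (by nlinarith) l3)) hRC (F α) (F' α) (D α) (Dp α) Da T hDa hDa')
    (by positivity) (by linarith)
  refine ⟨D₁, fun x => patF Φ₁ V₁ (T x), d1.trans hD₀D, d2, d3, ?_⟩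
  have key := coh_alpha (M := M) hΦ₁ hV₁ (κ := ε / (4 * M.C0)) (εL := εL) (ε := ε) (r := r)
    (δ' := δ') (ρ := ⌊r⌋₊) hc.δ₁0 hc.δ₁' hc.VB' (by rw [q3]; exact hc.t₀0.le) q4.le hc₀ q5
    hc.B' hc.B0.le l6 s2 s3 l0.le (by
      have : ε / (4 * M.C0) * M.C0 = ε / 4 := by field_simp
      linarith) (H _ s4).1 d1 d4 hlin hδ'0.le
  rw [q1] at key
  exact key

end RModel

end Vale.Agent.P188.Z1
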