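import Vale.Agent.P188.Z1.LinPre

/-!
# P188, Z1: existence of `Rays` and `Dirs`
-/

set_option linter.all false

open MeasureTheory Set Filter

namespace Vale.Agent.P188.Z1

/-- two functionals which are not on the same ray are separated -/
theorem exists_sep {k : ℕ} {b b' : Ht k →L[ℝ] ℝ} (hb : b ≠ 0) (hb' : b' ≠ 0)
    (h : ∀ t : ℝ, 0 < t → b' ≠ t • b) : ∃ w : Ht k, 0 < b w ∧ b' w < 0 := by
  obtain ⟨x0, hx0⟩ : ∃ x0, b x0 ≠ 0 := by
    by_contra hcon
    push Not at hcon
    exact hb (by ext x; simpa using hcon x)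
  obtain ⟨w0, hw0⟩ : ∃ w0, b w0 = 1 := ⟨(b x0)⁻¹ • x0, by
    rw [map_smul, smul_eq_mul, inv_mul_cancel₀ hx0]⟩
  by_cases hm : ∀ x, b' x = b' w0 * b x
  · have hbb : b' = (b' w0) • b := by
      ext x; rw [hm x]; simp
    have ht : ¬ 0 < b' w0 := fun ht => h _ ht hbb
    have ht0 : b' w0 ≠ 0 := by
      intro h0
      apply hb'
      rw [hbb, h0, zero_smul]
    exact ⟨w0, by rw [hw0]; exact one_pos, lt_of_le_of_ne (not_lt.1 ht) ht0⟩
  · push Not at hm
    obtain ⟨x, hx⟩ := hm
    have hu : b (x - b x • w0) = 0 := by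
      rw [map_sub, map_smul, smul_eq_mul, hw0]; ring
    have hu' : b' (x - b x • w0) ≠ 0 := by
      rw [map_sub, map_smul, smul_eq_mul]
      intro h0
      apply hx
      linarith
    refine ⟨w0 + ((-1 - b' w0) / b' (x - b x • w0)) • (x - b x • w0), ?_, ?_⟩
    · rw [map_add, map_smul, hu, smul_zero, add_zero, hw0]; exact one_pos
    · rw [map_add, map_smul, smul_eq_mul, div_mul_cancel₀ _ hu']
      linarith

/-- a nonempty open cone condition contains generic integral vectors -/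
theorem exists_generic_mem {k : ℕ} (W : Finset (Ht k →L[ℝ] ℝ)) {U : Set (Ht k)} (hU : IsOpen U)
    (hne : U.Nonempty) (hcone : ∀ w ∈ U, ∀ t : ℝ, 0 < t → t • w ∈ U) :
    ∃ v : Fin k → ℤ, (∀ b ∈ W, b ≠ 0 → b (fun i => (v i : ℝ)) ≠ 0) ∧
      (fun i => (v i : ℝ)) ∈ U := by
  classical
  -- the generic set is open and dense
  have hdense : ∀ W' : Finset (Ht k →L[ℝ] ℝ),
      IsOpen {w : Ht k | ∀ b ∈ W', b ≠ 0 → b w ≠ 0} ∧
      Dense {w : Ht k | ∀ b ∈ W', b ≠ 0 → b w ≠ 0} := by
    intro W'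
    induction W' using Finset.induction_on with
    | empty => simp
    | insert b W' _ ih =>
      have heq : {w : Ht k | ∀ c ∈ insert b W', c ≠ 0 → c w ≠ 0} =
          {w : Ht k | b ≠ 0 → b w ≠ 0} ∩ {w : Ht k | ∀ b ∈ W', b ≠ 0 → b w ≠ 0} := by
        ext w
        simp [Finset.forall_mem_insert]
      have ho : IsOpen {w : Ht k | b ≠ 0 → b w ≠ 0} := by
        by_cases hb : b = 0
        · simp [hb]
        · have : {w : Ht k | b ≠ 0 → b w ≠ 0} = {w | b w ≠ 0} := by ext w; simp [hb]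
          rw [this]
          exact isOpen_ne.preimage b.continuous
      have hd : Dense {w : Ht k | b ≠ 0 → b w ≠ 0} := by
        by_cases hb : b = 0
        · simp [hb]
        · have hset : {w : Ht k | b ≠ 0 → b w ≠ 0} =
              ((LinearMap.ker (b : Ht k →ₗ[ℝ] ℝ) : Submodule ℝ (Ht k)) : Set (Ht k))ᶜ := by
            ext w; simp [hb]
          rw [hset]
          rw [← interior_eq_empty_iff_dense_compl]
          by_contra hne
          have htop := Submodule.eq_top_of_nonempty_interior' (R := ℝ)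
            (LinearMap.ker (b : Ht k →ₗ[ℝ] ℝ)) (Set.nonempty_iff_ne_empty.2 hne)
          apply hb
          ext x
          have : x ∈ LinearMap.ker (b : Ht k →ₗ[ℝ] ℝ) := by rw [htop]; trivial
          simpa using this
      rw [heq]
      exact ⟨ho.inter ih.1, hd.inter_of_isOpen_left ih.2 ho⟩
  obtain ⟨w, hwU, hwG⟩ := (hdense W).2.inter_open_nonempty U hU hne
  have hO : IsOpen (U ∩ {w : Ht k | ∀ b ∈ W, b ≠ 0 → b w ≠ 0}) := hU.inter (hdense W).1
  have hQ : DenseRange (Pi.map (fun (_ : Fin k) (q : ℚ) => (q : ℝ))) :=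
    DenseRange.piMap fun _ => Rat.denseRange_cast
  obtain ⟨q, hq⟩ := hQ.exists_mem_open hO ⟨w, hwU, hwG⟩
  -- clear denominators
  obtain ⟨N, hN, hNq⟩ : ∃ N : ℕ, 0 < N ∧ ∀ i, ∃ z : ℤ, (N : ℚ) * q i = z := by
    refine ⟨∏ i, (q i).den, Finset.prod_pos fun i _ => (q i).den_pos, fun i => ?_⟩
    obtain ⟨c, hc⟩ := Finset.dvd_prod_of_mem (fun i => (q i).den) (Finset.mem_univ i)
    refine ⟨c * (q i).num, ?_⟩
    rw [hc]
    push_cast
    have := Rat.mul_den_eq_num (q i)
    calc ((q i).den : ℚ) * c * q i = c * (q i * (q i).den) := by ring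
      _ = _ := by rw [this]
  choose z hz using hNq
  have hz' : (fun i => (z i : ℝ)) = (N : ℝ) • (Pi.map (fun (_ : Fin k) (q : ℚ) => (q : ℝ)) q) := by
    funext i
    simp only [Pi.smul_apply, Pi.map_apply, smul_eq_mul]
    have := congrArg (fun x : ℚ => (x : ℝ)) (hz i)
    push_cast at this
    exact this.symm
  have hN0 : (0 : ℝ) < N := by exact_mod_cast hN
  refine ⟨z, fun b hb hb0 => ?_, ?_⟩
  · rw [hz', map_smul, smul_eq_mul]
    exact mul_ne_zero hN0.ne' (hq.2 b hb hb0)
  · rw [hz']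
    exact hcone _ hq.1 _ hN0

namespace RModel

variable {S : Type} [Group S] [MeasurableSpace S] {Γ : Type} [Group Γ]
  {V : Type} [AddCommGroup V] [Module ℝ V] {k : ℕ} (M : RModel S Γ V k)

/-- **Representatives of the rays.** -/
theorem exists_rays_b : ∃ Φ₁, M.Rays Φ₁ := by
  classical
  let r : Setoid M.Φ :=
    { r := fun b b' => ∃ t : ℝ, 0 < t ∧ (b' : Ht k →L[ℝ] ℝ) = t • (b : Ht k →L[ℝ] ℝ)
      iseqv :=
        { refl := fun b => ⟨1, one_pos, by rw [one_smul]⟩
          symm := fun {b b'} ⟨t, ht, h⟩ => ⟨t⁻¹, inv_pos.2 ht, by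
            rw [h, smul_smul, inv_mul_cancel₀ ht.ne', one_smul]⟩
          trans := fun {b b' b''} ⟨t, ht, h⟩ ⟨t', ht', h'⟩ => ⟨t' * t, mul_pos ht' ht, by
            rw [h', h, smul_smul]⟩ } }
  haveI : Fintype (Quotient r) := Fintype.ofFinite _
  refine ⟨(Finset.univ : Finset (Quotient r)).image fun q => ((Quotient.out q : M.Φ) : Ht k →L[ℝ] ℝ),
    ?_, ?_, ?_⟩
  · intro b hb
    rw [Finset.mem_image] at hb
    obtain ⟨q, _, rfl⟩ := hb
    exact (Quotient.out q).2
  · intro b hb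
    have h1 : r (Quotient.out (Quotient.mk r ⟨b, hb⟩)) ⟨b, hb⟩ :=
      Quotient.exact (Quotient.out_eq _)
    obtain ⟨t, ht, h⟩ := h1
    exact ⟨_, Finset.mem_image.2 ⟨Quotient.mk r ⟨b, hb⟩, Finset.mem_univ _, rfl⟩, t, ht, h⟩
  · intro b hb b' hb' t ht h
    rw [Finset.mem_image] at hb hb'
    obtain ⟨q, _, rfl⟩ := hb
    obtain ⟨q', _, rfl⟩ := hb'
    have h1 : r (Quotient.out q') (Quotient.out q) := ⟨t, ht, h⟩
    have h2 : q' = q := by
      rw [← Quotient.out_eq q, ← Quotient.out_eq q']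
      exact Quotient.sound h1
    rw [h2]

/-- **Generic directions which separate the rays.** -/
theorem exists_dirs_b {Φ₁ : Finset (Ht k →L[ℝ] ℝ)} (hR : M.Rays Φ₁) : ∃ V₁, M.Dirs Φ₁ V₁ := by
  classical
  obtain ⟨v, hh, hgen, hdual⟩ := exists_mom k M.Wt
  have hsep : ∀ b b' : Ht k →L[ℝ] ℝ, ∃ u : Fin k → ℤ, M.Generic u ∧
      (b ∈ Φ₁ → b' ∈ Φ₁ → b ≠ b' → 0 < b (ht u) ∧ b' (ht u) < 0) := by
    intro b b'
    by_cases hbb : b ∈ Φ₁ ∧ b' ∈ Φ₁ ∧ b ≠ b'
    · obtain ⟨hb, hb', hne⟩ := hbb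
      obtain ⟨w, hw1, hw2⟩ := exists_sep (M.Φ_ne b (hR.sub hb)) (M.Φ_ne b' (hR.sub hb'))
        (fun t ht h => hne (hR.uniq b' hb' b hb t ht h).symm)
      obtain ⟨u, hu1, hu2⟩ := exists_generic_mem M.Wt (U := {w | 0 < b w ∧ b' w < 0})
        ((isOpen_lt continuous_const b.continuous).inter
          (isOpen_lt b'.continuous continuous_const)) ⟨w, hw1, hw2⟩ (by
          rintro w ⟨h1, h2⟩ t ht
          refine ⟨?_, ?_⟩
          · show 0 < b (t • w)
            rw [map_smul, smul_eq_mul]; exact mul_pos ht h1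
          · show b' (t • w) < 0
            rw [map_smul, smul_eq_mul]; exact mul_neg_of_pos_of_neg ht h2)
      exact ⟨u, hu1, fun _ _ _ => hu2⟩
    · obtain ⟨u, hu1, _⟩ := exists_generic_mem (k := k) M.Wt isOpen_univ ⟨0, trivial⟩
        (fun _ _ _ _ => trivial)
      exact ⟨u, hu1, fun h1 h2 h3 => absurd ⟨h1, h2, h3⟩ hbb⟩
  choose u hu1 hu2 using hsep
  set V₀ : Finset (Fin k → ℤ) := (Φ₁ ×ˢ Φ₁).image (fun p => u p.1 p.2) ∪
    (Finset.univ : Finset (Fin k)).image v with hV₀
  have hV₀g : ∀ w ∈ V₀, M.Generic w := by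
    intro w hw
    rw [hV₀, Finset.mem_union, Finset.mem_image, Finset.mem_image] at hw
    rcases hw with ⟨p, _, rfl⟩ | ⟨i, _, rfl⟩
    · exact hu1 _ _
    · exact hgen i
  have hht : ∀ w : Fin k → ℤ, ht (-w) = -ht w := by
    intro w; funext i; simp [ht]
  refine ⟨V₀ ∪ V₀.image (fun w => -w), ?_, ?_, ?_, ?_⟩
  · intro w hw
    rw [Finset.mem_union, Finset.mem_image] at hw
    rcases hw with hw | ⟨w', hw', rfl⟩
    · exact hV₀g w hw
    · intro b hb hb0
      have h1 := hV₀g w' hw' b hb hb0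
      have h2 : b (ht (-w')) = -b (ht w') := by rw [hht, map_neg]
      intro h3
      apply h1
      have h4 : b (ht (-w')) = 0 := h3
      rw [h2, neg_eq_zero] at h4
      exact h4
  · intro w hw
    rw [Finset.mem_union, Finset.mem_image] at hw ⊢
    rcases hw with hw | ⟨w', hw', rfl⟩
    · exact Or.inr ⟨w, hw, rfl⟩
    · exact Or.inl (by rwa [neg_neg])
  · intro b hb b' hb' h
    by_contra hne
    obtain ⟨h1, h2⟩ := hu2 b b' hb hb' hne
    have hmem : u b b' ∈ V₀ ∪ V₀.image (fun w => -w) := by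
      rw [Finset.mem_union]
      left
      rw [hV₀, Finset.mem_union]
      left
      exact Finset.mem_image.2 ⟨(b, b'), Finset.mk_mem_product hb hb', rfl⟩
    exact absurd (h _ hmem h1) (not_lt.2 h2.le)
  · have hli : LinearIndependent ℝ fun i : Fin k => ht (v i) := by
      rw [Fintype.linearIndependent_iff]
      intro g hg i
      have h1 := congrArg (hh i) hg
      rw [map_sum, map_zero] at h1
      have h2 : ∑ x, hh i (g x • ht (v x)) = g i := by
        rw [Finset.sum_eq_single i]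
        · rw [map_smul, smul_eq_mul]
          have : hh i (ht (v i)) = 1 := by
            have := hdual i i
            rw [if_pos rfl] at this
            exact this
          rw [this, mul_one]
        · intro j _ hj
          rw [map_smul, smul_eq_mul]
          have : hh i (ht (v j)) = 0 := by
            have := hdual j i
            rw [if_neg hj] at this
            exact this
          rw [this, mul_zero]
        · intro h; exact absurd (Finset.mem_univ i) h
      rw [← h2]; exact h1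
    have htop := hli.span_eq_top_of_card_eq_finrank' (by simp)
    rw [eq_top_iff, ← htop]
    refine Submodule.span_mono ?_
    rintro _ ⟨i, rfl⟩
    refine ⟨v i, ?_, rfl⟩
    rw [Finset.mem_coe, Finset.mem_union]
    left
    rw [hV₀, Finset.mem_union]
    right
    exact Finset.mem_image.2 ⟨i, Finset.mem_univ _, rfl⟩

end RModel

end Vale.Agent.P188.Z1
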