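import Vale.Agent.P188.Z1.Dec2

/-!
# P188, Z1, block DEC: decompositions of fat displacements (both, with common constants)
-/

set_option linter.all false

open MeasureTheory Set
open Vale.Agent.P188.H530 (hgt hgt_mul)

namespace Vale.Agent.P188.Z1

namespace RModel

variable {S : Type} [Group S] [MeasurableSpace S] {Γ : Type} [Group Γ]
  {V : Type} [AddCommGroup V] [Module ℝ V] {k : ℕ} (M : RModel S Γ V k)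

/-- **Both decompositions with common constants** `c` and `C` (any `C ≥ C₁`). -/
theorem decs (v : Fin k → (Fin k → ℤ)) (hv : ∀ i, M.Generic (v i)) (hh : Fin k → Ht k →L[ℝ] ℝ)
    (hd : ∀ i j, hh j (ht (v i)) = if i = j then 1 else 0) :
    ∃ (c : ℕ) (C₁ : ℝ), 1 ≤ C₁ ∧ ∀ C : ℝ, C₁ ≤ C →
      (∀ ε₁ : ℝ, 0 < ε₁ → ε₁ ≤ 1 →
        ∃ d₁ : ℝ, 0 < d₁ ∧ d₁ ≤ 1 ∧ ∀ δ : ℝ, 0 < δ → δ ≤ 1 / C → ∃ ρ₀ : ℕ, ∀ ρ : ℕ, ρ₀ ≤ ρ →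
        ∀ i, ∀ u ∈ M.FB δ (d₁ * ρ), ∃ us : List S, us.length ≤ c ∧ us.prod = u ∧
          (∀ a ∈ us, P188.H882.Mrg (fun x => (M.l x : ℝ)) (M.Nt (C * δ) ρ) (M.τ (v i)) ρ
            (ε₁ * ρ) a) ∧
          ∀ ws, ws <+: us → ws.prod ∈ M.FB (C * δ) (C * ρ) ∧
            ∀ m : ℤ, |m| ≤ (ρ : ℤ) → ∀ a, (M.l a : ℝ) ≤ ε₁ * ρ →
              ws.prod * M.τ (v i) ^ m * a ∈ M.FB (C * δ) (C * ρ)) ∧
      (∀ d : ℝ, 0 < d → C * d ≤ 1 →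
        ∀ δ : ℝ, 0 < δ → δ ≤ d → ∃ ρ₀ : ℕ, ∀ ρ : ℕ, ρ₀ ≤ ρ → ∀ u ∈ M.FB δ (d * ρ),
          ∃ us : List S, us.length ≤ c ∧ us.prod = u ∧
            (∀ a ∈ us, P188.H882.Typed (fun x => (M.l x : ℝ)) (fun i => M.τ (v i))
              (fun j x => hh j (M.θ x)) ρ ⌈C * (C * d * ρ)⌉₊ C (M.Nt (C * δ) ρ) a) ∧
            ∀ ws, ws <+: us → ws.prod ∈ M.FB (C * δ) (C * d * ρ)) := by
  obtain ⟨c₁, C₁, hC₁, h1⟩ := M.dec1 v hv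
  obtain ⟨c₂, C₂, hC₂, h2⟩ := M.dec2 v hv hh hd
  refine ⟨max c₁ c₂, max C₁ C₂, le_max_of_le_left hC₁, fun C hC => ⟨?_, ?_⟩⟩
  · intro ε₁ hε₁ hε₁'
    obtain ⟨d₁, hd0, hd1, h3⟩ := h1 C ((le_max_left _ _).trans hC) ε₁ hε₁ hε₁'
    refine ⟨d₁, hd0, hd1, fun δ hδ hδ' => ?_⟩
    obtain ⟨ρ₀, h4⟩ := h3 δ hδ hδ'
    refine ⟨ρ₀, fun ρ hρ i u hu => ?_⟩
    obtain ⟨us, q1, q2, q3, q4⟩ := h4 ρ hρ i u hu
    exact ⟨us, q1.trans (le_max_left _ _), q2, q3, q4⟩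
  · intro d hd0 hd1 δ hδ hδ'
    obtain ⟨ρ₀, h4⟩ := h2 C ((le_max_right _ _).trans hC) d hd0 hd1 δ hδ hδ'
    have hC1 : 1 ≤ C := (hC₂.trans (le_max_right _ _)).trans hC
    refine ⟨ρ₀, fun ρ hρ u hu => ?_⟩
    obtain ⟨us, q1, q2, q3, q4⟩ := h4 ρ hρ u hu
    refine ⟨us, q1.trans (le_max_right _ _), q2, fun a ha => M.typed_mono ?_ le_rfl subset_rfl
      (q3 a ha), fun ws hws => ?_⟩
    · refine Nat.ceil_mono ?_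
      rw [mul_assoc C d]
      have : 0 ≤ C * (d * ρ) := by positivity
      exact le_mul_of_one_le_left this hC1
    · rw [mul_assoc C d]
      exact q4 ws hws

/-- the first decomposition, 971's form -/
theorem dec1' (v : Fin k → Fin k → ℤ) (hv : ∀ i, M.Generic (v i)) :
    ∃ (c : ℕ) (C : ℝ), 1 ≤ C ∧ ∀ ε1, 0 < ε1 → ε1 ≤ 1 → ∃ d1, 0 < d1 ∧ d1 ≤ 1 ∧
      ∀ δ, 0 < δ → δ ≤ 1 / C → ∃ ρ0 : ℕ, ∀ ρ : ℕ, ρ0 ≤ ρ → ∀ i, ∀ u ∈ M.FB δ (d1 * ρ),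
        ∃ us : List S, us.length ≤ c ∧ us.prod = u ∧
          (∀ a ∈ us, P188.H882.Mrg (fun x => (M.l x : ℝ)) (M.Nt (C * δ) ρ) (M.τ (v i)) ρ
            (ε1 * ρ) a) ∧
          ∀ ws, ws <+: us → ws.prod ∈ M.FB (C * δ) (C * ρ) ∧
            ∀ m : ℤ, |m| ≤ (ρ : ℤ) → ∀ a, (M.l a : ℝ) ≤ ε1 * ρ →
              ws.prod * M.τ (v i) ^ m * a ∈ M.FB (C * δ) (C * ρ) := by
  obtain ⟨c, C, hC, h⟩ := M.dec1 v hv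
  exact ⟨c, C, hC, h C le_rfl⟩

end RModel

end Vale.Agent.P188.Z1
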