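import Vale.Agent.P188.Z1.Lin
import Vale.Agent.P188.Z1.Dec

/-!
# P188, Z1: LIN from NFp and BOXQ
-/

set_option linter.all false

namespace Vale.Agent.P188.Z1

namespace RModel

variable {S : Type} [Group S] [MeasurableSpace S] {Γ : Type} [Group Γ]
  {V : Type} [AddCommGroup V] [Module ℝ V] {k : ℕ} (M : RModel S Γ V k)

theorem dec1_prop (v : Fin k → Fin k → ℤ) (hv : ∀ i, M.Generic (v i)) : M.DEC1 v := M.dec1' v hv

theorem dec2_prop (v : Fin k → Fin k → ℤ) (hh : Fin k → Ht k →L[ℝ] ℝ)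
    (hv : ∀ i, M.Generic (v i)) (hd : ∀ i j, hh j (ht (v i)) = if i = j then 1 else 0) :
    M.DEC2 v hh := by
  obtain ⟨c, C, hC, h⟩ := M.decs v hv hh hd
  exact ⟨c, C, hC, (h C le_rfl).2⟩

/-- **LIN.** -/
theorem lin (hNF : M.NFp) (hBQ : M.BOXQ) : M.LIN :=
  lin_of hNF hBQ M.dec1_prop fun v hh hv hd => M.dec2_prop v hh hv hd

end RModel

end Vale.Agent.P188.Z1
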