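import Vale.Agent.P188.H540.Win

/-!
# P188, Z1, block DBOX: the box sets have small boundary
-/

set_option linter.all false

open MeasureTheory Set Filter
open Vale.Agent.P188.H530 (hgt hgt_mul)
open Vale.Agent.P188.H540 (vec LP)
open scoped Pointwise

namespace Vale.Agent.P188.Z1

namespace RModel

variable {S : Type} [Group S] [MeasurableSpace S] {Γ : Type} [Group Γ]
  {V : Type} [AddCommGroup V] [Module ℝ V] {k : ℕ} {M : RModel S Γ V k}

/-- fine properties of the natural boxes (615's `qbchE`, `nb_smul_sub`, and volumes) -/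
structure NatBox.Fine (B : M.NatBox) : Prop where
  fmul : ∀ ε : ℝ, 0 < ε → ∃ δ : ℝ, 0 < δ ∧ δ ≤ 1 ∧ ∀ R : M.ι → ℝ, (∀ i, 0 ≤ R i) →
    ∀ x ∈ B.Bx R, ∀ y ∈ B.Bx (fun i => δ * R i),
      x * y ∈ B.Bx (fun i => (1 + ε) * R i) ∧ y * x ∈ B.Bx (fun i => (1 + ε) * R i)
  fvol : ∀ ε : ℝ, 0 < ε → ∃ δ : ℝ, 0 < δ ∧ ∀ R : M.ι → ℝ, (∀ i, 0 < R i) →
    M.μ (B.Bx fun i => (1 + δ) * R i) ≤ ENNReal.ofReal (1 + ε) * M.μ (B.Bx R)

/-! ### sets of the form (box of `N_R`) times (heights) -/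

/-- `N_R`-part in `A`, heights in `W` -/
def BW (M : RModel S Γ V k) (A : Set S) (W : Set (Fin k → ℤ)) : Set S :=
  {z | z * (M.sec z)⁻¹ ∈ A ∧ Multiplicative.toAdd (M.η z) ∈ W}

theorem sec_of_η {z : S} {w : Fin k → ℤ} (h : M.η z = Multiplicative.ofAdd w) :
    M.sec z = M.τ w := by
  unfold sec
  rw [h]
  rfl

theorem BW_eq {A : Set S} (hA : ∀ x ∈ A, M.η x = 1) (W : Set (Fin k → ℤ)) :
    BW M A W = ⋃ w ∈ W, (fun z => z * (M.τ w)⁻¹) ⁻¹' A := by
  ext z
  simp only [BW, mem_setOf_eq, mem_iUnion, mem_preimage, exists_prop]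
  constructor
  · rintro ⟨h1, h2⟩
    exact ⟨_, h2, h1⟩
  · rintro ⟨w, hw, h1⟩
    have h2 := hA _ h1
    rw [map_mul, map_inv, M.η_τ, mul_inv_eq_one] at h2
    rw [sec_of_η h2, h2]
    exact ⟨h1, hw⟩

theorem BW_meas {A : Set S} (hA : MeasurableSet A) (hA1 : ∀ x ∈ A, M.η x = 1)
    (W : Set (Fin k → ℤ)) : MeasurableSet (BW M A W) := by
  rw [BW_eq hA1]
  exact MeasurableSet.biUnion (Set.to_countable W) fun w _ => (M.mp _).measurable hA

/-- **measure of (box) x (heights)** -/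
theorem BW_measure {A : Set S} (hA : MeasurableSet A) (hA1 : ∀ x ∈ A, M.η x = 1)
    {W : Set (Fin k → ℤ)} (hW : W.Finite) : M.μ (BW M A W) = W.ncard * M.μ A := by
  rw [BW_eq hA1]
  have h1 : (⋃ w ∈ W, (fun z => z * (M.τ w)⁻¹) ⁻¹' A) =
      ⋃ w ∈ hW.toFinset, (fun z => z * (M.τ w)⁻¹) ⁻¹' A := by
    ext z; simp
  rw [h1, measure_biUnion_finset]
  · have h2 : ∀ w ∈ hW.toFinset, M.μ ((fun z => z * (M.τ w)⁻¹) ⁻¹' A) = M.μ A := fun w _ =>
      (M.mp _).measure_preimage hA.nullMeasurableSet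
    rw [Finset.sum_congr rfl h2, Finset.sum_const, nsmul_eq_mul, ncard_eq_toFinset_card W hW]
  · intro w _ w' _ hww
    show Disjoint _ _
    rw [Set.disjoint_left]
    intro z h2 h3
    have h4 := hA1 _ h2
    have h5 := hA1 _ h3
    rw [map_mul, map_inv, M.η_τ, mul_inv_eq_one] at h4 h5
    rw [h4] at h5
    exact hww (Multiplicative.ofAdd.injective h5)
  · intro w _
    exact (M.mp _).measurable hA

/-- multiplication by `g` on the right -/
theorem part_mul (z g : S) : z * g * (M.sec (z * g))⁻¹ =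
    (z * (M.sec z)⁻¹) * (M.sec z * g * (M.sec (M.sec z * g))⁻¹) := by
  have h0 : M.η (z * g) = M.η (M.sec z * g) := by rw [map_mul, map_mul, DB.η_sec]
  have h : M.sec (z * g) = M.sec (M.sec z * g) :=
    congrArg (fun t => M.τ (Multiplicative.toAdd t)) h0
  rw [h]
  group

/-! ### conjugates of small elements -/

theorem adm_two (y : ℝ) (hy : 1 ≤ y) : M.Adm (M.two 1 y) := by
  classical
  have h1 : ∀ i, 1 ≤ M.two 1 y i := by
    intro i
    unfold two
    split_ifs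
    · exact le_rfl
    · exact hy
  have hone : ∀ L : List M.ι, 1 ≤ (L.map (M.two 1 y)).prod := by
    intro L
    induction L with
    | nil => simp
    | cons i L ih =>
      rw [List.map_cons, List.prod_cons]
      nlinarith [h1 i]
  refine ⟨fun i => lt_of_lt_of_le one_pos (h1 i), ?_⟩
  intro i w hw hs
  by_cases hi : M.wt i = 0
  · have : M.two 1 y i = 1 := by unfold two; rw [if_pos hi]
    rw [this]
    exact hone w
  · have h2 : M.two 1 y i = y := by unfold two; rw [if_neg hi]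
    rw [h2]
    -- the word has a letter of nonzero weight
    have h3 : ∃ j ∈ w, M.wt j ≠ 0 := by
      by_contra hcon
      push Not at hcon
      apply hi
      rw [← hs]
      apply List.sum_eq_zero
      intro x hx
      rw [List.mem_map] at hx
      obtain ⟨j, hj, rfl⟩ := hx
      exact hcon j hj
    obtain ⟨j, hj, hj0⟩ := h3
    have h4 : ∀ L : List M.ι, j ∈ L → y ≤ (L.map (M.two 1 y)).prod := by
      intro L
      induction L with
      | nil => intro h; simp at h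
      | cons i L ih =>
        intro h
        rw [List.map_cons, List.prod_cons]
        rcases List.mem_cons.1 h with rfl | h5
        · have h6 : M.two 1 y j = y := by unfold two; rw [if_neg hj0]
          rw [h6]
          nlinarith [hone L]
        · nlinarith [h1 i, ih h5]
    exact h4 w hj

theorem conj_mem (B : M.NatBox) {w : Fin k → ℤ} {g c : S} {v y : V} {n : ℕ} {Ae A0 N : ℝ}
    (hv : v ∈ M.e) (hv' : M.nm v ≤ Ae) (hy : y ∈ M.Vw 0) (hy' : M.nm y ≤ A0) (hc : c ∈ M.CB n)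
    (hg : g = M.ex v * (M.ex y * c))
    (hN : 1 + (⌈M.C0 * (1 + ‖vec w‖)⌉₊ : ℝ) + n + ⌈M.C0 * (1 + ‖vec w + M.θ g‖)⌉₊ ≤ N)
    {R : M.ι → ℝ}
    (h0 : ∀ i, M.wt i = 0 → B.C * (1 + M.C0) * N ^ (B.dg + M.deg) * (1 + A0) ≤ R i)
    (h1 : ∀ i, M.wt i ≠ 0 → 1 ≤ R i ∧
      B.C * (1 + M.C0) * N ^ (B.dg + M.deg) * Real.exp (M.wt i (vec w)) *
        (B.C * (1 + Ae)) ≤ R i) :
    M.τ w * g * (M.sec (M.τ w * g))⁻¹ ∈ B.Bx (fun i => B.C * (B.C * R i)) := by
  classical
  have hC0 := M.one_le_C0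
  have hBC := B.one_le
  have hAe : 0 ≤ Ae := (apply_nonneg _ _).trans hv'
  have hA0 : 0 ≤ A0 := (apply_nonneg _ _).trans hy'
  set nw : ℕ := ⌈M.C0 * (1 + ‖vec w‖)⌉₊ with hnw
  set w'' : Fin k → ℤ := Multiplicative.toAdd (M.η (M.τ w * g)) with hw''
  set nw'' : ℕ := ⌈M.C0 * (1 + ‖vec w + M.θ g‖)⌉₊ with hnw''
  have hvw'' : vec w'' = vec w + M.θ g := by
    rw [hw'', ← DB.θ_eq_vec, M.θ_mul, (DB.θ_vec M)]
  have hτw : M.τ w ∈ M.CB nw := M.τ_CB w
  have hτw'' : M.τ w'' ∈ M.CB nw'' := by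
    have := M.τ_CB w''
    have h5 : (fun i => (w'' i : ℝ)) = vec w + M.θ g := hvw''
    rw [h5] at this
    exact this
  have hN1 : 1 ≤ N := by
    have : (0 : ℝ) ≤ nw := Nat.cast_nonneg _
    have : (0 : ℝ) ≤ n := Nat.cast_nonneg _
    have : (0 : ℝ) ≤ nw'' := Nat.cast_nonneg _
    linarith
  have hNd : ∀ a : ℕ, a ≤ B.dg + M.deg → N ^ a ≤ N ^ (B.dg + M.deg) := fun a ha =>
    pow_le_pow_right₀ hN1 ha
  have hNd1 : 1 ≤ N ^ (B.dg + M.deg) := one_le_pow₀ hN1
  set Q : ℝ := N ^ (B.dg + M.deg) with hQ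
  have hQ0 : 0 ≤ Q := by linarith
  -- the three parts
  have e1 : M.τ w * g * (M.sec (M.τ w * g))⁻¹ =
      (M.τ w * M.ex v * (M.τ w)⁻¹) * (M.τ w * M.ex y * (M.τ w)⁻¹) *
        (M.τ w * c * (M.τ w'')⁻¹) := by
    have : M.sec (M.τ w * g) = M.τ w'' := rfl
    rw [this, hg]
    group
  have hnwN : (1 + nw : ℝ) ≤ N := by
    have : (0 : ℝ) ≤ n := Nat.cast_nonneg _
    have : (0 : ℝ) ≤ nw'' := Nat.cast_nonneg _
    linarith
  have hRi : ∀ i, 0 ≤ R i := by
    intro i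
    by_cases hi : M.wt i = 0
    · refine le_trans ?_ (h0 i hi)
      positivity
    · linarith [(h1 i hi).1]
  -- first part
  have p1 : M.τ w * M.ex v * (M.τ w)⁻¹ ∈ B.Bx R := by
    have h2 := B.ball_e v hv
    have h3 := B.conj nw (M.τ w) hτw (M.two 1 (B.C * (1 + M.nm v)))
      (adm_two _ (by have := apply_nonneg M.nm v; nlinarith)) _ h2
    refine B.mono _ _ ?_ ?_ h3
    · intro i
      have : 0 ≤ M.two 1 (B.C * (1 + M.nm v)) i := by
        unfold two
        split_ifs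
        · exact zero_le_one
        · have := apply_nonneg M.nm v; positivity
      positivity
    · intro i
      rw [(DB.θ_vec M)]
      have hp : (1 + (nw : ℝ)) ^ B.dg ≤ Q :=
        (pow_le_pow_left₀ (by positivity) hnwN _).trans (hNd _ (by omega))
      by_cases hi : M.wt i = 0
      · refine le_trans ?_ (h0 i hi)
        have h4 : M.two 1 (B.C * (1 + M.nm v)) i = 1 := by unfold two; rw [if_pos hi]
        rw [h4, hi]
        simp only [ContinuousLinearMap.zero_apply, Real.exp_zero, mul_one]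
        calc B.C * (1 + (nw : ℝ)) ^ B.dg ≤ B.C * Q := by gcongr
          _ = B.C * 1 * Q * 1 := by ring
          _ ≤ B.C * (1 + M.C0) * Q * (1 + A0) := by
              gcongr
              · linarith
              · linarith
      · refine le_trans ?_ (h1 i hi).2
        have h4 : M.two 1 (B.C * (1 + M.nm v)) i = B.C * (1 + M.nm v) := by
          unfold two; rw [if_neg hi]
        rw [h4]
        have h5 : B.C * (1 + (nw : ℝ)) ^ B.dg ≤ B.C * (1 + M.C0) * Q := by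
          calc B.C * (1 + (nw : ℝ)) ^ B.dg ≤ B.C * Q := by gcongr
            _ = B.C * 1 * Q := by ring
            _ ≤ B.C * (1 + M.C0) * Q := by gcongr; linarith
        have h6 : B.C * (1 + M.nm v) ≤ B.C * (1 + Ae) := by gcongr
        have h7 : 0 ≤ B.C * (1 + M.nm v) := by have := apply_nonneg M.nm v; positivity
        gcongr
  -- second part
  have hAd : ∀ (a : V), a ∈ M.Vw 0 → M.nm (M.Ad (M.τ w) a) ≤ M.C0 * Q * M.nm a ∧
      M.Ad (M.τ w) a ∈ M.Vw 0 := by
    intro a ha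
    refine ⟨?_, M.C_inv nw _ hτw 0 a ha⟩
    have h2 := M.C_le nw _ hτw 0 M.zero_mem_Wt a ha
    simp only [ContinuousLinearMap.zero_apply, Real.exp_zero, mul_one] at h2
    refine h2.trans ?_
    have hp : (1 + (nw : ℝ)) ^ M.deg ≤ Q :=
      (pow_le_pow_left₀ (by positivity) hnwN _).trans (hNd _ (by omega))
    have := apply_nonneg M.nm a
    gcongr
  have key : ∀ a : V, a ∈ M.Vw 0 → M.nm a ≤ M.C0 * Q * (1 + A0) → M.ex a ∈ B.Bx R := by
    intro a ha hna
    have h2 := B.ball_0 a ha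
    refine B.mono _ _ ?_ ?_ h2
    · intro i
      unfold two
      split_ifs
      · have := apply_nonneg M.nm a; positivity
      · exact zero_le_one
    · intro i
      unfold two
      split_ifs with hi
      · refine le_trans ?_ (h0 i hi)
        have h3 : 1 + M.nm a ≤ (1 + M.C0) * Q * (1 + A0) := by
          have : (1 : ℝ) ≤ Q * (1 + A0) := by nlinarith
          nlinarith
        calc B.C * (1 + M.nm a) ≤ B.C * ((1 + M.C0) * Q * (1 + A0)) := by gcongr
          _ = _ := by ring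
      · exact (h1 i hi).1
  have p2 : M.τ w * M.ex y * (M.τ w)⁻¹ ∈ B.Bx R := by
    rw [← M.ex_Ad]
    obtain ⟨h2, h3⟩ := hAd y hy
    refine key _ h3 (h2.trans ?_)
    have : M.nm y ≤ 1 + A0 := by linarith
    gcongr
  -- third part
  have p3 : M.τ w * c * (M.τ w'')⁻¹ ∈ B.Bx R := by
    have h2 : M.τ w * c * (M.τ w'')⁻¹ ∈ M.CB (nw + n + nw'') :=
      M.CB_mul (M.CB_mul hτw hc) (M.CB_inv hτw'')
    have h3 : M.η (M.τ w * c * (M.τ w'')⁻¹) = 1 := by
      apply DB.η_of_θ M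
      rw [M.θ_mul, M.θ_mul, M.θ_inv, (DB.θ_vec M), (DB.θ_vec M), hvw'']
      have h4 : M.θ g = M.θ c := by
        rw [hg, M.θ_mul, M.θ_mul, DB.θ_of_η M (M.η_ex v), DB.θ_of_η M (M.η_ex y), zero_add, zero_add]
      rw [h4]
      abel
    obtain ⟨a, ha, ha1, ha2⟩ := M.C_ker _ _ h2 h3
    rw [← ha1]
    refine key a ha (ha2.trans ?_)
    have hp : (1 + ((nw + n + nw'' : ℕ) : ℝ)) ^ M.deg ≤ Q := by
      refine (pow_le_pow_left₀ (by positivity) ?_ _).trans (hNd _ (by omega))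
      push_cast
      linarith
    calc M.C0 * (1 + ((nw + n + nw'' : ℕ) : ℝ)) ^ M.deg ≤ M.C0 * Q := by gcongr
      _ = M.C0 * Q * 1 := by ring
      _ ≤ M.C0 * Q * (1 + A0) := by gcongr; linarith
  rw [e1]
  have hCR : ∀ i, 0 ≤ B.C * R i := fun i => mul_nonneg (by linarith) (hRi i)
  refine B.mul _ hCR _ (B.mul _ hRi _ p1 _ p2) _ (B.mono _ _ hRi ?_ p3)
  intro i
  nlinarith [hRi i]

end RModel

end Vale.Agent.P188.Z1
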