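import Vale.Agent.P188.Z1.Model
import Vale.Agent.P188.H615.NatI

/-!
# P188, Z1: the natural boxes of the real model
-/

set_option linter.all false

open MeasureTheory Set
open scoped commutatorElement

namespace Vale.Agent.P188.Z1

open Vale.Agent.P188.H796 Vale.Agent.P188.H615 Vale.Agent.P188.H269 Vale.Agent.P188.H131
open Vale.Agent.P188.H530 (hgt Crossed Mod)

section inst

variable {Γ : Type} [Group Γ] {k : ℕ} {η : Γ →* Multiplicative (Fin k → ℤ)} {d n : ℕ}
  {D : MB η.ker d n}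

/-- 615's hypotheses hold for the real model -/
theorem Conc.natHyp {hη : Function.Surjective η} {F : Set Γ} {t : D.S}
    {M : RModel D.S Γ D.R.V k} (hM : Conc D hη F t M) : NatHyp M := by
  have hgenE : ∀ v ∈ eId D.AdE t,
      v ∈ LieSubalgebra.lieSpan ℝ D.R.V (M.X '' {i | M.wt i ≠ 0}) := by
    intro v hv
    have h1 := mem_lieSpan_letters (X := M.X) (wt := M.wt) (Vw := Vwt D hη t)
      (fun b => b ∈ ΦF D hη) (fun b hb => by
        have := hM.letters_span b (Or.inl (by rw [hM.Φ_eq]; exact hb))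
        rwa [hM.Vw_eq] at this) (gen_e D hη hM.sep v hv)
    refine LieSubalgebra.lieSpan_mono ?_ h1
    rintro _ ⟨i, hi, rfl⟩
    exact ⟨i, ΦF_ne D hη hi, rfl⟩
  exact {
    hex := fun v => by rw [hM.ex_eq]
    hAd := fun s v => by rw [hM.Ad_eq]
    hη := fun s => by rw [hM.η_eq]
    hnm := fun v => by rw [hM.nm_eq]
    hμ := hM.μ_eq
    span := hM.letters_span
    e_gen := by
      rw [hM.e_eq]
      exact hgenE
    gen := by
      intro v
      obtain ⟨x0, hx0, hx⟩ := exists_neutral_add D.AdE t v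
      have h1 : v - x0 ∈ LieSubalgebra.lieSpan ℝ D.R.V (Set.range M.X) :=
        LieSubalgebra.lieSpan_mono (Set.image_subset_range _ _) (hgenE _ hx)
      have h2 : x0 ∈ LieSubalgebra.lieSpan ℝ D.R.V (Set.range M.X) := by
        have h3 : x0 ∈ M.Vw 0 := by
          rw [hM.Vw_eq, Vwt_zero]; exact hx0
        have h4 := hM.letters_span 0 (Or.inr rfl) h3
        have h5 : Submodule.span ℝ (M.X '' {i | M.wt i = 0}) ≤
            (LieSubalgebra.lieSpan ℝ D.R.V (Set.range M.X)).toSubmodule := by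
          rw [Submodule.span_le]
          rintro _ ⟨i, _, rfl⟩
          exact LieSubalgebra.subset_lieSpan ⟨i, rfl⟩
        exact h5 h4
      have h6 := add_mem h1 h2
      rwa [sub_add_cancel] at h6 }

end inst

/-- **The real model of `Γ` with its natural boxes.** -/
theorem exists_model_box {Γ : Type} [Group Γ] {k : ℕ} {η : Γ →* Multiplicative (Fin k → ℤ)}
    (h : H187.Z0 Γ k η) : ∃ (d n : ℕ) (D : MB η.ker d n) (F : Set Γ) (t : D.S)
      (M : RModel D.S Γ D.R.V k) (B : M.NatBox), Conc D h.surj F t M ∧ M.Extra ∧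
      M.η.comp M.inG = η ∧ F.Finite ∧ Subgroup.closure F = ⊤ ∧ NatHyp M ∧
      B.Bx = NBx D M.X ∧ B.Fine := by
  obtain ⟨d, n, D, F, t, M, hM, hE, hc, hF, hgen⟩ := exists_model h
  obtain ⟨B, hB, hB'⟩ := exists_natBox M hM.natHyp
  exact ⟨d, n, D, F, t, M, B, hM, hE, hc, hF, hgen, hM.natHyp, hB, hB'⟩

end Vale.Agent.P188.Z1
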