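import Vale.Agent.P188.Z1.Neut3
import Vale.Agent.P188.Z1.LinFin
import Vale.Agent.P188.Z1.BoxQ
import Vale.Agent.P188.Z1.CohF
import Vale.Agent.P188.Z1.Dirs
import Vale.Agent.P188.Z1.ModelN

/-!
# P188, Z1: everything unconditional

`RModel.holds`: all the blocks which are proved for an arbitrary model with fine natural boxes, in one
statement.
-/

set_option linter.all false

namespace Vale.Agent.P188.Z1

namespace RModel

variable {S : Type} [Group S] [MeasurableSpace S] {Γ : Type} [Group Γ]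
  {V : Type} [AddCommGroup V] [Module ℝ V] {k : ℕ} (M : RModel S Γ V k)

theorem boxq_holds (B : M.NatBox) (hB : B.Fine) : M.BOXQ := M.boxq B hB

theorem lin_holds (B : M.NatBox) (hB : B.Fine) : M.LIN := M.lin M.nfp_holds (M.boxq_holds B hB)

theorem coh_holds (B : M.NatBox) (hB : B.Fine) : M.COH := M.coh_of (M.lin_holds B hB) M.ray_holds

theorem dboxH_holds (B : M.NatBox) (hB : B.Fine) : M.DBOXH B := DB.dboxH B hB

theorem dvolH_holds (B : M.NatBox) : M.DVOLH B := DB.dvolH B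

/-- Everything which is proved for an arbitrary model. -/
theorem holds (B : M.NatBox) (hB : B.Fine) :
    M.SPREAD ∧ M.GCL ∧ M.RAY ∧ M.PEAK ∧ M.NFp ∧ M.NF ∧ M.BOXQ ∧ M.LIN ∧ M.COH ∧ M.DBOX B ∧
      M.DBOXH B ∧ M.DVOLH B ∧ M.NEUT B ∧ ∃ Φ₁, M.Rays Φ₁ ∧ ∃ V₁, M.Dirs Φ₁ V₁ := by
  obtain ⟨Φ₁, hΦ₁⟩ := M.exists_rays_b
  obtain ⟨V₁, hV₁⟩ := M.exists_dirs_b hΦ₁
  exact ⟨M.spread_holds, M.gcl_holds, M.ray_holds, M.peak_holds, M.nfp_holds, M.nf_holds,
    M.boxq_holds B hB, M.lin_holds B hB, M.coh_holds B hB, DB.dbox B hB, DB.dboxH B hB,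
    DB.dvolH B, M.neut_holds B hB, Φ₁, hΦ₁, V₁, hV₁⟩

end RModel

end Vale.Agent.P188.Z1
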