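import Vale.Agent.P188.Z1.Line
import Vale.Agent.P188.Z1.CohF
import Vale.Agent.P188.Z1.Nf
import Vale.Agent.P188.Z1.LinFin
import Vale.Agent.P188.Z1.BoxQ

/-!
# P188, Z1: STRAIGHT holds
-/

set_option linter.all false

open MeasureTheory Set

namespace Vale.Agent.P188.Z1

namespace RModel

variable {S : Type} [Group S] [MeasurableSpace S] {Γ : Type} [Group Γ]
  {V : Type} [AddCommGroup V] [Module ℝ V] {k : ℕ} (M : RModel S Γ V k)

/-- **STRAIGHT holds** in every model with natural boxes. -/
theorem straight_holds (B : M.NatBox) (hB : B.Fine) : M.STRAIGHT :=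
  M.straight (coh_of M (M.lin M.nfp_holds (M.boxq B hB)) M.ray_holds) M.peak_holds M.nfp_holds

end RModel

end Vale.Agent.P188.Z1
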