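import Vale.Agent.P188.H329.Univ
import Vale.Agent.P188.H530.ModZ
import Vale.Agent.P188.H428.Conc

/-!
# P188, Z1: the real model (abstract list of facts) and the standing notation

`RModel S Γ V k` lists everything the analytic part (Z1) may use about the real group
`S = N_R . Γ` of a good finite index subgroup `Γ` of `G` (796's `D.S`):

* `Γ` discrete, `inG : Γ →* S`, `fl : S → Γ` the floor, `η : S →* Z^k` the heights;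
* `V = Lie N_R` with norm `nm`, `ex : V → S`, `Ad`, the ideal `e` (exponential radical);
* weights (continuous linear functionals on the height space), weight spaces `Vw b`;
* the Cartan group: `CB n` = words of length `≤ n` in `ex (h-ball)` and `τ v`;
* letters `X i ∈ Vw (wt i)`, with `wt i ∈ Φ` (generating `e`) or `wt i = 0` (neutral letters).
-/

set_option linter.all false

open MeasureTheory Set
open Agent.P188.H428 (IsLen)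
open Vale.Agent.P188.H789 (Bl)
open Vale.Agent.P188.H530 (hgt Crossed Mod)
open Vale.Agent.P188.H329 (Rel)

namespace Vale.Agent.P188.Z1

/-- the space of heights -/
abbrev Ht (k : ℕ) := Fin k → ℝ

/-- words of length at most `n` in the Cartan group -/
def CBall {S V : Type} [Group S] {k : ℕ} (nm : V → ℝ) (h : Set V) (ex : V → S)
    (τ : (Fin k → ℤ) → S) (n : ℕ) : Set S :=
  {c | ∃ L : List S, L.length ≤ n ∧ L.prod = c ∧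
    ∀ a ∈ L, (∃ v ∈ h, nm v ≤ 1 ∧ ex v = a) ∨
      (∃ w : Fin k → ℤ, (∀ i, |w i| ≤ 1) ∧ (τ w = a ∨ (τ w)⁻¹ = a))}

/-- **The real model.** -/
structure RModel (S : Type) [Group S] [MeasurableSpace S] (Γ : Type) [Group Γ]
    (V : Type) [AddCommGroup V] [Module ℝ V] (k : ℕ) where
  /-- the universal constant -/
  C0 : ℝ
  one_le_C0 : 1 ≤ C0
  -- length
  l : S → ℕ
  len : IsLen l
  l_zero : ∀ x, l x = 0 → x = 1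
  l_path : ∀ x, ∃ p : ℕ → S, p 0 = 1 ∧ p (l x) = x ∧ ∀ i, l ((p i)⁻¹ * p (i + 1)) ≤ 1
  -- measure
  μ : Measure S
  sfin : SFinite μ
  mm : MeasurableMul₂ S
  mi : MeasurableInv S
  mp : ∀ w : S, MeasurePreserving (fun x => x * w) μ μ
  mpl : ∀ w : S, MeasurePreserving (fun x => w * x) μ μ
  ball_pos : μ {x | l x ≤ 2} ≠ 0
  ball_lt : ∀ R : ℕ, μ {x | l x ≤ R} ≤ ENNReal.ofReal (Real.exp (C0 * (R + 1)))
  -- heights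
  η : S →* Multiplicative (Fin k → ℤ)
  η_surj : Function.Surjective η
  η_meas : ∀ w, MeasurableSet {x | η x = w}
  η_le : ∀ x, ‖hgt η x‖ ≤ C0 * l x
  -- the lattice
  inG : Γ →* S
  inG_inj : Function.Injective inG
  countable : Countable Γ
  fl : S → Γ
  fl_mul : ∀ g z, fl (inG g * z) = g * fl z
  fl_meas : ∀ g, MeasurableSet (fl ⁻¹' {g})
  fl_close : ∀ z, (l ((inG (fl z))⁻¹ * z) : ℝ) ≤ C0
  /-- a finite symmetric generating set of `Γ` -/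
  A : Set Γ
  md : Mod (hgt (η.comp inG)) A
  A_len : ∀ a ∈ A, (l (inG a) : ℝ) ≤ C0
  wordG : ∀ g : Γ, g ∈ Bl A ⌈C0 * (l (inG g) + 1)⌉₊
  -- Lie algebra
  nm : Seminorm ℝ V
  nm_zero : ∀ v, nm v = 0 → v = 0
  ex : V → S
  ex_zero : ex 0 = 1
  ex_inj : Function.Injective ex
  ex_add : ∀ (x y : ℝ) v, ex ((x + y) • v) = ex (x • v) * ex (y • v)
  ex_meas : ∀ v, Measurable fun q : S × ℝ => q.1 * ex (q.2 • v)
  η_ex : ∀ v, η (ex v) = 1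
  ex_of_η : ∀ s, η s = 1 → ∃ v, ex v = s
  Ad : S →* Module.End ℝ V
  ex_Ad : ∀ s v, ex (Ad s v) = s * ex v * s⁻¹
  Ad_le : ∀ s v, nm (Ad s v) ≤ Real.exp (C0 * l s) * nm v
  Ad_ex_le : ∀ w v, nm (Ad (ex w) v) ≤ C0 * (1 + nm w) ^ C0 * nm v
  e : Submodule ℝ V
  E : Subgroup S
  mem_E : ∀ s, s ∈ E ↔ ∃ v ∈ e, ex v = s
  E_normal : E.Normal
  /-- commutators of neutral words with small elements, products -/
  ex_mul_le : ∀ v w u, ex v * ex w = ex u → nm u ≤ C0 * (1 + nm v + nm w) ^ C0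
  met_V : ∀ v, (l (ex v) : ℝ) ≤ C0 * (1 + nm v)
  met_e : ∀ v ∈ e, (l (ex v) : ℝ) ≤ C0 * (1 + Real.log (1 + nm v))
  met_lo : ∀ v, nm v ≤ Real.exp (C0 * (1 + l (ex v)))
  -- weights
  Wt : Finset (Ht k →L[ℝ] ℝ)
  Vw : (Ht k →L[ℝ] ℝ) → Submodule ℝ V
  Vw_e : ∀ b ≠ 0, Vw b ≤ e
  Φ : Finset (Ht k →L[ℝ] ℝ)
  Φ_sub : Φ ⊆ Wt
  Φ_ne : ∀ b ∈ Φ, b ≠ 0
  Φ_span : ∀ w : Ht k, (∀ b ∈ Φ, b w = 0) → w = 0
  crossed : ∀ b ∈ Φ, ∃ c : Crossed (hgt (η.comp inG)) b, c.u ∈ A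
  /-- unimodularity -/
  mult : (Ht k →L[ℝ] ℝ) → ℝ
  mult_pos : ∀ b ∈ Φ, 0 < mult b
  unimod : ∑ b ∈ Φ, mult b • b = 0
  -- the Cartan group
  τ : (Fin k → ℤ) → S
  η_τ : ∀ w, η (τ w) = Multiplicative.ofAdd w
  /-- words in the Cartan group act on the weight spaces like their heights -/
  C_inv : ∀ n, ∀ c ∈ CBall nm (Vw 0) ex τ n, ∀ b, ∀ v ∈ Vw b, Ad c v ∈ Vw b
  /-- degree of the polynomial bounds -/
  deg : ℕ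
  C_le : ∀ n, ∀ c ∈ CBall nm (Vw 0) ex τ n, ∀ b ∈ Wt, ∀ v ∈ Vw b,
    nm (Ad c v) ≤ C0 * (1 + n) ^ deg * Real.exp (b (hgt η c)) * nm v
  zero_mem_Wt : (0 : Ht k →L[ℝ] ℝ) ∈ Wt
  /-- a neutral word in the Cartan group is the exponential of a neutral vector of polynomial
  size -/
  C_ker : ∀ n, ∀ c ∈ CBall nm (Vw 0) ex τ n, η c = 1 →
    ∃ v ∈ Vw 0, ex v = c ∧ nm v ≤ C0 * (1 + n) ^ deg
  τ_CB : ∀ w : Fin k → ℤ, τ w ∈ CBall nm (Vw 0) ex τ ⌈C0 * (1 + ‖(fun i => (w i : ℝ))‖)⌉₊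
  /-- every element is an `E`-part times a word in the Cartan group -/
  dec : ∀ s, ∃ v ∈ e, ∃ c ∈ CBall nm (Vw 0) ex τ ⌈C0 * l s⌉₊, s = ex v * c
  -- letters
  ι : Type
  fin_ι : Fintype ι
  X : ι → V
  wt : ι → (Ht k →L[ℝ] ℝ)
  wt_mem : ∀ i, wt i ∈ Φ ∨ wt i = 0
  X_mem : ∀ i, X i ∈ Vw (wt i)
  X_le : ∀ i, nm (X i) ≤ 1
  wt_surj : ∀ b ∈ Φ, ∃ i, wt i = b
  /-- nilpotency class -/
  cls : ℕ
  rel : ∀ R : ι → ℝ, letI := fin_ι; Rel ι cls fun i x => ex ((R i * x) • X i)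
  /-- bounded generation of `E` -/
  mE : ℕ
  jE : Fin mE → ι
  jE_ne : ∀ t, wt (jE t) ≠ 0
  gen_e : ∀ v ∈ e, ∃ x : Fin mE → ℝ, (∀ t, |x t| ≤ C0 * (1 + nm v) ^ C0) ∧
    ex v = (List.ofFn fun t => ex (x t • X (jE t))).prod
  /-- bounded generation of `exp (Vw 0)` -/
  mN : ℕ
  jN : Fin mN → ι
  jN_eq : ∀ t, wt (jN t) = 0
  gen_N : ∀ v ∈ Vw 0, ∃ x : Fin mN → ℝ, (∀ t, |x t| ≤ C0 * (1 + nm v) ^ C0) ∧
    ex v = (List.ofFn fun t => ex (x t • X (jN t))).prod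

attribute [instance] RModel.sfin RModel.fin_ι RModel.E_normal

namespace RModel

variable {S : Type} [Group S] [MeasurableSpace S] {Γ : Type} [Group Γ]
  {V : Type} [AddCommGroup V] [Module ℝ V] {k : ℕ} (M : RModel S Γ V k)

/-- height -/
def θ (z : S) : Ht k := hgt M.η z

/-- words in the Cartan group -/
def CB (n : ℕ) : Set S := CBall M.nm (M.Vw 0) M.ex M.τ n

/-- neutral words -/
def NB (n : ℕ) : Set S := {z | z ∈ M.CB n ∧ M.η z = 1}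

/-- Quasi-isometries of `Γ` with constant `K` (with a coarse inverse of the same kind). -/
structure QIm (K : ℝ) (F F' : Γ → Γ) : Prop where
  lip : ∀ g y, (M.l (M.inG ((F g)⁻¹ * F (g * y))) : ℝ) ≤ K * (M.l (M.inG y) + 1)
  lip' : ∀ g y, (M.l (M.inG ((F' g)⁻¹ * F' (g * y))) : ℝ) ≤ K * (M.l (M.inG y) + 1)
  inv : ∀ g, (M.l (M.inG (g⁻¹ * F' (F g))) : ℝ) ≤ K
  inv' : ∀ g, (M.l (M.inG (g⁻¹ * F (F' g))) : ℝ) ≤ K

/-- the height function of a map -/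
def f (F : Γ → Γ) (z : S) : Ht k := M.θ (M.inG (F (M.fl z)))

/-- Sets with small boundary at scale `R`: `D` and the enlarged set `Dp`. -/
structure Fat (R κ : ℝ) (D Dp : Set S) : Prop where
  meas : MeasurableSet D
  meas' : MeasurableSet Dp
  pos : M.μ D ≠ 0
  fin : M.μ D ≠ ⊤
  sub : ∀ z ∈ D, ∀ g, (M.l g : ℝ) ≤ R → z * g ∈ Dp
  le : M.μ Dp ≤ ENNReal.ofReal (1 + κ) * M.μ D

/-- A tower `D 0 ⊂ D 1 ⊂ .. ⊂ D J`, `D j * Ball R ⊂ D (j + 1)`, `μ (D J) ≤ (1 + κ) μ (D 0)`. -/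
structure Tower (R κ : ℝ) (J : ℕ) (D : ℕ → Set S) : Prop where
  meas : ∀ j ≤ J, MeasurableSet (D j)
  pos : M.μ (D 0) ≠ 0
  fin : M.μ (D 0) ≠ ⊤
  sub : ∀ j < J, ∀ z ∈ D j, ∀ g, (M.l g : ℝ) ≤ R → z * g ∈ D (j + 1)
  le : M.μ (D J) ≤ ENNReal.ofReal (1 + κ) * M.μ (D 0)

/-- Fat balls: neutral parts of size `exp (δ R)` are allowed. -/
def FB (δ R : ℝ) : Set S :=
  {g | ∃ v ∈ M.e, M.nm v ≤ Real.exp R ∧ ∃ y ∈ M.Vw 0, M.nm y ≤ Real.exp (δ * R) ∧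
    ∃ w : Fin k → ℤ, (∀ i, |(w i : ℝ)| ≤ R) ∧ g = M.ex v * M.ex y * M.τ w}

/-- Sets with small boundary for fat balls of radius `R` (and ordinary balls of radius `R`). -/
structure FFat (δ R κ : ℝ) (D Dp : Set S) : Prop extends M.Fat R κ D Dp where
  subf : ∀ z ∈ D, ∀ g ∈ M.FB δ R, z * g ∈ Dp

/-- Points from which, for every letter, the path `γ i` stays below the starting height. -/
def TolP (h : S → ℝ) (γ : M.ι → ℕ → S) (m : ℕ) (τ : ℝ) : Set S :=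
  {z | ∀ i, ∀ n ≤ m, h (z * γ i n) ≤ h z + τ}

/-- an integral direction is generic if no nonzero weight vanishes on it -/
def Generic (v : Fin k → ℤ) : Prop := ∀ b ∈ M.Wt, b ≠ 0 → b (fun i => (v i : ℝ)) ≠ 0

/-- an integral vector as a height -/
def ht (v : Fin k → ℤ) : Ht k := fun i => (v i : ℝ)

/-- the sign of `b ∘ T` along `v`: patterns of signs are the labels -/
def pat (Φ₁ : Finset (Ht k →L[ℝ] ℝ)) (T : Ht k →L[ℝ] Ht k) (v : Ht k) : Set (Ht k →L[ℝ] ℝ) :=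
  {b | b ∈ Φ₁ ∧ 0 < b (T v)}

/-- a set of representatives of the rays spanned by `Φ` -/
structure Rays (Φ₁ : Finset (Ht k →L[ℝ] ℝ)) : Prop where
  sub : Φ₁ ⊆ M.Φ
  ex : ∀ b ∈ M.Φ, ∃ b₁ ∈ Φ₁, ∃ t : ℝ, 0 < t ∧ b = t • b₁
  uniq : ∀ b ∈ Φ₁, ∀ b' ∈ Φ₁, ∀ t : ℝ, 0 < t → b = t • b' → b = b'

/-! ### The statements of the blocks -/

/-- **GCL in the model** (owner 893). Contracting paths for all letters `X i` with nonzero weight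
(the paths of the neutral letters are constant): few points stay below their height along all
the paths. -/
def GCL : Prop := ∀ K A c : ℝ, 0 < c → ∃ (η c₀ CR r₀ : ℝ), 0 < η ∧ 0 < c₀ ∧ ∀ r : ℝ, r₀ ≤ r →
  ∀ F F' : Γ → Γ, M.QIm K F F' → ∀ b ∈ M.Φ, ∀ D Dp : Set S, M.Fat (CR * r) 1 D Dp →
  ∀ (γ : M.ι → ℕ → S) (m : ℕ), (m : ℝ) ≤ Real.exp (η * r) → (∀ i, γ i 0 = 1) →
  (∀ i, ∀ n < m, (M.l ((γ i n)⁻¹ * γ i (n + 1)) : ℝ) ≤ A) →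
  (∀ i, M.wt i = 0 → ∀ n, γ i n = 1) →
  (∀ i, M.wt i ≠ 0 → M.nm (M.Ad (γ i m)⁻¹ (M.X i)) ≤ Real.exp (-(c * r))) →
  M.μ (D ∩ M.TolP (fun z => b (M.f F z)) γ m (η * r)) ≤
    ENNReal.ofReal (Real.exp (-(c₀ * r))) * M.μ D

/-- **Neutral flatness, fat version** (from GCL; owner 893). `C₁` is the relative size of the
enlarged set; `δ` is small depending on `κ`. -/
def NF : Prop := ∀ K κ C₁ : ℝ, 0 < κ → ∃ δ₀ : ℝ, 0 < δ₀ ∧ ∀ δ : ℝ, 0 < δ → δ ≤ δ₀ →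
  ∃ (c₀ CR r₀ : ℝ), 0 < c₀ ∧ ∀ r : ℝ, r₀ ≤ r →
  ∀ F F' : Γ → Γ, M.QIm K F F' → ∀ D Dp : Set S, M.FFat δ (CR * r) C₁ D Dp →
  ∀ y ∈ M.Vw 0, M.nm y ≤ Real.exp (δ * r) →
    M.μ {x | x ∈ D ∧ κ * r < ‖M.f F (x * M.ex y) - M.f F x‖} ≤
      ENNReal.ofReal (Real.exp (-(c₀ * r))) * M.μ D

/-- **Choice of rays** (from GCL; owner 893). For most `x` and every target class `b` there is a
source class `b'` such that along every direction `v` of a given finite set with `b' v > 0` the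
height `b ∘ f` increases by a definite amount somewhere before time `r`. -/
def RAY : Prop := ∀ K : ℝ, ∀ V₀ : Finset (Fin k → ℤ), (∀ v ∈ V₀, M.Generic v) →
  ∃ (η c₀ CR r₀ : ℝ), 0 < η ∧ 0 < c₀ ∧ ∀ r : ℝ, r₀ ≤ r →
  ∀ F F' : Γ → Γ, M.QIm K F F' → ∀ b ∈ M.Φ, ∀ D Dp : Set S, M.Fat (CR * r) 1 D Dp →
    M.μ {x | x ∈ D ∧ ∀ b' ∈ M.Φ, ∃ v ∈ V₀, 0 < b' (ht v) ∧
        ∀ n : ℕ, (n : ℝ) ≤ r → b (M.f F (x * M.τ v ^ n)) ≤ b (M.f F x) + η * r} ≤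
      ENNReal.ofReal (Real.exp (-(c₀ * r))) * M.μ D

/-- **Few peaks** (from GCL; owner 893): `b ∘ f` has few approximate peaks on `v`-lines at scale
`r`. -/
def PEAK : Prop := ∀ K : ℝ, ∀ v : Fin k → ℤ, M.Generic v →
  ∃ (η c₀ CR r₀ : ℝ), 0 < η ∧ 0 < c₀ ∧ ∀ r : ℝ, r₀ ≤ r →
  ∀ F F' : Γ → Γ, M.QIm K F F' → ∀ b ∈ M.Φ, ∀ D Dp : Set S, M.Fat (CR * r) 1 D Dp →
    M.μ {x | x ∈ D ∧ ∀ n : ℤ, |(n : ℝ)| ≤ r →
        b (M.f F (x * M.τ v ^ n)) ≤ b (M.f F x) + η * r} ≤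
      ENNReal.ofReal (Real.exp (-(c₀ * r))) * M.μ D

/-- **Fat boxes of every size** (owner 616/540): the isotropic case of the boxes. -/
def BOXQ : Prop := ∃ C : ℝ, ∀ δ : ℝ, 0 < δ → δ ≤ 1 → ∃ r₀ : ℝ, ∀ r : ℝ, r₀ ≤ r →
  ∃ Q Qp : Set S, M.FFat δ r (1 / 8) Q Qp ∧ Qp ⊆ M.FB (C * δ) (C * r)

/-- **Coarse differentiation in the model, linear parts** (owner 971; uses `NF`, `BOXQ`). A common
scale for finitely many maps. The sets `D α` are almost invariant under fat moves. -/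
def LIN : Prop := ∀ (p : ℕ) (K ε : ℝ), 0 < ε → ∃ (κ lam CR : ℝ), 0 < κ ∧ 0 < lam ∧ lam ≤ 1 ∧
  ∀ δ : ℝ, 0 < δ → ∃ δ' a₀ : ℝ, 0 < δ' ∧ δ' ≤ δ ∧
  ∀ a : ℝ, a₀ ≤ a → ∀ (F F' : Fin p → Γ → Γ) (D Dp : Fin p → Set S),
  (∀ α, M.QIm K (F α) (F' α)) → (∀ α, M.FFat δ (CR * a) κ (D α) (Dp α)) →
  ∃ r : ℝ, lam * a ≤ r ∧ r ≤ a ∧ ∀ α, ∃ (D₀ : Set S) (T : S → Ht k →L[ℝ] Ht k),
    D₀ ⊆ D α ∧ MeasurableSet D₀ ∧ M.μ (D α \ D₀) ≤ ENNReal.ofReal ε * M.μ (D α) ∧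
    ∀ x ∈ D₀, ∀ x' ∈ D₀, ((M.l (x⁻¹ * x') : ℝ) ≤ r ∨ x⁻¹ * x' ∈ M.FB δ' r) →
      ‖M.f (F α) x' - M.f (F α) x - T x (M.θ (x⁻¹ * x'))‖ ≤ ε * r ∧ ‖T x' - T x‖ ≤ ε

/-- a finite symmetric set of generic directions whose signs separate the rays -/
structure Dirs (Φ₁ : Finset (Ht k →L[ℝ] ℝ)) (V₁ : Finset (Fin k → ℤ)) : Prop where
  generic : ∀ v ∈ V₁, M.Generic v
  neg : ∀ v ∈ V₁, -v ∈ V₁
  sep : ∀ b ∈ Φ₁, ∀ b' ∈ Φ₁, (∀ v ∈ V₁, 0 < b (ht v) → 0 < b' (ht v)) → b = b'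
  span : Submodule.span ℝ (ht '' (V₁ : Set (Fin k → ℤ))) = (⊤ : Submodule ℝ (Ht k))

/-- **Coherence at one scale with finitely many linear parts** (owner 530: LIN + RAY + T'T + PSI +
OCC). `c₀` (lower bound of the slopes) and `L` do not depend on `ε`. The labels are the sign patterns
on the directions `V₁`; the finer net of directions needed for the accuracy `ε` is internal. A common
scale `ρ` for a finite family. -/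
def COH : Prop := ∀ (p : ℕ) (K : ℝ) (Φ₁ : Finset (Ht k →L[ℝ] ℝ)), M.Rays Φ₁ →
  ∀ V₁ : Finset (Fin k → ℤ), M.Dirs Φ₁ V₁ →
  ∃ (c₀ L : ℝ), 0 < c₀ ∧
  ∀ ε : ℝ, 0 < ε → ∃ (κ lam CR : ℝ), 0 < κ ∧ 0 < lam ∧ lam ≤ 1 ∧
  ∀ δ : ℝ, 0 < δ → ∃ δ' a₀ : ℝ, 0 < δ' ∧ δ' ≤ δ ∧
  ∃ T : ℕ → (V₁ → Set (Ht k →L[ℝ] ℝ)) → (Ht k →L[ℝ] Ht k),
  ∀ a : ℝ, a₀ ≤ a → ∀ (F F' : Fin p → Γ → Γ) (D Dp : Fin p → Set S),
  (∀ α, M.QIm K (F α) (F' α)) → (∀ α, M.FFat δ (CR * a) κ (D α) (Dp α)) →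
  ∃ ρ : ℕ, lam * a ≤ ρ ∧ (ρ : ℝ) ≤ a ∧ ∀ α,
  ∃ (D₀ : Set S) (σ : S → V₁ → Set (Ht k →L[ℝ] ℝ)),
    D₀ ⊆ D α ∧ MeasurableSet D₀ ∧ M.μ (D α \ D₀) ≤ ENNReal.ofReal ε * M.μ (D α) ∧
    ∀ x ∈ D₀, (‖T ρ (σ x)‖ ≤ L ∧
      ∀ v : V₁, (∀ b ∈ Φ₁, (b ∈ σ x v → c₀ ≤ b (T ρ (σ x) (ht v))) ∧
          (b ∉ σ x v → b (T ρ (σ x) (ht v)) ≤ -c₀)) ∧
        (σ x v).ncard = {b | b ∈ Φ₁ ∧ 0 < b (ht (v : Fin k → ℤ))}.ncard ∧ σ x v ⊆ ↑Φ₁) ∧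
      ∀ x' ∈ D₀, ((M.l (x⁻¹ * x') : ℝ) ≤ ρ ∨ x⁻¹ * x' ∈ M.FB δ' ρ) →
        ‖M.f (F α) x' - M.f (F α) x - T ρ (σ x) (M.θ (x⁻¹ * x'))‖ ≤ ε * ρ ∧ σ x' = σ x

end RModel

end Vale.Agent.P188.Z1
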