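import Vale.Agent.P188.Z1.DBoxH

/-!
# P188, Z1, block DBOX: theorems DBOXH and DVOLH
-/

set_option linter.all false

open MeasureTheory Set Filter Topology
open Vale.Agent.P188.H530 (hgt hgt_mul)
open Vale.Agent.P188.H540 (vec LP LP_finite lat_ratio' vec_injective tendsto_LP ball_dbl ball_finite)
open scoped Pointwise ENNReal

namespace Vale.Agent.P188.Z1

namespace DB

variable {S : Type} [Group S] [MeasurableSpace S] {Γ : Type} [Group Γ]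
  {V : Type} [AddCommGroup V] [Module ℝ V] {k : ℕ} {M : RModel S Γ V k}

open RModel

theorem szh_pos (h : (Ht k →L[ℝ] ℝ) → ℝ) (d₁ s : ℝ) (i : M.ι) : 0 < M.szh h d₁ s i := by
  unfold szh
  split_ifs <;> positivity

/-- multiplication of a point of the box set by a small element -/
theorem mul_mem_BWH (B : M.NatBox) {h : (Ht k →L[ℝ] ℝ) → ℝ} {d₁ s Λ ε δm t u : ℝ} (hΛ : 0 < Λ)
    (hmul : ∀ R : M.ι → ℝ, (∀ i, 0 ≤ R i) → ∀ x ∈ B.Bx R, ∀ y ∈ B.Bx (fun i => δm * R i),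
      x * y ∈ B.Bx (fun i => (1 + ε) * R i) ∧ y * x ∈ B.Bx (fun i => (1 + ε) * R i))
    {z g : S} (hz : z ∈ BW M (B.Bx fun i => Λ * M.szh h d₁ s i) (WnH M h u))
    (hx : M.τ (Multiplicative.toAdd (M.η z)) * g *
      (M.sec (M.τ (Multiplicative.toAdd (M.η z)) * g))⁻¹ ∈
        B.Bx (fun i => (δm * Λ) * M.szh h d₁ s i))
    (hg : ∀ b ∈ M.Φ, b (M.θ g) ≤ (t - 1) * u * h b) :
    z * g ∈ BW M (B.Bx fun i => (1 + ε) * (Λ * M.szh h d₁ s i)) (WnH M h (t * u)) := by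
  refine ⟨?_, ?_⟩
  · rw [part_mul]
    have h1 : (fun i => (δm * Λ) * M.szh h d₁ s i) = fun i => δm * (Λ * M.szh h d₁ s i) := by
      funext i; ring
    rw [h1] at hx
    exact (hmul _ (fun i => (mul_pos hΛ (szh_pos h d₁ s i)).le) _ hz.1 _ hx).1
  · intro b hb
    have h1 : b (M.θ z) ≤ u * h b := hz.2 b hb
    have h2 := hg b hb
    show b (M.θ (z * g)) ≤ t * u * h b
    rw [M.θ_mul, map_add]
    linarith

/-- **DBOXH** -/
theorem dboxH (B : M.NatBox) (hB : B.Fine) : M.DBOXH B := by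
  classical
  intro c₂ hc₂ κ hκ hκ1 Λ hΛ κ₂ hκ₂
  set κ' : ℝ := min κ₂ 1 / 4 with hκ'
  have hκ'0 : 0 < κ' := by have := lt_min hκ₂ one_pos; positivity
  have hκ'2 : (1 + κ') * (1 + κ') ≤ 1 + κ₂ := by
    have h1 : 4 * κ' ≤ κ₂ := by rw [hκ']; have := min_le_left κ₂ 1; linarith
    have h2 : 4 * κ' ≤ 1 := by rw [hκ']; have := min_le_right κ₂ 1; linarith
    nlinarith
  obtain ⟨t, ht, s₁, hs₁, hratio⟩ := WnH_ratio (M := M) hc₂ hκ'0
  obtain ⟨δv, hδv, hvol⟩ := hB.fvol κ' hκ'0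
  obtain ⟨δm, hδm, hδm1, hmul⟩ := hB.fmul δv hδv
  obtain ⟨C', hC'1, hsmall⟩ := small_memH B hc₂
  obtain ⟨C'', hC''1, hdec⟩ := exists_dec_small M
  have hC0 := M.one_le_C0
  have h1κ : 0 < 1 - κ := by linarith
  have ht1 : 0 < t - 1 := by linarith
  obtain ⟨κ₀, hκ₀, hκ₀1, hκ₀b⟩ := exists_pos_lt M.Φ
    (fun b => (t - 1) * (1 - κ) * c₂ / (M.C0 * (‖b‖ + 1))) (by
      intro b hb
      positivity)
  set κ₁ : ℝ := min κ₀ (κ * c₂ / (2 * C')) with hκ₁def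
  have hκ₁ : 0 < κ₁ := lt_min hκ₀ (by positivity)
  have hκ₁1 : κ₁ ≤ 1 := (min_le_left _ _).trans hκ₀1
  refine ⟨κ₁, hκ₁, ?_⟩
  intro d₁ δ hd₁ hδ hδd
  have hb1 : C' * κ₁ < κ * c₂ := by
    have h1 : κ₁ ≤ κ * c₂ / (2 * C') := min_le_right _ _
    rw [le_div_iff₀ (by linarith)] at h1
    have h2 : 0 < C' * κ₁ := by positivity
    nlinarith
  have hb2 : ∀ b ∈ M.Φ, ‖b‖ * (M.C0 * κ₁) ≤ (t - 1) * (1 - κ) * c₂ := by
    intro b hb
    have h1 := lt_of_le_of_lt (min_le_left _ _ : κ₁ ≤ κ₀) (hκ₀b b hb)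
    rw [lt_div_iff₀ (by positivity)] at h1
    have h2 := norm_nonneg b
    have h3 : 0 < M.C0 * κ₁ := by positivity
    nlinarith
  have hev := hsmall κ κ₁ δ d₁ (δm * Λ) hκ hκ1 hκ₁ hκ₁1 hb1 hδ hδd (by positivity)
  obtain ⟨s₀, hs₀⟩ := hev.exists_forall_of_atTop
  refine ⟨max (max s₀ 1) (s₁ / (1 - κ)), fun s hs h hh => ?_⟩
  have hss₀ : s₀ ≤ s := (le_max_left _ _).trans ((le_max_left _ _).trans hs)
  have hs1 : 1 ≤ s := (le_max_right _ _).trans ((le_max_left _ _).trans hs)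
  have hss₁ : s₁ ≤ (1 - κ) * s := by
    have h1 : s₁ / (1 - κ) ≤ s := (le_max_right _ _).trans hs
    rw [div_le_iff₀ (by linarith)] at h1
    linarith
  have hu0 : 0 < (1 - κ) * s := hs₁.trans_le hss₁
  have hsz : ∀ i, 0 < Λ * M.szh h d₁ s i := fun i => mul_pos hΛ (szh_pos h d₁ s i)
  set D : Set S := BW M (B.Bx fun i => Λ * M.szh h d₁ s i) (WnH M h ((1 - κ) * s)) with hD
  set Dp : Set S := BW M (B.Bx fun i => (1 + δv) * (Λ * M.szh h d₁ s i))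
    (WnH M h (t * ((1 - κ) * s))) with hDp
  have hsub : ∀ z ∈ D, ∀ g, ((M.l g : ℝ) ≤ κ₁ * s ∨ g ∈ M.FB δ (κ₁ * s)) → z * g ∈ Dp := by
    intro z hz g hg
    refine mul_mem_BWH B hΛ hmul hz (hs₀ s hss₀ h hh _ hz.2 g hg) ?_
    intro b hb
    obtain ⟨_, _, _, _, _, _, _, _, _, _, _, hθ⟩ := hdec κ₁ δ s hκ₁ hκ₁1 hδ hs1 g hg
    have h1 : b (M.θ g) ≤ ‖b‖ * ‖M.θ g‖ := (le_abs_self _).trans (b.le_opNorm _)
    have h2 : ‖b‖ * ‖M.θ g‖ ≤ ‖b‖ * (M.C0 * (κ₁ * s)) :=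
      mul_le_mul_of_nonneg_left hθ (norm_nonneg _)
    have h3 := mul_le_mul_of_nonneg_right (hb2 b hb) (by linarith : (0 : ℝ) ≤ s)
    have h4 : (t - 1) * ((1 - κ) * s) * c₂ ≤ (t - 1) * ((1 - κ) * s) * h b :=
      mul_le_mul_of_nonneg_left (hh b hb).1 (by positivity)
    calc b (M.θ g) ≤ ‖b‖ * (M.C0 * (κ₁ * s)) := h1.trans h2
      _ = ‖b‖ * (M.C0 * κ₁) * s := by ring
      _ ≤ (t - 1) * (1 - κ) * c₂ * s := h3
      _ = (t - 1) * ((1 - κ) * s) * c₂ := by ring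
      _ ≤ _ := h4
  have hμD : M.μ D = (WnH M h ((1 - κ) * s)).ncard * M.μ (B.Bx fun i => Λ * M.szh h d₁ s i) :=
    BW_measure (B.meas _) (B.sub _) (WnH_finite h hu0)
  have hμDp : M.μ Dp = (WnH M h (t * ((1 - κ) * s))).ncard *
      M.μ (B.Bx fun i => (1 + δv) * (Λ * M.szh h d₁ s i)) :=
    BW_measure (B.meas _) (B.sub _) (WnH_finite h (by positivity))
  have hne : (WnH M h ((1 - κ) * s)).ncard ≠ 0 :=
    ((Set.ncard_pos (WnH_finite h hu0)).2 ⟨0, zero_mem_WnH hc₂ hh hu0.le⟩).ne'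
  refine ⟨Dp, ⟨⟨?_, ?_, ?_, ?_, ?_, ?_⟩, ?_⟩⟩
  · show MeasurableSet D
    exact BW_meas (B.meas _) (B.sub _) _
  · show MeasurableSet Dp
    exact BW_meas (B.meas _) (B.sub _) _
  · show M.μ D ≠ 0
    rw [hμD]
    exact mul_ne_zero (by exact_mod_cast hne) (B.pos _ hsz)
  · show M.μ D ≠ ⊤
    rw [hμD]
    exact ENNReal.mul_ne_top (ENNReal.natCast_ne_top _) (B.fin _)
  · intro z hz g hg
    exact hsub z hz g (Or.inl hg)
  · show M.μ Dp ≤ ENNReal.ofReal (1 + κ₂) * M.μ D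
    rw [hμD, hμDp]
    have h1 : ((WnH M h (t * ((1 - κ) * s))).ncard : ℝ≥0∞) ≤
        ENNReal.ofReal (1 + κ') * (WnH M h ((1 - κ) * s)).ncard :=
      natCast_le_ofReal (by linarith) (hratio _ hss₁ h hh)
    have h2 := hvol _ hsz
    calc ((WnH M h (t * ((1 - κ) * s))).ncard : ℝ≥0∞) *
          M.μ (B.Bx fun i => (1 + δv) * (Λ * M.szh h d₁ s i))
        ≤ (ENNReal.ofReal (1 + κ') * (WnH M h ((1 - κ) * s)).ncard) *
          (ENNReal.ofReal (1 + κ') * M.μ (B.Bx fun i => Λ * M.szh h d₁ s i)) :=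
          mul_le_mul' h1 h2
      _ = (ENNReal.ofReal (1 + κ') * ENNReal.ofReal (1 + κ')) *
          ((WnH M h ((1 - κ) * s)).ncard * M.μ (B.Bx fun i => Λ * M.szh h d₁ s i)) := by ring
      _ ≤ ENNReal.ofReal (1 + κ₂) *
          ((WnH M h ((1 - κ) * s)).ncard * M.μ (B.Bx fun i => Λ * M.szh h d₁ s i)) := by
          gcongr
          rw [← ENNReal.ofReal_mul (by linarith)]
          exact ENNReal.ofReal_le_ofReal hκ'2
  · intro z hz g hg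
    exact hsub z hz g (Or.inr hg)

/-- **DVOLH** -/
theorem dvolH (B : M.NatBox) : M.DVOLH B := by
  classical
  intro c₂ hc₂ κ κ₄ Λ δ hκ hκ1 hκ₄ hΛ hδ
  obtain ⟨CP, hCP0, hCP⟩ := exists_bdd M
  obtain ⟨C', hC'⟩ := B.dbl (max 1 (Λ / δ)) (le_max_left _ _)
  obtain ⟨C, s₀, hs₀, hC0, hC⟩ := ball_dbl k (A := CP * c₂⁻¹) (a := κ₄) (by positivity) hκ₄
  refine ⟨C * max C' 0, fun d₁ hd₁ => ⟨max s₀ 1, fun s hs h hh => ?_⟩⟩
  have hss₀ : s₀ ≤ s := (le_max_left _ _).trans hs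
  have hs1 : 1 ≤ s := (le_max_right _ _).trans hs
  have hs0 : 0 < s := by linarith
  have h1κ : 0 < 1 - κ := by linarith
  have hszp : ∀ i, 0 < M.szh h d₁ s i := szh_pos h d₁ s
  set W4 : Set (Fin k → ℤ) := {w | ‖vec w‖ ≤ κ₄ * s} with hW4
  have hW4f : W4.Finite := ball_finite _
  have hsub : WnH M h ((1 - κ) * s) ⊆ {w | ‖vec w‖ ≤ CP * c₂⁻¹ * s} := by
    intro w hw
    have h1 := hCP (vec w) (c₂⁻¹ * s) (by positivity) fun b hb => by
      obtain ⟨h3, h4⟩ := hh b hb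
      calc b (vec w) ≤ (1 - κ) * s * h b := hw b hb
        _ ≤ 1 * s * c₂⁻¹ := by
            have h5 : 0 ≤ (1 - κ) * s := by positivity
            have h6 : (1 - κ) * s ≤ 1 * s := mul_le_mul_of_nonneg_right (by linarith) hs0.le
            exact mul_le_mul h6 h4 (hc₂.le.trans h3) (by linarith)
        _ = c₂⁻¹ * s := by ring
    rw [← mul_assoc] at h1
    exact h1
  have hDsm : M.μ (B.DsmH h δ d₁ κ₄ s) = W4.ncard * M.μ (B.Bx fun i => δ * M.szh h d₁ s i) :=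
    BW_measure (B.meas _) (B.sub _) hW4f
  have hDb : M.μ (B.DboxH h Λ d₁ κ s) = (WnH M h ((1 - κ) * s)).ncard *
      M.μ (B.Bx fun i => Λ * M.szh h d₁ s i) :=
    BW_measure (B.meas _) (B.sub _) (WnH_finite h (by positivity))
  rw [hDb, hDsm]
  have h1 : ((WnH M h ((1 - κ) * s)).ncard : ℝ≥0∞) ≤ ENNReal.ofReal C * W4.ncard := by
    refine natCast_le_ofReal hC0 (le_trans ?_ (hC s hss₀))
    exact_mod_cast Set.ncard_le_ncard hsub (ball_finite _)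
  have h2 : M.μ (B.Bx fun i => Λ * M.szh h d₁ s i) ≤
      ENNReal.ofReal (max C' 0) * M.μ (B.Bx fun i => δ * M.szh h d₁ s i) := by
    have h3 := hC' (fun i => δ * M.szh h d₁ s i) fun i => mul_pos hδ (hszp i)
    have h4 : B.Bx (fun i => Λ * M.szh h d₁ s i) ⊆
        B.Bx (fun i => max 1 (Λ / δ) * (δ * M.szh h d₁ s i)) := by
      refine B.mono _ _ (fun i => (mul_pos hΛ (hszp i)).le) fun i => ?_
      have h5 : Λ / δ ≤ max 1 (Λ / δ) := le_max_right _ _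
      have h6 : Λ * M.szh h d₁ s i = Λ / δ * (δ * M.szh h d₁ s i) := by field_simp
      rw [h6]
      exact mul_le_mul_of_nonneg_right h5 (mul_pos hδ (hszp i)).le
    calc M.μ (B.Bx fun i => Λ * M.szh h d₁ s i) ≤ _ := measure_mono h4
      _ ≤ ENNReal.ofReal C' * M.μ (B.Bx fun i => δ * M.szh h d₁ s i) := h3
      _ ≤ _ := by
        gcongr
        exact le_max_left _ _
  calc ((WnH M h ((1 - κ) * s)).ncard : ℝ≥0∞) * M.μ (B.Bx fun i => Λ * M.szh h d₁ s i)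
      ≤ (ENNReal.ofReal C * W4.ncard) *
        (ENNReal.ofReal (max C' 0) * M.μ (B.Bx fun i => δ * M.szh h d₁ s i)) := mul_le_mul' h1 h2
    _ = (ENNReal.ofReal C * ENNReal.ofReal (max C' 0)) *
        (W4.ncard * M.μ (B.Bx fun i => δ * M.szh h d₁ s i)) := by ring
    _ = ENNReal.ofReal (C * max C' 0) *
        (W4.ncard * M.μ (B.Bx fun i => δ * M.szh h d₁ s i)) := by rw [ENNReal.ofReal_mul hC0]

end DB

end Vale.Agent.P188.Z1
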