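import Vale.Agent.P188.Z1.Lab1
import Vale.Agent.P188.Z1.DBoxH2

/-!
# P188, Z1, block LAB, part 4: the box sets are test boxes
-/

set_option linter.all false

open MeasureTheory Set Filter
open scoped ENNReal
open Vale.Agent.P188.H540 (vec)

namespace Vale.Agent.P188.Z1.Lab

variable {S : Type} [Group S] [MeasurableSpace S] {Γ : Type} [Group Γ]
  {V : Type} [AddCommGroup V] [Module ℝ V] {k : ℕ} {M : RModel S Γ V k}

open RModel

/-- reduced sizes -/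
noncomputable def szt (M : RModel S Γ V k) (h : (Ht k →L[ℝ] ℝ) → ℝ) (d₁ s t : ℝ) (i : M.ι) : ℝ :=
  open Classical in if M.wt i = 0 then Real.exp (d₁ * s - t) else Real.exp ((s - t) * h (M.wt i))

theorem szt_pos (h : (Ht k →L[ℝ] ℝ) → ℝ) (d₁ s t : ℝ) (i : M.ι) : 0 < szt M h d₁ s t i := by
  unfold szt
  split_ifs <;> positivity

/-- facets -/
theorem facet_le {c₂ : ℝ} {h : (Ht k →L[ℝ] ℝ) → ℝ} (hc₂ : 0 < c₂) (hh : M.HGood c₂ h)
    {b : Ht k →L[ℝ] ℝ} (hb : b ∈ M.Φ) : ∃ u : Ht k, b u = h b ∧ ∀ b' ∈ M.Φ, b' u ≤ h b' := by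
  obtain ⟨u, -, hu, hu'⟩ := hh.facet b hb
  refine ⟨u, hu, fun b' hb' => ?_⟩
  rcases hu' b' hb' with ⟨t, ht, rfl⟩ | h1
  · rw [ContinuousLinearMap.smul_apply, hu, smul_eq_mul, hh.ray b hb _ hb' t ht rfl]
  · linarith

theorem adm_szt {c₂ : ℝ} {h : (Ht k →L[ℝ] ℝ) → ℝ} (hc₂ : 0 < c₂) (hh : M.HGood c₂ h)
    {d₁ s t : ℝ} (h1 : t ≤ d₁ * s) (h2 : t ≤ s) (h3 : d₁ * s - t ≤ (s - t) * c₂) :
    M.Adm (szt M h d₁ s t) := by
  classical
  have hst : 0 ≤ s - t := by linarith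
  have hge : ∀ j, Real.exp (d₁ * s - t) ≤ szt M h d₁ s t j := by
    intro j
    unfold szt
    split_ifs with hj
    · exact le_rfl
    · refine Real.exp_le_exp.2 (h3.trans (mul_le_mul_of_nonneg_left ?_ hst))
      exact (hh.bd _ ((M.wt_mem j).resolve_right hj)).1
  have hge1 : ∀ j, 1 ≤ szt M h d₁ s t j := fun j => (Real.one_le_exp (by linarith)).trans (hge j)
  have hprod1 : ∀ L : List M.ι, 1 ≤ (L.map (szt M h d₁ s t)).prod := by
    intro L
    induction L with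
    | nil => simp
    | cons i L ih =>
      rw [List.map_cons, List.prod_cons]
      nlinarith [hge1 i]
  refine ⟨szt_pos h d₁ s t, ?_⟩
  intro i w hw hs
  by_cases hi : M.wt i = 0
  · have e : szt M h d₁ s t i = Real.exp (d₁ * s - t) := by unfold szt; rw [if_pos hi]
    rw [e]
    obtain ⟨j, w', rfl⟩ := List.exists_cons_of_ne_nil hw
    rw [List.map_cons, List.prod_cons]
    have h4 := hge j
    have h5 := hprod1 w'
    have h6 := hge1 j
    nlinarith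
  · have hb : M.wt i ∈ M.Φ := (M.wt_mem i).resolve_right hi
    obtain ⟨u, hu, hu'⟩ := facet_le hc₂ hh hb
    have e : szt M h d₁ s t i = Real.exp ((s - t) * (M.wt i) u) := by
      unfold szt; rw [if_neg hi, hu]
    rw [e, ← hs]
    clear e hs hw
    induction w with
    | nil => simp
    | cons j w ih =>
      rw [List.map_cons, List.sum_cons, List.map_cons, List.prod_cons,
        ContinuousLinearMap.add_apply, mul_add, Real.exp_add]
      refine mul_le_mul ?_ ih (Real.exp_pos _).le (szt_pos h d₁ s t j).le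
      by_cases hj : M.wt j = 0
      · rw [hj, ContinuousLinearMap.zero_apply, mul_zero, Real.exp_zero]
        exact hge1 j
      · unfold szt
        rw [if_neg hj]
        exact Real.exp_le_exp.2 (mul_le_mul_of_nonneg_left
          (hu' _ ((M.wt_mem j).resolve_right hj)) hst)

/-- bound of the window -/
theorem win_norm (M : RModel S Γ V k) {c₂ : ℝ} (hc₂ : 0 < c₂) : ∃ C : ℝ, 0 < C ∧
    ∀ (h : (Ht k →L[ℝ] ℝ) → ℝ), M.HB c₂ h → ∀ s : ℝ, 0 ≤ s → ∀ x : Ht k,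
    (∀ b ∈ M.Φ, b x ≤ s * h b) → ‖x‖ ≤ C * s := by
  obtain ⟨CP, hCP0, hCP⟩ := DB.exists_bdd M
  refine ⟨CP * c₂⁻¹, by positivity, fun h hh s hs x hx => ?_⟩
  rw [mul_assoc]
  refine hCP x (c₂⁻¹ * s) (by positivity) fun b hb => (hx b hb).trans ?_
  rw [mul_comm]
  exact mul_le_mul_of_nonneg_right (hh b hb).2 hs

/-- natural boxes are bounded -/
theorem box_bdd (B : M.NatBox) (R : M.ι → ℝ) (hR : ∀ i, 0 ≤ R i) :
    ∃ ρ : ℝ, ∀ v ∈ B.Bx R, (M.l v : ℝ) ≤ ρ := by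
  classical
  have hC0 := M.C0_pos
  have hlist : ∀ L : List S, ∀ q : ℝ, 0 ≤ q → (∀ a ∈ L, (M.l a : ℝ) ≤ q) →
      (M.l L.prod : ℝ) ≤ L.length * q := by
    intro L q hq
    induction L with
    | nil => intro _; simp [M.len.one]
    | cons a L ih =>
      intro h
      rw [List.prod_cons, List.length_cons]
      have h1 : (M.l (a * L.prod) : ℝ) ≤ M.l a + M.l L.prod := by exact_mod_cast M.len.mul _ _
      have h2 := h a (by simp)
      have h3 := ih fun b hb => h b (List.mem_cons_of_mem _ hb)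
      push_cast
      linarith
  set q : ℝ := M.C0 * (1 + ∑ i, B.C * R i) with hq
  have hsum : 0 ≤ ∑ i, B.C * R i :=
    Finset.sum_nonneg fun i _ => mul_nonneg (zero_le_one.trans B.one_le) (hR i)
  refine ⟨B.m * q, fun v hv => ?_⟩
  obtain ⟨x, hx, rfl⟩ := B.gen R hR v hv
  refine (hlist _ q (by positivity) ?_).trans (by rw [List.length_ofFn])
  intro a ha
  rw [List.mem_ofFn] at ha
  obtain ⟨t, rfl⟩ := ha
  refine (M.met_V _).trans ?_
  rw [map_smul_eq_mul, Real.norm_eq_abs]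
  have h1 : |x t| * M.nm (M.X (B.J t)) ≤ B.C * R (B.J t) * 1 :=
    mul_le_mul (hx t) (M.X_le _) (M.nm_nonneg _) (mul_nonneg (zero_le_one.trans B.one_le) (hR _))
  have h2 : B.C * R (B.J t) ≤ ∑ i, B.C * R i :=
    Finset.single_le_sum (f := fun i => B.C * R i)
      (fun i _ => mul_nonneg (zero_le_one.trans B.one_le) (hR i)) (Finset.mem_univ _)
  rw [hq]
  refine mul_le_mul_of_nonneg_left ?_ hC0.le
  linarith

/-- box sets are bounded -/
theorem dbox_bdd (B : M.NatBox) {c₂ : ℝ} (hc₂ : 0 < c₂) {h : (Ht k →L[ℝ] ℝ) → ℝ} (hh : M.HB c₂ h)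
    {Λ : ℝ} (hΛ : 0 < Λ) (d₁ κ s : ℝ) (hs : 0 ≤ (1 - κ) * s) :
    ∃ ρ : ℝ, ∀ z ∈ B.DboxH h Λ d₁ κ s, (M.l z : ℝ) ≤ ρ := by
  obtain ⟨ρ, hρ⟩ := box_bdd B (fun i => Λ * M.szh h d₁ s i)
    fun i => (mul_pos hΛ (DB.szh_pos h d₁ s i)).le
  obtain ⟨Cl, hCl, hl⟩ := M.l_τ
  obtain ⟨CW, hCW, hW⟩ := win_norm M hc₂
  refine ⟨ρ + Cl * (1 + CW * ((1 - κ) * s)), fun z hz => ?_⟩
  have h1 := hρ _ hz.1
  have h2 := hW h hh _ hs (M.θ z) hz.2
  have h3 : (M.l (M.sec z) : ℝ) ≤ Cl * (1 + CW * ((1 - κ) * s)) := by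
    refine hl _ _ (by positivity) fun i => ?_
    have h4 : |M.θ z i| ≤ ‖M.θ z‖ := norm_le_pi_norm (M.θ z) i
    exact h4.trans h2
  have h4 : (M.l (z * (M.sec z)⁻¹ * M.sec z) : ℝ) ≤ M.l (z * (M.sec z)⁻¹) + M.l (M.sec z) := by
    exact_mod_cast M.len.mul _ _
  rw [inv_mul_cancel_right] at h4
  linarith

end Vale.Agent.P188.Z1.Lab
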