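import Vale.Agent.P188.Z1.Neut

/-!
# P188, Z1: NEUT from NFp and DBOXH
-/

set_option linter.all false

open MeasureTheory Set Filter Topology
open Vale.Agent.P188.H540 (vec ball_finite ball_count)
open scoped Pointwise ENNReal

namespace Vale.Agent.P188.Z1

namespace DB

variable {S : Type} [Group S] [MeasurableSpace S] {Γ : Type} [Group Γ]
  {V : Type} [AddCommGroup V] [Module ℝ V] {k : ℕ} {M : RModel S Γ V k}

open RModel

/-- a box times a neutral element of smaller neutral size, at height `1` -/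
theorem neut_mem (B : M.NatBox) {c A Λ d₁ : ℝ} (hc : 0 < c) (hA : 0 < A) (hΛ : 0 < Λ)
    (hd₁ : 0 < d₁) : ∀ᶠ s : ℝ in atTop, ∀ h : (Ht k →L[ℝ] ℝ) → ℝ, M.HB c h →
    ∀ n ∈ B.Bx (fun i => Λ * M.szh h d₁ s i), ∀ y ∈ M.Vw 0, M.nm y ≤ Real.exp (A * d₁ * s) →
      n * M.ex y ∈ B.DboxH h (B.C * (B.C * max Λ 1)) ((A + 1) * d₁) (1 / 2) s := by
  classical
  have hBC := B.one_le
  -- the section at `0`
  obtain ⟨v₀, hv₀, hv₀', hv₀''⟩ := M.C_ker _ _ (M.τ_CB 0) (by rw [M.η_τ]; rfl)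
  set T0 : ℝ := M.C0 * (1 + (⌈M.C0 * (1 + ‖(fun i => (((0 : Fin k → ℤ) i : ℤ) : ℝ))‖)⌉₊ : ℝ)) ^ M.deg
    with hT0
  have e1 : ∀ᶠ s : ℝ in atTop, (2 * B.C) * (1 + s) ^ 0 ≤ Real.exp (d₁ * s) := ev_poly _ _ hd₁
  have e2 : ∀ᶠ s : ℝ in atTop, (B.C * (1 + T0)) * (1 + s) ^ 0 ≤ Real.exp ((A + 1) * d₁ * s) :=
    ev_poly _ _ (by positivity)
  filter_upwards [e1, e2, eventually_ge_atTop 1] with s h1 h2 hs1 h hh n hn y hy hny
  rw [pow_zero, mul_one] at h1 h2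
  have hs0 : (0 : ℝ) < s := by linarith
  set R' : M.ι → ℝ := fun i => max Λ 1 * M.szh h ((A + 1) * d₁) s i with hR'
  have hmax1 : 1 ≤ max Λ 1 := le_max_right _ _
  have hsz1 : ∀ i, 1 ≤ M.szh h ((A + 1) * d₁) s i := by
    intro i
    unfold szh
    split_ifs with hi
    · exact Real.one_le_exp (by positivity)
    · refine Real.one_le_exp (mul_nonneg hs0.le ?_)
      exact hc.le.trans (hh _ ((M.wt_mem i).resolve_right hi)).1
  have hR'0 : ∀ i, 0 ≤ R' i := fun i => by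
    have := hsz1 i
    have : 0 < max Λ 1 := by linarith
    positivity
  have hR'1 : ∀ i, M.szh h ((A + 1) * d₁) s i ≤ R' i := fun i => by
    have := hsz1 i
    show M.szh h ((A + 1) * d₁) s i ≤ max Λ 1 * M.szh h ((A + 1) * d₁) s i
    nlinarith
  have hn' : n ∈ B.Bx R' := by
    refine B.mono _ _ (fun i => (mul_pos hΛ (szh_pos h d₁ s i)).le) (fun i => ?_) hn
    have h3 : M.szh h d₁ s i ≤ M.szh h ((A + 1) * d₁) s i := by
      unfold szh
      split_ifs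
      · apply Real.exp_le_exp.2
        have : 0 ≤ A * d₁ * s := by positivity
        nlinarith
      · exact le_rfl
    have h4 : 0 < M.szh h d₁ s i := szh_pos h d₁ s i
    exact mul_le_mul (le_max_left _ _) h3 h4.le (by linarith)
  have hball : ∀ v ∈ M.Vw 0, B.C * (1 + M.nm v) ≤ Real.exp ((A + 1) * d₁ * s) →
      M.ex v ∈ B.Bx R' := by
    intro v hv hnv
    refine B.mono _ _ ?_ (fun i => (?_ : _ ≤ M.szh h ((A + 1) * d₁) s i).trans (hR'1 i))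
      (B.ball_0 v hv)
    · intro i
      unfold two
      split_ifs
      · have := apply_nonneg M.nm v; positivity
      · exact zero_le_one
    · unfold two szh
      split_ifs with hi
      · exact hnv
      · refine Real.one_le_exp (mul_nonneg hs0.le ?_)
        exact hc.le.trans (hh _ ((M.wt_mem i).resolve_right hi)).1
  have hy' : M.ex y ∈ B.Bx R' := by
    refine hball y hy ?_
    have h3 : 1 ≤ Real.exp (A * d₁ * s) := Real.one_le_exp (by positivity)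
    calc B.C * (1 + M.nm y) ≤ B.C * (2 * Real.exp (A * d₁ * s)) := by
          apply mul_le_mul_of_nonneg_left _ (by linarith)
          linarith
      _ = (2 * B.C) * Real.exp (A * d₁ * s) := by ring
      _ ≤ Real.exp (d₁ * s) * Real.exp (A * d₁ * s) := by gcongr
      _ = Real.exp ((A + 1) * d₁ * s) := by rw [← Real.exp_add]; congr 1; ring
  have hτ0 : (M.τ 0)⁻¹ ∈ B.Bx R' := by
    refine B.inv _ _ ?_
    rw [← hv₀']
    refine hball v₀ hv₀ (le_trans ?_ h2)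
    apply mul_le_mul_of_nonneg_left _ (by linarith)
    linarith [hv₀'']
  have hη : M.η (n * M.ex y) = 1 := by
    rw [map_mul, B.sub _ _ hn, M.η_ex, one_mul]
  have hsec : M.sec (n * M.ex y) = M.τ 0 := by
    unfold sec
    rw [hη]
    rfl
  refine ⟨?_, ?_⟩
  · rw [hsec]
    have h3 := B.mul _ (fun i => mul_nonneg (by linarith) (hR'0 i)) _
      (B.mul _ hR'0 _ hn' _ hy') _ (B.mono _ (fun i => B.C * R' i) hR'0
        (fun i => by have := hR'0 i; nlinarith) hτ0)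
    have h4 : (fun i => B.C * (B.C * R' i)) =
        fun i => B.C * (B.C * max Λ 1) * M.szh h ((A + 1) * d₁) s i := by
      funext i
      show B.C * (B.C * (max Λ 1 * M.szh h ((A + 1) * d₁) s i)) = _
      ring
    rw [h4] at h3
    exact h3
  · intro b hb
    rw [θ_of_η M hη, map_zero]
    have := (hh b hb).1
    have h5 : 0 ≤ h b := hc.le.trans this
    positivity

/-- the measure of the window box of neutral size `e ^ ((A + 1) d₁ s)` against the box -/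
theorem DboxH_le (B : M.NatBox) {Cv : ℝ} {a : ℕ} (hCv : 0 < Cv)
    (hvol : ∀ Λ : ℝ, 1 ≤ Λ → ∀ R : M.ι → ℝ, (∀ i, 0 < R i) →
      M.μ (B.Bx fun i => Λ * R i) ≤ ENNReal.ofReal (Cv * Λ ^ a) * M.μ (B.Bx R))
    {CP : ℝ} (hCP : ∀ v : Ht k, ∀ t : ℝ, 0 ≤ t → (∀ b ∈ M.Φ, b v ≤ t) → ‖v‖ ≤ CP * t)
    {Ck sk : ℝ} (hcount : ∀ s : ℝ, sk ≤ s →
      (({w : Fin k → ℤ | ‖vec w‖ ≤ s}.ncard : ℕ) : ℝ) ≤ Ck * s ^ k)
    {c Λ0 A d₁ s : ℝ} (hc : 0 < c) (hΛ0 : 1 ≤ Λ0) (hA : 0 < A) (hd₁ : 0 < d₁) (hs : 0 < s)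
    (hssk : sk ≤ CP * c⁻¹ * s) {h : (Ht k →L[ℝ] ℝ) → ℝ} (hh : M.HB c h) :
    M.μ (B.DboxH h Λ0 ((A + 1) * d₁) (1 / 2) s) ≤
      ENNReal.ofReal (Ck * (CP * c⁻¹ * s) ^ k) *
        (ENNReal.ofReal (Cv * (Λ0 * Real.exp (A * d₁ * s)) ^ a) * M.μ (B.Bx (M.szh h d₁ s))) := by
  have hDb : M.μ (B.DboxH h Λ0 ((A + 1) * d₁) (1 / 2) s) = (WnH M h ((1 - 1 / 2) * s)).ncard *
      M.μ (B.Bx fun i => Λ0 * M.szh h ((A + 1) * d₁) s i) :=
    BW_measure (B.meas _) (B.sub _) (WnH_finite h (by linarith))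
  have hW : ((WnH M h ((1 - 1 / 2) * s)).ncard : ℝ) ≤ Ck * (CP * c⁻¹ * s) ^ k := by
    refine le_trans ?_ (hcount (CP * c⁻¹ * s) hssk)
    have hsub : WnH M h ((1 - 1 / 2) * s) ⊆ {w | ‖vec w‖ ≤ CP * c⁻¹ * s} := by
      intro w hw
      have h1 := hCP (vec w) (c⁻¹ * s) (by positivity) fun b hb => by
        obtain ⟨h3, h4⟩ := hh b hb
        have h5 : 0 ≤ h b := hc.le.trans h3
        calc b (vec w) ≤ (1 - 1 / 2) * s * h b := hw b hb
          _ ≤ 1 * s * c⁻¹ := by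
              have h6 : (1 - 1 / 2 : ℝ) * s ≤ 1 * s := by linarith
              exact mul_le_mul h6 h4 h5 (by linarith)
          _ = c⁻¹ * s := by ring
      rw [← mul_assoc] at h1
      exact h1
    exact_mod_cast Set.ncard_le_ncard hsub (ball_finite _)
  have hBx : M.μ (B.Bx fun i => Λ0 * M.szh h ((A + 1) * d₁) s i) ≤
      ENNReal.ofReal (Cv * (Λ0 * Real.exp (A * d₁ * s)) ^ a) * M.μ (B.Bx (M.szh h d₁ s)) := by
    have hE1 : 1 ≤ Real.exp (A * d₁ * s) := Real.one_le_exp (by positivity)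
    have h1 := hvol (Λ0 * Real.exp (A * d₁ * s)) (by nlinarith) (M.szh h d₁ s) (szh_pos h d₁ s)
    refine le_trans (measure_mono ?_) h1
    refine B.mono _ _ (fun i => (mul_pos (by linarith) (szh_pos h ((A + 1) * d₁) s i)).le)
      fun i => ?_
    have hre : Λ0 * Real.exp (A * d₁ * s) * M.szh h d₁ s i =
        Λ0 * (Real.exp (A * d₁ * s) * M.szh h d₁ s i) := by ring
    show Λ0 * M.szh h ((A + 1) * d₁) s i ≤ Λ0 * Real.exp (A * d₁ * s) * M.szh h d₁ s i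
    rw [hre]
    refine mul_le_mul_of_nonneg_left ?_ (by linarith)
    unfold szh
    split_ifs
    · rw [← Real.exp_add]
      apply Real.exp_le_exp.2
      apply le_of_eq
      ring
    · have := Real.exp_pos (s * h (M.wt i))
      nlinarith
  rw [hDb]
  refine mul_le_mul' ?_ hBx
  rw [← ENNReal.ofReal_natCast]
  exact ENNReal.ofReal_le_ofReal hW

/-- one application of `NFp`, at a location `g` -/
theorem neut_step (B : M.NatBox) {K ε c₀ CR ρ δ s Λ0 d' κ₁ Λ d₁ : ℝ}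
    (hNF : ∀ F F' : Γ → Γ, M.QIm K F F' → ∀ D Dp : Set S, M.Fat (CR * (ρ * s)) 1 D Dp →
      ∀ y ∈ M.Vw 0, M.nm y ≤ Real.exp (δ * (ρ * s)) → ∀ Din : Set S,
      (∀ z ∈ Din, ∀ x : ℝ, 0 ≤ x → x ≤ 1 → z * M.ex (x • y) ∈ D) →
      M.μ {z | z ∈ Din ∧ ε * (ρ * s) < ‖M.f F (z * M.ex y) - M.f F z‖} ≤
        ENNReal.ofReal (Real.exp (-(c₀ * (ρ * s)))) * M.μ D)
    (hs : 0 ≤ s) (hε : 0 < ε) (hρ1 : ρ ≤ 1) (hCRρ : CR * ρ ≤ κ₁)
    {h : (Ht k →L[ℝ] ℝ) → ℝ} {Dp : Set S}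
    (hDp : M.Fat (κ₁ * s) 1 (B.DboxH h Λ0 d' (1 / 2) s) Dp)
    {F F' : Γ → Γ} (hF : M.QIm K F F') (g : S) {y : V} (hy : y ∈ M.Vw 0)
    (hny : M.nm y ≤ Real.exp (δ * (ρ * s)))
    (hmem : ∀ n ∈ B.Bx (fun i => Λ * M.szh h d₁ s i), ∀ x : ℝ, 0 ≤ x → x ≤ 1 →
      n * M.ex (x • y) ∈ B.DboxH h Λ0 d' (1 / 2) s) :
    M.μ {n | n ∈ B.Bx (fun i => Λ * M.szh h d₁ s i) ∧
        ε * s < ‖M.f F (g * (n * M.ex y)) - M.f F (g * n)‖} ≤
      ENNReal.ofReal (Real.exp (-(c₀ * (ρ * s)))) * M.μ (B.DboxH h Λ0 d' (1 / 2) s) := by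
  set D : Set S := {z | g⁻¹ * z ∈ B.DboxH h Λ0 d' (1 / 2) s} with hD
  have hfat : M.Fat (CR * (ρ * s)) 1 D {z | g⁻¹ * z ∈ Dp} :=
    (fat_left hDp g⁻¹).mono (by
      have := mul_le_mul_of_nonneg_right hCRρ hs
      linarith) le_rfl
  set Din : Set S := {z | g⁻¹ * z ∈ B.Bx (fun i => Λ * M.szh h d₁ s i)} with hDin
  have hmain := hNF F F' hF D _ hfat y hy hny Din (by
      intro z hz x hx0 hx1
      show g⁻¹ * (z * M.ex (x • y)) ∈ B.DboxH h Λ0 d' (1 / 2) s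
      rw [← mul_assoc]
      exact hmem _ hz x hx0 hx1)
  -- transport to the box
  have hle : M.μ {n | n ∈ B.Bx (fun i => Λ * M.szh h d₁ s i) ∧
      ε * s < ‖M.f F (g * (n * M.ex y)) - M.f F (g * n)‖} ≤
      M.μ {x | x ∈ Din ∧ ε * (ρ * s) < ‖M.f F (x * M.ex y) - M.f F x‖} := by
    have h1 : {n | n ∈ B.Bx (fun i => Λ * M.szh h d₁ s i) ∧
        ε * s < ‖M.f F (g * (n * M.ex y)) - M.f F (g * n)‖} ⊆
        (fun n => g * n) ⁻¹' {x | x ∈ Din ∧ ε * (ρ * s) < ‖M.f F (x * M.ex y) - M.f F x‖} := by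
      rintro n ⟨hn1, hn2⟩
      refine ⟨?_, ?_⟩
      · show g⁻¹ * (g * n) ∈ B.Bx (fun i => Λ * M.szh h d₁ s i)
        rw [inv_mul_cancel_left]
        exact hn1
      · rw [← mul_assoc] at hn2
        refine lt_of_le_of_lt ?_ hn2
        have : ρ * s ≤ s := by nlinarith
        exact mul_le_mul_of_nonneg_left this hε.le
    refine (measure_mono h1).trans ?_
    have h2 := Measure.le_map_apply (μ := M.μ) (M.mpl g).measurable.aemeasurable
      {x | x ∈ Din ∧ ε * (ρ * s) < ‖M.f F (x * M.ex y) - M.f F x‖}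
    rw [(M.mpl g).map_eq] at h2
    exact h2
  -- the measure of `D`
  have hμD : M.μ D = M.μ (B.DboxH h Λ0 d' (1 / 2) s) :=
    (M.mpl g⁻¹).measure_preimage hDp.meas.nullMeasurableSet
  rw [hμD] at hmain
  exact hle.trans hmain

/-- **NEUT** -/
theorem neut (B : M.NatBox) (hB : B.Fine) (hN : M.NFp) : M.NEUT B := by
  classical
  intro K c ε Λ hc hε hΛ
  have hBC := B.one_le
  have hmax1 : 1 ≤ max Λ 1 := le_max_right _ _
  obtain ⟨Λ0, hΛ0⟩ : ∃ Λ0 : ℝ, Λ0 = B.C * (B.C * max Λ 1) := ⟨_, rfl⟩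
  have hΛ01 : 1 ≤ Λ0 := by
    have : 1 ≤ B.C * max Λ 1 := by nlinarith
    rw [hΛ0]
    nlinarith
  obtain ⟨κ₁, hκ₁, hbox⟩ := dboxH B hB c hc (1 / 2) (by norm_num) (by norm_num) Λ0 (by linarith)
    1 one_pos
  obtain ⟨δ, c₀, CR, r₀, hδ, hc₀, hNF⟩ := hN K ε 1 hε
  obtain ⟨Cv, a, hCv1, hvol⟩ := dbl_poly B
  have hCv : 0 < Cv := one_pos.trans_le hCv1
  obtain ⟨CP, hCP0, hCP⟩ := exists_bdd M
  obtain ⟨Ck, sk, hsk, hCk, hcount⟩ := ball_count k
  obtain ⟨ρ, hρ⟩ : ∃ ρ : ℝ, ρ = min 1 (κ₁ / (|CR| + 1)) := ⟨_, rfl⟩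
  have hρ0 : 0 < ρ := by rw [hρ]; exact lt_min one_pos (by positivity)
  have hρ1 : ρ ≤ 1 := by rw [hρ]; exact min_le_left _ _
  have hCRρ : CR * ρ ≤ κ₁ := by
    have h1 : ρ ≤ κ₁ / (|CR| + 1) := by rw [hρ]; exact min_le_right _ _
    rw [le_div_iff₀ (by positivity)] at h1
    have h2 : CR * ρ ≤ |CR| * ρ := mul_le_mul_of_nonneg_right (le_abs_self _) hρ0.le
    nlinarith
  refine ⟨c₀ * ρ / 2, by positivity, fun A₀ => ?_⟩
  obtain ⟨A, hAdef⟩ : ∃ A : ℝ, A = 2 * |A₀| + 1 := ⟨_, rfl⟩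
  have hA : 0 < A := by have := abs_nonneg A₀; rw [hAdef]; positivity
  refine ⟨min (δ * ρ / A) (c₀ * ρ / (4 * (a + 1) * A)), ?_, ?_⟩
  · exact lt_min (by positivity) (by positivity)
  intro d₁ hd₁ hd₁m
  have hd1 : A * d₁ ≤ δ * ρ := by
    have h1 := hd₁m.trans (min_le_left _ _)
    rw [le_div_iff₀ hA] at h1
    linarith
  have hd2 : (a : ℝ) * (A * d₁) ≤ c₀ * ρ / 4 := by
    have h1 := hd₁m.trans (min_le_right _ _)
    rw [le_div_iff₀ (by positivity)] at h1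
    have h2 : 0 < A * d₁ := by positivity
    nlinarith
  have hd'0 : 0 < (A + 1) * d₁ := by positivity
  obtain ⟨s₁, hs₁⟩ := hbox ((A + 1) * d₁) ((A + 1) * d₁ / (2 * κ₁)) hd'0 (by positivity) (by
    have : (A + 1) * d₁ / (2 * κ₁) * κ₁ = (A + 1) * d₁ / 2 := by field_simp
    rw [this]
    linarith)
  have e1 := neut_mem B hc hA hΛ hd₁
  rw [← hΛ0] at e1
  have hCQ0 : 0 < CP * c⁻¹ := by positivity
  have e2 : ∀ᶠ s : ℝ in atTop, (Ck * (CP * c⁻¹) ^ k * Cv * Λ0 ^ a) * (1 + s) ^ k ≤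
      Real.exp (c₀ * ρ / 4 * s) := ev_poly _ _ (by positivity)
  obtain ⟨s₂, hs₂⟩ := (e1.and e2).exists_forall_of_atTop
  refine ⟨max (max s₁ s₂) (max (max (max 1 (1 / d₁)) (r₀ / ρ)) (sk / (CP * c⁻¹))),
    fun s hs h hh F F' hF g y hy hny₀ => ?_⟩
  have hs1' : s₁ ≤ s := (le_max_left _ _).trans ((le_max_left _ _).trans hs)
  have hs2' : s₂ ≤ s := (le_max_right _ _).trans ((le_max_left _ _).trans hs)
  have hs1 : 1 ≤ s := (le_max_left _ _).trans ((le_max_left _ _).trans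
    ((le_max_left _ _).trans ((le_max_right _ _).trans hs)))
  have hs1d : 1 ≤ d₁ * s := by
    have h1 : 1 / d₁ ≤ s := (le_max_right _ _).trans ((le_max_left _ _).trans
      ((le_max_left _ _).trans ((le_max_right _ _).trans hs)))
    rw [div_le_iff₀ hd₁] at h1
    linarith
  have hny : M.nm y ≤ Real.exp (A * d₁ * s) := by
    refine hny₀.trans (Real.exp_le_exp.2 ?_)
    have h1 : A₀ * (d₁ * s + 1) ≤ |A₀| * (d₁ * s + 1) :=
      mul_le_mul_of_nonneg_right (le_abs_self _) (by linarith)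
    have h2 : |A₀| * 1 ≤ |A₀| * (d₁ * s) := mul_le_mul_of_nonneg_left hs1d (abs_nonneg _)
    have h3 : A * d₁ * s = 2 * (|A₀| * (d₁ * s)) + d₁ * s := by rw [hAdef]; ring
    linarith
  have hsr : r₀ ≤ ρ * s := by
    have h1 : r₀ / ρ ≤ s := (le_max_right _ _).trans
      ((le_max_left _ _).trans ((le_max_right _ _).trans hs))
    rw [div_le_iff₀ hρ0] at h1
    linarith
  have hssk : sk ≤ CP * c⁻¹ * s := by
    have h1 : sk / (CP * c⁻¹) ≤ s := (le_max_right _ _).trans ((le_max_right _ _).trans hs)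
    rw [div_le_iff₀ hCQ0] at h1
    linarith
  have hs0 : 0 < s := by linarith
  obtain ⟨hmem, hexp⟩ := hs₂ s hs2'
  obtain ⟨Dp, hDp⟩ := hs₁ s hs1' h hh
  have hstep := neut_step B (hNF (ρ * s) hsr) hs0.le hε hρ1 hCRρ hDp.toFat hF g hy
    (Λ := Λ) (d₁ := d₁) (by
      refine hny.trans (Real.exp_le_exp.2 ?_)
      have := mul_le_mul_of_nonneg_right hd1 hs0.le
      linarith) (fun n hn x hx0 hx1 => by
      refine hmem h hh _ hn _ (Submodule.smul_mem _ _ hy) ?_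
      rw [map_smul_eq_mul, Real.norm_eq_abs, abs_of_nonneg hx0]
      have h1 := apply_nonneg M.nm y
      nlinarith)
  have hDle := DboxH_le B hCv hvol hCP hcount hc hΛ01 hA hd₁ hs0 hssk hh
  refine hstep.trans ((mul_le_mul_right hDle _).trans ?_)
  rw [← mul_assoc, ← mul_assoc, ← ENNReal.ofReal_mul (Real.exp_pos _).le,
    ← ENNReal.ofReal_mul (by positivity)]
  refine mul_le_mul' (ENNReal.ofReal_le_ofReal ?_) le_rfl
  exact neut_num hs0.le hCk hCQ0.le hCv.le (by linarith) hd2 hexp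

end DB

end Vale.Agent.P188.Z1
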