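import Vale.Agent.P188.Z1.Extra
import Vale.Agent.P188.Z1.Spread

/-!
# P188, Z1: crossed homomorphisms of `S` (field `crossS` of `RModel.Extra`)
-/

set_option linter.all false

open MeasureTheory Set Filter Topology
open Vale.Agent.P188.H530 (hgt Crossed)

namespace Vale.Agent.P188.Z1

namespace RModel

variable {S : Type} [Group S] [MeasurableSpace S] {Γ : Type} [Group Γ]
  {V : Type} [AddCommGroup V] [Module ℝ V] {k : ℕ} {M : RModel S Γ V k}

theorem cCB_mul {m n : ℕ} {x y : S} (hx : x ∈ M.CB m) (hy : y ∈ M.CB n) : x * y ∈ M.CB (m + n) := by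
  obtain ⟨L, h1, h2, h3⟩ := hx
  obtain ⟨L', h1', h2', h3'⟩ := hy
  refine ⟨L ++ L', by rw [List.length_append]; omega, by rw [List.prod_append, h2, h2'], ?_⟩
  intro a ha
  rcases List.mem_append.1 ha with h | h
  · exact h3 a h
  · exact h3' a h

theorem cCB_pow {m : ℕ} {x : S} (hx : x ∈ M.CB m) (n : ℕ) : x ^ n ∈ M.CB (n * m) := by
  induction n with
  | zero => exact ⟨[], by simp, by simp, by simp⟩
  | succ n ih =>
    rw [pow_succ, Nat.succ_mul]
    exact cCB_mul ih hx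

/-- two different functionals are separated by an integral vector -/
theorem exists_sepV {b b' : Ht k →L[ℝ] ℝ} (h : b' ≠ b) :
    ∃ w : Fin k → ℤ, b' (ht w) < b (ht w) := by
  have h1 : ∃ i : Fin k, (b - b') (Pi.single i 1) ≠ 0 := by
    by_contra hcon
    push Not at hcon
    apply h
    symm
    rw [← sub_eq_zero]
    refine ContinuousLinearMap.ext fun x => ?_
    have e : x = ∑ i, x i • (Pi.single i 1 : Fin k → ℝ) := by
      funext j
      simp [Finset.sum_apply, Pi.single_apply]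
    rw [e, map_sum]
    simp only [map_smul, hcon]
    simp
  obtain ⟨i, hi⟩ := h1
  have e1 : ht (Pi.single i 1 : Fin k → ℤ) = (Pi.single i 1 : Fin k → ℝ) := by
    funext j
    by_cases hij : j = i
    · subst hij; simp [ht]
    · simp [ht, Pi.single_apply, hij]
  have e2 : ht (-(Pi.single i 1) : Fin k → ℤ) = -(Pi.single i 1 : Fin k → ℝ) := by
    rw [← e1]
    funext j
    simp [ht]
  rw [ContinuousLinearMap.sub_apply] at hi
  rcases lt_or_gt_of_ne hi with h2 | h2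
  · refine ⟨-(Pi.single i 1), ?_⟩
    rw [e2, map_neg, map_neg]
    linarith
  · refine ⟨Pi.single i 1, ?_⟩
    rw [e1]
    linarith

theorem cθ_τ (w : Fin k → ℤ) : M.θ (M.τ w) = ht w := by
  funext i
  simp [θ, hgt, M.η_τ, ht]

theorem cθ_pow (x : S) (n : ℕ) : M.θ (x ^ n) = (n : ℝ) • M.θ x := by
  induction n with
  | zero => rw [pow_zero, M.θ_one, Nat.cast_zero, zero_smul]
  | succ n ih => rw [pow_succ, M.θ_mul, ih, Nat.cast_succ, add_smul, one_smul]

/-- the functional of a crossed homomorphism of weight `b` vanishes on the other weight spaces -/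
theorem lin_other {b : Ht k →L[ℝ] ℝ} (c : Crossed (hgt M.η) b) (L : V →ₗ[ℝ] ℂ)
    (hL : ∀ v, c.D (M.ex v) = L v) {CL : ℝ} (hLn : ∀ v, ‖L v‖ ≤ CL * M.nm v)
    {b' : Ht k →L[ℝ] ℝ} (hb' : b' ∈ M.Wt) (hne : b' ≠ b) {v : V} (hv : v ∈ M.Vw b') : L v = 0 := by
  obtain ⟨w, hw⟩ := exists_sepV hne
  set N₀ : ℕ := ⌈M.C0 * (1 + ‖(fun i => (w i : ℝ))‖)⌉₊ with hN₀
  have hc : ∀ n : ℕ, M.τ w ^ n ∈ M.CB (n * N₀) := fun n => cCB_pow (M.τ_CB w) n
  have hc0 : c.ρ 1 = 1 := c.ρ_one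
  have hAd : ∀ s : S, L (M.Ad s v) = c.ρ s * L v := by
    intro s
    rw [← hL, M.ex_Ad, c.D_mul, c.D_mul]
    have h1 : c.ρ (s * M.ex v) = c.ρ s := by
      rw [c.ρ_mul]
      have : c.ρ (M.ex v) = 1 := by
        refine c.ρ_ker _ ?_
        rw [H530.hgt_eq_zero_iff]
        exact M.η_ex v
      rw [this, mul_one]
    have h2 : c.D s + c.ρ s * c.D s⁻¹ = 0 := by
      rw [← c.D_mul, mul_inv_cancel, c.D_one]
    rw [h1, ← hL]
    linear_combination h2
  have hCL : 0 ≤ |CL| := abs_nonneg _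
  have hC0 : 0 ≤ M.C0 := zero_le_one.trans M.one_le_C0
  have hnm : 0 ≤ M.nm v := apply_nonneg M.nm v
  set δ : ℝ := b (ht w) - b' (ht w) with hδ
  have hδ0 : 0 < δ := by linarith
  have main : ∀ n : ℕ, ‖L v‖ ≤ (|CL| * M.C0 * M.nm v * (1 + N₀) ^ M.deg) *
      ((1 + (n : ℝ)) ^ M.deg * Real.exp (-(δ * n))) := by
    intro n
    have h1 := hAd (M.τ w ^ n)
    have h2 : ‖c.ρ (M.τ w ^ n)‖ = Real.exp (n * b (ht w)) := by
      rw [c.norm_ρ]
      have : hgt M.η (M.τ w ^ n) = (n : ℝ) • ht w := by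
        have := M.cθ_pow (M.τ w) n
        rw [cθ_τ] at this
        exact this
      rw [this, map_smul, smul_eq_mul]
    have h3 := M.C_le (n * N₀) (M.τ w ^ n) (hc n) b' hb' v hv
    have h3' : hgt M.η (M.τ w ^ n) = (n : ℝ) • ht w := by
      have := M.cθ_pow (M.τ w) n
      rw [cθ_τ] at this
      exact this
    rw [h3', map_smul, smul_eq_mul] at h3
    have h4 : ‖L (M.Ad (M.τ w ^ n) v)‖ ≤ |CL| * M.nm (M.Ad (M.τ w ^ n) v) :=
      (hLn _).trans (mul_le_mul_of_nonneg_right (le_abs_self _) (apply_nonneg _ _))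
    rw [h1, norm_mul, h2] at h4
    have h5 : Real.exp (n * b (ht w)) * ‖L v‖ ≤ |CL| * (M.C0 * (1 + (n * N₀ : ℕ)) ^ M.deg *
        Real.exp (n * b' (ht w)) * M.nm v) := h4.trans (mul_le_mul_of_nonneg_left h3 hCL)
    have h6 : (1 + ((n * N₀ : ℕ) : ℝ)) ^ M.deg ≤ (1 + N₀) ^ M.deg * (1 + (n : ℝ)) ^ M.deg := by
      rw [← mul_pow]
      refine pow_le_pow_left₀ (by positivity) ?_ _
      push_cast
      have : (0 : ℝ) ≤ n := Nat.cast_nonneg _
      have : (0 : ℝ) ≤ N₀ := Nat.cast_nonneg _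
      nlinarith
    have h7 : Real.exp (-(δ * n)) = Real.exp (n * b' (ht w)) * Real.exp (-(n * b (ht w))) := by
      rw [← Real.exp_add]
      congr 1
      rw [hδ]; ring
    have h8 : ‖L v‖ = Real.exp (-(n * b (ht w))) * (Real.exp (n * b (ht w)) * ‖L v‖) := by
      rw [← mul_assoc, ← Real.exp_add, neg_add_cancel, Real.exp_zero, one_mul]
    rw [h8, h7]
    calc Real.exp (-(n * b (ht w))) * (Real.exp (n * b (ht w)) * ‖L v‖)
        ≤ Real.exp (-(n * b (ht w))) * (|CL| * (M.C0 * ((1 + N₀) ^ M.deg * (1 + (n : ℝ)) ^ M.deg) *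
          Real.exp (n * b' (ht w)) * M.nm v)) := by
          refine mul_le_mul_of_nonneg_left (h5.trans ?_) (Real.exp_pos _).le
          gcongr
      _ = _ := by ring
  have hlim : Tendsto (fun n : ℕ => (|CL| * M.C0 * M.nm v * (1 + N₀) ^ M.deg) *
      ((1 + (n : ℝ)) ^ M.deg * Real.exp (-(δ * n)))) atTop (𝓝 0) := by
    have h1 : Tendsto (fun x : ℝ => x ^ M.deg * Real.exp (-δ * x)) atTop (𝓝 0) := by
      have := tendsto_rpow_mul_exp_neg_mul_atTop_nhds_zero (M.deg : ℝ) δ hδ0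
      refine this.congr fun x => ?_
      rw [Real.rpow_natCast]
    have h2 : Tendsto (fun n : ℕ => (1 + (n : ℝ))) atTop atTop :=
      tendsto_atTop_add_const_left _ _ tendsto_natCast_atTop_atTop
    have h3 := (h1.comp h2).const_mul (Real.exp δ)
    rw [mul_zero] at h3
    have h4 : Tendsto (fun n : ℕ => (1 + (n : ℝ)) ^ M.deg * Real.exp (-(δ * n))) atTop (𝓝 0) := by
      refine h3.congr fun n => ?_
      simp only [Function.comp]
      rw [mul_left_comm, ← Real.exp_add]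
      congr 2
      ring
    have := h4.const_mul (|CL| * M.C0 * M.nm v * (1 + N₀) ^ M.deg)
    rwa [mul_zero] at this
  have h9 : ‖L v‖ ≤ 0 := ge_of_tendsto' hlim main
  exact norm_le_zero_iff.1 h9

/-- **crossS** from a crossed homomorphism of `S` whose restriction to `ker η` is linear -/
theorem crossS_of_lin {b : Ht k →L[ℝ] ℝ} (c : Crossed (hgt M.η) b) (hDm : Measurable c.D)
    (hρm : Measurable c.ρ) (L : V →ₗ[ℝ] ℂ) (hL : ∀ v, c.D (M.ex v) = L v) {CL : ℝ}
    (hLn : ∀ v, ‖L v‖ ≤ CL * M.nm v) (hLi : ∃ i, L (M.X i) ≠ 0) {C : ℝ}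
    (hle : ∀ x, ‖c.D x‖ ≤ Real.exp (C * (M.l x + 1))) : Nonempty (M.CrossS b) := by
  have hoth : ∀ j, M.wt j ≠ b → L (M.X j) = 0 := by
    intro j hj
    refine lin_other c L hL hLn (b' := M.wt j) ?_ hj (M.X_mem j)
    rcases M.wt_mem j with h | h
    · exact M.Φ_sub h
    · rw [h]; exact M.zero_mem_Wt
  obtain ⟨i, hi⟩ := hLi
  have hwi : M.wt i = b := by
    by_contra h
    exact hi (hoth i h)
  exact ⟨{
    D := c.D
    ρ := c.ρ
    D_meas := hDm
    ρ_meas := hρm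
    D_mul := c.D_mul
    ρ_mul := c.ρ_mul
    norm_ρ := c.norm_ρ
    ρ_ker := fun x hx => c.ρ_ker x (by rw [H530.hgt_eq_zero_iff]; exact hx)
    i := i
    wt_i := hwi
    d := L (M.X i)
    d_ne := hi
    D_ex := fun x => by rw [hL, map_smul, Complex.real_smul]
    D_other := fun j hj x => by rw [hL, map_smul, hoth j hj, smul_zero]
    C := C
    D_le := hle }⟩

end RModel

end Vale.Agent.P188.Z1
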