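import Vale.Agent.P188.Z1.Inst
import Vale.Agent.P188.Z1.CrossS
import Vale.Agent.P188.H269.RMb4
import Vale.Agent.P188.H796.DetA
import Vale.Agent.P188.H131.CrossS
import Vale.Agent.P188.H796.InstM

/-!
# P188, Z1: the real model of a group with the data `Z0`, with the additional facts `Extra`
-/

set_option linter.all false

open MeasureTheory Set
open scoped commutatorElement

namespace Vale.Agent.P188.Z1

open Vale.Agent.P188.H796 Vale.Agent.P188.H615 Vale.Agent.P188.H269 Vale.Agent.P188.H131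
open Vale.Agent.P188.H530 (hgt Crossed Mod)

section inst

variable {Γ : Type} [Group Γ] {k : ℕ} {η : Γ →* Multiplicative (Fin k → ℤ)} {d n : ℕ}
  {D : MB η.ker d n}

/-- a functional which kills the brackets and all letters is zero -/
theorem Conc.lin_zero {hη : Function.Surjective η} {F : Set Γ} {t : D.S}
    {M : RModel D.S Γ D.R.V k} (hM : Conc D hη F t M) (L : D.R.V →ₗ[ℝ] ℂ)
    (hL : ∀ x y : D.R.V, L ⁅x, y⁆ = 0) (hX : ∀ i, L (M.X i) = 0) (v : D.R.V) : L v = 0 := by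
  -- the kernel is a subalgebra
  let K : LieSubalgebra ℝ D.R.V :=
    { LinearMap.ker L with lie_mem' := fun {x y} _ _ => hL x y }
  have hspan : ∀ b, (b ∈ M.Φ ∨ b = 0) → ∀ x ∈ M.Vw b, L x = 0 := by
    intro b hb x hx
    have h1 := hM.letters_span b hb hx
    have h2 : Submodule.span ℝ (M.X '' {i | M.wt i = b}) ≤ LinearMap.ker L := by
      rw [Submodule.span_le]
      rintro _ ⟨i, _, rfl⟩
      exact hX i
    exact h2 h1
  rw [hM.Φ_eq, hM.Vw_eq] at hspan
  obtain ⟨x0, hx0, hx⟩ := exists_neutral_add D.AdE t v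
  have h1 : L x0 = 0 := hspan 0 (Or.inr rfl) x0 (by rw [Vwt_zero]; exact hx0)
  have h2 : v - x0 ∈ K := by
    refine (LieSubalgebra.lieSpan_le.2 ?_) (gen_e D hη hM.sep (v - x0) hx)
    rintro x ⟨b, hb, hx⟩
    exact hspan b (Or.inl hb) x hx
  have h3 : L (v - x0) = 0 := h2
  rw [map_sub, h1, sub_zero] at h3
  exact h3

/-- the additional facts -/
theorem Conc.extra {hη : Function.Surjective η} {F : Set Γ} (hF : F.Finite)
    (hgen : Subgroup.closure F = ⊤) {t : D.S}
    {M : RModel D.S Γ D.R.V k} (hM : Conc D hη F t M) : M.Extra where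
  ex_list := by
    obtain ⟨C, e, _, h⟩ := D.ex_list_bound
    rw [hM.nm_eq, hM.ex_eq]
    exact ⟨C, e, h⟩
  crossS := by
    intro b hb
    rw [hM.Φ_eq, mem_ΦF] at hb
    obtain ⟨hb0, l, χ, hE, hl, hlog⟩ := hb
    obtain ⟨w, hw, _⟩ := exists_genWeight_of D hE hl
    obtain ⟨c, L, hcL, hLb, ⟨v, hv⟩, _, _⟩ := exists_crossedS (D := D) w hη (b := b) (by
      intro g
      rw [hw, ← hlog, D.hgt_inΓ]) hb0
    obtain ⟨hm1, hm2⟩ := meas_crossed c hcL
    obtain ⟨C, _, hC⟩ := crossed_le c hcL hF hgen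
    have c' : Crossed (hgt M.η) b := by rw [hM.η_eq]; exact c
    have key : ∀ (θ : D.S →* Multiplicative (Fin k → ℤ)) (hθ : M.η = θ)
        (c : Crossed (hgt θ) b), Measurable c.D → Measurable c.ρ →
        (∀ v, c.D (M.ex v) = L v) → (∀ x, ‖c.D x‖ ≤ Real.exp (C * (M.l x + 1))) →
        Nonempty (M.CrossS b) := by
      rintro θ rfl c h1 h2 h3 h4
      refine RModel.crossS_of_lin c h1 h2 L h3 (CL := ‖LinearMap.toContinuousLinearMap L‖) ?_ ?_ h4
      · intro v
        rw [hM.nm_eq]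
        exact (LinearMap.toContinuousLinearMap L).le_opNorm v
      · by_contra hcon
        push Not at hcon
        exact hv (hM.lin_zero L hLb hcon v)
    refine key (D.θ η) hM.η_eq c hm1 hm2 ?_ ?_
    · rw [hM.ex_eq]; exact hcL
    · rw [hM.l_eq]; exact hC

end inst

/-- **The real model of `Γ`.** -/
theorem exists_model {Γ : Type} [Group Γ] {k : ℕ} {η : Γ →* Multiplicative (Fin k → ℤ)}
    (h : H187.Z0 Γ k η) : ∃ (d n : ℕ) (D : MB η.ker d n) (F : Set Γ) (t : D.S)
      (M : RModel D.S Γ D.R.V k), Conc D h.surj F t M ∧ M.Extra ∧ M.η.comp M.inG = η ∧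
      F.Finite ∧ Subgroup.closure F = ⊤ := by
  obtain ⟨d, n, ⟨D⟩, F, hF, hgen, _, _⟩ := Z0_data h
  obtain ⟨t, M, hM⟩ := exists_rmodel D h.surj hF hgen (Φ_span D h.surj h.weights)
    (H796.abs_det_AdE D)
  refine ⟨d, n, D, F, t, M, hM, hM.extra hF hgen, ?_, hF, hgen⟩
  rw [hM.η_eq, hM.inG_eq, D.θ_comp]

end Vale.Agent.P188.Z1
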