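import Vale.Agent.P188.Z1.Trans

/-!
# P188, Z1, block INVT

If `f` is affine near most points of a set `D` with small boundary, then the linear parts are
invertible, with a bound of the inverse depending only on the constant of the quasi-isometry.
-/

set_option linter.all false

open MeasureTheory Set
open scoped ENNReal
open Agent.P188.H428 (IsLen)
open Vale.Agent.P188.H530 (hgt hgt_mul)

namespace Vale.Agent.P188.Z1

/-- Linear algebra: approximate right inverse. -/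
theorem lower_of_approx {k : ℕ} (T : Ht k →L[ℝ] Ht k) (u : Fin k → Ht k) {s δ B : ℝ} (hs : 0 < s)
    (hu : ∀ j, ‖u j‖ ≤ B) (hT : ∀ j, ‖T (u j) - Pi.single j s‖ ≤ δ) (hδ : 2 * (k * δ) ≤ s)
    (w : Ht k) : s * ‖w‖ ≤ 2 * (k * B) * ‖T w‖ := by
  rcases Nat.eq_zero_or_pos k with rfl | hk
  · have h0 : ‖w‖ = 0 := by rw [Subsingleton.elim w 0, norm_zero]
    rw [h0]; simp
  have hk0 : (0 : ℝ) < k := by exact_mod_cast hk
  have hB0 : 0 ≤ B := (norm_nonneg _).trans (hu ⟨0, hk⟩)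
  have hδ0 : 0 ≤ δ := (norm_nonneg _).trans (hT ⟨0, hk⟩)
  let U : Ht k →ₗ[ℝ] Ht k := (Pi.basisFun ℝ (Fin k)).constr ℝ u
  have hU : ∀ a : Ht k, U a = ∑ j, a j • u j := by
    intro a
    simp only [U, Module.Basis.constr_apply_fintype]
    simp
  have hsum : ∀ (a : Ht k) (v : Fin k → Ht k) (c : ℝ), (∀ j, ‖v j‖ ≤ c) → 0 ≤ c →
      ‖∑ j, a j • v j‖ ≤ k * (‖a‖ * c) := by
    intro a v c hv hc
    refine (norm_sum_le _ _).trans ?_
    calc ∑ j, ‖a j • v j‖ ≤ ∑ _j : Fin k, ‖a‖ * c := by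
          refine Finset.sum_le_sum fun j _ => ?_
          rw [norm_smul]
          exact mul_le_mul (norm_le_pi_norm a j) (hv j) (norm_nonneg _) (norm_nonneg _)
      _ = k * (‖a‖ * c) := by simp
  have h1 : ∀ a : Ht k, ‖T (U a) - s • a‖ ≤ k * (‖a‖ * δ) := by
    intro a
    have e : T (U a) - s • a = ∑ j, a j • (T (u j) - Pi.single j s) := by
      rw [hU, map_sum]
      simp only [map_smul, smul_sub, Finset.sum_sub_distrib]
      congr 1
      funext i
      rw [Finset.sum_apply]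
      simp only [Pi.smul_apply, smul_eq_mul, Pi.single_apply]
      rw [Finset.sum_eq_single i]
      · simp [mul_comm]
      · intro j _ hj
        rw [if_neg (Ne.symm hj), mul_zero]
      · intro h; exact absurd (Finset.mem_univ i) h
    rw [e]
    exact hsum a _ δ hT hδ0
  have h2 : ∀ a : Ht k, s * ‖a‖ ≤ 2 * ‖T (U a)‖ := by
    intro a
    have h3 : ‖s • a‖ ≤ ‖T (U a)‖ + ‖T (U a) - s • a‖ := by
      have := norm_sub_le (T (U a)) (T (U a) - s • a)
      simpa using this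
    rw [norm_smul, Real.norm_of_nonneg hs.le] at h3
    have h4 := h1 a
    have h5 : k * (‖a‖ * δ) ≤ s / 2 * ‖a‖ := by
      have := mul_le_mul_of_nonneg_right hδ (norm_nonneg a)
      linarith
    linarith
  have hinj : Function.Injective U := by
    rw [injective_iff_map_eq_zero]
    intro a ha
    have := h2 a
    rw [ha, map_zero, norm_zero, mul_zero] at this
    have h3 : ‖a‖ ≤ 0 := by
      by_contra hcon
      push Not at hcon
      have := mul_pos hs hcon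
      linarith
    exact norm_le_zero_iff.1 h3
  obtain ⟨a, rfl⟩ := (LinearMap.injective_iff_surjective.1 hinj) w
  have h3 : ‖U a‖ ≤ k * (‖a‖ * B) := by
    rw [hU]; exact hsum a u B hu hB0
  calc s * ‖U a‖ ≤ s * (k * (‖a‖ * B)) := by gcongr
    _ = k * B * (s * ‖a‖) := by ring
    _ ≤ k * B * (2 * ‖T (U a)‖) := by
        refine mul_le_mul_of_nonneg_left (h2 a) (by positivity)
    _ = _ := by ring

namespace RModel

variable {S : Type} [Group S] [MeasurableSpace S] {Γ : Type} [Group Γ]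
  {V : Type} [AddCommGroup V] [Module ℝ V] {k : ℕ} (M : RModel S Γ V k)

theorem θ_mul (x y : S) : M.θ (x * y) = M.θ x + M.θ y := hgt_mul M.η x y

theorem θ_inv (x : S) : M.θ x⁻¹ = -M.θ x := by
  have h1 : M.θ (1 : S) = 0 := by
    have := M.θ_mul 1 1
    rw [mul_one] at this
    simpa using this
  have h2 := M.θ_mul x⁻¹ x
  rw [inv_mul_cancel, h1] at h2
  exact eq_neg_of_add_eq_zero_left h2.symm

theorem θ_le (x : S) : ‖M.θ x‖ ≤ M.C0 * M.l x := M.η_le x

theorem θ_inv_mul (x y : S) : M.θ (x⁻¹ * y) = M.θ y - M.θ x := by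
  rw [M.θ_mul, M.θ_inv]; abel

/-- Elements of `Γ` with prescribed height, approximately. -/
theorem exists_lift (j : Fin k) : ∃ C : ℝ, 0 ≤ C ∧ ∀ s : ℕ, ∃ g : Γ,
    (M.l (M.inG g) : ℝ) ≤ C * (s + 1) ∧ ‖M.θ (M.inG g) - Pi.single j (s : ℝ)‖ ≤ M.C0 * M.C0 := by
  have hC0 : 0 ≤ M.C0 := zero_le_one.trans M.one_le_C0
  set t : S := M.τ (Pi.single j 1) with ht
  have hpow : ∀ s : ℕ, M.l (t ^ s) ≤ s * M.l t := by
    intro s
    induction s with
    | zero => simp [M.len.one]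
    | succ s ih =>
      rw [pow_succ]
      refine (M.len.mul _ _).trans ?_
      rw [Nat.succ_mul]
      exact Nat.add_le_add_right ih _
  have hθt : M.θ t = Pi.single j (1 : ℝ) := by
    funext i
    simp only [θ, hgt, ht, M.η_τ, toAdd_ofAdd]
    by_cases hij : i = j
    · subst hij; simp
    · simp [Pi.single_eq_of_ne hij]
  have hθ : ∀ s : ℕ, M.θ (t ^ s) = Pi.single j (s : ℝ) := by
    intro s
    induction s with
    | zero =>
      have h1 : M.θ (1 : S) = 0 := by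
        have := M.θ_mul 1 1
        rw [mul_one] at this
        simpa using this
      simp [h1]
    | succ s ih =>
      rw [pow_succ, M.θ_mul, ih, hθt, ← Pi.single_add]
      push_cast; rfl
  refine ⟨M.l t + M.C0, by positivity, fun s => ⟨M.fl (t ^ s), ?_, ?_⟩⟩
  · have h1 := M.fl_close (t ^ s)
    have h2 := M.l_triR 1 (t ^ s) (M.inG (M.fl (t ^ s)))
    rw [M.l_comm (t ^ s), inv_one, one_mul, one_mul] at h2
    have h3 : (M.l (t ^ s) : ℝ) ≤ s * M.l t := by exact_mod_cast hpow s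
    have h4 : 0 ≤ (M.l t : ℝ) := Nat.cast_nonneg _
    have h5 : 0 ≤ (s : ℝ) := Nat.cast_nonneg _
    nlinarith
  · have h1 := M.fl_close (t ^ s)
    have h2 := M.θ_inv_mul (M.inG (M.fl (t ^ s))) (t ^ s)
    rw [hθ] at h2
    rw [← norm_neg, neg_sub, ← h2]
    exact (M.θ_le _).trans (mul_le_mul_of_nonneg_left h1 hC0)

theorem mu_cells_mul (g : Γ) (B : Set Γ) : M.μ (M.cells {γ | γ * g ∈ B}) = M.μ (M.cells B) := by
  rw [mu_cells, mu_cells]
  congr 2
  have : {γ | γ * g ∈ B} = (Equiv.mulRight g) ⁻¹' B := rfl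
  rw [this]
  exact Set.encard_preimage_of_bijective (Equiv.mulRight g).bijective B

/-- measure comparison for `x ↦ F' (F x * g)` -/
theorem QIm.pull2 {M : RModel S Γ V k} {K : ℝ} {F F' : Γ → Γ} (h : M.QIm K F F') (g : Γ)
    (B' : Set S) :
    M.μ {z | M.fl ⁻¹' {F' (F (M.fl z) * g)} ⊆ B'} ≤ M.mlt (2 * K) * (M.mlt (2 * K) * M.μ B') := by
  set B : Set Γ := {γ | M.fl ⁻¹' {γ} ⊆ B'} with hB
  have h1 : M.μ {z | F (M.fl z) ∈ {γ | F' (γ * g) ∈ B}} ≤ _ := h.mu_le {γ | F' (γ * g) ∈ B}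
  refine (show M.μ {z | M.fl ⁻¹' {F' (F (M.fl z) * g)} ⊆ B'} ≤ _ from h1).trans
    (mul_le_mul_right ?_ _)
  have h2 : {γ | F' (γ * g) ∈ B} = {γ | γ * g ∈ {γ | F' γ ∈ B}} := rfl
  rw [h2, mu_cells_mul]
  have h3 : M.cells {γ | F' γ ∈ B} = {z | F' (M.fl z) ∈ B} := rfl
  rw [h3]
  refine (h.symm.mu_le B).trans (mul_le_mul_right (measure_mono ?_) _)
  intro z hz
  have hz' : M.fl ⁻¹' {M.fl z} ⊆ B' := hz
  exact hz' rfl

/-- distance from `x` to the cell of `F' (F (fl x) * g)` -/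
theorem QIm.dist_le {M : RModel S Γ V k} {K : ℝ} {F F' : Γ → Γ} (h : M.QIm K F F') (g : Γ)
    {x x' : S} (hx : M.fl x' = F' (F (M.fl x) * g)) :
    (M.l (x⁻¹ * x') : ℝ) ≤ 2 * M.C0 + K + K * (M.l (M.inG g) + 1) := by
  have h1 := M.fl_close x
  rw [M.l_comm] at h1
  have h2 := h.inv (M.fl x)
  have h3 := h.lip' (F (M.fl x)) g
  have h4 := M.fl_close x'
  rw [← hx] at h3
  rw [map_mul, map_inv] at h2 h3
  have t1 := M.l_triR x (M.inG (M.fl x)) x'
  have t2 := M.l_triR (M.inG (M.fl x)) (M.inG (F' (F (M.fl x)))) x'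
  have t3 := M.l_triR (M.inG (F' (F (M.fl x)))) (M.inG (M.fl x')) x'
  linarith

/-- height of the image of the cell of `F' (F (fl x) * g)` -/
theorem QIm.f_eq {M : RModel S Γ V k} {K : ℝ} {F F' : Γ → Γ} (h : M.QIm K F F') (g : Γ)
    {x x' : S} (hx : M.fl x' = F' (F (M.fl x) * g)) :
    ‖M.f F x' - M.f F x - M.θ (M.inG g)‖ ≤ M.C0 * K := by
  have hC0 : 0 ≤ M.C0 := zero_le_one.trans M.one_le_C0
  have h1 := h.inv' (F (M.fl x) * g)
  have e : M.f F x' - M.f F x - M.θ (M.inG g) =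
      M.θ (M.inG ((F (M.fl x) * g)⁻¹ * F (F' (F (M.fl x) * g)))) := by
    rw [map_mul, map_inv, M.θ_inv_mul, map_mul, M.θ_mul]
    unfold f
    rw [hx]; abel
  rw [e]
  exact (M.θ_le _).trans (mul_le_mul_of_nonneg_left h1 hC0)

/-- **INVT.** Linear parts are invertible at most points. `D₀` is any set of density `1 - ε` in `D`
on which `f` is affine at distances `≤ r`. -/
theorem invT (K : ℝ) : ∃ (c₁ ε₀ C r₀ : ℝ), 0 < c₁ ∧ 0 < ε₀ ∧ 0 ≤ C ∧
    ∀ r : ℝ, r₀ ≤ r → ∀ ε : ℝ, 0 ≤ ε → ε ≤ ε₀ → ∀ κ : ℝ, 0 ≤ κ →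
    ∀ F F' : Γ → Γ, M.QIm K F F' → ∀ D Dp D₀ : Set S, M.Fat r κ D Dp → D₀ ⊆ D →
    MeasurableSet D₀ → M.μ (D \ D₀) ≤ ENNReal.ofReal ε * M.μ D →
    ∀ T : S → Ht k →L[ℝ] Ht k,
    (∀ x ∈ D₀, ∀ x' ∈ D₀, (M.l (x⁻¹ * x') : ℝ) ≤ r →
      ‖M.f F x' - M.f F x - T x (M.θ (x⁻¹ * x'))‖ ≤ ε * r) →
    M.μ {x | x ∈ D₀ ∧ ¬ ∀ w, c₁ * ‖w‖ ≤ ‖T x w‖} ≤ ENNReal.ofReal (C * (ε + κ)) * M.μ D := by
  have hC0 : 0 ≤ M.C0 := zero_le_one.trans M.one_le_C0
  choose Cj hCj0 lift hlift using M.exists_lift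
  -- the constants
  by_cases hK0 : K < 0
  · refine ⟨1, 1, 0, 0, one_pos, one_pos, le_rfl, fun r hr ε _ _ κ _ F F' h => ?_⟩
    exact absurd ((Nat.cast_nonneg (M.l (M.inG (1⁻¹ * F' (F 1)))) : (0:ℝ) ≤ _).trans (h.inv 1))
      (not_le.2 hK0)
  push Not at hK0
  set C3 : ℝ := ∑ j, Cj j with hC3
  have hC30 : 0 ≤ C3 := Finset.sum_nonneg fun j _ => hCj0 j
  have hCle : ∀ j, Cj j ≤ C3 := fun j =>
    Finset.single_le_sum (f := Cj) (fun i _ => hCj0 i) (Finset.mem_univ j)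
  -- scale `s = ⌊c r⌋`
  set c : ℝ := 1 / (2 * (K * C3 + 1)) with hc
  have hKC : 0 ≤ K * C3 := mul_nonneg hK0 hC30
  have hc0 : 0 < c := by positivity
  have hk0 : (0 : ℝ) ≤ k := Nat.cast_nonneg _
  set R1 : ℝ := 2 * M.C0 + K + K * (C3 + 1) with hR1
  set m := M.mlt (2 * K) with hm
  have hmt : m ≠ ⊤ := M.mlt_ne_top _
  set B1 : ℝ := M.C0 * K + M.C0 * M.C0 with hB1
  have hB10 : 0 ≤ B1 := by positivity
  refine ⟨c / (4 * (k + 1) * (M.C0 + 1)), c / (8 * (k + 1)), (k * m.toReal ^ 2),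
    2 * R1 + 2 / c + 1 + 8 * (k + 1) * B1 / c, by positivity, by positivity, by positivity, ?_⟩
  intro r hr ε hε hε0 κ hκ F F' h D Dp D₀ hD hD₀D hD₀m hD₀ T hT
  have hRR : 0 ≤ R1 := by positivity
  have hr1 : 2 * R1 ≤ r := by
    have : 0 ≤ 2 / c := by positivity
    have : 0 ≤ 8 * (k + 1) * B1 / c := by positivity
    linarith
  have hr2 : 2 / c ≤ r := by
    have : 0 ≤ 8 * (k + 1) * B1 / c := by positivity
    linarith
  have hr3 : 8 * (k + 1) * B1 / c ≤ r := by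
    have : 0 ≤ 2 / c := by positivity
    linarith
  have hr0 : 0 < r := lt_of_lt_of_le (by positivity) hr2
  set s : ℕ := ⌊c * r⌋₊ with hs
  have hcr : 2 ≤ c * r := by
    rw [div_le_iff₀ hc0] at hr2; linarith
  have hs1 : (s : ℝ) ≤ c * r := Nat.floor_le (by positivity)
  have hs2 : c * r - 1 < s := by
    have := Nat.lt_floor_add_one (c * r); linarith
  have hs3 : c * r / 2 ≤ s := by linarith
  have hs0 : (0 : ℝ) < s := lt_of_lt_of_le (by positivity) hs3
  have hB1s : k * B1 * 4 ≤ c * r / 2 := by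
    rw [div_le_iff₀ hc0] at hr3
    nlinarith
  -- lengths
  have hlen : ∀ j, 2 * M.C0 + K + K * (M.l (M.inG (lift j s)) + 1) ≤ r := by
    intro j
    have h1 := (hlift j s).1
    have h2 : Cj j * (s + 1) ≤ C3 * (s + 1) := by gcongr; exact hCle j
    have h3 : K * (M.l (M.inG (lift j s)) + 1) ≤ K * (C3 * (s + 1) + 1) := by
      gcongr; linarith
    have h4 : K * C3 * s ≤ r / 2 := by
      calc K * C3 * s ≤ K * C3 * (c * r) := by gcongr
        _ = (K * C3 * c) * r := by ring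
        _ ≤ (1 / 2) * r := by
            gcongr
            rw [hc, mul_one_div, div_le_div_iff₀ (by positivity) (by norm_num)]
            nlinarith
        _ = _ := by ring
    nlinarith
  -- the bad set
  have hsub : {x | x ∈ D₀ ∧ ¬ ∀ w, c / (4 * (k + 1) * (M.C0 + 1)) * ‖w‖ ≤ ‖T x w‖} ⊆
      ⋃ j : Fin k, {x | M.fl ⁻¹' {F' (F (M.fl x) * lift j s)} ⊆ Dp \ D₀} := by
    rintro x ⟨hx, hbad⟩
    by_contra hcon
    rw [mem_iUnion] at hcon
    push Not at hcon
    refine hbad ?_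
    have hex : ∀ j, ∃ x' ∈ D₀, M.fl x' = F' (F (M.fl x) * lift j s) := by
      intro j
      have h1 := hcon j
      simp only [mem_setOf_eq, not_subset] at h1
      obtain ⟨x', hx', h2⟩ := h1
      have hx'' : M.fl x' = F' (F (M.fl x) * lift j s) := hx'
      have h3 := (h.dist_le _ hx'').trans (hlen j)
      have h4 := hD.sub x (hD₀D hx) (x⁻¹ * x') h3
      rw [mul_inv_cancel_left] at h4
      refine ⟨x', ?_, hx''⟩
      by_contra h5
      exact h2 ⟨h4, h5⟩
    choose x' hx' hfx' using hex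
    have hd : ∀ j, (M.l (x⁻¹ * x' j) : ℝ) ≤ r := fun j => (h.dist_le _ (hfx' j)).trans (hlen j)
    intro w
    have hkey := lower_of_approx (T x) (fun j => M.θ (x⁻¹ * x' j)) (s := s)
      (δ := ε * r + B1) (B := M.C0 * r) hs0 (fun j => ?_) (fun j => ?_) ?_ w
    · rw [div_mul_eq_mul_div, div_le_iff₀ (by positivity)]
      have h6 : c * r / 2 * ‖w‖ ≤ 2 * (k * (M.C0 * r)) * ‖T x w‖ :=
        (mul_le_mul_of_nonneg_right hs3 (norm_nonneg _)).trans hkey
      have h7 : r * (c * ‖w‖) ≤ r * (4 * (k * M.C0) * ‖T x w‖) := by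
        nlinarith
      have h8 := le_of_mul_le_mul_left h7 hr0
      have h9 : 4 * (k * M.C0) * ‖T x w‖ ≤ 4 * ((k + 1) * (M.C0 + 1)) * ‖T x w‖ := by
        gcongr <;> linarith
      linarith
    · exact (M.θ_le _).trans (mul_le_mul_of_nonneg_left (hd j) hC0)
    · have h6 := hT x hx (x' j) (hx' j) (hd j)
      have h7 := h.f_eq _ (hfx' j)
      have h8 := (hlift j s).2
      have e : T x (M.θ (x⁻¹ * x' j)) - Pi.single j (s : ℝ) =
          -(M.f F (x' j) - M.f F x - T x (M.θ (x⁻¹ * x' j))) +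
          (M.f F (x' j) - M.f F x - M.θ (M.inG (lift j s))) +
          (M.θ (M.inG (lift j s)) - Pi.single j (s : ℝ)) := by abel
      rw [e]
      refine (norm_add_le _ _).trans ((add_le_add (norm_add_le _ _) le_rfl).trans ?_)
      rw [norm_neg]
      linarith
    · have h6 : k * (ε * r) * 4 ≤ c * r / 2 := by
        rw [le_div_iff₀ (by positivity)] at hε0
        have h7 : k * ε * 8 ≤ c := by nlinarith
        nlinarith
      nlinarith
  refine (measure_mono hsub).trans ?_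
  refine (measure_iUnion_le _).trans ?_
  rw [tsum_fintype]
  have hone : ∀ j : Fin k, M.μ {x | M.fl ⁻¹' {F' (F (M.fl x) * lift j s)} ⊆ Dp \ D₀} ≤
      ENNReal.ofReal (m.toReal ^ 2 * (ε + κ)) * M.μ D := by
    intro j
    refine (h.pull2 _ _).trans ?_
    have h1 : M.μ (Dp \ D₀) ≤ ENNReal.ofReal (ε + κ) * M.μ D := by
      have hR0 : (0:ℝ) ≤ r := hr0.le
      have hDDp : D ⊆ Dp := by
        intro z hz
        have := hD.sub z hz 1 (by rw [M.len.one]; simpa using hR0)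
        rwa [mul_one] at this
      have h2 : M.μ (Dp \ D) ≤ ENNReal.ofReal κ * M.μ D := by
        rw [measure_sdiff hDDp hD.meas.nullMeasurableSet hD.fin]
        refine tsub_le_iff_right.2 (hD.le.trans ?_)
        rw [ENNReal.ofReal_add zero_le_one hκ, ENNReal.ofReal_one, add_mul, one_mul, add_comm]
      have h3 : Dp \ D₀ ⊆ (D \ D₀) ∪ (Dp \ D) := by
        rintro z ⟨hz, hz'⟩
        by_cases hzD : z ∈ D
        · exact Or.inl ⟨hzD, hz'⟩
        · exact Or.inr ⟨hz, hzD⟩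
      refine (measure_mono h3).trans ((measure_union_le _ _).trans ?_)
      rw [ENNReal.ofReal_add hε hκ, add_mul]
      exact add_le_add hD₀ h2
    have hm2 : m = ENNReal.ofReal m.toReal := (ENNReal.ofReal_toReal hmt).symm
    calc m * (m * M.μ (Dp \ D₀)) ≤ m * (m * (ENNReal.ofReal (ε + κ) * M.μ D)) := by gcongr
      _ = ENNReal.ofReal (m.toReal ^ 2 * (ε + κ)) * M.μ D := by
        rw [ENNReal.ofReal_mul (by positivity), ENNReal.ofReal_pow ENNReal.toReal_nonneg, ← hm2]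
        ring
  refine (Finset.sum_le_sum fun j _ => hone j).trans ?_
  rw [Finset.sum_const, Finset.card_univ, Fintype.card_fin, nsmul_eq_mul, ← mul_assoc]
  gcongr
  rw [← ENNReal.ofReal_natCast, ← ENNReal.ofReal_mul hk0]
  exact ENNReal.ofReal_le_ofReal (by linarith [mul_assoc (k : ℝ) (m.toReal ^ 2) (ε + κ)])

end RModel

end Vale.Agent.P188.Z1
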