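import Vale.Agent.P188.Z1.RModel

/-!
Existence of representatives of the rays and of generic integral directions separating them.
-/

open Set

namespace Vale.Agent.P188.Z1

namespace RModel

variable {k : ℕ}

lemma rd_ht_smul (n : ℤ) (v : Fin k → ℤ) : ht (n • v) = (n : ℝ) • ht v := by
  ext i; simp [ht]

lemma rd_ht_neg (v : Fin k → ℤ) : ht (-v) = - ht v := by
  ext i; simp [ht]

/-- every open cone contains an integral vector -/
lemma rd_exists_int_in {U : Set (Ht k)} (hU : IsOpen U) (hne : U.Nonempty)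
    (hcone : ∀ x ∈ U, ∀ t : ℝ, 0 < t → t • x ∈ U) : ∃ v : Fin k → ℤ, ht v ∈ U := by
  obtain ⟨x, hx⟩ := hne
  obtain ⟨ε, hε, hball⟩ := Metric.isOpen_iff.mp hU x hx
  obtain ⟨n, hn⟩ := exists_nat_gt (1 / ε)
  have hn0 : (0 : ℝ) < n := lt_trans (by positivity) hn
  refine ⟨fun i => ⌊(n : ℝ) * x i⌋, ?_⟩
  have h1 : (n : ℝ)⁻¹ • ht (fun i => ⌊(n : ℝ) * x i⌋) ∈ U := by
    apply hball
    rw [Metric.mem_ball, dist_pi_lt_iff hε]
    intro i
    have h2 : ((n : ℝ)⁻¹ • ht (fun i => ⌊(n : ℝ) * x i⌋)) i = (n : ℝ)⁻¹ * ⌊(n : ℝ) * x i⌋ := rfl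
    rw [h2, Real.dist_eq]
    have h3 : (n : ℝ)⁻¹ * ⌊(n : ℝ) * x i⌋ - x i = (n : ℝ)⁻¹ * (⌊(n : ℝ) * x i⌋ - n * x i) := by
      field_simp
    rw [h3, abs_mul, abs_of_pos (inv_pos.mpr hn0)]
    have h4 : |(⌊(n : ℝ) * x i⌋ : ℝ) - n * x i| ≤ 1 := by
      rw [abs_le]
      constructor
      · linarith [Int.lt_floor_add_one ((n : ℝ) * x i)]
      · linarith [Int.floor_le ((n : ℝ) * x i)]
    calc (n : ℝ)⁻¹ * |(⌊(n : ℝ) * x i⌋ : ℝ) - n * x i| ≤ (n : ℝ)⁻¹ * 1 := by gcongr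
      _ < ε := by
        rw [mul_one, inv_lt_comm₀ hn0 hε]
        simpa using hn
  have h2 := hcone _ h1 n hn0
  rwa [smul_smul, mul_inv_cancel₀ hn0.ne', one_smul] at h2

/-- the complement of the kernel of a nonzero functional is dense -/
lemma rd_dense_ne {b : Ht k →L[ℝ] ℝ} (hb : b ≠ 0) : Dense {x : Ht k | b x ≠ 0} := by
  obtain ⟨y, hy⟩ : ∃ y, b y ≠ 0 := by
    by_contra h
    push Not at h
    exact hb (by ext x; simp [h])
  intro x
  by_cases hx : b x ≠ 0
  · exact subset_closure hx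
  push Not at hx
  rw [mem_closure_iff_seq_limit]
  refine ⟨fun n => x + ((n : ℝ) + 1)⁻¹ • y, fun n => ?_, ?_⟩
  · have : b (x + ((n : ℝ) + 1)⁻¹ • y) = ((n : ℝ) + 1)⁻¹ * b y := by
      rw [map_add, map_smul, hx, zero_add, smul_eq_mul]
    show b _ ≠ 0
    rw [this]
    have : ((n : ℝ) + 1)⁻¹ ≠ 0 := by positivity
    exact mul_ne_zero this hy
  · have h1 : Filter.Tendsto (fun n : ℕ => ((n : ℝ) + 1)⁻¹) Filter.atTop (nhds 0) := by
      simpa [one_div] using tendsto_one_div_add_atTop_nhds_zero_nat (𝕜 := ℝ)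
    have h2 := (tendsto_const_nhds (x := x)).add (h1.smul_const y)
    simpa using h2

lemma rd_dense_forall (W : Finset (Ht k →L[ℝ] ℝ)) :
    Dense {x : Ht k | ∀ b ∈ W, b ≠ 0 → b x ≠ 0} ∧ IsOpen {x : Ht k | ∀ b ∈ W, b ≠ 0 → b x ≠ 0} := by
  classical
  induction W using Finset.induction_on with
  | empty => simp
  | insert b W _ ih =>
    have e : {x : Ht k | ∀ b' ∈ insert b W, b' ≠ 0 → b' x ≠ 0} =
        {x | b ≠ 0 → b x ≠ 0} ∩ {x | ∀ b ∈ W, b ≠ 0 → b x ≠ 0} := by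
      ext x
      simp
    rw [e]
    have ho : IsOpen {x : Ht k | b ≠ 0 → b x ≠ 0} := by
      by_cases hb : b = 0
      · simp [hb]
      · have : {x : Ht k | b ≠ 0 → b x ≠ 0} = {x | b x ≠ 0} := by ext x; simp [hb]
        rw [this]
        exact isOpen_ne_fun b.continuous continuous_const
    have hd : Dense {x : Ht k | b ≠ 0 → b x ≠ 0} := by
      by_cases hb : b = 0
      · simp [hb]
      · have : {x : Ht k | b ≠ 0 → b x ≠ 0} = {x | b x ≠ 0} := by ext x; simp [hb]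
        rw [this]
        exact rd_dense_ne hb
    exact ⟨hd.inter_of_isOpen_left ih.1 ho, ho.inter ih.2⟩

variable {S : Type} [Group S] [MeasurableSpace S] {Γ : Type} [Group Γ]
  {V : Type} [AddCommGroup V] [Module ℝ V] (M : RModel S Γ V k)

/-- every open cone contains a generic integral vector -/
lemma rd_exists_generic_in {U : Set (Ht k)} (hU : IsOpen U) (hne : U.Nonempty)
    (hcone : ∀ x ∈ U, ∀ t : ℝ, 0 < t → t • x ∈ U) : ∃ v : Fin k → ℤ, M.Generic v ∧ ht v ∈ U := by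
  obtain ⟨hd, ho⟩ := rd_dense_forall M.Wt
  obtain ⟨v, hv⟩ := rd_exists_int_in (hU.inter ho) (hd.inter_open_nonempty U hU hne) (by
    intro x hx t ht
    refine ⟨hcone x hx.1 t ht, fun b hb hb0 => ?_⟩
    rw [map_smul, smul_eq_mul]
    exact mul_ne_zero ht.ne' (hx.2 b hb hb0))
  exact ⟨v, fun b hb hb0 => hv.2 b hb hb0, hv.1⟩

lemma rd_Generic_neg {v : Fin k → ℤ} (hv : M.Generic v) : M.Generic (-v) := by
  intro b hb hb0
  have h1 := hv b hb hb0
  have h2 : b (ht (-v)) ≠ 0 := by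
    rw [rd_ht_neg, map_neg]
    exact neg_ne_zero.mpr h1
  exact h2

/-- representatives of the rays -/
theorem exists_rays : ∃ Φ₁, M.Rays Φ₁ := by
  classical
  -- maximal families without positively proportional pairs
  suffices h : ∀ W : Finset (Ht k →L[ℝ] ℝ), W ⊆ M.Φ → ∃ Φ₁ : Finset (Ht k →L[ℝ] ℝ), Φ₁ ⊆ M.Φ ∧
      (∀ b ∈ W, ∃ b₁ ∈ Φ₁, ∃ t : ℝ, 0 < t ∧ b = t • b₁) ∧
      ∀ b ∈ Φ₁, ∀ b' ∈ Φ₁, ∀ t : ℝ, 0 < t → b = t • b' → b = b' by
    obtain ⟨Φ₁, h1, h2, h3⟩ := h M.Φ (Finset.Subset.refl _)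
    exact ⟨Φ₁, h1, h2, h3⟩
  intro W
  induction W using Finset.induction_on with
  | empty => intro _; exact ⟨∅, by simp, by simp, by simp⟩
  | insert b W _ ih =>
    intro hW
    obtain ⟨Φ₁, h1, h2, h3⟩ := ih (fun x hx => hW (Finset.mem_insert_of_mem hx))
    by_cases hb : ∃ b₁ ∈ Φ₁, ∃ t : ℝ, 0 < t ∧ b = t • b₁
    · refine ⟨Φ₁, h1, ?_, h3⟩
      intro b' hb'
      rcases Finset.mem_insert.mp hb' with rfl | hb'
      · exact hb
      · exact h2 b' hb'
    · refine ⟨insert b Φ₁, ?_, ?_, ?_⟩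
      · intro x hx
        rcases Finset.mem_insert.mp hx with rfl | hx
        · exact hW (Finset.mem_insert_self _ _)
        · exact h1 hx
      · intro b' hb'
        rcases Finset.mem_insert.mp hb' with rfl | hb'
        · exact ⟨b', Finset.mem_insert_self _ _, 1, one_pos, (one_smul _ _).symm⟩
        · obtain ⟨b₁, hb₁, t, ht, e⟩ := h2 b' hb'
          exact ⟨b₁, Finset.mem_insert_of_mem hb₁, t, ht, e⟩
      · intro x hx y hy t ht e
        rcases Finset.mem_insert.mp hx with hxb | hx <;> rcases Finset.mem_insert.mp hy with hyb | hy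
        · rw [hxb, hyb]
        · exact absurd ⟨y, hy, t, ht, hxb ▸ e⟩ hb
        · exfalso
          apply hb
          refine ⟨x, hx, t⁻¹, inv_pos.mpr ht, ?_⟩
          rw [e, hyb, smul_smul, inv_mul_cancel₀ ht.ne', one_smul]
        · exact h3 x hx y hy t ht e

/-- functionals which are not positively proportional are separated -/
lemma rd_exists_sep {b b' : Ht k →L[ℝ] ℝ} (hb : b ≠ 0) (hb' : b' ≠ 0)
    (h : ∀ t : ℝ, 0 < t → b' ≠ t • b) : ∃ x, 0 < b x ∧ b' x < 0 := by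
  by_contra hcon
  push Not at hcon
  obtain ⟨u, hu⟩ : ∃ u, 0 < b u := by
    obtain ⟨y, hy⟩ : ∃ y, b y ≠ 0 := by
      by_contra h'
      push Not at h'
      exact hb (by ext x; simp [h'])
    rcases lt_or_gt_of_ne hy with h1 | h1
    · exact ⟨-y, by rw [map_neg]; linarith⟩
    · exact ⟨y, h1⟩
  have hker : ∀ y, b y = 0 → b' y = 0 := by
    intro y hy
    by_contra hy'
    have h1 := hcon (u + (-(b' u + 1) / b' y) • y) (by
      rw [map_add, map_smul, hy]; simpa using hu)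
    rw [map_add, map_smul, smul_eq_mul, div_mul_cancel₀ _ hy'] at h1
    linarith
  have hprop : b' = (b' u / b u) • b := by
    ext x
    have h1 : b (x - (b x / b u) • u) = 0 := by
      rw [map_sub, map_smul, smul_eq_mul, div_mul_cancel₀ _ hu.ne', sub_self]
    have h2 := hker _ h1
    rw [map_sub, map_smul, smul_eq_mul, sub_eq_zero] at h2
    rw [h2]
    show _ = (b' u / b u) * b x
    ring
  have hnn : 0 ≤ b' u := hcon u hu
  rcases hnn.lt_or_eq with h1 | h1
  · exact h _ (div_pos h1 hu) hprop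
  · apply hb'
    rw [hprop, ← h1, zero_div, zero_smul]

/-- separating generic directions -/
theorem exists_dirs {Φ₁ : Finset (Ht k →L[ℝ] ℝ)} (h : M.Rays Φ₁) : ∃ V₁, M.Dirs Φ₁ V₁ := by
  classical
  -- separating vectors
  have hsep : ∀ b ∈ Φ₁, ∀ b' ∈ Φ₁, b ≠ b' →
      ∃ v : Fin k → ℤ, M.Generic v ∧ 0 < b (ht v) ∧ b' (ht v) < 0 := by
    intro b hb b' hb' hne
    obtain ⟨x, hx1, hx2⟩ := rd_exists_sep (M.Φ_ne b (h.sub hb)) (M.Φ_ne b' (h.sub hb'))
      (fun t ht e => hne (h.uniq b' hb' b hb t ht e).symm)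
    obtain ⟨v, hv, hv1, hv2⟩ := M.rd_exists_generic_in (U := {x | 0 < b x} ∩ {x | b' x < 0})
      ((isOpen_lt continuous_const b.continuous).inter (isOpen_lt b'.continuous continuous_const))
      ⟨x, hx1, hx2⟩ (by
        rintro y ⟨hy1, hy2⟩ t ht
        refine ⟨?_, ?_⟩
        · show 0 < b (t • y)
          rw [map_smul, smul_eq_mul]; exact mul_pos ht hy1
        · show b' (t • y) < 0
          rw [map_smul, smul_eq_mul]; exact mul_neg_of_pos_of_neg ht hy2)
    exact ⟨v, hv, hv1, hv2⟩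
  choose! s hs1 hs2 hs3 using hsep
  -- spanning vectors
  have hspan : Submodule.span ℝ (ht '' {v : Fin k → ℤ | M.Generic v}) = (⊤ : Submodule ℝ (Ht k)) := by
    by_contra hne
    obtain ⟨f, hf, hf0⟩ := Submodule.exists_le_ker_of_lt_top _ (lt_top_iff_ne_top.mpr hne)
    let f' : Ht k →L[ℝ] ℝ := LinearMap.toContinuousLinearMap f
    have hf' : f' ≠ 0 := fun e => hf (LinearMap.ext fun x =>
      congrArg (fun g : Ht k →L[ℝ] ℝ => g x) e)
    obtain ⟨v, hv, hv1⟩ := M.rd_exists_generic_in (U := {x | f' x ≠ 0})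
      (isOpen_ne_fun f'.continuous continuous_const) (rd_dense_ne hf').nonempty (by
        intro x hx t ht
        show f' (t • x) ≠ 0
        rw [map_smul, smul_eq_mul]
        exact mul_ne_zero ht.ne' hx)
    apply hv1
    exact hf0 (Submodule.subset_span ⟨v, hv, rfl⟩)
  obtain ⟨B, hB, hBs, hBl⟩ := exists_linearIndependent ℝ (ht '' {v : Fin k → ℤ | M.Generic v})
  have hBfin : B.Finite := hBl.setFinite
  have hBpre : ∀ x ∈ B, ∃ v : Fin k → ℤ, M.Generic v ∧ ht v = x := fun x hx => hB hx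
  choose! g hg1 hg2 using hBpre
  let V₀ : Finset (Fin k → ℤ) := (((Φ₁ ×ˢ Φ₁).filter fun q => q.1 ≠ q.2).image
    fun q => s q.1 q.2) ∪ hBfin.toFinset.image g
  have hV₀ : ∀ v ∈ V₀, M.Generic v := by
    intro v hv
    rcases Finset.mem_union.mp hv with hv | hv
    · obtain ⟨⟨b, b'⟩, hq, rfl⟩ := Finset.mem_image.mp hv
      obtain ⟨hq1, hq2⟩ := Finset.mem_filter.mp hq
      obtain ⟨hq3, hq4⟩ := Finset.mem_product.mp hq1
      exact hs1 b hq3 b' hq4 hq2
    · obtain ⟨x, hx, rfl⟩ := Finset.mem_image.mp hv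
      exact hg1 x (hBfin.mem_toFinset.mp hx)
  refine ⟨V₀ ∪ V₀.image (fun v => -v), ?_, ?_, ?_, ?_⟩
  · intro v hv
    rcases Finset.mem_union.mp hv with hv | hv
    · exact hV₀ v hv
    · obtain ⟨w, hw, rfl⟩ := Finset.mem_image.mp hv
      exact rd_Generic_neg M (hV₀ w hw)
  · intro v hv
    rcases Finset.mem_union.mp hv with hv | hv
    · exact Finset.mem_union_right _ (Finset.mem_image_of_mem _ hv)
    · obtain ⟨w, hw, rfl⟩ := Finset.mem_image.mp hv
      rw [neg_neg]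
      exact Finset.mem_union_left _ hw
  · intro b hb b' hb' hbb
    by_contra hne
    have hmem : s b b' ∈ V₀ := Finset.mem_union_left _ (Finset.mem_image.mpr
      ⟨(b, b'), Finset.mem_filter.mpr ⟨Finset.mem_product.mpr ⟨hb, hb'⟩, hne⟩, rfl⟩)
    have h1 := hbb _ (Finset.mem_union_left _ hmem) (hs2 b hb b' hb' hne)
    have h2 := hs3 b hb b' hb' hne
    linarith
  · rw [eq_top_iff, ← hspan, ← hBs]
    apply Submodule.span_mono
    intro x hx
    refine ⟨g x, ?_, hg2 x hx⟩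
    apply Finset.mem_coe.mpr
    apply Finset.mem_union_left
    apply Finset.mem_union_right
    exact Finset.mem_image_of_mem _ (hBfin.mem_toFinset.mpr hx)

end RModel

end Vale.Agent.P188.Z1
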