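import Vale.Agent.P188.Z1.InB3

/-!
# P188, route B: FLAT1 (and NEUT) give the hypothesis INPUT of the geometric interface
-/

set_option linter.all false

open MeasureTheory Set Filter Topology
open Vale.Agent.P188.H615 (RayD)
open Vale.P188.H532 (Geo Input IsC NFl Wd Adm)
open scoped ENNReal

namespace Vale.Agent.P188.Z1

variable {S : Type} [Group S] [MeasurableSpace S] {Γ : Type} [Group Γ]
  {V : Type} [AddCommGroup V] [Module ℝ V] {k : ℕ} {M : RModel S Γ V k}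
  {J L : Type} [Fintype J] [DecidableEq J] [Fintype L]

namespace InB

open RModel

variable {B : M.NatBox} {Rd : RayD M J} {G : Geo S M.NR (Ht k) J L} {δ₁ : ℝ}

/-- neutral flatness -/
theorem FitsI.nfl (hG : FitsI B Rd G δ₁) {A0 c₃ η x d : ℝ}
    (hA0 : ∀ r, 0 ≤ r → ∀ y ∈ G.Y0 r, ∃ v ∈ M.Vw 0, M.nm v ≤ Real.exp (A0 * (r + 1)) ∧
      (y : S) = M.ex v) (hη : 0 < η) (hx : 0 < x) (hd : 0 < d)
    (hdc : G.C * d ≤ c₃ / 2) (hex : Real.exp G.C / η ≤ Real.exp (c₃ / 2 * x))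
    {ρ : Option J → ℝ} (hρ0 : ρ none = d * x)
    {F : Γ → Γ} {g : S}
    (H : ∀ y ∈ M.Vw 0, M.nm y ≤ Real.exp (A0 * (d * x + 1)) →
      M.μ {n | n ∈ B.Bx (Rd.sz ρ) ∧ η / 2 * x < ‖M.f F (g * (n * M.ex y)) - M.f F (g * n)‖} ≤
        ENNReal.ofReal (Real.exp (-(c₃ * x))) * M.μ (B.Bx (Rd.sz ρ))) :
    NFl G (H789.lf M F) (η * x) η ρ g := by
  intro y hy
  rw [hρ0] at hy
  obtain ⟨v, hv, hnv, hyv⟩ := hA0 _ (by positivity) y hy
  rw [hG.meas_eq ρ fun n => η * x < ‖Wd G (H789.lf M F) (g * n * G.inc y) -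
    Wd G (H789.lf M F) (g * n)‖, hG.meas_N]
  refine (measure_mono ?_).trans ((H v hv hnv).trans (mul_le_mul' ?_ le_rfl))
  · rintro n ⟨hn, h1⟩
    refine ⟨hn, ?_⟩
    rw [hG.Wd_eq, hG.Wd_eq, hG.inc, hyv, M.θ_mul (g * n), M.θ_ex, add_zero, mul_assoc g n] at h1
    have e1 : M.f F (g * (n * M.ex v)) - M.θ (g * n) - (M.f F (g * n) - M.θ (g * n)) =
        M.f F (g * (n * M.ex v)) - M.f F (g * n) := by abel
    rw [e1] at h1
    have : η / 2 * x ≤ η * x := by nlinarith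
    exact lt_of_le_of_lt this h1
  · apply ENNReal.ofReal_le_ofReal
    rw [hρ0]
    have h1 : G.C * (d * x + 1) ≤ c₃ / 2 * x + G.C := by
      have := mul_le_mul_of_nonneg_right hdc hx.le
      linarith
    have h2 : Real.exp (-(c₃ / 2 * x + G.C)) ≤ Real.exp (-(G.C * (d * x + 1))) :=
      Real.exp_le_exp.2 (by linarith)
    have h3 : Real.exp (-(c₃ * x)) ≤ η * Real.exp (-(c₃ / 2 * x + G.C)) := by
      have e1 : η * Real.exp (-(c₃ / 2 * x + G.C)) =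
          η / Real.exp G.C * Real.exp (-(c₃ / 2 * x)) := by
        rw [neg_add, Real.exp_add, Real.exp_neg G.C]
        field_simp
      have e2 : Real.exp (-(c₃ * x)) = Real.exp (-(c₃ / 2 * x)) * Real.exp (-(c₃ / 2 * x)) := by
        rw [← Real.exp_add]
        congr 1
        ring
      rw [e1, e2]
      apply mul_le_mul_of_nonneg_right _ (Real.exp_pos _).le
      rw [Real.exp_neg, inv_le_comm₀ (Real.exp_pos _) (by positivity), inv_div]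
      exact hex
    exact h3.trans (mul_le_mul_of_nonneg_left h2 hη.le)

end InB

open InB in
/-- **FLAT1 implies INPUT.** -/
theorem input_of_flat1 (B : M.NatBox) (hB : B.Fine) (Rd : RayD M J) : ∃ δ₁ : ℝ, 0 < δ₁ ∧
    ∀ G : Geo S M.NR (Ht k) J L, FitsI B Rd G δ₁ → ∀ (K : ℝ) (𝓕 : Set (Γ → Γ)),
      (∀ F ∈ 𝓕, ∃ F' : Γ → Γ, M.QIm K F F') → M.FLAT1 B 𝓕 →
      Input G {Ψ | ∃ F ∈ 𝓕, Ψ = H789.lf M F} := by
  classical
  obtain ⟨c₂, δ₁, hc₂, hδ₁, hwin⟩ := exists_win Rd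
  refine ⟨δ₁, hδ₁, fun G hG K 𝓕 hQ hfl => ?_⟩
  obtain ⟨c₁, hc₁, HF⟩ := hfl c₂ hc₂
  obtain ⟨n0, β0, hβ0, hn0, hβ⟩ := hG.dirs
  have hC := G.one_le_C
  have hC0 := M.one_le_C0
  have hGc1 := G.c1_pos
  refine ⟨c₁, hc₁, fun η hη => ?_⟩
  obtain ⟨Lc, hLc⟩ : ∃ Lc : ℝ, Lc = M.C0 * K * (2 * M.C0 + 1) := ⟨_, rfl⟩
  obtain ⟨E1, hE1⟩ : ∃ E1 : ℝ, E1 = Lc * G.C + M.C0 * G.C := ⟨_, rfl⟩
  obtain ⟨κ, hκdef⟩ : ∃ κ : ℝ, κ = min (1 / 2) (min (G.c1 / G.C)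
    (η / 4 * β0 / (G.C * (|E1| + 1)))) := ⟨_, rfl⟩
  have hκ0 : 0 < κ := by
    rw [hκdef]
    refine lt_min (by norm_num) (lt_min (by positivity) (by positivity))
  have hκ1 : κ < 1 := by
    have : κ ≤ 1 / 2 := by rw [hκdef]; exact min_le_left _ _
    linarith
  have hκ2 : κ * G.C ≤ G.c1 := by
    have : κ ≤ G.c1 / G.C := by
      rw [hκdef]; exact (min_le_right _ _).trans (min_le_left _ _)
    rwa [le_div_iff₀ (by positivity)] at this
  have hκ3 : κ * G.C / β0 * E1 ≤ η / 4 := by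
    have h1 : κ ≤ η / 4 * β0 / (G.C * (|E1| + 1)) := by
      rw [hκdef]; exact (min_le_right _ _).trans (min_le_right _ _)
    rw [le_div_iff₀ (by positivity)] at h1
    have h2 : κ * G.C / β0 * E1 ≤ κ * G.C / β0 * (|E1| + 1) := by
      apply mul_le_mul_of_nonneg_left _ (by positivity)
      linarith [le_abs_self E1]
    have h3 : κ * G.C / β0 * (|E1| + 1) = κ * (G.C * (|E1| + 1)) / β0 := by ring
    rw [h3] at h2
    refine h2.trans ?_
    rw [div_le_iff₀ hβ0]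
    exact h1
  obtain ⟨A, hA⟩ : ∃ A : ℝ, A = (n0 : ℝ) * G.C / β0 := ⟨_, rfl⟩
  obtain ⟨dm, hdm, HF⟩ := HF (η / 4) κ A (by positivity) hκ0 hκ1
  obtain ⟨c₃, hc₃, HN⟩ := M.neut_holds B hB K c₂ (η / 2) 1 hc₂ (by positivity) one_pos
  obtain ⟨A0, hA0⟩ := hG.Y0
  obtain ⟨dm', hdm', HN⟩ := HN A0
  refine ⟨min dm (min dm' (c₃ / (2 * G.C))), lt_min hdm (lt_min hdm' (by positivity)),
    fun d hd hdle => ?_⟩
  obtain ⟨s₀, HF⟩ := HF d hd (hdle.trans (min_le_left _ _))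
  obtain ⟨s₁, HN⟩ := HN d hd (hdle.trans ((min_le_right _ _).trans (min_le_left _ _)))
  have hdc : G.C * d ≤ c₃ / 2 := by
    have h1 := hdle.trans ((min_le_right _ _).trans (min_le_right _ _))
    rw [le_div_iff₀ (by positivity)] at h1
    linarith
  have e1 : ∀ᶠ x : ℝ in atTop, Real.exp G.C / η * (1 + x) ^ 0 ≤ Real.exp (c₃ / 2 * x) :=
    ev_poly _ _ (by positivity)
  have e2 : ∀ᶠ x : ℝ in atTop, E1 + Lc ≤ η / 4 * x := by
    have h1 : Tendsto (fun x : ℝ => η / 4 * x) atTop atTop :=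
      tendsto_id.const_mul_atTop (by positivity)
    exact h1.eventually_ge_atTop _
  obtain ⟨x₀, hx₀⟩ := (((e1.and e2).and (eventually_ge_atTop (max s₀ s₁))).and
    (eventually_gt_atTop 0)).exists_forall_of_atTop
  refine ⟨x₀, ?_⟩
  rintro Ψ ⟨F, hF, rfl⟩ x hx ρ ⟨hρ0, hρ⟩ g
  obtain ⟨⟨⟨hex, hlin⟩, hxs⟩, hxpos⟩ := hx₀ x hx
  rw [pow_zero, mul_one] at hex
  obtain ⟨F', hQF⟩ := hQ F hF
  have hρ' : ∀ j, |ρ (some j) - x * en (Rd.b j)| ≤ δ₁ * x := by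
    intro j
    rw [← hG.p j]
    exact (hρ j).trans (mul_le_mul_of_nonneg_right hG.δ0 hxpos.le)
  have hgood := hwin ρ x hxpos hρ'
  have hsz := szh_hfun Rd hxpos hρ0
  constructor
  · obtain ⟨cc, H1, H2⟩ := HF x ((le_max_left _ _).trans hxs) _ hgood F hF g
    rw [hsz] at H1 H2
    refine ⟨cc - M.θ g, ?_⟩
    rintro h (hh | ⟨i, m, rfl, hm⟩)
    · rw [hG.l] at hh
      refine hG.slice (ε := η / 4) (h' := h) (by linarith) (fun z => ?_) (H1 h hh)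
      rw [sub_self, sub_self, sub_self, norm_zero]
      have : (η - η / 4) * x = 3 / 4 * (η * x) := by ring
      rw [this]
      positivity
    · exact hG.ray_slice hβ0 hη hn0 hβ hLc hE1 hκ0 hκ1.le hκ2 hκ3 hxpos hlin hA.ge hρ hQF H2 i m hm
  · refine hG.nfl hA0 hη hxpos hd hdc hex hρ0 fun y hy hny => ?_
    have h1 := HN x ((le_max_right _ _).trans hxs) _ hgood.bd F F' hQF g y hy hny
    simp only [one_mul] at h1
    rwa [hsz] at h1

end Vale.Agent.P188.Z1
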