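import Vale.Agent.P188.Z1.Coh9
import Vale.Agent.P188.Z1.Fat

/-!
# P188, Z1, block COH: `LIN` and `RAY` imply `COH`
-/

set_option linter.all false

open MeasureTheory Set
open scoped ENNReal
open Agent.P188.H428 (IsLen)
open Vale.Agent.P188.H530 (hgt hgt_mul Crossed Mod TrP RayLin psi_pat rayMap_eq_of_pat
  exists_max_norm exists_rayLin exists_net_rays iv exists_measurable_sub)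

namespace Vale.Agent.P188.Z1

namespace RModel

variable {S : Type} [Group S] [MeasurableSpace S] {Γ : Type} [Group Γ]
  {V : Type} [AddCommGroup V] [Module ℝ V] {k : ℕ} {M : RModel S Γ V k}

/-- heights on balls and fat balls -/
theorem θ_ball {δ' ρ : ℝ} (hρ : 0 ≤ ρ) {g : S} (h : (M.l g : ℝ) ≤ ρ ∨ g ∈ M.FB δ' ρ) :
    ‖M.θ g‖ ≤ M.C0 * ρ := by
  rcases h with h | h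
  · exact (M.θ_le g).trans (mul_le_mul_of_nonneg_left h M.C0_nn)
  · obtain ⟨v, hv, -, y, hy, -, w, hw, rfl⟩ := h
    rw [M.θ_mul, M.θ_mul, M.θ_ex, M.θ_ex, zero_add, zero_add, θ_τC]
    have h1 : ‖(ht w : Ht k)‖ ≤ ρ := by
      rw [pi_norm_le_iff_of_nonneg hρ]
      intro i
      simpa [ht] using hw i
    refine h1.trans ?_
    have := M.one_le_C0
    nlinarith

/-- the conclusion for one map -/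
theorem coh_alpha {Φ₁ : Finset (Ht k →L[ℝ] ℝ)} {q : Par} {n : ℕ} (hΦ₁ : M.Rays Φ₁)
    {V₁ : Finset (Fin k → ℤ)} (hV₁ : M.Dirs Φ₁ V₁)
    {δ₁ c₀ VB κ B εL ε r δ' : ℝ} {ρ : ℕ} (hδ₁ : 0 < δ₁)
    (hδ₁' : ∀ v ∈ V₁, ∀ b ∈ Φ₁, δ₁ ≤ |b (ht v)|)
    (hVB : ∀ v ∈ V₁, ‖(ht v : Ht k)‖ ≤ VB) (ht₀ : 0 ≤ q.t₀) (hδ : 0 ≤ q.δ) (hc₀ : 0 < c₀)
    (hc : c₀ + q.δ * VB ≤ q.t₀ * δ₁) (hB : ∀ b ∈ Φ₁, ‖b‖ ≤ B) (hB0 : 0 ≤ B)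
    (hsm : B * (εL * VB) < c₀) (hρr : (ρ : ℝ) ≤ r) (hr2 : r ≤ 2 * ρ) (hεL : 0 ≤ εL)
    (herr : 2 * εL + κ * M.C0 ≤ ε)
    (Hcl : ∀ T₁ T₂ : Ht k →L[ℝ] Ht k, M.GT Φ₁ q n T₁ → M.GT Φ₁ q n T₂ →
      patF Φ₁ V₁ T₁ = patF Φ₁ V₁ T₂ → ‖T₂ - T₁‖ ≤ κ)
    {F : Γ → Γ} {D₀ D₁ : Set S} {T : S → Ht k →L[ℝ] Ht k} (hD₁ : D₁ ⊆ D₀)
    (hGT : ∀ x ∈ D₁, M.GT Φ₁ q n (T x))
    (hlin : ∀ x ∈ D₀, ∀ x' ∈ D₀, ((M.l (x⁻¹ * x') : ℝ) ≤ r ∨ x⁻¹ * x' ∈ M.FB δ' r) →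
      ‖M.f F x' - M.f F x - T x (M.θ (x⁻¹ * x'))‖ ≤ εL * r ∧ ‖T x' - T x‖ ≤ εL)
    (hδ' : 0 ≤ δ') :
    ∀ x ∈ D₁, (‖M.selT Φ₁ V₁ q n (patF Φ₁ V₁ (T x))‖ ≤ q.L ∧
      ∀ v : V₁, (∀ b ∈ Φ₁, (b ∈ patF Φ₁ V₁ (T x) v →
            c₀ ≤ b (M.selT Φ₁ V₁ q n (patF Φ₁ V₁ (T x)) (ht v))) ∧
          (b ∉ patF Φ₁ V₁ (T x) v → b (M.selT Φ₁ V₁ q n (patF Φ₁ V₁ (T x)) (ht v)) ≤ -c₀)) ∧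
        (patF Φ₁ V₁ (T x) v).ncard = {b | b ∈ Φ₁ ∧ 0 < b (ht (v : Fin k → ℤ))}.ncard ∧
        patF Φ₁ V₁ (T x) v ⊆ ↑Φ₁) ∧
      ∀ x' ∈ D₁, ((M.l (x⁻¹ * x') : ℝ) ≤ ρ ∨ x⁻¹ * x' ∈ M.FB δ' ρ) →
        ‖M.f F x' - M.f F x - M.selT Φ₁ V₁ q n (patF Φ₁ V₁ (T x)) (M.θ (x⁻¹ * x'))‖ ≤ ε * ρ ∧
          patF Φ₁ V₁ (T x') = patF Φ₁ V₁ (T x) := by
  intro x hx
  have hC0 := M.C0_nn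
  have hg := hGT x hx
  obtain ⟨s1, s2⟩ := selT_spec (M := M) (V₁ := V₁) hg
  have hlab := s1.label hΦ₁ hV₁ hδ₁ hδ₁' hVB ht₀ hδ hc₀ hc
  have hlab0 := hg.label hΦ₁ hV₁ hδ₁ hδ₁' hVB ht₀ hδ hc₀ hc
  rw [s2] at hlab
  refine ⟨⟨s1.norm, hlab⟩, fun x' hx' hn => ?_⟩
  have hρ0 : (0 : ℝ) ≤ ρ := Nat.cast_nonneg _
  have hr0 : 0 ≤ r := hρ0.trans hρr
  have hn' : (M.l (x⁻¹ * x') : ℝ) ≤ r ∨ x⁻¹ * x' ∈ M.FB δ' r := by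
    rcases hn with h | h
    · exact Or.inl (h.trans hρr)
    · exact Or.inr (M.FB_mono' hδ' hρ0 hρr le_rfl h)
  obtain ⟨h1, h2⟩ := hlin x (hD₁ hx) x' (hD₁ hx') hn'
  refine ⟨?_, patF_eq hB hVB hB0 h2 hsm fun v => (hlab0 v).1⟩
  have h3 := Hcl (M.selT Φ₁ V₁ q n (patF Φ₁ V₁ (T x))) (T x) s1 hg s2
  have hκ : 0 ≤ κ := (norm_nonneg _).trans h3
  have h4 : ‖(T x - M.selT Φ₁ V₁ q n (patF Φ₁ V₁ (T x))) (M.θ (x⁻¹ * x'))‖ ≤ κ * (M.C0 * ρ) :=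
    (ContinuousLinearMap.le_opNorm _ _).trans
      (mul_le_mul h3 (θ_ball hρ0 hn) (norm_nonneg _) hκ)
  have e : M.f F x' - M.f F x - M.selT Φ₁ V₁ q n (patF Φ₁ V₁ (T x)) (M.θ (x⁻¹ * x')) =
      (M.f F x' - M.f F x - T x (M.θ (x⁻¹ * x'))) +
        (T x - M.selT Φ₁ V₁ q n (patF Φ₁ V₁ (T x))) (M.θ (x⁻¹ * x')) := by
    rw [ContinuousLinearMap.sub_apply]; abel
  rw [e]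
  refine (norm_add_le _ _).trans ((add_le_add h1 h4).trans ?_)
  calc εL * r + κ * (M.C0 * ρ) ≤ εL * (2 * ρ) + κ * (M.C0 * ρ) := by gcongr
    _ = (2 * εL + κ * M.C0) * ρ := by ring
    _ ≤ ε * ρ := by gcongr

/-- numerical facts on scales -/
theorem coh_scale {Λ₂ r lam a : ℝ} {n₀ : ℕ} (hΛ₂ : 1 ≤ Λ₂) (hlam : 0 < lam) (hr1 : lam * a ≤ r)
    (hbig : 4 * Λ₂ * ((n₀ : ℝ) + 3) ≤ lam * a) :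
    lam / 2 * a ≤ (⌊r⌋₊ : ℝ) ∧ (⌊r⌋₊ : ℝ) ≤ r ∧ r ≤ 2 * (⌊r⌋₊ : ℝ) ∧
      n₀ ≤ ⌊(⌊r⌋₊ : ℝ) / Λ₂⌋₊ ∧ Λ₂ * (⌊(⌊r⌋₊ : ℝ) / Λ₂⌋₊ : ℝ) ≤ r ∧
      r ≤ 2 * Λ₂ * (⌊(⌊r⌋₊ : ℝ) / Λ₂⌋₊ : ℝ) := by
  have hn₀ : (0 : ℝ) ≤ n₀ := Nat.cast_nonneg _
  have hΛ₂0 : 0 < Λ₂ := by linarith
  have h1 : 12 ≤ lam * a := by nlinarith
  have hr0 : 12 ≤ r := h1.trans hr1
  have h2 := Nat.lt_floor_add_one r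
  have h3 : (⌊r⌋₊ : ℝ) ≤ r := Nat.floor_le (by linarith)
  set ρ : ℝ := (⌊r⌋₊ : ℝ) with hρ
  have h4 := Nat.lt_floor_add_one (ρ / Λ₂)
  have h5 : (⌊ρ / Λ₂⌋₊ : ℝ) ≤ ρ / Λ₂ := Nat.floor_le (by positivity)
  rw [div_lt_iff₀ hΛ₂0] at h4
  rw [le_div_iff₀ hΛ₂0] at h5
  refine ⟨by linarith, h3, by linarith, ?_, by linarith, ?_⟩
  · refine Nat.le_floor ?_
    rw [le_div_iff₀ hΛ₂0]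
    nlinarith
  · nlinarith

/-- the constants independent of `ε` -/
structure CohConst (M : RModel S Γ V k) (K : ℝ) (Φ₁ : Finset (Ht k →L[ℝ] ℝ))
    (V₁ : Finset (Fin k → ℤ)) (L c₁ t₀ t₁ δr δ₁ VB B : ℝ) : Prop where
  L1 : 1 ≤ L
  c₁0 : 0 < c₁
  c₁L : c₁⁻¹ ≤ L
  t₀0 : 0 < t₀
  δr0 : 0 < δr
  δ₁0 : 0 < δ₁
  δ₁' : ∀ v ∈ V₁, ∀ b ∈ Φ₁, δ₁ ≤ |b (ht v)|
  VB0 : 0 < VB
  VB' : ∀ v ∈ V₁, ‖(ht v : Ht k)‖ ≤ VB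
  B0 : 0 < B
  B' : ∀ b ∈ Φ₁, ‖b‖ ≤ B
  ray : ∀ δ : ℝ, δ ≤ δr → ∀ T : Ht k →L[ℝ] Ht k, ‖T‖ ≤ L → (∀ w, c₁ * ‖w‖ ≤ ‖T w‖) →
      (∀ b ∈ Φ₁, ∃ b' ∈ M.Φ, ∃ t : ℝ, 0 ≤ t ∧ ‖b.comp T - t • b'‖ ≤ δ) →
      ∃ β t, RayLin Φ₁ T β t t₀ t₁ δ

theorem exists_cohConst (M : RModel S Γ V k) (K : ℝ) {Φ₁ : Finset (Ht k →L[ℝ] ℝ)}
    (hΦ₁ : M.Rays Φ₁) {V₁ : Finset (Fin k → ℤ)} (hV₁ : M.Dirs Φ₁ V₁) {Lm c₁ : ℝ}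
    (hc₁ : 0 < c₁) :
    ∃ L t₀ t₁ δr δ₁ VB B : ℝ, Lm ≤ L ∧ M.CohConst K Φ₁ V₁ L c₁ t₀ t₁ δr δ₁ VB B := by
  obtain ⟨L, hL⟩ : ∃ L : ℝ, L = max 1 (max Lm c₁⁻¹) := ⟨_, rfl⟩
  have hL1 : 1 ≤ L := by rw [hL]; exact le_max_left _ _
  obtain ⟨t₀, t₁, δr, ht₀, ht₁, hδr, Hr⟩ := exists_rayLin M.Φ Φ₁ M.Φ_ne hΦ₁.sub hΦ₁.ex hΦ₁.uniq
    (L := L) (by linarith) hc₁
  obtain ⟨δ₁, hδ₁, hδ₁'⟩ := exists_min_pair Φ₁ V₁ fun b hb v hv =>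
    hV₁.generic v hv b (M.Φ_sub (hΦ₁.sub hb)) (M.Φ_ne b (hΦ₁.sub hb))
  obtain ⟨VB, hVB0, hVB⟩ := exists_max_ht V₁
  obtain ⟨B, hB0, hB⟩ := exists_max_norm Φ₁
  exact ⟨L, t₀, t₁, δr, δ₁, VB, B,
    by rw [hL]; exact (le_max_left _ _).trans (le_max_right _ _),
    ⟨hL1, hc₁, by rw [hL]; exact (le_max_right _ _).trans (le_max_right _ _), ht₀, hδr, hδ₁,
      hδ₁', hVB0, hVB, hB0, hB, Hr⟩⟩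

/-- the parameters depending on `ε` -/
theorem exists_par (M : RModel S Γ V k) (hRAY : M.RAY) (K : ℝ) {Φ₁ : Finset (Ht k →L[ℝ] ℝ)}
    (hΦ₁ : M.Rays Φ₁) {V₁ : Finset (Fin k → ℤ)} (hV₁ : M.Dirs Φ₁ V₁)
    {L c₁ t₀ t₁ δr δ₁ VB B : ℝ} (h : M.CohConst K Φ₁ V₁ L c₁ t₀ t₁ δr δ₁ VB B) {κψ κ' : ℝ}
    (hκψ : 0 < κψ) (hκ' : 0 < κ') :
    ∃ q : Par, q.L = L ∧ q.c₁ = c₁ ∧ q.t₀ = t₀ ∧ 0 < q.δ ∧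
      t₀ * δ₁ / 2 + q.δ * VB ≤ q.t₀ * δ₁ ∧
      ∃ Λ₂ : ℝ, 1 ≤ Λ₂ ∧ ∃ (ε₀ Cf : ℝ) (n₀ : ℕ), 0 < ε₀ ∧ ∀ n : ℕ, n₀ ≤ n →
      (∀ T₁ T₂ : Ht k →L[ℝ] Ht k, M.GT Φ₁ q n T₁ → M.GT Φ₁ q n T₂ →
        patF Φ₁ V₁ T₁ = patF Φ₁ V₁ T₂ → ‖T₂ - T₁‖ ≤ κψ) ∧
      ∀ r : ℝ, Λ₂ * n ≤ r → r ≤ 2 * Λ₂ * n → ∀ ε' κ R : ℝ, 0 ≤ ε' → ε' ≤ ε₀ → 0 ≤ κ → κ ≤ ε₀ →
      Cf * r ≤ R → ∀ (F F' : Γ → Γ) (D Dp D₀ : Set S) (T : S → Ht k →L[ℝ] Ht k),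
      M.LinOn K q.L ε' κ r R F F' D Dp D₀ T → (∀ x ∈ D₀, ∀ w, q.c₁ * ‖w‖ ≤ ‖T x w‖) →
      M.μ.real {x ∈ D | x ∈ D₀ ∧ ¬ M.GT Φ₁ q n (T x)} ≤ κ' * M.μ.real D := by
  have hL1 := h.L1
  obtain ⟨P, W, εp, δp, np, hεp, hδp, hP, Hpsi⟩ := psi_pat M.md Φ₁ hΦ₁.span hΦ₁.crossed
    (2 * M.cnt K) (M.stp K) (C := L) (L := L) (t₀ := t₀) t₁ (by unfold stp; omega) h.L1 h.L1
    h.t₀0 hκψ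
  obtain ⟨δ, hδ⟩ : ∃ δ : ℝ, δ = min (min δr δp) (t₀ * δ₁ / (2 * VB)) := ⟨_, rfl⟩
  have ht₀0 := h.t₀0
  have hδ₁0 := h.δ₁0
  have hVB0 := h.VB0
  have hδ0 : 0 < δ := by
    rw [hδ]
    exact lt_min (lt_min h.δr0 hδp) (by positivity)
  have hδ1 : δ ≤ δr := by rw [hδ]; exact (min_le_left _ _).trans (min_le_left _ _)
  have hδ2 : δ ≤ δp := by rw [hδ]; exact (min_le_left _ _).trans (min_le_right _ _)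
  have hδ3 : δ * VB ≤ t₀ * δ₁ / 2 := by
    have : δ ≤ t₀ * δ₁ / (2 * VB) := by rw [hδ]; exact min_le_right _ _
    rw [le_div_iff₀ (by positivity)] at this
    linarith
  obtain ⟨q, hq⟩ : ∃ q : Par, q = ⟨L, c₁, t₀, t₁, δ, L, W, εp, 2 * M.cnt K, M.stp K, P⟩ := ⟨_, rfl⟩
  have q1 : q.L = L := by rw [hq]
  have q2 : q.c₁ = c₁ := by rw [hq]
  have q3 : q.t₀ = t₀ := by rw [hq]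
  have q4 : q.δ = δ := by rw [hq]
  have q5 : q.t₁ = t₁ := by rw [hq]
  have q6 : q.C = L := by rw [hq]
  obtain ⟨Λ₂, hΛ₂, ε₀, Cf, n₀, hε₀, HG⟩ := most_GT M hRAY K hΦ₁ q (by rw [q1]; linarith)
    (by rw [q2]; exact h.c₁0) (by rw [q4]; exact hδ0) (by rw [q6]; exact h.L1)
    (by rw [q1, q6]) (by rw [q2, q6]; exact h.c₁L) (by rw [hq]; exact hεp) (by rw [hq])
    (by rw [hq]) (by rw [hq]; exact hP)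
    (by rw [q1, q2, q3, q4, q5]; exact h.ray δ hδ1) hκ'
  refine ⟨q, q1, q2, q3, by rw [q4]; exact hδ0, by rw [q3, q4]; linarith, Λ₂, hΛ₂, ε₀, Cf,
    max n₀ np, hε₀, fun n hn => ⟨?_, HG n ((le_max_left _ _).trans hn)⟩⟩
  intro T₁ T₂ g1 g2 hpat
  refine g1.close g2 hΦ₁ hV₁ (κ := κψ) h.δ₁0 h.δ₁' h.VB' (c₀ := t₀ * δ₁ / 2) (VB := VB)
    (by rw [q3]; exact h.t₀0.le) (by rw [q4]; exact hδ0.le) (by positivity)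
    (by rw [q3, q4]; linarith) (by rw [q1, q2]; exact h.c₁L) ?_ hpat
  have := Hpsi δ hδ2 n ((le_max_right _ _).trans hn)
  rw [hq]
  exact this

end RModel

end Vale.Agent.P188.Z1
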