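import Vale.Agent.P188.Z1.InvT
import Vale.Agent.P188.H530.CohE
import Vale.Agent.P188.H530.Inv

/-!
# P188, Z1, block COH, part 1: most points transfer end points (maps of `Γ`)
-/

set_option linter.all false

open MeasureTheory Set
open scoped ENNReal
open Agent.P188.H428 (IsLen)
open Vale.Agent.P188.H789 (Bl Bl_mono Bl_finite one_mem_Bl)
open Vale.Agent.P188.H530 (hgt hgt_mul Crossed Mod Tr TrP OrbMap LinAt)

namespace Vale.Agent.P188.Z1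

namespace RModel

variable {S : Type} [Group S] [MeasurableSpace S] {Γ : Type} [Group Γ]
  {V : Type} [AddCommGroup V] [Module ℝ V] {k : ℕ} (M : RModel S Γ V k)

theorem C0_nn : 0 ≤ M.C0 := zero_le_one.trans M.one_le_C0

/-- the heights on `Γ` -/
def θG (g : Γ) : Ht k := hgt (M.η.comp M.inG) g

theorem θG_eq (g : Γ) : M.θG g = M.θ (M.inG g) := rfl

/-- length of the elements of the ball of `Γ` -/
theorem l_Bl {n : ℕ} {g : Γ} (hg : g ∈ Bl M.A n) : (M.l (M.inG g) : ℝ) ≤ M.C0 * n := by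
  obtain ⟨L, h1, h2, rfl⟩ := hg
  have key : ∀ L : List Γ, (∀ a ∈ L, a ∈ M.A ∨ a⁻¹ ∈ M.A) →
      (M.l (M.inG L.prod) : ℝ) ≤ M.C0 * L.length := by
    intro L
    induction L with
    | nil => intro _; simp [M.len.one]
    | cons a L ih =>
      intro h
      have h3 := ih fun b hb => h b (List.mem_cons_of_mem _ hb)
      have h4 : (M.l (M.inG a) : ℝ) ≤ M.C0 := by
        rcases h a List.mem_cons_self with h | h
        · exact M.A_len a h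
        · have := M.A_len _ h
          rwa [map_inv, M.len.inv] at this
      rw [List.prod_cons, map_mul, List.length_cons]
      have h5 : (M.l (M.inG a * M.inG L.prod) : ℝ) ≤ M.l (M.inG a) + M.l (M.inG L.prod) := by
        exact_mod_cast M.len.mul _ _
      push_cast
      linarith
  refine (key L h2).trans ?_
  have := M.C0_nn
  gcongr

/-- number of steps -/
noncomputable def stp (K : ℝ) : ℕ := ⌈M.C0 * (K * (3 * M.C0 + 1) + 1)⌉₊ + 1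

/-- bound of the fibres -/
noncomputable def cnt (K : ℝ) : ℕ := (Bl M.A ⌈M.C0 * (2 * M.C0 + 2 * K + 1)⌉₊).ncard

theorem QIm.nonneg {M : RModel S Γ V k} {K : ℝ} {F F' : Γ → Γ} (h : M.QIm K F F') : 0 ≤ K :=
  (Nat.cast_nonneg (M.l (M.inG (1⁻¹ * F' (F 1))))).trans (h.inv 1)

/-- distance between the floors -/
theorem fl_dist (x y : S) : (M.l (M.inG ((M.fl x)⁻¹ * M.fl y)) : ℝ) ≤ M.l (x⁻¹ * y) + 2 * M.C0 := by
  have h1 := M.fl_close x
  have h2 := M.fl_close y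
  rw [M.l_comm] at h2
  rw [map_mul, map_inv]
  have t1 := M.l_triR (M.inG (M.fl x)) x (M.inG (M.fl y))
  have t2 := M.l_triR x y (M.inG (M.fl y))
  linarith

theorem dist_fl (x y : S) : (M.l (x⁻¹ * y) : ℝ) ≤ M.l (M.inG ((M.fl x)⁻¹ * M.fl y)) + 2 * M.C0 := by
  have h1 := M.fl_close x
  have h2 := M.fl_close y
  rw [M.l_comm] at h1
  rw [map_mul, map_inv]
  have t1 := M.l_triR x (M.inG (M.fl x)) y
  have t2 := M.l_triR (M.inG (M.fl x)) (M.inG (M.fl y)) y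
  linarith

theorem QIm.lip2 {M : RModel S Γ V k} {K : ℝ} {F F' : Γ → Γ} (h : M.QIm K F F') (x y : S) :
    (M.l (M.inG ((F (M.fl x))⁻¹ * F (M.fl y))) : ℝ) ≤ K * (M.l (x⁻¹ * y) + 2 * M.C0 + 1) := by
  have h1 := h.lip (M.fl x) ((M.fl x)⁻¹ * M.fl y)
  rw [mul_inv_cancel_left] at h1
  refine h1.trans ?_
  have := M.fl_dist x y
  have := h.nonneg
  gcongr

/-- `F` is an orbit map. -/
theorem QIm.orbMap {M : RModel S Γ V k} {K : ℝ} {F F' : Γ → Γ} (h : M.QIm K F F') :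
    OrbMap M.A M.A (M.cnt K) (M.stp K) M.μ (fun x g => x * M.inG g) (fun x => F (M.fl x)) := by
  have hC0 := M.C0_nn
  have hK := h.nonneg
  refine ⟨fun x => by simp, fun x g g' => by simp [mul_assoc], fun g => M.mp _, ?_, ?_⟩
  · intro x a ha
    have h1 := h.lip2 x (x * M.inG a)
    rw [inv_mul_cancel_left] at h1
    have h2 := M.A_len a ha
    refine Bl_mono ?_ (M.wordG _)
    have h3 : M.C0 * (M.l (M.inG ((F (M.fl x))⁻¹ * F (M.fl (x * M.inG a)))) + 1) ≤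
        M.C0 * (K * (3 * M.C0 + 1) + 1) := by
      gcongr
      refine h1.trans ?_
      gcongr
      linarith
    exact (Nat.ceil_le_ceil h3).trans (Nat.le_succ _)
  · intro x y
    rcases Set.eq_empty_or_nonempty {g | F (M.fl (x * M.inG g)) = y} with he | ⟨g₀, hg₀⟩
    · rw [he]; simp
    · have hsub : (fun g => g₀⁻¹ * g) '' {g | F (M.fl (x * M.inG g)) = y} ⊆
          Bl M.A ⌈M.C0 * (2 * M.C0 + 2 * K + 1)⌉₊ := by
        rintro _ ⟨g, hg, rfl⟩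
        refine Bl_mono (Nat.ceil_le_ceil ?_) (M.wordG _)
        have hg' : F (M.fl (x * M.inG g)) = y := hg
        have hg₀' : F (M.fl (x * M.inG g₀)) = y := hg₀
        have h1 := h.mult (M.fl (x * M.inG g₀)) (M.fl (x * M.inG g)) (hg₀'.trans hg'.symm)
        have h2 := M.dist_fl (x * M.inG g₀) (x * M.inG g)
        have e : (x * M.inG g₀)⁻¹ * (x * M.inG g) = M.inG (g₀⁻¹ * g) := by
          rw [map_mul, map_inv]; group
        rw [e] at h2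
        gcongr
        linarith
      have hfin : (Bl M.A ⌈M.C0 * (2 * M.C0 + 2 * K + 1)⌉₊).Finite := Bl_finite M.md.fin _
      have hinj : Set.InjOn (fun g => g₀⁻¹ * g) {g | F (M.fl (x * M.inG g)) = y} :=
        fun a _ b _ hab => mul_left_cancel hab
      refine ⟨Set.Finite.of_finite_image (hfin.subset hsub) hinj, ?_⟩
      rw [← hinj.ncard_image]
      exact Set.ncard_le_ncard hsub hfin

/-- `f` is affine at distance at most `r` on the subset `D₀` of `D`, which has density at least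
`1 - ε`. -/
structure LinOn (K L ε κ r R : ℝ) (F F' : Γ → Γ) (D Dp D₀ : Set S)
    (T : S → Ht k →L[ℝ] Ht k) : Prop where
  qi : M.QIm K F F'
  fat : M.Fat R κ D Dp
  sub : D₀ ⊆ D
  most : M.μ (D \ D₀) ≤ ENNReal.ofReal ε * M.μ D
  T_le : ∀ x ∈ D₀, ‖T x‖ ≤ L
  lin : ∀ x ∈ D₀, ∀ x' ∈ D₀, (M.l (x⁻¹ * x') : ℝ) ≤ r →
    ‖M.f F x' - M.f F x - T x (M.θ (x⁻¹ * x'))‖ ≤ ε * r ∧ ‖T x' - T x‖ ≤ ε

variable {M}

theorem Fat.sub_self {R κ : ℝ} {D Dp : Set S} (h : M.Fat R κ D Dp) (hR : 0 ≤ R) : D ⊆ Dp := by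
  intro z hz
  have := h.sub z hz 1 (by rw [M.len.one]; simpa using hR)
  rwa [mul_one] at this

theorem Fat.top {R κ : ℝ} {D Dp : Set S} (h : M.Fat R κ D Dp) : M.μ Dp ≠ ⊤ :=
  ne_top_of_le_ne_top (ENNReal.mul_ne_top ENNReal.ofReal_ne_top h.fin) h.le

theorem Fat.diff {R κ : ℝ} {D Dp : Set S} (h : M.Fat R κ D Dp) (hR : 0 ≤ R) (hκ : 0 ≤ κ) :
    M.μ (Dp \ D) ≤ ENNReal.ofReal κ * M.μ D := by
  rw [measure_sdiff (h.sub_self hR) h.meas.nullMeasurableSet h.fin]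
  refine tsub_le_iff_right.2 (h.le.trans ?_)
  rw [ENNReal.ofReal_add zero_le_one hκ, ENNReal.ofReal_one, add_mul, one_mul, add_comm]

theorem real_of_le {A B : Set S} {c : ℝ} (hc : 0 ≤ c) (hB : M.μ B ≠ ⊤)
    (h : M.μ A ≤ ENNReal.ofReal c * M.μ B) : M.μ.real A ≤ c * M.μ.real B := by
  unfold Measure.real
  have h1 : ENNReal.ofReal c * M.μ B ≠ ⊤ := ENNReal.mul_ne_top ENNReal.ofReal_ne_top hB
  have := ENNReal.toReal_mono h1 h
  rwa [ENNReal.toReal_mul, ENNReal.toReal_ofReal hc] at this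

theorem Fat.diffR {R κ : ℝ} {D Dp : Set S} (h : M.Fat R κ D Dp) (hR : 0 ≤ R) (hκ : 0 ≤ κ) :
    M.μ.real (Dp \ D) ≤ κ * M.μ.real D := real_of_le hκ h.fin (h.diff hR hκ)

/-- right translations move few points out of a set with small boundary -/
theorem Fat.move {R κ : ℝ} {D Dp : Set S} (h : M.Fat R κ D Dp) (hR : 0 ≤ R) (hκ : 0 ≤ κ) {g : S}
    (hg : (M.l g : ℝ) ≤ R) : M.μ.real {x ∈ D | x * g ∉ D} ≤ κ * M.μ.real D := by
  refine le_trans ?_ (h.diffR hR hκ)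
  have h1 : {x ∈ D | x * g ∉ D} ⊆ (fun x => x * g) ⁻¹' (Dp \ D) := fun x hx =>
    ⟨h.sub x hx.1 g hg, hx.2⟩
  have h2 : M.μ ((fun x => x * g) ⁻¹' (Dp \ D)) = M.μ (Dp \ D) :=
    (M.mp g).measure_preimage (h.meas'.diff h.meas).nullMeasurableSet
  have h3 : M.μ (Dp \ D) ≠ ⊤ := ne_top_of_le_ne_top h.top (measure_mono Set.sdiff_subset)
  unfold Measure.real
  refine ENNReal.toReal_mono h3 ?_
  rw [← h2]
  exact measure_mono h1

theorem LinOn.mostR {K L ε κ r R : ℝ} {F F' : Γ → Γ} {D Dp D₀ : Set S}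
    {T : S → Ht k →L[ℝ] Ht k} (h : M.LinOn K L ε κ r R F F' D Dp D₀ T) (hε : 0 ≤ ε) :
    M.μ.real (D \ D₀) ≤ ε * M.μ.real D := real_of_le hε h.fat.fin h.most

/-- The set with affine behaviour, for `F`. -/
theorem LinOn.linAt {K L ε κ r R : ℝ} {F F' : Γ → Γ} {D Dp D₀ : Set S}
    {T : S → Ht k →L[ℝ] Ht k} (h : M.LinOn K L ε κ r R F F' D Dp D₀ T) (hε : 0 ≤ ε) (hκ : 0 ≤ κ)
    {N : ℕ} {δ ε₁ : ℝ} (hN : M.C0 * N ≤ r) (hrR : r ≤ R) (hδ : ε * r ≤ δ) (h1 : ε ≤ ε₁)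
    (h2 : κ ≤ ε₁) :
    LinAt (hgt (M.η.comp M.inG)) M.A (hgt (M.η.comp M.inG)) L M.μ (fun x g => x * M.inG g)
      (fun x => F (M.fl x)) T D D₀ N δ ε₁ := by
  have hC0 := M.C0_nn
  have hr0 : 0 ≤ r := le_trans (by positivity) hN
  refine ⟨h.T_le, h.fat.meas, h.fat.fin, ?_, ?_, ?_⟩
  · refine (h.mostR hε).trans ?_
    gcongr
  · intro g hg
    refine (h.fat.move (hr0.trans hrR) hκ ((M.l_Bl hg).trans (hN.trans hrR))).trans ?_
    gcongr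
  · intro x hx g hg hxg
    have h3 := (h.lin x hx _ hxg (by
      rw [inv_mul_cancel_left]
      exact (M.l_Bl hg).trans hN)).1
    rw [inv_mul_cancel_left] at h3
    exact h3.trans hδ

/-- **Most linear parts of `F` transfer end points.** -/
theorem occF (K L : ℝ) (hL : 0 ≤ L) {C W ε κ' : ℝ} (hC1 : 1 ≤ C) (hCL : L ≤ C) (hε : 0 < ε)
    (hκ' : 0 < κ') (P : Finset (ℕ × ℝ)) (hP : ∀ p ∈ P, 1 ≤ p.1 ∧ 1 ≤ p.2) :
    ∃ Λ₁ : ℝ, 0 < Λ₁ ∧ ∀ Λ₂ : ℝ, Λ₁ ≤ Λ₂ → ∃ (ε₀ : ℝ) (n₀ : ℕ), 0 < ε₀ ∧ ∀ n : ℕ, n₀ ≤ n →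
      ∀ r : ℝ, Λ₂ * n ≤ r → r ≤ 2 * Λ₂ * n → ∀ ε' κ R : ℝ, 0 ≤ ε' → ε' ≤ ε₀ → 0 ≤ κ → κ ≤ ε₀ →
      r ≤ R → ∀ (F F' : Γ → Γ) (D Dp D₀ : Set S) (T : S → Ht k →L[ℝ] Ht k),
      M.LinOn K L ε' κ r R F F' D Dp D₀ T →
      M.μ.real {x ∈ D | x ∈ D₀ ∧ ¬ TrP (hgt (M.η.comp M.inG)) M.A (hgt (M.η.comp M.inG)) M.A
        (2 * M.cnt K) (M.stp K) C W ε n P (T x)} ≤ κ' * M.μ.real D := by
  have hC0 := M.C0_nn
  obtain ⟨ε₁, Λ, n₁, hε₁, H⟩ := H530.occ M.md M.md (c₀ := M.cnt K) (K := M.stp K) (W := W) hL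
    hC1 hCL hε hκ' P hP
  refine ⟨M.C0 * Λ + 1, by positivity, fun Λ₂ hΛ₂ => ?_⟩
  have hΛ₂0 : 0 < Λ₂ := lt_of_lt_of_le (by positivity) hΛ₂
  refine ⟨min ε₁ (ε₁ / (2 * Λ₂)), n₁, lt_min hε₁ (by positivity), ?_⟩
  intro n hn r hr1 hr2 ε' κ R hε'0 hε' hκ0 hκ hrR F F' D Dp D₀ T h
  refine H n hn S M.μ _ _ T D D₀ h.qi.orbMap (h.linAt hε'0 hκ0 ?_ hrR ?_ ?_ ?_)
  · refine le_trans ?_ hr1
    push_cast
    have : M.C0 * Λ ≤ Λ₂ := by linarith
    calc M.C0 * (Λ * n) = (M.C0 * Λ) * n := by ring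
      _ ≤ _ := by gcongr
  · have h1 : ε' ≤ ε₁ / (2 * Λ₂) := hε'.trans (min_le_right _ _)
    rw [le_div_iff₀ (by positivity)] at h1
    calc ε' * r ≤ ε' * (2 * Λ₂ * n) := by gcongr
      _ = (ε' * (2 * Λ₂)) * n := by ring
      _ ≤ ε₁ * n := by gcongr
  · exact hε'.trans (min_le_left _ _)
  · exact hκ.trans (min_le_left _ _)

end RModel

end Vale.Agent.P188.Z1
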