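import Vale.Agent.P188.Z1.Coh1

/-!
# P188, Z1, block COH, part 2: the coarse inverse
-/

set_option linter.all false

open MeasureTheory Set
open scoped ENNReal
open Agent.P188.H428 (IsLen)
open Vale.Agent.P188.H789 (Bl Bl_mono Bl_finite one_mem_Bl)
open Vale.Agent.P188.H530 (hgt hgt_mul Crossed Mod Tr TrP OrbMap LinAt exists_inverse)

namespace Vale.Agent.P188.Z1

namespace RModel

variable {S : Type} [Group S] [MeasurableSpace S] {Γ : Type} [Group Γ]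
  {V : Type} [AddCommGroup V] [Module ℝ V] {k : ℕ} {M : RModel S Γ V k}

/-- the points whose image cell under `F'` meets `D₁` -/
def img (M : RModel S Γ V k) (F' : Γ → Γ) (D₁ : Set S) : Set S :=
  {y | ∃ x ∈ D₁, M.fl x = F' (M.fl y)}

theorem exists_inv_fun {D₁ : Set S} {T : S → Ht k →L[ℝ] Ht k} {c₁ : ℝ} (hc₁ : 0 < c₁)
    (hc : ∀ x ∈ D₁, ∀ w, c₁ * ‖w‖ ≤ ‖T x w‖) (F' : Γ → Γ) :
    ∃ T' : S → Ht k →L[ℝ] Ht k, ∀ y ∈ M.img F' D₁, ∃ x ∈ D₁, M.fl x = F' (M.fl y) ∧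
      (∀ w, T' y (T x w) = w) ∧ (∀ w, T x (T' y w) = w) ∧ ‖T' y‖ ≤ c₁⁻¹ := by
  have h : ∀ y : S, ∃ T' : Ht k →L[ℝ] Ht k, y ∈ M.img F' D₁ → ∃ x ∈ D₁, M.fl x = F' (M.fl y) ∧
      (∀ w, T' (T x w) = w) ∧ (∀ w, T x (T' w) = w) ∧ ‖T'‖ ≤ c₁⁻¹ := by
    intro y
    by_cases hy : y ∈ M.img F' D₁
    · obtain ⟨x, hx, hxy⟩ := hy
      obtain ⟨T', h1, h2, h3⟩ := exists_inverse hc₁ (hc x hx)
      exact ⟨T', fun _ => ⟨x, hx, hxy, h1, h2, h3⟩⟩
    · exact ⟨0, fun h => absurd h hy⟩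
  choose T' hT' using h
  exact ⟨T', hT'⟩

theorem θ_fl (x : S) : ‖M.θ (M.inG (M.fl x)) - M.θ x‖ ≤ M.C0 * M.C0 := by
  rw [norm_sub_rev, ← M.θ_inv_mul]
  exact (M.θ_le _).trans (mul_le_mul_of_nonneg_left (M.fl_close x) M.C0_nn)

theorem QIm.θ_inv' {K : ℝ} {F F' : Γ → Γ} (h : M.QIm K F F') (g : Γ) :
    ‖M.θ (M.inG (F (F' g))) - M.θ (M.inG g)‖ ≤ M.C0 * K := by
  rw [← M.θ_inv_mul, ← map_inv, ← map_mul]
  exact (M.θ_le _).trans (mul_le_mul_of_nonneg_left (h.inv' g) M.C0_nn)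

theorem inv_estimate {T : Ht k →L[ℝ] Ht k} {T' : Ht k →L[ℝ] Ht k} {c₁ L a b : ℝ}
    (hT : ‖T‖ ≤ L) (h1 : ∀ w, T' (T w) = w) (h3 : ‖T'‖ ≤ c₁⁻¹) {u u' g f : Ht k}
    (hf : ‖f - T u‖ ≤ a) (hfg : ‖f - g‖ ≤ b) {c : ℝ} (hu : ‖u' - u‖ ≤ c) :
    ‖u' - T' g‖ ≤ c₁⁻¹ * (a + b + L * c) := by
  have hL : 0 ≤ L := (norm_nonneg _).trans hT
  have e : u' - T' g = T' (T (u' - u) - (f - T u) + (f - g)) := by
    rw [map_add, map_sub, h1, map_sub, map_sub, h1]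
    abel
  rw [e]
  have h4 : ‖T (u' - u) - (f - T u) + (f - g)‖ ≤ a + b + L * c := by
    refine (norm_add_le _ _).trans ?_
    have h5 : ‖T (u' - u)‖ ≤ L * c := (T.le_opNorm _).trans (by gcongr)
    have h6 := norm_sub_le (T (u' - u)) (f - T u)
    linarith
  have h7 : 0 ≤ c₁⁻¹ := (norm_nonneg _).trans h3
  exact (T'.le_opNorm _).trans (by gcongr)

theorem LinOn.diffp {K L ε κ r R : ℝ} {F F' : Γ → Γ} {D Dp D₀ : Set S}
    {T : S → Ht k →L[ℝ] Ht k} (h : M.LinOn K L ε κ r R F F' D Dp D₀ T) (hR : 0 ≤ R) (hε : 0 ≤ ε)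
    (hκ : 0 ≤ κ) : M.μ (Dp \ D₀) ≤ ENNReal.ofReal (ε + κ) * M.μ D := by
  have h3 : Dp \ D₀ ⊆ (D \ D₀) ∪ (Dp \ D) := by
    rintro z ⟨hz, hz'⟩
    by_cases hzD : z ∈ D
    · exact Or.inl ⟨hzD, hz'⟩
    · exact Or.inr ⟨hz, hzD⟩
  refine (measure_mono h3).trans ((measure_union_le _ _).trans ?_)
  rw [ENNReal.ofReal_add hε hκ, add_mul]
  exact add_le_add h.most (h.fat.diff hR hκ)

/-- the set `G'` of TRANS with `C2 = K` -/
def Gset (M : RModel S Γ V k) (K : ℝ) (F : Γ → Γ) (D : Set S) : Set Γ :=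
  {γ | ∃ z ∈ D, (M.l (M.inG (γ⁻¹ * F (M.fl z))) : ℝ) ≤ K}

/-- The part of the image without good preimages is small. -/
theorem LinOn.img_most {K L ε κ r R : ℝ} {F F' : Γ → Γ} {D Dp D₀ : Set S}
    {T : S → Ht k →L[ℝ] Ht k} (h : M.LinOn K L ε κ r R F F' D Dp D₀ T) (hε : 0 ≤ ε) (hκ : 0 ≤ κ)
    (hR : 2 * M.C0 + K + K * (K + 1) ≤ R)
    (hm : M.μ D ≤ M.mlt (2 * K) * M.μ (M.cells (M.Gset K F D))) :
    M.μ (M.cells (M.Gset K F D) \ M.img F' D₀) ≤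
      ENNReal.ofReal ((M.mlt (2 * K)).toReal ^ 2 * (ε + κ)) * M.μ (M.cells (M.Gset K F D)) := by
  have hC0 := M.C0_nn
  have hK := h.qi.nonneg
  have hR0 : 0 ≤ R := le_trans (by positivity) hR
  have h1 : M.cells (M.Gset K F D) \ M.img F' D₀ ⊆
      {z | M.fl ⁻¹' {F' (M.fl z) * 1} ⊆ Dp \ D₀} := by
    rintro y ⟨hy, hy'⟩ x hx
    have hx' : M.fl x = F' (M.fl y) := by simpa using hx
    refine ⟨?_, fun hxD => hy' ⟨x, hxD, hx'⟩⟩
    obtain ⟨z, hz, hzy⟩ := hy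
    have h2 := h.qi.inv (M.fl z)
    have h3 := h.qi.lip' (F (M.fl z)) ((F (M.fl z))⁻¹ * M.fl y)
    rw [mul_inv_cancel_left, ← hx'] at h3
    have h5 : M.l (M.inG ((F (M.fl z))⁻¹ * M.fl y)) = M.l (M.inG ((M.fl y)⁻¹ * F (M.fl z))) := by
      rw [← M.len.inv, ← map_inv]; congr 2; group
    rw [h5] at h3
    have h6 : K * (M.l (M.inG ((M.fl y)⁻¹ * F (M.fl z))) + 1) ≤ K * (K + 1) := by gcongr
    have t0 := M.dist_fl z x
    have t1 := M.l_triR (M.inG (M.fl z)) (M.inG (F' (F (M.fl z)))) (M.inG (M.fl x))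
    rw [map_mul, map_inv] at h2 h3 t0
    have := h.fat.sub z hz (z⁻¹ * x) (by linarith)
    rwa [mul_inv_cancel_left] at this
  refine (measure_mono h1).trans ((h.qi.symm.pull 1 _).trans ?_)
  have hmt : M.mlt (2 * K) ≠ ⊤ := M.mlt_ne_top _
  have hm2 : M.mlt (2 * K) = ENNReal.ofReal (M.mlt (2 * K)).toReal :=
    (ENNReal.ofReal_toReal hmt).symm
  calc M.mlt (2 * K) * M.μ (Dp \ D₀) ≤
        M.mlt (2 * K) * (ENNReal.ofReal (ε + κ) * (M.mlt (2 * K) *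
          M.μ (M.cells (M.Gset K F D)))) := by
        gcongr
        exact (h.diffp hR0 hε hκ).trans (by gcongr)
    _ = _ := by
        rw [ENNReal.ofReal_mul (by positivity), ENNReal.ofReal_pow ENNReal.toReal_nonneg, ← hm2]
        ring

/-- The set with affine behaviour, for the coarse inverse. -/
theorem LinOn.linAt' {K L ε κ r R : ℝ} {F F' : Γ → Γ} {D Dp D₀ : Set S}
    {T : S → Ht k →L[ℝ] Ht k} (h : M.LinOn K L ε κ r R F F' D Dp D₀ T) (hε : 0 ≤ ε) (hκ : 0 ≤ κ)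
    {c₁ : ℝ} {T' : S → Ht k →L[ℝ] Ht k}
    (hT' : ∀ y ∈ M.img F' D₀, ∃ x ∈ D₀, M.fl x = F' (M.fl y) ∧
      (∀ w, T' y (T x w) = w) ∧ (∀ w, T x (T' y w) = w) ∧ ‖T' y‖ ≤ c₁⁻¹)
    {N : ℕ} {δ ε₁ : ℝ} (hN : 2 * M.C0 + K * (M.C0 * N + 2 * M.C0 + 1) ≤ r)
    (hR : 2 * M.C0 + K + K * (K + 2 * M.C0 + M.C0 * N + 1) ≤ R)
    (hδ : c₁⁻¹ * (ε * r + (2 * (M.C0 * K) + 2 * (M.C0 * M.C0)) + L * (2 * (M.C0 * M.C0))) ≤ δ)
    (h1 : (M.mlt (2 * K)).toReal ^ 2 * (ε + κ) ≤ ε₁) :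
    LinAt (hgt (M.η.comp M.inG)) M.A (hgt (M.η.comp M.inG)) c₁⁻¹ M.μ (fun x g => x * M.inG g)
      (fun x => F' (M.fl x)) T' (M.cells (M.Gset K F D)) (M.img F' D₀) N δ ε₁ := by
  have hC0 := M.C0_nn
  have hK := h.qi.nonneg
  obtain ⟨hfat, -, hm, -⟩ := h.qi.trans hκ (R' := M.C0 * N) (by positivity) h.fat le_rfl hR
  have hR2 : 2 * M.C0 + K + K * (K + 1) ≤ R := by
    refine le_trans ?_ hR
    have : K * (K + 1) ≤ K * (K + 2 * M.C0 + M.C0 * N + 1) := by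
      have h0 : 0 ≤ M.C0 * N := by positivity
      gcongr
      linarith
    linarith
  have hκm : (M.mlt (2 * K)).toReal ^ 2 * κ ≤ ε₁ := by
    refine le_trans ?_ h1
    have : 0 ≤ (M.mlt (2 * K)).toReal ^ 2 * ε := by positivity
    nlinarith
  refine ⟨fun y hy => ?_, M.measurableSet_cells _, hfat.fin, ?_, ?_, ?_⟩
  · obtain ⟨x, -, -, -, -, h2⟩ := hT' y hy
    exact h2
  · have h2 := h.img_most hε hκ hR2 hm
    refine (real_of_le (by positivity) hfat.fin h2).trans ?_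
    exact mul_le_mul_of_nonneg_right h1 measureReal_nonneg
  · intro g hg
    refine (hfat.move (by positivity) (by positivity) (M.l_Bl hg)).trans ?_
    exact mul_le_mul_of_nonneg_right hκm measureReal_nonneg
  · intro y hy g hg hyg
    obtain ⟨x, hx, hxy, i1, i2, i3⟩ := hT' y hy
    obtain ⟨x', hx', hxy', -, -, -⟩ := hT' _ hyg
    have hlg := M.l_Bl hg
    have hdist : (M.l (x⁻¹ * x') : ℝ) ≤ r := by
      have t0 := M.dist_fl x x'
      have t1 := h.qi.symm.lip2 y (y * M.inG g)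
      rw [inv_mul_cancel_left, ← hxy, ← hxy'] at t1
      have t2 : K * (M.l (M.inG g) + 2 * M.C0 + 1) ≤ K * (M.C0 * N + 2 * M.C0 + 1) := by gcongr
      linarith
    have hl := (h.lin x hx x' hx' hdist).1
    refine (inv_estimate (h.T_le x hx) i1 i3 hl (b := 2 * (M.C0 * K) + 2 * (M.C0 * M.C0)) ?_
      (c := 2 * (M.C0 * M.C0)) ?_).trans hδ
    · have e1 : M.f F x' = M.θ (M.inG (F (F' (M.fl (y * M.inG g))))) := by
        unfold f; rw [hxy']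
      have e2 : M.f F x = M.θ (M.inG (F (F' (M.fl y)))) := by
        unfold f; rw [hxy]
      have n1 := h.qi.θ_inv' (M.fl (y * M.inG g))
      have n2 := h.qi.θ_inv' (M.fl y)
      have n3 := θ_fl (M := M) (y * M.inG g)
      have n4 := θ_fl (M := M) y
      have e3 : M.f F x' - M.f F x - hgt (M.η.comp M.inG) g =
          (M.θ (M.inG (F (F' (M.fl (y * M.inG g))))) - M.θ (M.inG (M.fl (y * M.inG g)))) -
          (M.θ (M.inG (F (F' (M.fl y)))) - M.θ (M.inG (M.fl y))) +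
          (M.θ (M.inG (M.fl (y * M.inG g))) - M.θ (y * M.inG g)) -
          (M.θ (M.inG (M.fl y)) - M.θ y) := by
        have e4 : M.θ (y * M.inG g) = M.θ y + hgt (M.η.comp M.inG) g := M.θ_mul _ _
        rw [e1, e2, e4]
        abel
      rw [e3]
      have m1 := norm_sub_le
        (M.θ (M.inG (F (F' (M.fl (y * M.inG g))))) - M.θ (M.inG (M.fl (y * M.inG g))))
        (M.θ (M.inG (F (F' (M.fl y)))) - M.θ (M.inG (M.fl y)))
      refine (norm_sub_le _ _).trans ?_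
      refine (add_le_add (norm_add_le _ _) le_rfl).trans ?_
      linarith
    · have n3 := θ_fl (M := M) x'
      have n4 := θ_fl (M := M) x
      have e5 : hgt (M.η.comp M.inG) (F' (M.fl (y * M.inG g))) -
          hgt (M.η.comp M.inG) (F' (M.fl y)) - M.θ (x⁻¹ * x') =
          (M.θ (M.inG (M.fl x')) - M.θ x') - (M.θ (M.inG (M.fl x)) - M.θ x) := by
        rw [M.θ_inv_mul, hxy, hxy']
        have e6 : hgt (M.η.comp M.inG) (F' (M.fl (y * M.inG g))) =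
          M.θ (M.inG (F' (M.fl (y * M.inG g)))) := rfl
        have e7 : hgt (M.η.comp M.inG) (F' (M.fl y)) = M.θ (M.inG (F' (M.fl y))) := rfl
        rw [e6, e7]
        abel
      rw [e5]
      refine (norm_sub_le _ _).trans ?_
      linarith

end RModel

end Vale.Agent.P188.Z1
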