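import Vale.Agent.P188.Z1.Coh2

/-!
# P188, Z1, block COH, part 3: most linear parts have approximate inverses which transfer end points
-/

set_option linter.all false

open MeasureTheory Set
open scoped ENNReal
open Agent.P188.H428 (IsLen)
open Vale.Agent.P188.H789 (Bl Bl_mono Bl_finite one_mem_Bl)
open Vale.Agent.P188.H530 (hgt hgt_mul Crossed Mod Tr TrP OrbMap LinAt exists_inverse)

namespace Vale.Agent.P188.Z1

namespace RModel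

variable {S : Type} [Group S] [MeasurableSpace S] {Γ : Type} [Group Γ]
  {V : Type} [AddCommGroup V] [Module ℝ V] {k : ℕ} {M : RModel S Γ V k}

/-- approximate inverse which transfers end points -/
def HasInv (M : RModel S Γ V k) (c K : ℕ) (C W ε : ℝ) (n : ℕ) (P : Finset (ℕ × ℝ)) (c₁ ε' : ℝ)
    (T : Ht k →L[ℝ] Ht k) : Prop :=
  ∃ T' : Ht k →L[ℝ] Ht k, ‖T'‖ ≤ c₁⁻¹ ∧ (∀ w, ‖T (T' w) - w‖ ≤ ε' * ‖w‖) ∧
    (∀ w, ‖T' (T w) - w‖ ≤ ε' * ‖w‖) ∧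
    TrP (hgt (M.η.comp M.inG)) M.A (hgt (M.η.comp M.inG)) M.A c K C W ε n P T'

/-- a good point of the image gives an approximate inverse -/
theorem LinOn.hasInv {K L ε κ r R : ℝ} {F F' : Γ → Γ} {D Dp D₀ : Set S}
    {T : S → Ht k →L[ℝ] Ht k} (h : M.LinOn K L ε κ r R F F' D Dp D₀ T) (hε : 0 ≤ ε)
    {c₁ : ℝ} {T' : S → Ht k →L[ℝ] Ht k}
    (hT' : ∀ y ∈ M.img F' D₀, ∃ x ∈ D₀, M.fl x = F' (M.fl y) ∧
      (∀ w, T' y (T x w) = w) ∧ (∀ w, T x (T' y w) = w) ∧ ‖T' y‖ ≤ c₁⁻¹)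
    (hr : 2 * M.C0 + K ≤ r) {x y : S} (hx : x ∈ D₀) (hy : y ∈ M.img F' D₀)
    (hxy : M.fl y = F (M.fl x)) :
    ‖T' y‖ ≤ c₁⁻¹ ∧ (∀ w, ‖T x (T' y w) - w‖ ≤ c₁⁻¹ * ε * ‖w‖) ∧
      (∀ w, ‖T' y (T x w) - w‖ ≤ c₁⁻¹ * ε * ‖w‖) := by
  obtain ⟨x₁, hx₁, h1, i1, i2, i3⟩ := hT' y hy
  have hdist : (M.l (x⁻¹ * x₁) : ℝ) ≤ r := by
    have t0 := M.dist_fl x x₁
    have t1 := h.qi.inv (M.fl x)
    rw [h1, hxy] at t0
    linarith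
  have hcl := (h.lin x hx x₁ hx₁ hdist).2
  have hc : 0 ≤ c₁⁻¹ := (norm_nonneg _).trans i3
  refine ⟨i3, fun w => ?_, fun w => ?_⟩
  · have e : T x (T' y w) - w = -((T x₁ - T x) (T' y w)) := by
      rw [ContinuousLinearMap.sub_apply, i2]; abel
    rw [e, norm_neg]
    refine (ContinuousLinearMap.le_opNorm _ _).trans ?_
    have h2 : ‖T' y w‖ ≤ c₁⁻¹ * ‖w‖ := ((T' y).le_opNorm _).trans (by gcongr)
    calc ‖T x₁ - T x‖ * ‖T' y w‖ ≤ ε * (c₁⁻¹ * ‖w‖) := by gcongr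
      _ = _ := by ring
  · have e : T' y (T x w) - w = -(T' y ((T x₁ - T x) w)) := by
      rw [ContinuousLinearMap.sub_apply, map_sub, i1]; abel
    rw [e, norm_neg]
    refine (ContinuousLinearMap.le_opNorm _ _).trans ?_
    have h2 : ‖(T x₁ - T x) w‖ ≤ ε * ‖w‖ :=
      (ContinuousLinearMap.le_opNorm _ _).trans (by gcongr)
    calc ‖T' y‖ * ‖(T x₁ - T x) w‖ ≤ c₁⁻¹ * (ε * ‖w‖) := by gcongr
      _ = _ := by ring

/-- measure of the points whose image cell does not meet the good set -/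
theorem LinOn.pull_bad {K L ε κ r R : ℝ} {F F' : Γ → Γ} {D Dp D₀ : Set S}
    {T : S → Ht k →L[ℝ] Ht k} (h : M.LinOn K L ε κ r R F F' D Dp D₀ T) (hκ : 0 ≤ κ) (hκ1 : κ ≤ 1)
    (hR : 2 * M.C0 + K + K * (K + 2 * M.C0 + 1) ≤ R) {Gd : Set S} {a : ℝ} (ha : 0 ≤ a)
    (hGd : M.μ.real (M.cells (M.Gset K F D) \ Gd) ≤ a * M.μ.real (M.cells (M.Gset K F D))) :
    M.μ.real {x ∈ D | ∀ y ∈ Gd, M.fl y ≠ F (M.fl x)} ≤
      (M.mlt (2 * K)).toReal ^ 2 * (2 * a) * M.μ.real D := by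
  have hC0 := M.C0_nn
  have hK := h.qi.nonneg
  obtain ⟨hfat, hDG, hm, hGp⟩ := h.qi.trans hκ (R' := 0) le_rfl h.fat le_rfl (by linarith)
  obtain ⟨m, hm0⟩ : ∃ m : ℝ, m = (M.mlt (2 * K)).toReal := ⟨_, rfl⟩
  have hm0' : 0 ≤ m := by rw [hm0]; exact ENNReal.toReal_nonneg
  have hmt : M.mlt (2 * K) ≠ ⊤ := M.mlt_ne_top _
  have hsub : {x ∈ D | ∀ y ∈ Gd, M.fl y ≠ F (M.fl x)} ⊆
      {z | M.fl ⁻¹' {F (M.fl z) * 1} ⊆ M.cells (M.Gset K F D) \ Gd} := by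
    rintro x ⟨hx, hx'⟩ y hy
    have hy' : M.fl y = F (M.fl x) := by simpa using hy
    refine ⟨?_, fun hyG => hx' y hyG hy'⟩
    have := hDG x hx
    show M.fl y ∈ M.Gset K F D
    rw [hy']
    exact this
  have hfin : M.μ (M.cells (M.Gset K F D)) ≠ ⊤ := hfat.fin
  have hfin2 : M.μ (M.cells (M.Gset K F D) \ Gd) ≠ ⊤ :=
    ne_top_of_le_ne_top hfin (measure_mono Set.sdiff_subset)
  have h1 : M.μ.real {x ∈ D | ∀ y ∈ Gd, M.fl y ≠ F (M.fl x)} ≤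
      m * M.μ.real (M.cells (M.Gset K F D) \ Gd) := by
    have h2 := (measure_mono hsub).trans (h.qi.pull 1 _)
    have h3 := ENNReal.toReal_mono (ENNReal.mul_ne_top hmt hfin2) h2
    rw [ENNReal.toReal_mul] at h3
    rw [hm0]
    exact h3
  have h4 : M.μ.real (M.cells (M.Gset K F D)) ≤ m * (2 * M.μ.real D) := by
    have h5 : M.μ (M.cells (M.Gset K F D)) ≤ M.mlt (2 * K) * (ENNReal.ofReal 2 * M.μ D) := by
      refine (measure_mono (hfat.sub_self le_rfl)).trans (hGp.trans ?_)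
      gcongr
      refine h.fat.le.trans ?_
      gcongr
      linarith
    have h6 := ENNReal.toReal_mono
      (ENNReal.mul_ne_top hmt (ENNReal.mul_ne_top ENNReal.ofReal_ne_top h.fat.fin)) h5
    rw [ENNReal.toReal_mul, ENNReal.toReal_mul, ENNReal.toReal_ofReal (by norm_num)] at h6
    rw [hm0]
    exact h6
  rw [← hm0]
  calc _ ≤ m * M.μ.real (M.cells (M.Gset K F D) \ Gd) := h1
    _ ≤ m * (a * (m * (2 * M.μ.real D))) := by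
        refine mul_le_mul_of_nonneg_left (hGd.trans ?_) hm0'
        exact mul_le_mul_of_nonneg_left h4 ha
    _ = _ := by ring

/-- numerical conditions -/
theorem num_occF' {K C0 Λ Λ₂ r R L c₁ ε₁ ε' κ m a : ℝ} {n : ℕ} (hK : 0 ≤ K) (hC0 : 0 ≤ C0)
    (hΛ : 0 ≤ Λ) (hL : 0 ≤ L) (hc₁ : 0 < c₁) (hm : 0 ≤ m)
    (hΛ₂ : (K + 1) * C0 * Λ + 1 ≤ Λ₂) (hr1 : Λ₂ * n ≤ r) (hr2 : r ≤ 2 * Λ₂ * n)
    (hR : (K + 2) * r ≤ R)
    (hn1 : 2 * C0 + K + K * (K + 2 * C0 + 1) ≤ n)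
    (hn2 : c₁⁻¹ * ((2 * (C0 * K) + 2 * (C0 * C0)) + L * (2 * (C0 * C0))) ≤ ε₁ / 2 * n)
    (hε' : 0 ≤ ε') (h1 : ε' ≤ c₁ * ε₁ / (4 * Λ₂)) (h2 : ε' ≤ a / (2 * (m ^ 2 + 1)))
    (h3 : κ ≤ a / (2 * (m ^ 2 + 1))) (hκ : 0 ≤ κ) :
    2 * C0 + K * (C0 * (Λ * n) + 2 * C0 + 1) ≤ r ∧
    2 * C0 + K + K * (K + 2 * C0 + C0 * (Λ * n) + 1) ≤ R ∧
    2 * C0 + K + K * (K + 2 * C0 + 1) ≤ R ∧ 2 * C0 + K ≤ r ∧
    c₁⁻¹ * (ε' * r + (2 * (C0 * K) + 2 * (C0 * C0)) + L * (2 * (C0 * C0))) ≤ ε₁ * n ∧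
    m ^ 2 * (ε' + κ) ≤ a := by
  have hn0 : (0 : ℝ) ≤ n := Nat.cast_nonneg _
  have hCΛ : 0 ≤ C0 * Λ := by positivity
  have hKCΛ : 0 ≤ K * (C0 * Λ) := by positivity
  have hΛ₂1 : 1 ≤ Λ₂ := by nlinarith
  have hnr : (n : ℝ) ≤ r := by nlinarith
  have h5 : K * (C0 * (Λ * n)) + n ≤ r := by
    have : (K * (C0 * Λ) + 1) * n ≤ Λ₂ * n := by
      gcongr
      nlinarith
    nlinarith
  have h6 : C0 * (Λ * n) ≤ r := by
    have : (C0 * Λ) * n ≤ Λ₂ * n := by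
      gcongr
      nlinarith
    nlinarith
  have hr0 : 0 ≤ r := hn0.trans hnr
  have hKK : 0 ≤ K * K := by positivity
  have hKC : 0 ≤ K * C0 := by positivity
  have h7 : K * (C0 * (Λ * n)) ≤ K * r := by gcongr
  refine ⟨by nlinarith, by nlinarith, by nlinarith, by nlinarith, ?_, ?_⟩
  · have h8 : ε' * r ≤ c₁ * ε₁ / 2 * n := by
      rw [le_div_iff₀ (by positivity)] at h1
      calc ε' * r ≤ ε' * (2 * Λ₂ * n) := by gcongr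
        _ = (ε' * (4 * Λ₂)) / 2 * n := by ring
        _ ≤ (c₁ * ε₁) / 2 * n := by gcongr
    have h9 : c₁⁻¹ * (ε' * r) ≤ ε₁ / 2 * n := by
      calc c₁⁻¹ * (ε' * r) ≤ c₁⁻¹ * (c₁ * ε₁ / 2 * n) := by gcongr
        _ = _ := by field_simp
    nlinarith
  · rw [le_div_iff₀ (by positivity)] at h2 h3
    nlinarith [mul_nonneg (sq_nonneg m) hε', mul_nonneg (sq_nonneg m) hκ]

/-- **Most linear parts have approximate inverses which transfer end points.** -/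
theorem occF' (M : RModel S Γ V k) (K L c₁ : ℝ) (hL : 0 ≤ L) (hc₁ : 0 < c₁) {C W ε κ' : ℝ}
    (hC1 : 1 ≤ C) (hCc : c₁⁻¹ ≤ C) (hε : 0 < ε) (hκ' : 0 < κ') (P : Finset (ℕ × ℝ))
    (hP : ∀ p ∈ P, 1 ≤ p.1 ∧ 1 ≤ p.2) :
    ∃ Λ₁ : ℝ, 0 < Λ₁ ∧ ∀ Λ₂ : ℝ, Λ₁ ≤ Λ₂ → ∃ (ε₀ : ℝ) (n₀ : ℕ), 0 < ε₀ ∧ ∀ n : ℕ, n₀ ≤ n →
      ∀ r : ℝ, Λ₂ * n ≤ r → r ≤ 2 * Λ₂ * n → ∀ ε' κ R : ℝ, 0 ≤ ε' → ε' ≤ ε₀ → 0 ≤ κ → κ ≤ ε₀ →
      (K + 2) * r ≤ R → ∀ (F F' : Γ → Γ) (D Dp D₀ : Set S) (T : S → Ht k →L[ℝ] Ht k),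
      M.LinOn K L ε' κ r R F F' D Dp D₀ T → (∀ x ∈ D₀, ∀ w, c₁ * ‖w‖ ≤ ‖T x w‖) →
      M.μ.real {x ∈ D | x ∈ D₀ ∧ ¬ M.HasInv (2 * M.cnt K) (M.stp K) C W ε n P c₁ (c₁⁻¹ * ε')
        (T x)} ≤ κ' * M.μ.real D := by
  have hC0 := M.C0_nn
  by_cases hK : 0 ≤ K
  swap
  · refine ⟨1, one_pos, fun Λ₂ _ => ⟨1, 0, one_pos, ?_⟩⟩
    intro n _ r _ _ ε' κ R _ _ _ _ _ F F' D Dp D₀ T h
    exact absurd h.qi.nonneg hK
  obtain ⟨m, hm⟩ : ∃ m : ℝ, m = (M.mlt (2 * K)).toReal := ⟨_, rfl⟩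
  have hm0 : 0 ≤ m := by rw [hm]; exact ENNReal.toReal_nonneg
  obtain ⟨κ₂, hκ₂⟩ : ∃ κ₂ : ℝ, κ₂ = κ' / (4 * (m ^ 2 + 1)) := ⟨_, rfl⟩
  have hκ₂0 : 0 < κ₂ := by rw [hκ₂]; positivity
  obtain ⟨ε₁, Λ, n₁, hε₁, H⟩ := H530.occ M.md M.md (c₀ := M.cnt K) (K := M.stp K) (W := W)
    (L := c₁⁻¹) (by positivity) hC1 hCc hε hκ₂0 P hP
  obtain ⟨n₂, hn₂⟩ := exists_nat_ge (2 * M.C0 + K + K * (K + 2 * M.C0 + 1))
  obtain ⟨n₃, hn₃⟩ := exists_nat_ge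
    (c₁⁻¹ * ((2 * (M.C0 * K) + 2 * (M.C0 * M.C0)) + L * (2 * (M.C0 * M.C0))) / (ε₁ / 2))
  have hΛ0 : (0 : ℝ) ≤ Λ := Nat.cast_nonneg _
  refine ⟨(K + 1) * M.C0 * Λ + 1, by positivity, fun Λ₂ hΛ₂ => ?_⟩
  have hΛ₂0 : 0 < Λ₂ := lt_of_lt_of_le (by positivity) hΛ₂
  set a : ℝ := min ε₁ κ₂ with ha
  have ha0 : 0 < a := lt_min hε₁ hκ₂0
  refine ⟨min (min 1 (c₁ * ε₁ / (4 * Λ₂))) (a / (2 * (m ^ 2 + 1))), max n₁ (max n₂ n₃),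
    lt_min (lt_min one_pos (by positivity)) (by positivity), ?_⟩
  intro n hn r hr1 hr2 ε' κ R hε'0 hε' hκ0 hκ hrR F F' D Dp D₀ T h hlow
  simp only [max_le_iff] at hn
  obtain ⟨hnn1, hnn2, hnn3⟩ := hn
  have hn2' : 2 * M.C0 + K + K * (K + 2 * M.C0 + 1) ≤ n :=
    hn₂.trans (by exact_mod_cast hnn2)
  have hn3' : c₁⁻¹ * ((2 * (M.C0 * K) + 2 * (M.C0 * M.C0)) + L * (2 * (M.C0 * M.C0))) ≤
      ε₁ / 2 * n := by
    have h3 : (n₃ : ℝ) ≤ n := by exact_mod_cast hnn3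
    have := hn₃.trans h3
    rw [div_le_iff₀ (by positivity)] at this
    linarith
  obtain ⟨q1, q2, q3, q4, q5, q6⟩ := num_occF' hK hC0 hΛ0 hL hc₁ hm0 hΛ₂ hr1 hr2 hrR hn2' hn3'
    hε'0 (hε'.trans ((min_le_left _ _).trans (min_le_right _ _))) (hε'.trans (min_le_right _ _))
    (hκ.trans (min_le_right _ _)) hκ0
  have hκ1 : κ ≤ 1 := hκ.trans ((min_le_left _ _).trans (min_le_left _ _))
  obtain ⟨T', hT'⟩ := exists_inv_fun (M := M) hc₁ hlow F'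
  have hlin := h.linAt' hε'0 hκ0 hT' (N := Λ * n) (δ := ε₁ * n) (ε₁ := a)
    (by push_cast; exact q1) (by push_cast; exact q2) q5 (by rw [← hm]; exact q6)
  have hlin1 : LinAt (hgt (M.η.comp M.inG)) M.A (hgt (M.η.comp M.inG)) c₁⁻¹ M.μ
      (fun x g => x * M.inG g) (fun x => F' (M.fl x)) T' (M.cells (M.Gset K F D)) (M.img F' D₀)
      (Λ * n) (ε₁ * n) ε₁ := by
    have hae : a ≤ ε₁ := min_le_left _ _
    refine ⟨hlin.T_le, hlin.meas, hlin.fin, hlin.most.trans ?_, fun g hg => (hlin.inv g hg).trans ?_,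
      hlin.lin⟩
    · exact mul_le_mul_of_nonneg_right hae measureReal_nonneg
    · exact mul_le_mul_of_nonneg_right hae measureReal_nonneg
  have hocc := H n hnn1 S M.μ _ _ T' _ _ h.qi.symm.orbMap hlin1
  set Gd : Set S := {y | y ∈ M.img F' D₀ ∧ TrP (hgt (M.η.comp M.inG)) M.A
    (hgt (M.η.comp M.inG)) M.A (2 * M.cnt K) (M.stp K) C W ε n P (T' y)} with hGd
  have hbad : M.μ.real (M.cells (M.Gset K F D) \ Gd) ≤
      (2 * κ₂) * M.μ.real (M.cells (M.Gset K F D)) := by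
    have hs : M.cells (M.Gset K F D) \ Gd ⊆ (M.cells (M.Gset K F D) \ M.img F' D₀) ∪
        {y ∈ M.cells (M.Gset K F D) | y ∈ M.img F' D₀ ∧ ¬ TrP (hgt (M.η.comp M.inG)) M.A
          (hgt (M.η.comp M.inG)) M.A (2 * M.cnt K) (M.stp K) C W ε n P (T' y)} := by
      rintro y ⟨hy, hy'⟩
      by_cases hyi : y ∈ M.img F' D₀
      · exact Or.inr ⟨hy, hyi, fun ht => hy' ⟨hyi, ht⟩⟩
      · exact Or.inl ⟨hy, hyi⟩
    have hfin := hlin.fin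
    refine (measureReal_mono hs ?_).trans ((measureReal_union_le _ _).trans ?_)
    · refine ne_top_of_le_ne_top hfin (measure_mono ?_)
      rintro y (hy | hy)
      · exact hy.1
      · exact hy.1
    · have h8 : a * M.μ.real (M.cells (M.Gset K F D)) ≤ κ₂ * M.μ.real (M.cells (M.Gset K F D)) :=
        mul_le_mul_of_nonneg_right (min_le_right _ _) measureReal_nonneg
      have := hlin.most
      linarith
  have hpull := h.pull_bad hκ0 hκ1 q3 (a := 2 * κ₂) (by positivity) hbad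
  refine (measureReal_mono ?_ ?_).trans (hpull.trans ?_)
  · rintro x ⟨hxD, hx, hno⟩
    refine ⟨hxD, fun y hy hxy => hno ?_⟩
    obtain ⟨j1, j2, j3⟩ := h.hasInv hε'0 hT' q4 hx hy.1 hxy
    exact ⟨T' y, j1, j2, j3, hy.2⟩
  · exact ne_top_of_le_ne_top h.fat.fin (measure_mono (Set.sep_subset _ _))
  · refine mul_le_mul_of_nonneg_right ?_ measureReal_nonneg
    rw [← hm, hκ₂]
    have : m ^ 2 * (2 * (2 * (κ' / (4 * (m ^ 2 + 1))))) = κ' * (m ^ 2 / (m ^ 2 + 1)) := by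
      field_simp
      ring
    rw [this]
    have h9 : m ^ 2 / (m ^ 2 + 1) ≤ 1 := by
      rw [div_le_one (by positivity)]
      linarith
    nlinarith

end RModel

end Vale.Agent.P188.Z1
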