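import Vale.Agent.P188.Z1.Coh3

/-!
# P188, Z1, block COH, part 4: norm bounds and rays
-/

set_option linter.all false

open MeasureTheory Set
open scoped ENNReal
open Agent.P188.H428 (IsLen)
open Vale.Agent.P188.H530 (hgt hgt_mul badSumP meas_bad_le exists_good exists_max_norm)

namespace Vale.Agent.P188.Z1

namespace RModel

variable {S : Type} [Group S] [MeasurableSpace S] {Γ : Type} [Group Γ]
  {V : Type} [AddCommGroup V] [Module ℝ V] {k : ℕ} {M : RModel S Γ V k}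

theorem l_powC (t : S) (n : ℕ) : (M.l (t ^ n) : ℝ) ≤ n * M.l t := by
  induction n with
  | zero => simp [M.len.one]
  | succ n ih =>
    rw [pow_succ]
    have : (M.l (t ^ n * t) : ℝ) ≤ M.l (t ^ n) + M.l t := by exact_mod_cast M.len.mul _ _
    push_cast
    linarith

theorem θ_oneC : M.θ (1 : S) = 0 := by
  have := M.θ_mul 1 1
  rw [mul_one] at this
  simpa using this

theorem θ_powC (t : S) (n : ℕ) : M.θ (t ^ n) = (n : ℝ) • M.θ t := by
  induction n with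
  | zero => simp [θ_oneC]
  | succ n ih =>
    rw [pow_succ, M.θ_mul, ih]
    push_cast
    rw [add_smul, one_smul]

theorem θ_τC (v : Fin k → ℤ) : M.θ (M.τ v) = ht v := by
  funext i
  simp [θ, hgt, M.η_τ, ht]

theorem QIm.f_lipC {K : ℝ} {F F' : Γ → Γ} (h : M.QIm K F F') (x y : S) :
    ‖M.f F y - M.f F x‖ ≤ M.C0 * (K * (M.l (x⁻¹ * y) + 2 * M.C0 + 1)) := by
  have h1 := h.lip2 x y
  have e : M.f F y - M.f F x = M.θ (M.inG ((F (M.fl x))⁻¹ * F (M.fl y))) := by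
    rw [map_mul, map_inv, M.θ_inv_mul]
    rfl
  rw [e]
  exact (M.θ_le _).trans (mul_le_mul_of_nonneg_left h1 M.C0_nn)

theorem mu_mul_le (g : S) (B : Set S) : M.μ ((fun x => x * g) ⁻¹' B) ≤ M.μ B := by
  have h1 := (M.mp g).measure_preimage (measurableSet_toMeasurable M.μ B).nullMeasurableSet
  rw [measure_toMeasurable] at h1
  rw [← h1]
  exact measure_mono (preimage_mono (subset_toMeasurable _ _))

/-- few points are moved out of `D₀` -/
theorem LinOn.move {K L ε κ r R : ℝ} {F F' : Γ → Γ} {D Dp D₀ : Set S}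
    {T : S → Ht k →L[ℝ] Ht k} (h : M.LinOn K L ε κ r R F F' D Dp D₀ T) (hR : 0 ≤ R) (hε : 0 ≤ ε)
    (hκ : 0 ≤ κ) {g : S} (hg : (M.l g : ℝ) ≤ R) :
    M.μ.real {x ∈ D | x * g ∉ D₀} ≤ (ε + κ) * M.μ.real D := by
  have hsub : {x ∈ D | x * g ∉ D₀} ⊆ (fun x => x * g) ⁻¹' (Dp \ D₀) := fun x hx =>
    ⟨h.fat.sub x hx.1 g hg, hx.2⟩
  exact real_of_le (by positivity) h.fat.fin
    ((measure_mono hsub).trans ((mu_mul_le g _).trans (h.diffp hR hε hκ)))

theorem opNorm_le_of_basis {T : Ht k →L[ℝ] Ht k} {B : ℝ} (hB : 0 ≤ B)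
    (h : ∀ j, ‖T (Pi.single j 1)‖ ≤ B) : ‖T‖ ≤ k * B := by
  refine ContinuousLinearMap.opNorm_le_bound _ (by positivity) fun w => ?_
  have e : w = ∑ j, w j • (Pi.single j 1 : Ht k) := by
    funext i
    rw [Finset.sum_apply]
    simp only [Pi.smul_apply, smul_eq_mul, Pi.single_apply]
    rw [Finset.sum_eq_single i]
    · simp
    · intro j _ hj
      rw [if_neg (Ne.symm hj), mul_zero]
    · intro h; exact absurd (Finset.mem_univ i) h
  conv_lhs => rw [e]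
  rw [map_sum]
  refine (norm_sum_le _ _).trans ?_
  calc ∑ j, ‖T (w j • (Pi.single j 1 : Ht k))‖ ≤ ∑ _j : Fin k, ‖w‖ * B := by
        refine Finset.sum_le_sum fun j _ => ?_
        rw [map_smul, norm_smul]
        exact mul_le_mul (norm_le_pi_norm w j) (h j) (norm_nonneg _) (norm_nonneg _)
    _ = k * B * ‖w‖ := by simp; ring

/-- numerical facts -/
theorem num_norm {r Lt C0 K s ε : ℝ} (hC0 : 0 ≤ C0) (hK : 0 ≤ K) (hLt : 1 ≤ Lt)
    (hr : 2 * C0 + 1 ≤ r) (hs : r / (2 * Lt) ≤ s) (hε : ε ≤ 1) (hr0 : 0 < r) {y : ℝ}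
    (hy : s * y ≤ C0 * (K * (r + 2 * C0 + 1)) + ε * r) : y ≤ 2 * Lt * (2 * C0 * K + 1) := by
  by_contra hcon
  push Not at hcon
  have h1 : r / (2 * Lt) * (2 * Lt * (2 * C0 * K + 1)) = r * (2 * C0 * K + 1) := by
    field_simp
  have h2 : r / (2 * Lt) * (2 * Lt * (2 * C0 * K + 1)) < s * y := by
    have h0 : 0 < r / (2 * Lt) := by positivity
    have h3 : 0 ≤ 2 * Lt * (2 * C0 * K + 1) := by positivity
    calc r / (2 * Lt) * (2 * Lt * (2 * C0 * K + 1)) ≤ s * (2 * Lt * (2 * C0 * K + 1)) := by gcongr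
      _ < s * y := by gcongr; linarith
  rw [h1] at h2
  have h4 : C0 * (K * (r + 2 * C0 + 1)) ≤ C0 * (K * (r + r)) :=
    mul_le_mul_of_nonneg_left (mul_le_mul_of_nonneg_left (by linarith) hK) hC0
  have h5 : ε * r ≤ 1 * r := by gcongr
  nlinarith

/-- **Norm bound.** -/
theorem normT (M : RModel S Γ V k) (K : ℝ) : ∃ (L r₀ : ℝ), 0 ≤ L ∧
    ∀ r : ℝ, r₀ ≤ r → ∀ ε : ℝ, 0 ≤ ε → ε ≤ 1 → ∀ κ : ℝ, 0 ≤ κ →
    ∀ F F' : Γ → Γ, M.QIm K F F' → ∀ D Dp D₀ : Set S, M.Fat r κ D Dp → D₀ ⊆ D →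
    M.μ (D \ D₀) ≤ ENNReal.ofReal ε * M.μ D →
    ∀ T : S → Ht k →L[ℝ] Ht k,
    (∀ x ∈ D₀, ∀ x' ∈ D₀, (M.l (x⁻¹ * x') : ℝ) ≤ r →
      ‖M.f F x' - M.f F x - T x (M.θ (x⁻¹ * x'))‖ ≤ ε * r) →
    M.μ {x | x ∈ D₀ ∧ ¬ ‖T x‖ ≤ L} ≤ ENNReal.ofReal (k * (ε + κ)) * M.μ D := by
  have hC0 := M.C0_nn
  obtain ⟨Lt, hLt, hLt'⟩ : ∃ Lt : ℝ, 1 ≤ Lt ∧ ∀ j : Fin k, (M.l (M.τ (Pi.single j 1)) : ℝ) ≤ Lt := by
    refine ⟨1 + ∑ j : Fin k, (M.l (M.τ (Pi.single j 1)) : ℝ), ?_, fun j => ?_⟩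
    · have : 0 ≤ ∑ j : Fin k, (M.l (M.τ (Pi.single j 1)) : ℝ) :=
        Finset.sum_nonneg fun j _ => Nat.cast_nonneg _
      linarith
    · have := Finset.single_le_sum (f := fun j : Fin k => (M.l (M.τ (Pi.single j 1)) : ℝ))
        (fun i _ => Nat.cast_nonneg _) (Finset.mem_univ j)
      linarith
  by_cases hK : 0 ≤ K
  swap
  · refine ⟨0, 0, le_rfl, fun r hr ε _ _ κ _ F F' h => absurd h.nonneg hK⟩
  refine ⟨k * (2 * Lt * (2 * M.C0 * K + 1)), max (2 * M.C0 + 1) (2 * Lt), by positivity, ?_⟩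
  intro r hr ε hε hε1 κ hκ F F' h D Dp D₀ hD hD₀D hD₀ T hT
  have hr1 : 2 * M.C0 + 1 ≤ r := (le_max_left _ _).trans hr
  have hr2 : 2 * Lt ≤ r := (le_max_right _ _).trans hr
  have hr0 : 0 < r := by linarith
  set s : ℕ := ⌊r / Lt⌋₊ with hs
  have hs1 : (s : ℝ) ≤ r / Lt := Nat.floor_le (by positivity)
  have hs2 : r / (2 * Lt) ≤ s := by
    have h1 := Nat.lt_floor_add_one (r / Lt)
    have h2 : 2 ≤ r / Lt := by rw [le_div_iff₀ (by positivity)]; linarith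
    have h3 : r / (2 * Lt) = r / Lt / 2 := by field_simp
    rw [h3]
    linarith
  have hls : ∀ j : Fin k, (M.l (M.τ (Pi.single j 1) ^ s) : ℝ) ≤ r := by
    intro j
    refine (l_powC _ _).trans ?_
    calc (s : ℝ) * M.l (M.τ (Pi.single j 1)) ≤ (r / Lt) * Lt := by
          have := hLt' j
          gcongr
      _ = r := by field_simp
  have hsub : {x | x ∈ D₀ ∧ ¬ ‖T x‖ ≤ k * (2 * Lt * (2 * M.C0 * K + 1))} ⊆
      ⋃ j : Fin k, (fun x => x * M.τ (Pi.single j 1) ^ s) ⁻¹' (Dp \ D₀) := by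
    rintro x ⟨hx, hbad⟩
    by_contra hcon
    rw [mem_iUnion] at hcon
    push Not at hcon
    refine hbad (opNorm_le_of_basis (by positivity) fun j => ?_)
    have hx' : x * M.τ (Pi.single j 1) ^ s ∈ D₀ := by
      by_contra h1
      exact hcon j ⟨hD.sub x (hD₀D hx) _ (hls j), h1⟩
    have h2 := hT x hx _ hx' (by rw [inv_mul_cancel_left]; exact hls j)
    have h3 := h.f_lipC x (x * M.τ (Pi.single j 1) ^ s)
    rw [inv_mul_cancel_left] at h2 h3
    have h4 : M.θ (M.τ (Pi.single j 1) ^ s) = (s : ℝ) • (Pi.single j 1 : Ht k) := by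
      rw [θ_powC, θ_τC]
      congr 1
      funext i
      by_cases hij : i = j
      · subst hij; simp [ht]
      · simp [ht, Pi.single_eq_of_ne hij]
    rw [h4, map_smul] at h2
    refine num_norm hC0 hK hLt hr1 hs2 hε1 hr0 ?_
    have h5 : ‖(s : ℝ) • T x (Pi.single j 1)‖ ≤ M.C0 * (K * (r + 2 * M.C0 + 1)) + ε * r := by
      have e : (s : ℝ) • T x (Pi.single j 1) =
          (M.f F (x * M.τ (Pi.single j 1) ^ s) - M.f F x) -
          (M.f F (x * M.τ (Pi.single j 1) ^ s) - M.f F x - (s : ℝ) • T x (Pi.single j 1)) := by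
        abel
      rw [e]
      refine (norm_sub_le _ _).trans (add_le_add (h3.trans ?_) h2)
      have := hls j
      gcongr
    rwa [norm_smul, Real.norm_of_nonneg (Nat.cast_nonneg _)] at h5
  have hdiff : M.μ (Dp \ D₀) ≤ ENNReal.ofReal (ε + κ) * M.μ D := by
    have h3 : Dp \ D₀ ⊆ (D \ D₀) ∪ (Dp \ D) := by
      rintro z ⟨hz, hz'⟩
      by_cases hzD : z ∈ D
      · exact Or.inl ⟨hzD, hz'⟩
      · exact Or.inr ⟨hz, hzD⟩
    refine (measure_mono h3).trans ((measure_union_le _ _).trans ?_)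
    rw [ENNReal.ofReal_add hε hκ, add_mul]
    exact add_le_add hD₀ (hD.diff hr0.le hκ)
  refine (measure_mono hsub).trans ((measure_iUnion_le _).trans ?_)
  rw [tsum_fintype]
  refine (Finset.sum_le_sum fun j _ => (mu_mul_le _ _).trans hdiff).trans ?_
  rw [Finset.sum_const, Finset.card_univ, Fintype.card_fin, nsmul_eq_mul, ← mul_assoc]
  gcongr
  rw [← ENNReal.ofReal_natCast, ← ENNReal.ofReal_mul (Nat.cast_nonneg _)]

end RModel

end Vale.Agent.P188.Z1
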