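import Vale.Agent.P188.Z1.Coh4

/-!
# P188, Z1, block COH, part 5: rays
-/

set_option linter.all false

open MeasureTheory Set
open scoped ENNReal
open Agent.P188.H428 (IsLen)
open Vale.Agent.P188.H530 (hgt hgt_mul badSumP meas_bad_le exists_good exists_max_norm)

namespace Vale.Agent.P188.Z1

namespace RModel

variable {S : Type} [Group S] [MeasurableSpace S] {Γ : Type} [Group Γ]
  {V : Type} [AddCommGroup V] [Module ℝ V] {k : ℕ} {M : RModel S Γ V k}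

/-- numerical facts: the increase survives the errors -/
theorem num_ray {r r₁ LV C0 K B η κ₃ ε q fn fi f0 y i e1 : ℝ} (hC0 : 0 ≤ C0) (hK : 0 ≤ K)
    (hB : 0 ≤ B) (hLV : 1 ≤ LV) (hη : 0 < η) (hr₁ : 0 < r₁) (hrr : r = LV * r₁)
    (hκ₃ : κ₃ * (4 * (B * C0 * K * LV + 1)) ≤ η) (hκ₃0 : 0 ≤ κ₃) (hq : q ≤ κ₃ * r₁)
    (hr2 : 4 * (B * C0 * K * (2 * C0 + 1)) ≤ η * r₁)
    (hε : ε * (4 * (B * LV + 1)) ≤ η) (hε0 : 0 ≤ ε)
    (h1 : f0 + η * r₁ < fn) (h2 : fn - fi ≤ B * (C0 * (K * (q * LV + 2 * C0 + 1))))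
    (h3 : fi - f0 - i * y ≤ B * e1) (he1 : e1 ≤ ε * r) (hi : 0 ≤ i) : 0 < y := by
  have a1 : B * (C0 * (K * (q * LV))) ≤ η * r₁ / 4 := by
    have h4 : q * LV ≤ κ₃ * r₁ * LV := by gcongr
    calc B * (C0 * (K * (q * LV))) ≤ B * (C0 * (K * (κ₃ * r₁ * LV))) := by gcongr
      _ = κ₃ * (B * C0 * K * LV) * r₁ := by ring
      _ ≤ η / 4 * r₁ := by
          gcongr
          nlinarith
      _ = _ := by ring
  have a2 : B * (C0 * (K * (2 * C0 + 1))) ≤ η * r₁ / 4 := by linarith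
  have a3 : B * e1 ≤ η * r₁ / 4 := by
    calc B * e1 ≤ B * (ε * r) := by gcongr
      _ = ε * (B * LV) * r₁ := by rw [hrr]; ring
      _ ≤ η / 4 * r₁ := by
          gcongr
          nlinarith
      _ = _ := by ring
  have a4 : B * (C0 * (K * (q * LV + 2 * C0 + 1))) =
      B * (C0 * (K * (q * LV))) + B * (C0 * (K * (2 * C0 + 1))) := by ring
  have a5 : 0 < η * r₁ := by positivity
  have a6 : 0 < i * y := by linarith
  by_contra hy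
  push Not at hy
  have := mul_nonpos_of_nonneg_of_nonpos hi hy
  linarith

open Classical in
/-- At most points `x` of `D`, most points `x * τ v ^ n` are in `D₀`. -/
theorem LinOn.line {K L ε κ r R : ℝ} {F F' : Γ → Γ} {D Dp D₀ : Set S}
    {T : S → Ht k →L[ℝ] Ht k} (h : M.LinOn K L ε κ r R F F' D Dp D₀ T) (hR : 0 ≤ R) (hε : 0 ≤ ε)
    (hκ : 0 ≤ κ) {ε₂ : ℝ} (h1 : ε ≤ ε₂) (h2 : κ ≤ ε₂) (t : S) {N q : ℕ}
    (ht : N * (M.l t : ℝ) ≤ R) :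
    M.μ.real {x ∈ D | q < ((Finset.range (N + 1)).filter fun i => ¬ x * t ^ i ∈ D₀).card} ≤
      4 * ε₂ * (N + 1) / (q + 1) * M.μ.real D := by
  have key := meas_bad_le (μ := M.μ) (G := S) (fun x g => x * g) (D := D) (D₀ := D₀)
    h.fat.meas h.fat.fin (fun _ i => t ^ i) {1} N q (ε := ε₂) (fun u _ i _ => M.mp _)
    ((h.mostR hε).trans (mul_le_mul_of_nonneg_right h1 measureReal_nonneg))
    (fun u _ i hi => (h.fat.move hR hκ (by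
      refine (l_powC _ _).trans (le_trans ?_ ht)
      have : (i : ℝ) ≤ N := by exact_mod_cast hi
      gcongr)).trans (mul_le_mul_of_nonneg_right h2 measureReal_nonneg))
    (Finset.singleton_nonempty _)
  refine (measureReal_mono ?_ (ne_top_of_le_ne_top h.fat.fin
    (measure_mono (Set.sep_subset _ _)))).trans key
  rintro x ⟨hx, hq⟩
  refine ⟨hx, ?_⟩
  simp only [Finset.card_singleton, mul_one, badSumP, Finset.sum_singleton]
  have : q + 1 ≤ ((Finset.range (N + 1)).filter fun i => ¬ x * t ^ i ∈ D₀).card := hq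
  rcases Nat.eq_zero_or_pos q with h0 | h0 <;> omega

open Classical in
/-- A good point: the increase of `b ∘ f` along `t ^ n` gives `0 < b (T x θ t)`. -/
theorem LinOn.good_ray {K L ε κ r R : ℝ} {F F' : Γ → Γ} {D Dp D₀ : Set S}
    {T : S → Ht k →L[ℝ] Ht k} (h : M.LinOn K L ε κ r R F F' D Dp D₀ T)
    {b : Ht k →L[ℝ] ℝ} {B LV η r₁ κ₃ : ℝ} (hB : ‖b‖ ≤ B) {t : S} (hLV1 : 1 ≤ LV)
    (hLV : (M.l t : ℝ) ≤ LV)
    (hη : 0 < η) (hr₁ : 0 < r₁) (hrr : r = LV * r₁)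
    (hκ₃ : κ₃ * (4 * (B * M.C0 * K * LV + 1)) ≤ η) (hκ₃0 : 0 ≤ κ₃)
    (hr2 : 4 * (B * M.C0 * K * (2 * M.C0 + 1)) ≤ η * r₁)
    (hε : ε * (4 * (B * LV + 1)) ≤ η) (hε0 : 0 ≤ ε) {N q : ℕ} (hN : (N : ℝ) ≤ r₁) (hqN : q ≤ N)
    (hq : (q : ℝ) ≤ κ₃ * r₁) {x : S} (hx : x ∈ D₀)
    (hcard : ((Finset.range (N + 1)).filter fun i => ¬ x * t ^ i ∈ D₀).card ≤ q)
    {n : ℕ} (hn : n ≤ N) (hinc : b (M.f F x) + η * r₁ < b (M.f F (x * t ^ n))) :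
    0 < b (T x (M.θ t)) := by
  have hC0 := M.C0_nn
  have hK := h.qi.nonneg
  have hB0 : 0 ≤ B := (norm_nonneg _).trans hB
  obtain ⟨i, hi, hgd, hij, hji⟩ := exists_good (fun i => ¬ x * t ^ i ∈ D₀) hqN hcard n hn
  have hgd' : x * t ^ i ∈ D₀ := by
    by_contra hcon
    exact hgd hcon
  have hli : (M.l (t ^ i) : ℝ) ≤ r := by
    refine (l_powC _ _).trans ?_
    have h1 : (i : ℝ) ≤ N := by exact_mod_cast hi
    calc (i : ℝ) * M.l t ≤ r₁ * LV := by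
          have : (i : ℝ) ≤ r₁ := h1.trans hN
          gcongr
      _ = r := by rw [hrr]; ring
  have hl := (h.lin x hx _ hgd' (by rw [inv_mul_cancel_left]; exact hli)).1
  rw [inv_mul_cancel_left, θ_powC, map_smul] at hl
  -- the difference between `n` and `i`
  have hd : ‖M.f F (x * t ^ n) - M.f F (x * t ^ i)‖ ≤
      M.C0 * (K * (q * LV + 2 * M.C0 + 1)) := by
    have hlip := h.qi.f_lipC (x * t ^ i) (x * t ^ n)
    refine hlip.trans ?_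
    have h3 : (M.l ((x * t ^ i)⁻¹ * (x * t ^ n)) : ℝ) ≤ q * LV := by
      rcases le_total i n with hin | hin
      · obtain ⟨d, rfl⟩ := Nat.exists_eq_add_of_le hin
        have e : (x * t ^ i)⁻¹ * (x * t ^ (i + d)) = t ^ d := by
          rw [pow_add]; group
        rw [e]
        refine (l_powC _ _).trans ?_
        have : (d : ℝ) ≤ q := by exact_mod_cast (by omega : d ≤ q)
        gcongr
      · obtain ⟨d, rfl⟩ := Nat.exists_eq_add_of_le hin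
        have e : (x * t ^ (n + d))⁻¹ * (x * t ^ n) = (t ^ d)⁻¹ := by
          rw [pow_add]; group
        rw [e, M.len.inv]
        refine (l_powC _ _).trans ?_
        have : (d : ℝ) ≤ q := by exact_mod_cast (by omega : d ≤ q)
        gcongr
    gcongr
  have h4 : b (M.f F (x * t ^ n)) - b (M.f F (x * t ^ i)) ≤
      B * (M.C0 * (K * (q * LV + 2 * M.C0 + 1))) := by
    rw [← map_sub]
    refine (le_abs_self _).trans ?_
    rw [← Real.norm_eq_abs]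
    exact (b.le_opNorm _).trans (mul_le_mul hB hd (norm_nonneg _) hB0)
  have h5 : b (M.f F (x * t ^ i)) - b (M.f F x) - i * b (T x (M.θ t)) ≤
      B * ‖M.f F (x * t ^ i) - M.f F x - (i : ℝ) • T x (M.θ t)‖ := by
    have e : b (M.f F (x * t ^ i)) - b (M.f F x) - i * b (T x (M.θ t)) =
        b (M.f F (x * t ^ i) - M.f F x - (i : ℝ) • T x (M.θ t)) := by
      rw [map_sub, map_sub, map_smul, smul_eq_mul]
    rw [e]
    refine (le_abs_self _).trans ?_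
    rw [← Real.norm_eq_abs]
    exact (b.le_opNorm _).trans (mul_le_mul_of_nonneg_right hB (norm_nonneg _))
  exact num_ray hC0 hK hB0 hLV1 hη hr₁ hrr hκ₃ hκ₃0 hq hr2 hε hε0 hinc h4 h5 hl
    (Nat.cast_nonneg i)

/-- the constant `κ₃` and the number of steps -/
theorem num_count {r₁ κ₃ ε₂ κ' c : ℝ} (hr₁ : 2 ≤ r₁) (hκ₃ : 0 < κ₃)
    (hε₂ : 0 ≤ ε₂) (hc : 0 ≤ c) (h : ε₂ * (16 * (c + 1)) ≤ κ' * κ₃) :
    c * (4 * ε₂ * ((⌊r₁⌋₊ : ℝ) + 1) / ((⌊κ₃ * ⌊r₁⌋₊⌋₊ : ℝ) + 1)) ≤ κ' / 2 := by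
  have h1 := Nat.lt_floor_add_one (κ₃ * (⌊r₁⌋₊ : ℝ))
  have h2 : (1 : ℝ) ≤ (⌊r₁⌋₊ : ℝ) := by
    have : 1 ≤ ⌊r₁⌋₊ := Nat.floor_pos.mpr (by linarith)
    exact_mod_cast this
  have h3 : 0 < κ₃ * (⌊r₁⌋₊ : ℝ) := by positivity
  have h4 : 4 * ε₂ * ((⌊r₁⌋₊ : ℝ) + 1) / ((⌊κ₃ * ⌊r₁⌋₊⌋₊ : ℝ) + 1) ≤ 8 * ε₂ / κ₃ := by
    rw [div_le_div_iff₀ (by positivity) hκ₃]
    calc 4 * ε₂ * ((⌊r₁⌋₊ : ℝ) + 1) * κ₃ ≤ 4 * ε₂ * ((⌊r₁⌋₊ : ℝ) + ⌊r₁⌋₊) * κ₃ := by gcongr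
      _ = 8 * ε₂ * (κ₃ * ⌊r₁⌋₊) := by ring
      _ ≤ 8 * ε₂ * ((⌊κ₃ * ⌊r₁⌋₊⌋₊ : ℝ) + 1) := by gcongr
  calc c * (4 * ε₂ * ((⌊r₁⌋₊ : ℝ) + 1) / ((⌊κ₃ * ⌊r₁⌋₊⌋₊ : ℝ) + 1)) ≤ c * (8 * ε₂ / κ₃) := by
        gcongr
    _ ≤ κ' / 2 := by
        rw [mul_div_assoc', div_le_div_iff₀ hκ₃ (by norm_num)]
        nlinarith

theorem exists_exp_small {c κ' : ℝ} (A : ℝ) (hc : 0 < c) (hκ' : 0 < κ') :
    ∃ r₀ : ℝ, ∀ r : ℝ, r₀ ≤ r → A * Real.exp (-(c * r)) ≤ κ' := by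
  have h1 : Filter.Tendsto (fun r : ℝ => A * Real.exp (-(c * r))) Filter.atTop (nhds (A * 0)) := by
    refine Filter.Tendsto.const_mul A ?_
    refine Real.tendsto_exp_atBot.comp ?_
    exact Filter.tendsto_neg_atTop_atBot.comp (Filter.tendsto_id.const_mul_atTop hc)
  rw [mul_zero] at h1
  obtain ⟨r₀, hr₀⟩ := (h1.eventually (ge_mem_nhds hκ')).exists_forall_of_atTop
  exact ⟨r₀, hr₀⟩

end RModel

end Vale.Agent.P188.Z1
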