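import Vale.Agent.P188.Z1.Coh5

/-!
# P188, Z1, block COH, part 6: rays at most points
-/

set_option linter.all false

open MeasureTheory Set
open scoped ENNReal
open Agent.P188.H428 (IsLen)
open Vale.Agent.P188.H530 (hgt hgt_mul badSumP meas_bad_le exists_good exists_max_norm)

namespace Vale.Agent.P188.Z1

namespace RModel

variable {S : Type} [Group S] [MeasurableSpace S] {Γ : Type} [Group Γ]
  {V : Type} [AddCommGroup V] [Module ℝ V] {k : ℕ} {M : RModel S Γ V k}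

theorem exists_len_bound (M : RModel S Γ V k) (V₀ : Finset (Fin k → ℤ)) :
    ∃ LV : ℝ, 1 ≤ LV ∧ ∀ v ∈ V₀, (M.l (M.τ v) : ℝ) ≤ LV := by
  refine ⟨1 + ∑ v ∈ V₀, (M.l (M.τ v) : ℝ), ?_, fun v hv => ?_⟩
  · have : 0 ≤ ∑ v ∈ V₀, (M.l (M.τ v) : ℝ) := Finset.sum_nonneg fun j _ => Nat.cast_nonneg _
    linarith
  · have := Finset.single_le_sum (f := fun v : Fin k → ℤ => (M.l (M.τ v) : ℝ))
      (fun i _ => Nat.cast_nonneg _) hv
    linarith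

/-- the union bound -/
theorem union_bound {D : Set S} (hD : M.μ D ≠ ⊤) (V₀ : Finset (Fin k → ℤ))
    (Φ : Finset (Ht k →L[ℝ] ℝ)) (X : Set S) (B₁ : (Fin k → ℤ) → Set S)
    (B₂ : (Ht k →L[ℝ] ℝ) → Set S) (hB₁ : ∀ v ∈ V₀, B₁ v ⊆ D) (hB₂ : ∀ b ∈ Φ, B₂ b ⊆ D)
    (hX : X ⊆ (⋃ v ∈ V₀, B₁ v) ∪ ⋃ b ∈ Φ, B₂ b) {a₁ a₂ κ' : ℝ}
    (h1 : ∀ v ∈ V₀, M.μ.real (B₁ v) ≤ a₁ * M.μ.real D)
    (h2 : ∀ b ∈ Φ, M.μ.real (B₂ b) ≤ a₂ * M.μ.real D) (h3 : V₀.card * a₁ ≤ κ' / 2)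
    (h4 : Φ.card * a₂ ≤ κ' / 2) : M.μ.real X ≤ κ' * M.μ.real D := by
  have hfin : M.μ ((⋃ v ∈ V₀, B₁ v) ∪ ⋃ b ∈ Φ, B₂ b) ≠ ⊤ := by
    refine ne_top_of_le_ne_top hD (measure_mono ?_)
    rintro x (hx | hx)
    · rw [mem_iUnion₂] at hx
      obtain ⟨v, hv, hx⟩ := hx
      exact hB₁ v hv hx
    · rw [mem_iUnion₂] at hx
      obtain ⟨v, hv, hx⟩ := hx
      exact hB₂ v hv hx
  have hD0 : 0 ≤ M.μ.real D := measureReal_nonneg
  refine (measureReal_mono hX hfin).trans ((measureReal_union_le _ _).trans ?_)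
  have e1 : M.μ.real (⋃ v ∈ V₀, B₁ v) ≤ κ' / 2 * M.μ.real D := by
    refine (measureReal_biUnion_finset_le V₀ B₁).trans ((Finset.sum_le_sum h1).trans ?_)
    rw [Finset.sum_const, nsmul_eq_mul, ← mul_assoc]
    gcongr
  have e2 : M.μ.real (⋃ b ∈ Φ, B₂ b) ≤ κ' / 2 * M.μ.real D := by
    refine (measureReal_biUnion_finset_le Φ B₂).trans ((Finset.sum_le_sum h2).trans ?_)
    rw [Finset.sum_const, nsmul_eq_mul, ← mul_assoc]
    gcongr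
  linarith

/-- **Rays.** -/
theorem rayT (M : RModel S Γ V k) (hRAY : M.RAY) (K L : ℝ) (V₀ : Finset (Fin k → ℤ))
    (hV₀ : ∀ v ∈ V₀, M.Generic v) {κ' : ℝ} (hκ' : 0 < κ') :
    ∃ (ε₀ Cf r₀ : ℝ), 0 < ε₀ ∧ ∀ r : ℝ, r₀ ≤ r → ∀ ε κ R : ℝ, 0 ≤ ε → ε ≤ ε₀ → 0 ≤ κ → κ ≤ ε₀ →
      Cf * r ≤ R → ∀ (F F' : Γ → Γ) (D Dp D₀ : Set S) (T : S → Ht k →L[ℝ] Ht k),
      M.LinOn K L ε κ r R F F' D Dp D₀ T →
      M.μ.real {x ∈ D | x ∈ D₀ ∧ ¬ ∀ b ∈ M.Φ, ∃ b' ∈ M.Φ, ∀ v ∈ V₀, 0 < b' (ht v) →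
        0 ≤ b (T x (ht v))} ≤ κ' * M.μ.real D := by
  classical
  have hC0 := M.C0_nn
  by_cases hK : 0 ≤ K
  swap
  · refine ⟨1, 0, 0, one_pos, ?_⟩
    intro r _ ε κ R _ _ _ _ _ F F' D Dp D₀ T h
    exact absurd h.qi.nonneg hK
  obtain ⟨LV, hLV1, hLV⟩ := exists_len_bound M V₀
  obtain ⟨B, hB0, hB⟩ := exists_max_norm M.Φ
  obtain ⟨η, c₀, CR, rR, hη, hc₀, HR⟩ := hRAY K V₀ hV₀
  set κ₃ : ℝ := min 1 (η / (4 * (B * M.C0 * K * LV + 1))) with hκ₃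
  have hκ₃0 : 0 < κ₃ := lt_min one_pos (by positivity)
  have hκ₃1 : κ₃ ≤ 1 := min_le_left _ _
  have hκ₃2 : κ₃ * (4 * (B * M.C0 * K * LV + 1)) ≤ η := by
    have : κ₃ ≤ η / (4 * (B * M.C0 * K * LV + 1)) := min_le_right _ _
    rwa [le_div_iff₀ (by positivity)] at this
  obtain ⟨re, hre⟩ := exists_exp_small (M.Φ.card : ℝ) hc₀ (half_pos hκ')
  set ε₀ : ℝ := min (min 1 (η / (4 * (B * LV + 1)))) (κ' * κ₃ / (16 * ((V₀.card : ℝ) + 1)))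
    with hε₀
  have hε₀0 : 0 < ε₀ := lt_min (lt_min one_pos (by positivity)) (by positivity)
  have hε₀1 : ε₀ * (4 * (B * LV + 1)) ≤ η := by
    have : ε₀ ≤ η / (4 * (B * LV + 1)) := (min_le_left _ _).trans (min_le_right _ _)
    rwa [le_div_iff₀ (by positivity)] at this
  have hε₀2 : ε₀ * (16 * ((V₀.card : ℝ) + 1)) ≤ κ' * κ₃ := by
    have : ε₀ ≤ κ' * κ₃ / (16 * ((V₀.card : ℝ) + 1)) := min_le_right _ _
    rwa [le_div_iff₀ (by positivity)] at this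
  have hε₀3 : ε₀ ≤ 1 := (min_le_left _ _).trans (min_le_left _ _)
  refine ⟨ε₀, max 1 |CR|, LV * max (max rR re)
    (max 2 (4 * (B * M.C0 * K * (2 * M.C0 + 1)) / η)), hε₀0, ?_⟩
  intro r hr ε κ R hε0 hε hκ0 hκ hR F F' D Dp D₀ T h
  obtain ⟨r₁, hr₁⟩ : ∃ r₁ : ℝ, r₁ = r / LV := ⟨_, rfl⟩
  have hLV0 : 0 < LV := by linarith
  have hrr : r = LV * r₁ := by rw [hr₁]; field_simp
  have hr₁' : max (max rR re) (max 2 (4 * (B * M.C0 * K * (2 * M.C0 + 1)) / η)) ≤ r₁ := by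
    rw [hrr] at hr
    exact le_of_mul_le_mul_left hr hLV0
  simp only [max_le_iff] at hr₁'
  obtain ⟨⟨k1, k2⟩, k3, k4⟩ := hr₁'
  have hr₁0 : 0 < r₁ := by linarith
  have k4' : 4 * (B * M.C0 * K * (2 * M.C0 + 1)) ≤ η * r₁ := by
    rw [div_le_iff₀ hη] at k4; linarith
  have hr₁r : r₁ ≤ r := by rw [hrr]; nlinarith
  have hr0 : 0 ≤ r := by linarith
  have hrR : r ≤ R := by
    refine le_trans ?_ hR
    have : 1 * r ≤ max 1 |CR| * r := mul_le_mul_of_nonneg_right (le_max_left _ _) hr0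
    linarith
  have hCR : CR * r₁ ≤ R := by
    refine le_trans ?_ hR
    calc CR * r₁ ≤ |CR| * r₁ := mul_le_mul_of_nonneg_right (le_abs_self _) hr₁0.le
      _ ≤ |CR| * r := by gcongr
      _ ≤ _ := mul_le_mul_of_nonneg_right (le_max_right _ _) hr0
  have hfat : M.Fat (CR * r₁) 1 D Dp := by
    refine ⟨h.fat.meas, h.fat.meas', h.fat.pos, h.fat.fin,
      fun z hz g hg => h.fat.sub z hz g (hg.trans hCR), h.fat.le.trans ?_⟩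
    gcongr
    linarith
  set N : ℕ := ⌊r₁⌋₊ with hN
  set q : ℕ := ⌊κ₃ * N⌋₊ with hq
  have hN1 : (N : ℝ) ≤ r₁ := Nat.floor_le hr₁0.le
  have hN0 : (0 : ℝ) ≤ N := Nat.cast_nonneg _
  have hq1 : (q : ℝ) ≤ κ₃ * N := Nat.floor_le (by positivity)
  have hqN : q ≤ N := by
    have : (q : ℝ) ≤ N := by nlinarith
    exact_mod_cast this
  have hq2 : (q : ℝ) ≤ κ₃ * r₁ := hq1.trans (by gcongr)
  refine union_bound h.fat.fin V₀ M.Φ _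
    (fun v => {x ∈ D | q < ((Finset.range (N + 1)).filter fun i => ¬ x * M.τ v ^ i ∈ D₀).card})
    (fun b => {x | x ∈ D ∧ ∀ b' ∈ M.Φ, ∃ v ∈ V₀, 0 < b' (ht v) ∧
        ∀ n : ℕ, (n : ℝ) ≤ r₁ → b (M.f F (x * M.τ v ^ n)) ≤ b (M.f F x) + η * r₁})
    (fun v _ => Set.sep_subset _ _) (fun b _ x hx => hx.1) ?_
    (a₁ := 4 * ε₀ * ((N : ℝ) + 1) / ((q : ℝ) + 1)) (a₂ := Real.exp (-(c₀ * r₁))) ?_ ?_ ?_ ?_
  · rintro x ⟨hxD, hx, hbad⟩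
    by_contra hcon
    rw [mem_union, not_or, mem_iUnion₂, mem_iUnion₂] at hcon
    push Not at hcon
    obtain ⟨hc1, hc2⟩ := hcon
    refine hbad fun b hb => ?_
    have h5 := hc2 b hb
    simp only [mem_setOf_eq, not_and, not_forall, not_exists, not_le] at h5
    obtain ⟨b', hb', h6⟩ := h5 hxD
    refine ⟨b', hb', fun v hv hbv => ?_⟩
    obtain ⟨n, hn, hinc⟩ := h6 v hv hbv
    have h7 := hc1 v hv
    simp only [mem_setOf_eq, not_and, not_lt] at h7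
    have h8 := h7 hxD
    have hnN : n ≤ N := Nat.le_floor hn
    have h9 := h.good_ray (hB b hb) hLV1 (hLV v hv) hη hr₁0 hrr hκ₃2 hκ₃0.le k4'
      (by
        have : ε * (4 * (B * LV + 1)) ≤ ε₀ * (4 * (B * LV + 1)) := by gcongr
        linarith) hε0 hN1 hqN hq2 hx h8 hnN hinc
    rw [θ_τC] at h9
    exact h9.le
  · intro v hv
    exact h.line (hr0.trans hrR) hε0 hκ0 hε hκ (M.τ v) (by
      calc (N : ℝ) * M.l (M.τ v) ≤ r₁ * LV := by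
            have := hLV v hv
            gcongr
        _ = r := by rw [hrr]; ring
        _ ≤ R := hrR)
  · intro b hb
    exact real_of_le (Real.exp_pos _).le h.fat.fin (HR r₁ k1 F F' h.qi b hb D Dp hfat)
  · exact num_count k3 hκ₃0 hε₀0.le (Nat.cast_nonneg _) hε₀2
  · exact hre r₁ k2

end RModel

end Vale.Agent.P188.Z1
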