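import Vale.Agent.P188.Z1.Coh6

/-!
# P188, Z1, block COH, part 7: good linear parts
-/

set_option linter.all false

open MeasureTheory Set
open scoped ENNReal
open Agent.P188.H428 (IsLen)
open Vale.Agent.P188.H530 (hgt hgt_mul Crossed Mod TrP RayLin psi_pat rayMap_eq_of_pat
  exists_max_norm exists_rayLin exists_net_rays iv)

namespace Vale.Agent.P188.Z1

/-- parameters of the good linear parts -/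
structure Par where
  L : ℝ
  c₁ : ℝ
  t₀ : ℝ
  t₁ : ℝ
  δ : ℝ
  C : ℝ
  W : ℝ
  ε : ℝ
  c : ℕ
  K : ℕ
  P : Finset (ℕ × ℝ)

namespace RModel

variable {S : Type} [Group S] [MeasurableSpace S] {Γ : Type} [Group Γ]
  {V : Type} [AddCommGroup V] [Module ℝ V] {k : ℕ}

/-- good linear parts -/
structure GT (M : RModel S Γ V k) (Φ₁ : Finset (Ht k →L[ℝ] ℝ)) (q : Par) (n : ℕ)
    (T : Ht k →L[ℝ] Ht k) : Prop where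
  norm : ‖T‖ ≤ q.L
  tr : TrP (hgt (M.η.comp M.inG)) M.A (hgt (M.η.comp M.inG)) M.A q.c q.K q.C q.W q.ε n q.P T
  inv : M.HasInv q.c q.K q.C q.W q.ε n q.P q.c₁ q.δ T
  ray : ∃ β t, RayLin Φ₁ T β t q.t₀ q.t₁ q.δ

variable {M : RModel S Γ V k}

theorem Rays.span {Φ₁ : Finset (Ht k →L[ℝ] ℝ)} (h : M.Rays Φ₁) (w : Ht k)
    (hw : ∀ b ∈ Φ₁, b w = 0) : w = 0 := by
  refine M.Φ_span w fun b hb => ?_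
  obtain ⟨b₁, hb₁, t, -, rfl⟩ := h.ex b hb
  rw [ContinuousLinearMap.smul_apply, hw b₁ hb₁, smul_zero]

theorem Rays.crossed {Φ₁ : Finset (Ht k →L[ℝ] ℝ)} (h : M.Rays Φ₁) :
    ∀ b ∈ Φ₁, ∃ c : Crossed (hgt (M.η.comp M.inG)) b, c.u ∈ M.A :=
  fun b hb => M.crossed b (h.sub hb)

/-- minimum of `|b v|` over finite sets -/
theorem exists_min_pair (Φ₁ : Finset (Ht k →L[ℝ] ℝ)) (V₁ : Finset (Fin k → ℤ))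
    (h : ∀ b ∈ Φ₁, ∀ v ∈ V₁, b (ht v) ≠ 0) :
    ∃ δ₁ : ℝ, 0 < δ₁ ∧ ∀ v ∈ V₁, ∀ b ∈ Φ₁, δ₁ ≤ |b (ht v)| := by
  classical
  rcases (Φ₁ ×ˢ V₁).eq_empty_or_nonempty with he | hne
  · refine ⟨1, one_pos, fun v hv b hb => ?_⟩
    have : (b, v) ∈ Φ₁ ×ˢ V₁ := Finset.mem_product.mpr ⟨hb, hv⟩
    rw [he] at this
    exact absurd this (Finset.notMem_empty _)
  · refine ⟨(Φ₁ ×ˢ V₁).inf' hne fun x => |x.1 (ht x.2)|, ?_, fun v hv b hb => ?_⟩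
    · rw [Finset.lt_inf'_iff]
      intro x hx
      rw [Finset.mem_product] at hx
      exact abs_pos.mpr (h _ hx.1 _ hx.2)
    · exact Finset.inf'_le (f := fun x : (Ht k →L[ℝ] ℝ) × (Fin k → ℤ) => |x.1 (ht x.2)|)
        (Finset.mem_product.mpr ⟨hb, hv⟩ : (b, v) ∈ Φ₁ ×ˢ V₁)

theorem exists_max_ht (V₁ : Finset (Fin k → ℤ)) :
    ∃ B : ℝ, 0 < B ∧ ∀ v ∈ V₁, ‖(ht v : Ht k)‖ ≤ B := by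
  refine ⟨1 + ∑ v ∈ V₁, ‖(ht v : Ht k)‖, ?_, fun v hv => ?_⟩
  · have : 0 ≤ ∑ v ∈ V₁, ‖(ht v : Ht k)‖ := Finset.sum_nonneg fun j _ => norm_nonneg _
    linarith
  · have := Finset.single_le_sum (f := fun v : Fin k → ℤ => ‖(ht v : Ht k)‖)
      (fun i _ => norm_nonneg _) hv
    linarith

/-- the label of a linear map: pattern of signs -/
def patF (Φ₁ : Finset (Ht k →L[ℝ] ℝ)) (V₁ : Finset (Fin k → ℤ)) (T : Ht k →L[ℝ] Ht k) :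
    V₁ → Set (Ht k →L[ℝ] ℝ) :=
  fun v => {b | b ∈ Φ₁ ∧ 0 < b (T (ht (v : Fin k → ℤ)))}

theorem GT.label {Φ₁ : Finset (Ht k →L[ℝ] ℝ)} {q : Par} {n : ℕ} {T : Ht k →L[ℝ] Ht k}
    (h : M.GT Φ₁ q n T) (hΦ₁ : M.Rays Φ₁) {V₁ : Finset (Fin k → ℤ)} (hV₁ : M.Dirs Φ₁ V₁)
    {δ₁ c₀ VB : ℝ} (hδ₁ : 0 < δ₁) (hδ₁' : ∀ v ∈ V₁, ∀ b ∈ Φ₁, δ₁ ≤ |b (ht v)|)
    (hVB : ∀ v ∈ V₁, ‖(ht v : Ht k)‖ ≤ VB) (ht₀ : 0 ≤ q.t₀) (hδ : 0 ≤ q.δ) (hc₀ : 0 < c₀)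
    (hc : c₀ + q.δ * VB ≤ q.t₀ * δ₁) :
    ∀ v : V₁, (∀ b ∈ Φ₁, (b ∈ patF Φ₁ V₁ T v → c₀ ≤ b (T (ht v))) ∧
          (b ∉ patF Φ₁ V₁ T v → b (T (ht v)) ≤ -c₀)) ∧
        (patF Φ₁ V₁ T v).ncard = {b | b ∈ Φ₁ ∧ 0 < b (ht (v : Fin k → ℤ))}.ncard ∧
        patF Φ₁ V₁ T v ⊆ ↑Φ₁ := by
  obtain ⟨β, t, hr⟩ := h.ray
  rintro ⟨v, hv⟩
  have hs := hr.sign (v := ht v) (δ₁ := δ₁) (c₀ := c₀) hδ₁.le ht₀ (hδ₁' v hv)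
    (fun b hb => hV₁.generic v hv b (M.Φ_sub (hΦ₁.sub hb)) (M.Φ_ne b (hΦ₁.sub hb)))
    (by
      have := mul_le_mul_of_nonneg_left (hVB v hv) hδ
      linarith)
  refine ⟨fun b hb => ⟨fun h1 => ?_, fun h1 => ?_⟩, hr.ncard hc₀ hs, fun b hb => hb.1⟩
  · rcases hs b hb with h2 | h2
    · exact h2.2
    · have : 0 < b (T (ht v)) := h1.2
      linarith [h2.2]
  · rcases hs b hb with h2 | h2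
    · exact absurd ⟨hb, by linarith [h2.2]⟩ h1
    · exact h2.2

/-- Good linear parts with the same label are close. -/
theorem GT.close {Φ₁ : Finset (Ht k →L[ℝ] ℝ)} {q : Par} {n : ℕ} {T₁ T₂ : Ht k →L[ℝ] Ht k}
    (h1 : M.GT Φ₁ q n T₁) (h2 : M.GT Φ₁ q n T₂) (hΦ₁ : M.Rays Φ₁) {V₁ : Finset (Fin k → ℤ)}
    (hV₁ : M.Dirs Φ₁ V₁)
    {δ₁ c₀ VB κ : ℝ} (hδ₁ : 0 < δ₁) (hδ₁' : ∀ v ∈ V₁, ∀ b ∈ Φ₁, δ₁ ≤ |b (ht v)|)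
    (hVB : ∀ v ∈ V₁, ‖(ht v : Ht k)‖ ≤ VB) (ht₀ : 0 ≤ q.t₀) (hδ : 0 ≤ q.δ) (hc₀ : 0 < c₀)
    (hc : c₀ + q.δ * VB ≤ q.t₀ * δ₁) (hL : q.c₁⁻¹ ≤ q.L)
    (H : ∀ (T₁ T₂ T₁' T₂' : Ht k →L[ℝ] Ht k) (β β₂ : (Ht k →L[ℝ] ℝ) → (Ht k →L[ℝ] ℝ))
        (t s : (Ht k →L[ℝ] ℝ) → ℝ),
        ‖T₁‖ ≤ q.L → ‖T₂‖ ≤ q.L → ‖T₁'‖ ≤ q.L → ‖T₂'‖ ≤ q.L →
        TrP (hgt (M.η.comp M.inG)) M.A (hgt (M.η.comp M.inG)) M.A q.c q.K q.C q.W q.ε n q.P T₁ →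
        TrP (hgt (M.η.comp M.inG)) M.A (hgt (M.η.comp M.inG)) M.A q.c q.K q.C q.W q.ε n q.P T₂ →
        TrP (hgt (M.η.comp M.inG)) M.A (hgt (M.η.comp M.inG)) M.A q.c q.K q.C q.W q.ε n q.P T₁' →
        TrP (hgt (M.η.comp M.inG)) M.A (hgt (M.η.comp M.inG)) M.A q.c q.K q.C q.W q.ε n q.P T₂' →
        (∀ y, ‖T₁ (T₁' y) - y‖ ≤ q.δ * ‖y‖) → (∀ x, ‖T₂' (T₂ x) - x‖ ≤ q.δ * ‖x‖) →
        RayLin Φ₁ T₁ β t q.t₀ q.t₁ q.δ → RayLin Φ₁ T₂ β₂ s q.t₀ q.t₁ q.δ →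
        (∀ b ∈ Φ₁, β b = β₂ b) → ‖T₂ - T₁‖ ≤ κ)
    (hpat : patF Φ₁ V₁ T₁ = patF Φ₁ V₁ T₂) : ‖T₂ - T₁‖ ≤ κ := by
  obtain ⟨β, t, hr1⟩ := h1.ray
  obtain ⟨β₂, s, hr2⟩ := h2.ray
  obtain ⟨T₁', i1, i2, i3, i4⟩ := h1.inv
  obtain ⟨T₂', j1, j2, j3, j4⟩ := h2.inv
  refine H T₁ T₂ T₁' T₂' β β₂ t s h1.norm h2.norm (i1.trans hL) (j1.trans hL) h1.tr h2.tr i4 j4 i2
    j3 hr1 hr2 ?_
  have hs : ∀ {T : Ht k →L[ℝ] Ht k} {β : (Ht k →L[ℝ] ℝ) → (Ht k →L[ℝ] ℝ)}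
      {t : (Ht k →L[ℝ] ℝ) → ℝ} (hr : RayLin Φ₁ T β t q.t₀ q.t₁ q.δ),
      ∀ v ∈ (ht '' (V₁ : Set (Fin k → ℤ)) : Set (Ht k)), ∀ b ∈ Φ₁,
      (0 < β b v ∧ c₀ ≤ b (T v)) ∨ (β b v < 0 ∧ b (T v) ≤ -c₀) := by
    rintro T β t hr _ ⟨v, hv, rfl⟩
    exact hr.sign (v := ht v) (δ₁ := δ₁) (c₀ := c₀) hδ₁.le ht₀ (hδ₁' v hv)
      (fun b hb => hV₁.generic v hv b (M.Φ_sub (hΦ₁.sub hb)) (M.Φ_ne b (hΦ₁.sub hb)))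
      (by
        have := mul_le_mul_of_nonneg_left (hVB v hv) hδ
        linarith)
  refine rayMap_eq_of_pat hr1 hr2 hc₀ (V₁ := ht '' (V₁ : Set (Fin k → ℤ))) ?_ (hs hr1) (hs hr2) ?_
  · intro b hb b' hb' hbb
    exact hV₁.sep b hb b' hb' fun v hv => hbb _ ⟨v, hv, rfl⟩
  · rintro _ ⟨v, hv, rfl⟩ b hb hbv
    have h3 : b ∈ patF Φ₁ V₁ T₁ ⟨v, hv⟩ := ⟨hb, hbv⟩
    rw [hpat] at h3
    exact h3.2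

open Classical in
/-- the linear map chosen for a label -/
noncomputable def selT (M : RModel S Γ V k) (Φ₁ : Finset (Ht k →L[ℝ] ℝ))
    (V₁ : Finset (Fin k → ℤ)) (q : Par) (n : ℕ) (s : V₁ → Set (Ht k →L[ℝ] ℝ)) :
    Ht k →L[ℝ] Ht k :=
  if h : ∃ T, M.GT Φ₁ q n T ∧ patF Φ₁ V₁ T = s then Classical.choose h else 0

theorem selT_spec {Φ₁ : Finset (Ht k →L[ℝ] ℝ)} {V₁ : Finset (Fin k → ℤ)} {q : Par} {n : ℕ}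
    {T : Ht k →L[ℝ] Ht k} (h : M.GT Φ₁ q n T) :
    M.GT Φ₁ q n (M.selT Φ₁ V₁ q n (patF Φ₁ V₁ T)) ∧
      patF Φ₁ V₁ (M.selT Φ₁ V₁ q n (patF Φ₁ V₁ T)) = patF Φ₁ V₁ T := by
  have hex : ∃ T', M.GT Φ₁ q n T' ∧ patF Φ₁ V₁ T' = patF Φ₁ V₁ T := ⟨T, h, rfl⟩
  rw [selT, dif_pos hex]
  exact Classical.choose_spec hex

end RModel

end Vale.Agent.P188.Z1
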