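import Vale.Agent.P188.Z1.Coh7

/-!
# P188, Z1, block COH, part 8: most linear parts are good
-/

set_option linter.all false

open MeasureTheory Set
open scoped ENNReal
open Agent.P188.H428 (IsLen)
open Vale.Agent.P188.H530 (hgt hgt_mul Crossed Mod TrP RayLin psi_pat rayMap_eq_of_pat
  exists_max_norm exists_rayLin exists_net_rays iv exists_measurable_sub)

namespace Vale.Agent.P188.Z1

namespace RModel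

variable {S : Type} [Group S] [MeasurableSpace S] {Γ : Type} [Group Γ]
  {V : Type} [AddCommGroup V] [Module ℝ V] {k : ℕ} {M : RModel S Γ V k}

theorem HasInv.mono {c K : ℕ} {C W ε : ℝ} {n : ℕ} {P : Finset (ℕ × ℝ)} {c₁ ε' ε'' : ℝ}
    {T : Ht k →L[ℝ] Ht k} (h : M.HasInv c K C W ε n P c₁ ε' T) (hε : ε' ≤ ε'') :
    M.HasInv c K C W ε n P c₁ ε'' T := by
  obtain ⟨T', h1, h2, h3, h4⟩ := h
  exact ⟨T', h1, fun w => (h2 w).trans (by gcongr), fun w => (h3 w).trans (by gcongr), h4⟩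

/-- **Most linear parts are good.** -/
theorem most_GT (M : RModel S Γ V k) (hRAY : M.RAY) (K : ℝ) {Φ₁ : Finset (Ht k →L[ℝ] ℝ)}
    (hΦ₁ : M.Rays Φ₁) (q : Par) (hL : 0 ≤ q.L) (hc₁ : 0 < q.c₁) (hδ : 0 < q.δ) (hC : 1 ≤ q.C)
    (hCL : q.L ≤ q.C) (hCc : q.c₁⁻¹ ≤ q.C) (hε : 0 < q.ε) (hc : q.c = 2 * M.cnt K)
    (hK : q.K = M.stp K) (hP : ∀ p ∈ q.P, 1 ≤ p.1 ∧ 1 ≤ p.2)
    (hray : ∀ T : Ht k →L[ℝ] Ht k, ‖T‖ ≤ q.L → (∀ w, q.c₁ * ‖w‖ ≤ ‖T w‖) →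
      (∀ b ∈ Φ₁, ∃ b' ∈ M.Φ, ∃ t : ℝ, 0 ≤ t ∧ ‖b.comp T - t • b'‖ ≤ q.δ) →
      ∃ β t, RayLin Φ₁ T β t q.t₀ q.t₁ q.δ) {κ' : ℝ} (hκ' : 0 < κ') :
    ∃ Λ₂ : ℝ, 1 ≤ Λ₂ ∧ ∃ (ε₀ Cf : ℝ) (n₀ : ℕ), 0 < ε₀ ∧ ∀ n : ℕ, n₀ ≤ n →
      ∀ r : ℝ, Λ₂ * n ≤ r → r ≤ 2 * Λ₂ * n → ∀ ε' κ R : ℝ, 0 ≤ ε' → ε' ≤ ε₀ → 0 ≤ κ → κ ≤ ε₀ →
      Cf * r ≤ R → ∀ (F F' : Γ → Γ) (D Dp D₀ : Set S) (T : S → Ht k →L[ℝ] Ht k),
      M.LinOn K q.L ε' κ r R F F' D Dp D₀ T → (∀ x ∈ D₀, ∀ w, q.c₁ * ‖w‖ ≤ ‖T x w‖) →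
      M.μ.real {x ∈ D | x ∈ D₀ ∧ ¬ M.GT Φ₁ q n (T x)} ≤ κ' * M.μ.real D := by
  obtain ⟨B, hB0, hB⟩ := exists_max_norm M.Φ
  obtain ⟨V₀, hV₀, hnet⟩ := exists_net_rays M.Wt M.Φ M.Φ_ne (B * q.L) hδ
  obtain ⟨Λa, hΛa, Ha⟩ := occF (M := M) K q.L hL (C := q.C) (W := q.W) (ε := q.ε)
    (κ' := κ' / 3) hC hCL hε (by positivity) q.P hP
  obtain ⟨Λb, hΛb, Hb⟩ := occF' M K q.L q.c₁ hL hc₁ (C := q.C) (W := q.W) (ε := q.ε)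
    (κ' := κ' / 3) hC hCc hε (by positivity) q.P hP
  obtain ⟨εr, Cr, rr, hεr, Hr⟩ := rayT M hRAY K q.L V₀ hV₀ (κ' := κ' / 3) (by positivity)
  obtain ⟨Λ₂, hΛ₂⟩ : ∃ Λ₂ : ℝ, Λ₂ = max 1 (max Λa Λb) := ⟨_, rfl⟩
  have hΛ₂1 : 1 ≤ Λ₂ := by rw [hΛ₂]; exact le_max_left _ _
  obtain ⟨εa, na, hεa, Ha'⟩ := Ha Λ₂ (by rw [hΛ₂]; exact (le_max_left _ _).trans (le_max_right _ _))
  obtain ⟨εb, nb, hεb, Hb'⟩ := Hb Λ₂ (by rw [hΛ₂]; exact (le_max_right _ _).trans (le_max_right _ _))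
  obtain ⟨nr, hnr⟩ := exists_nat_ge rr
  refine ⟨Λ₂, hΛ₂1, min (min εa εb) (min εr (q.c₁ * q.δ)), max (max 1 Cr) (K + 2),
    max (max na nb) (max nr 1), lt_min (lt_min hεa hεb) (lt_min hεr (by positivity)), ?_⟩
  intro n hn r hr1 hr2 ε' κ R hε'0 hε' hκ0 hκ hR F F' D Dp D₀ T h hlow
  simp only [max_le_iff] at hn
  obtain ⟨⟨hna, hnb⟩, hnr', hn1⟩ := hn
  simp only [le_min_iff] at hε' hκ
  obtain ⟨⟨e1, e2⟩, e3, e4⟩ := hε'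
  obtain ⟨⟨k1, k2⟩, k3, -⟩ := hκ
  have hn0 : (1 : ℝ) ≤ n := by exact_mod_cast hn1
  have hnR : (n : ℝ) ≤ r := by nlinarith
  have hr0 : 0 ≤ r := by linarith
  have hrr : rr ≤ r := by
    have : (nr : ℝ) ≤ n := by exact_mod_cast hnr'
    linarith
  have hR1 : r ≤ R := by
    refine le_trans ?_ hR
    have : 1 * r ≤ max (max 1 Cr) (K + 2) * r :=
      mul_le_mul_of_nonneg_right ((le_max_left _ _).trans (le_max_left _ _)) hr0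
    linarith
  have hR2 : Cr * r ≤ R :=
    le_trans (mul_le_mul_of_nonneg_right ((le_max_right _ _).trans (le_max_left _ _)) hr0) hR
  have hR3 : (K + 2) * r ≤ R :=
    le_trans (mul_le_mul_of_nonneg_right (le_max_right _ _) hr0) hR
  have A := Ha' n hna r hr1 hr2 ε' κ R hε'0 e1 hκ0 k1 hR1 F F' D Dp D₀ T h
  have Bb := Hb' n hnb r hr1 hr2 ε' κ R hε'0 e2 hκ0 k2 hR3 F F' D Dp D₀ T h hlow
  have Cc := Hr r hrr ε' κ R hε'0 e3 hκ0 k3 hR2 F F' D Dp D₀ T h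
  rw [← hc, ← hK] at A Bb
  set X₁ : Set S := {x ∈ D | x ∈ D₀ ∧ ¬ TrP (hgt (M.η.comp M.inG)) M.A (hgt (M.η.comp M.inG)) M.A
        q.c q.K q.C q.W q.ε n q.P (T x)} with hX₁
  set X₂ : Set S := {x ∈ D | x ∈ D₀ ∧ ¬ M.HasInv q.c q.K q.C q.W q.ε n q.P q.c₁
        (q.c₁⁻¹ * ε') (T x)} with hX₂
  set X₃ : Set S := {x ∈ D | x ∈ D₀ ∧ ¬ ∀ b ∈ M.Φ, ∃ b' ∈ M.Φ, ∀ v ∈ V₀, 0 < b' (ht v) →
        0 ≤ b (T x (ht v))} with hX₃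
  have hsub : {x ∈ D | x ∈ D₀ ∧ ¬ M.GT Φ₁ q n (T x)} ⊆ (X₁ ∪ X₂) ∪ X₃ := by
    rintro x ⟨hxD, hx, hbad⟩
    by_contra hcon
    rw [mem_union, mem_union, not_or, not_or] at hcon
    obtain ⟨⟨c1, c2⟩, c3⟩ := hcon
    simp only [hX₁, hX₂, hX₃, mem_sep_iff, not_and, not_not] at c1 c2 c3
    have c1' := c1 hxD hx
    have c2' := c2 hxD hx
    have c3' := c3 hxD hx
    refine hbad ⟨h.T_le x hx, c1', c2'.mono ?_, hray (T x) (h.T_le x hx) (hlow x hx) ?_⟩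
    · rw [inv_mul_le_iff₀ hc₁]
      exact e4
    · intro b hb
      obtain ⟨b', hb', h5⟩ := c3' b (hΦ₁.sub hb)
      obtain ⟨t, ht, h6⟩ := hnet b' hb' (b.comp (T x)) (by
        refine (ContinuousLinearMap.opNorm_comp_le _ _).trans ?_
        exact mul_le_mul (hB b (hΦ₁.sub hb)) (h.T_le x hx) (norm_nonneg _) hB0.le) h5
      exact ⟨b', hb', t, ht, h6⟩
  have hfin : M.μ ((X₁ ∪ X₂) ∪ X₃) ≠ ⊤ := by
    refine ne_top_of_le_ne_top h.fat.fin (measure_mono ?_)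
    rintro x ((hx | hx) | hx)
    · exact hx.1
    · exact hx.1
    · exact hx.1
  refine (measureReal_mono hsub hfin).trans ((measureReal_union_le _ _).trans ?_)
  have := measureReal_union_le (μ := M.μ) X₁ X₂
  have hD0 : 0 ≤ M.μ.real D := measureReal_nonneg
  linarith

end RModel

end Vale.Agent.P188.Z1
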