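import Vale.Agent.P188.Z1.Coh8

/-!
# P188, Z1, block COH, part 9: one map
-/

set_option linter.all false

open MeasureTheory Set
open scoped ENNReal
open Agent.P188.H428 (IsLen)
open Vale.Agent.P188.H530 (hgt hgt_mul Crossed Mod TrP RayLin psi_pat rayMap_eq_of_pat
  exists_max_norm exists_rayLin exists_net_rays iv exists_measurable_sub)

namespace Vale.Agent.P188.Z1

namespace RModel

variable {S : Type} [Group S] [MeasurableSpace S] {Γ : Type} [Group Γ]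
  {V : Type} [AddCommGroup V] [Module ℝ V] {k : ℕ} {M : RModel S Γ V k}

theorem le_ofReal_of_real {A B : Set S} {c : ℝ} (hc : 0 ≤ c) (hA : M.μ A ≠ ⊤) (hB : M.μ B ≠ ⊤)
    (h : M.μ.real A ≤ c * M.μ.real B) : M.μ A ≤ ENNReal.ofReal c * M.μ B := by
  unfold Measure.real at h
  rw [← ENNReal.toReal_le_toReal hA (ENNReal.mul_ne_top ENNReal.ofReal_ne_top hB),
    ENNReal.toReal_mul, ENNReal.toReal_ofReal hc]
  exact h

/-- The set where the linear parts are good, for one map. -/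
theorem coh_set {K L c₁ εL ε' κ κ' r R a₁ a₂ ε : ℝ} {F F' : Γ → Γ} {D Dp D₀ : Set S}
    {T : S → Ht k →L[ℝ] Ht k} (G : (Ht k →L[ℝ] Ht k) → Prop) (hqi : M.QIm K F F')
    (hfat : M.Fat R κ D Dp) (hD₀D : D₀ ⊆ D) (hmost : M.μ (D \ D₀) ≤ ENNReal.ofReal εL * M.μ D)
    (hεL : 0 ≤ εL) (ha₁ : 0 ≤ a₁) (ha₂ : 0 ≤ a₂) (hr : 0 ≤ r)
    (hnorm : M.μ {x | x ∈ D₀ ∧ ¬ ‖T x‖ ≤ L} ≤ ENNReal.ofReal a₁ * M.μ D)
    (hinv : M.μ {x | x ∈ D₀ ∧ ¬ ∀ w, c₁ * ‖w‖ ≤ ‖T x w‖} ≤ ENNReal.ofReal a₂ * M.μ D)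
    (hlin : ∀ x ∈ D₀, ∀ x' ∈ D₀, (M.l (x⁻¹ * x') : ℝ) ≤ r →
      ‖M.f F x' - M.f F x - T x (M.θ (x⁻¹ * x'))‖ ≤ εL * r ∧ ‖T x' - T x‖ ≤ εL)
    (hE : εL + a₁ + a₂ ≤ ε')
    (HG : ∀ Da : Set S, M.LinOn K L ε' κ r R F F' D Dp Da T →
      (∀ x ∈ Da, ∀ w, c₁ * ‖w‖ ≤ ‖T x w‖) →
      M.μ.real {x ∈ D | x ∈ Da ∧ ¬ G (T x)} ≤ κ' * M.μ.real D) (hκ' : 0 ≤ κ')
    (hsum : ε' + κ' ≤ ε) :
    ∃ D₁ : Set S, D₁ ⊆ D₀ ∧ MeasurableSet D₁ ∧ M.μ (D \ D₁) ≤ ENNReal.ofReal ε * M.μ D ∧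
      ∀ x ∈ D₁, G (T x) := by
  set X₁ : Set S := {x | x ∈ D₀ ∧ ¬ ‖T x‖ ≤ L} with hX₁
  set X₂ : Set S := {x | x ∈ D₀ ∧ ¬ ∀ w, c₁ * ‖w‖ ≤ ‖T x w‖} with hX₂
  set Da : Set S := (D₀ \ X₁) \ X₂ with hDa
  have hmem : ∀ x ∈ Da, x ∈ D₀ ∧ ‖T x‖ ≤ L ∧ ∀ w, c₁ * ‖w‖ ≤ ‖T x w‖ := by
    rintro x ⟨⟨hx, h1⟩, h2⟩
    refine ⟨hx, ?_, ?_⟩
    · by_contra hcon
      exact h1 ⟨hx, hcon⟩
    · by_contra hcon
      exact h2 ⟨hx, hcon⟩
  have hε' : 0 ≤ ε' := by linarith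
  have hmostA : M.μ (D \ Da) ≤ ENNReal.ofReal ε' * M.μ D := by
    have hs : D \ Da ⊆ ((D \ D₀) ∪ X₁) ∪ X₂ := by
      rintro x ⟨hx, hx'⟩
      by_cases h1 : x ∈ D₀
      · by_cases h2 : x ∈ X₁
        · exact Or.inl (Or.inr h2)
        · by_cases h3 : x ∈ X₂
          · exact Or.inr h3
          · exact absurd ⟨⟨h1, h2⟩, h3⟩ hx'
      · exact Or.inl (Or.inl ⟨hx, h1⟩)
    refine (measure_mono hs).trans ((measure_union_le _ _).trans ?_)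
    refine (add_le_add ((measure_union_le _ _).trans (add_le_add hmost hnorm)) hinv).trans ?_
    rw [← add_mul, ← add_mul, ← ENNReal.ofReal_add hεL ha₁, ← ENNReal.ofReal_add (by positivity) ha₂]
    gcongr
  have hLin : M.LinOn K L ε' κ r R F F' D Dp Da T := by
    refine ⟨hqi, hfat, fun x hx => hD₀D (hmem x hx).1, hmostA, fun x hx => (hmem x hx).2.1, ?_⟩
    intro x hx x' hx' hl
    obtain ⟨h1, h2⟩ := hlin x (hmem x hx).1 x' (hmem x' hx').1 hl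
    have h3 : εL ≤ ε' := by linarith
    exact ⟨h1.trans (by gcongr), h2.trans h3⟩
  have hG := HG Da hLin fun x hx => (hmem x hx).2.2
  set X₃ : Set S := {x ∈ D | x ∈ Da ∧ ¬ G (T x)} with hX₃
  set Db : Set S := Da \ X₃ with hDb
  obtain ⟨D₁, h1, h2, h3, h4⟩ := exists_measurable_sub (μ := M.μ) (D₀ := Db) hfat.meas hfat.fin
  have hD₁ : M.μ.real (D \ D₁) ≤ ε * M.μ.real D := by
    refine h4.trans ?_
    have hs : D \ Db ⊆ (D \ Da) ∪ X₃ := by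
      rintro x ⟨hx, hx'⟩
      by_cases h1 : x ∈ Da
      · by_cases h2 : x ∈ X₃
        · exact Or.inr h2
        · exact absurd ⟨h1, h2⟩ hx'
      · exact Or.inl ⟨hx, h1⟩
    have hfin : M.μ ((D \ Da) ∪ X₃) ≠ ⊤ := by
      refine ne_top_of_le_ne_top hfat.fin (measure_mono ?_)
      rintro x (hx | hx)
      · exact hx.1
      · exact hx.1
    refine (measureReal_mono hs hfin).trans ((measureReal_union_le _ _).trans ?_)
    have h5 := real_of_le hε' hfat.fin hmostA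
    have hD0 : 0 ≤ M.μ.real D := measureReal_nonneg
    nlinarith
  refine ⟨D₁, fun x hx => (hmem x (h1 hx).1).1, h2, ?_, ?_⟩
  · exact le_ofReal_of_real (by linarith)
      (ne_top_of_le_ne_top hfat.fin (measure_mono Set.sdiff_subset)) hfat.fin hD₁
  · intro x hx
    have hx' := h1 hx
    by_contra hcon
    exact hx'.2 ⟨h3 hx, hx'.1, hcon⟩

/-- sign patterns do not change under small changes -/
theorem patF_eq {Φ₁ : Finset (Ht k →L[ℝ] ℝ)} {V₁ : Finset (Fin k → ℤ)}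
    {T T' : Ht k →L[ℝ] Ht k} {c₀ B VB εL : ℝ} (hB : ∀ b ∈ Φ₁, ‖b‖ ≤ B)
    (hVB : ∀ v ∈ V₁, ‖(ht v : Ht k)‖ ≤ VB) (hB0 : 0 ≤ B) (hεL : ‖T' - T‖ ≤ εL)
    (hsm : B * (εL * VB) < c₀)
    (hT : ∀ v : V₁, ∀ b ∈ Φ₁, (b ∈ patF Φ₁ V₁ T v → c₀ ≤ b (T (ht v))) ∧
          (b ∉ patF Φ₁ V₁ T v → b (T (ht v)) ≤ -c₀)) :
    patF Φ₁ V₁ T' = patF Φ₁ V₁ T := by
  funext v
  ext b
  have hd : ∀ b ∈ Φ₁, |b (T' (ht v)) - b (T (ht v))| ≤ B * (εL * VB) := by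
    intro b hb
    have e : b (T' (ht (v : Fin k → ℤ))) - b (T (ht v)) = b ((T' - T) (ht v)) := by
      rw [ContinuousLinearMap.sub_apply, map_sub]
    rw [e, ← Real.norm_eq_abs]
    refine (b.le_opNorm _).trans ?_
    have h1 : ‖(T' - T) (ht (v : Fin k → ℤ))‖ ≤ εL * VB := by
      refine ((T' - T).le_opNorm _).trans ?_
      exact mul_le_mul hεL (hVB v v.2) (norm_nonneg _) ((norm_nonneg _).trans hεL)
    exact mul_le_mul (hB b hb) h1 (norm_nonneg _) hB0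
  constructor
  · rintro ⟨hb, hpos⟩
    refine ⟨hb, ?_⟩
    by_contra hcon
    have h1 : b ∉ patF Φ₁ V₁ T v := fun h => hcon h.2
    have h2 := (hT v b hb).2 h1
    have h3 := abs_le.mp (hd b hb)
    linarith [h3.2]
  · intro hb
    have h2 := (hT v b hb.1).1 hb
    have h3 := abs_le.mp (hd b hb.1)
    exact ⟨hb.1, by linarith [h3.1]⟩

end RModel

end Vale.Agent.P188.Z1
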