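import Vale.Agent.P188.Z1.DBox

/-!
# P188, Z1, block DBOX: the theorems DBOX and DVOL
-/

set_option linter.all false

open MeasureTheory Set Filter
open Vale.Agent.P188.H530 (hgt hgt_mul)
open Vale.Agent.P188.H540 (vec LP LP_finite lat_ratio vec_injective)
open scoped Pointwise

namespace Vale.Agent.P188.Z1

namespace DB

variable {S : Type} [Group S] [MeasurableSpace S] {Γ : Type} [Group Γ]
  {V : Type} [AddCommGroup V] [Module ℝ V] {k : ℕ} {M : RModel S Γ V k}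

open RModel

/-- the integral heights of the window `t P` -/
def Wn (M : RModel S Γ V k) (t : ℝ) : Set (Fin k → ℤ) := {w | ∀ b ∈ M.Φ, b (vec w) ≤ t * en b}

/-- the window -/
def Pw (M : RModel S Γ V k) : Set (Ht k) := {x | ∀ b ∈ M.Φ, b x ≤ en b}

theorem Pw_convex : Convex ℝ (Pw M) := by
  have : Pw M = ⋂ b ∈ M.Φ, {x : Ht k | b x ≤ en b} := by ext x; simp [Pw]
  rw [this]
  exact convex_iInter₂ fun b _ => convex_halfSpace_le b.toLinearMap.isLinear _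

theorem Pw_closed : IsClosed (Pw M) := by
  have : Pw M = ⋂ b ∈ M.Φ, {x : Ht k | b x ≤ en b} := by ext x; simp [Pw]
  rw [this]
  exact isClosed_biInter fun b _ => isClosed_le b.continuous continuous_const

theorem Pw_bounded : Bornology.IsBounded (Pw M) := by
  obtain ⟨C, _, hC⟩ := exists_window_bdd M
  rw [isBounded_iff_forall_norm_le]
  refine ⟨C * 1, fun x hx => hC x 1 zero_le_one fun b hb => ?_⟩
  rw [one_mul]
  exact hx b hb

theorem Pw_interior : (0 : Ht k) ∈ interior (Pw M) := by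
  have h1 : IsOpen (⋂ b ∈ M.Φ, {x : Ht k | b x < en b}) :=
    isOpen_biInter_finset fun b _ => isOpen_lt b.continuous continuous_const
  have h2 : (⋂ b ∈ M.Φ, {x : Ht k | b x < en b}) ⊆ Pw M := by
    intro x hx b hb
    have := mem_iInter₂.1 hx b hb
    exact le_of_lt this
  refine interior_maximal h2 h1 (mem_iInter₂.2 fun b hb => ?_)
  show b 0 < en b
  rw [map_zero]
  exact en_pos (M.Φ_ne b hb)

theorem Wn_eq {t : ℝ} (ht : 0 < t) : Wn M t = LP (Pw M) t := by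
  ext w
  simp only [Wn, LP, mem_setOf_eq, mem_smul_set_iff_inv_smul_mem₀ ht.ne', Pw]
  refine forall₂_congr fun b _ => ?_
  rw [map_smul, smul_eq_mul, inv_mul_le_iff₀ ht]

theorem Wn_finite {t : ℝ} (ht : 0 < t) : (Wn M t).Finite := by
  rw [Wn_eq ht]
  exact LP_finite Pw_bounded t

theorem Wn_ratio {ε : ℝ} (hε : 0 < ε) : ∃ t : ℝ, 1 < t ∧ ∃ s₀ : ℝ, 0 < s₀ ∧ ∀ s : ℝ, s₀ ≤ s →
    ((Wn M (t * s)).ncard : ℝ) ≤ (1 + ε) * (Wn M s).ncard := by
  obtain ⟨t, ht, s₀, hs₀, h⟩ := lat_ratio Pw_convex (Pw_bounded (M := M))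
    Pw_closed.measurableSet Pw_interior hε
  refine ⟨t, ht, s₀, hs₀, fun s hs => ?_⟩
  have h1 : 0 < s := hs₀.trans_le hs
  rw [Wn_eq (M := M) h1, Wn_eq (M := M) (t := t * s) (by nlinarith)]
  exact h s hs

theorem zero_mem_Wn {t : ℝ} (ht : 0 ≤ t) : (0 : Fin k → ℤ) ∈ Wn M t := by
  intro b hb
  have : vec (0 : Fin k → ℤ) = 0 := by funext i; simp [vec]
  rw [this, map_zero]
  exact mul_nonneg ht (en_nonneg b)

theorem Dbox_eq (B : M.NatBox) (Λ d₁ κ s : ℝ) :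
    B.Dbox Λ d₁ κ s = BW M (B.Bx fun i => Λ * M.sz d₁ s i) (Wn M ((1 - κ) * s)) := rfl

/-! ### small elements -/

/-- decomposition of a small element -/
theorem exists_dec_small (M : RModel S Γ V k) : ∃ C' : ℝ, 1 ≤ C' ∧ ∀ κ₁ δ s : ℝ, 0 < κ₁ → κ₁ ≤ 1 →
    0 < δ → 1 ≤ s → ∀ g : S, ((M.l g : ℝ) ≤ κ₁ * s ∨ g ∈ M.FB δ (κ₁ * s)) →
    ∃ (v y : V) (c₀ : S) (n : ℕ), v ∈ M.e ∧ M.nm v ≤ Real.exp (C' * (κ₁ * s + 1)) ∧
      y ∈ M.Vw 0 ∧ M.nm y ≤ Real.exp (δ * (κ₁ * s)) ∧ c₀ ∈ M.CB n ∧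
      (n : ℝ) ≤ M.C0 * (1 + M.C0 * s) + 1 ∧ g = M.ex v * (M.ex y * c₀) ∧
      ‖M.θ g‖ ≤ M.C0 * (κ₁ * s) := by
  obtain ⟨Cl, hCl1, hCl⟩ := M.l_CB
  have hC0 := M.one_le_C0
  set C' : ℝ := M.C0 * (1 + Cl * M.C0 + Cl) with hC'
  have hC'1 : 1 ≤ C' := by
    have : 1 ≤ 1 + Cl * M.C0 + Cl := by nlinarith
    nlinarith
  refine ⟨C', hC'1, ?_⟩
  intro κ₁ δ s hκ₁ hκ₁1 hδ hs1 g hg
  have hs0 : (0 : ℝ) ≤ s := by linarith
  have hκ₁s : κ₁ * s ≤ s := by nlinarith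
  have hκ₁s0 : 0 ≤ κ₁ * s := by positivity
  rcases hg with hg | hg
  · obtain ⟨v, hv, c₀, hc₀, hgv⟩ := M.dec g
    have hl0 : (0 : ℝ) ≤ M.l g := Nat.cast_nonneg _
    have hn : (⌈M.C0 * M.l g⌉₊ : ℝ) ≤ M.C0 * (κ₁ * s) + 1 := by
      have := (Nat.ceil_lt_add_one (a := M.C0 * M.l g) (by positivity)).le
      have h2 : M.C0 * M.l g ≤ M.C0 * (κ₁ * s) := mul_le_mul_of_nonneg_left hg (by linarith)
      linarith
    refine ⟨v, 0, c₀, _, hv, ?_, zero_mem _, ?_, hc₀, ?_, ?_, ?_⟩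
    · refine (M.met_lo v).trans (Real.exp_le_exp.2 ?_)
      have h1 : M.ex v = g * c₀⁻¹ := by rw [hgv]; group
      have h2 : (M.l (M.ex v) : ℝ) ≤ M.l g + M.l c₀ := by
        rw [h1]
        have := M.len.mul g c₀⁻¹
        rw [M.len.inv] at this
        exact_mod_cast this
      have h3 := hCl _ _ hc₀
      have h4 : Cl * (⌈M.C0 * M.l g⌉₊ : ℝ) ≤ Cl * (M.C0 * (κ₁ * s) + 1) :=
        mul_le_mul_of_nonneg_left hn (by linarith)
      have h5 : (1 + M.l (M.ex v) : ℝ) ≤ (1 + Cl * M.C0 + Cl) * (κ₁ * s + 1) := by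
        nlinarith
      calc M.C0 * (1 + M.l (M.ex v)) ≤ M.C0 * ((1 + Cl * M.C0 + Cl) * (κ₁ * s + 1)) :=
            mul_le_mul_of_nonneg_left h5 (by linarith)
        _ = C' * (κ₁ * s + 1) := by rw [hC']; ring
    · rw [map_zero]; exact (Real.exp_pos _).le
    · have : M.C0 * (κ₁ * s) ≤ M.C0 * (1 + M.C0 * s) :=
        mul_le_mul_of_nonneg_left (by nlinarith) (by linarith)
      linarith
    · rw [M.ex_zero, one_mul]; exact hgv
    · have h1 := M.η_le g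
      exact h1.trans (mul_le_mul_of_nonneg_left hg (by linarith))
  · obtain ⟨v, hv, hv', y, hy, hy', w', hw', rfl⟩ := hg
    have hnw' : ‖vec w'‖ ≤ κ₁ * s := by
      rw [pi_norm_le_iff_of_nonneg hκ₁s0]
      intro i
      exact hw' i
    have hθ : M.θ (M.ex v * M.ex y * M.τ w') = vec w' := by
      rw [M.θ_mul, M.θ_mul, M.θ_ex, M.θ_ex, θ_vec, zero_add, zero_add]
    refine ⟨v, y, M.τ w', _, hv, hv'.trans (Real.exp_le_exp.2 ?_), hy, hy', M.τ_CB w', ?_, ?_, ?_⟩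
    · nlinarith
    · have h1 := (Nat.ceil_lt_add_one (a := M.C0 * (1 + ‖(fun i => (w' i : ℝ))‖))
        (by positivity)).le
      have h2 : M.C0 * (1 + ‖(fun i => (w' i : ℝ))‖) ≤ M.C0 * (1 + M.C0 * s) := by
        apply mul_le_mul_of_nonneg_left _ (by linarith)
        have h3 : ‖(fun i => (w' i : ℝ))‖ ≤ κ₁ * s := hnw'
        nlinarith
      linarith
    · rw [mul_assoc]
    · rw [hθ]
      nlinarith

/-- number of letters -/
theorem count_le {C0 CP s x y n : ℝ} (hC0 : 1 ≤ C0) (hCP : 0 ≤ CP) (hs : 1 ≤ s)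
    (hx0 : 0 ≤ x) (hx : x ≤ CP * s) (hy0 : 0 ≤ y) (hy : y ≤ CP * s + C0 * s)
    (hn : n ≤ C0 * (1 + C0 * s) + 1) :
    1 + (⌈C0 * (1 + x)⌉₊ : ℝ) + n + ⌈C0 * (1 + y)⌉₊ ≤ (4 + 3 * C0 * (1 + CP + C0)) * (1 + s) := by
  have h1 := (Nat.ceil_lt_add_one (a := C0 * (1 + x)) (by positivity)).le
  have h2 := (Nat.ceil_lt_add_one (a := C0 * (1 + y)) (by positivity)).le
  have h3 : C0 * (1 + x) ≤ C0 * (1 + CP * s) := mul_le_mul_of_nonneg_left (by linarith) (by linarith)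
  have h4 : C0 * (1 + y) ≤ C0 * (1 + (CP * s + C0 * s)) :=
    mul_le_mul_of_nonneg_left (by linarith) (by linarith)
  have h5 : 0 ≤ C0 * CP * s := by positivity
  have h6 : 0 ≤ C0 * C0 * s := by positivity
  have h7 : 0 ≤ C0 * s := by positivity
  have h8 : (4 + 3 * C0 * (1 + CP + C0)) * (1 + s) =
    4 + 4 * s + 3 * C0 + 3 * (C0 * CP) + 3 * (C0 * C0) + 3 * (C0 * s) + 3 * (C0 * CP * s) +
      3 * (C0 * C0 * s) := by ring
  have h9 : 0 ≤ C0 * CP := by positivity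
  have h10 : 0 ≤ C0 * C0 := by positivity
  rw [h8]
  linarith

/-- estimate for the neutral letters -/
theorem est_neutral {K c' X δ κ₁ d₁ s : ℝ} (hK : 0 ≤ K) (hX : 0 ≤ X) (hc' : 0 < c')
    (hδ : 0 ≤ δ * (κ₁ * s))
    (h : (2 * K / c') * X ≤ Real.exp ((d₁ - δ * κ₁) * s)) :
    K * X * (1 + Real.exp (δ * (κ₁ * s))) ≤ c' * Real.exp (d₁ * s) := by
  have h2 : 1 + Real.exp (δ * (κ₁ * s)) ≤ 2 * Real.exp (δ * (κ₁ * s)) := by
    have : 1 ≤ Real.exp (δ * (κ₁ * s)) := Real.one_le_exp hδ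
    linarith
  have h3 : 2 * K * X ≤ c' * Real.exp ((d₁ - δ * κ₁) * s) := by
    have := mul_le_mul_of_nonneg_left h hc'.le
    calc 2 * K * X = c' * ((2 * K / c') * X) := by field_simp
      _ ≤ _ := this
  calc K * X * (1 + Real.exp (δ * (κ₁ * s)))
      ≤ K * X * (2 * Real.exp (δ * (κ₁ * s))) := by gcongr
    _ = 2 * K * X * Real.exp (δ * (κ₁ * s)) := by ring
    _ ≤ c' * Real.exp ((d₁ - δ * κ₁) * s) * Real.exp (δ * (κ₁ * s)) := by gcongr
    _ = c' * Real.exp (d₁ * s) := by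
        rw [mul_assoc, ← Real.exp_add]
        congr 2
        ring

/-- estimate for the other letters -/
theorem est_other {K BC c' X C' κ κ₁ e s b : ℝ} (hK : 0 ≤ K) (hBC : 0 ≤ BC) (hX : 0 ≤ X)
    (hc' : 0 < c') (hC' : 0 ≤ C' * (κ₁ * s + 1)) (hb : b ≤ (1 - κ) * s * e)
    (h : (2 * K * BC * Real.exp C' / c') * X ≤ Real.exp ((κ * e - C' * κ₁) * s)) :
    K * X * Real.exp b * (BC * (1 + Real.exp (C' * (κ₁ * s + 1)))) ≤ c' * Real.exp (s * e) := by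
  have hb' : Real.exp b ≤ Real.exp ((1 - κ) * s * e) := Real.exp_le_exp.2 hb
  have h2 : 1 + Real.exp (C' * (κ₁ * s + 1)) ≤ 2 * (Real.exp C' * Real.exp (C' * κ₁ * s)) := by
    have h6 : Real.exp (C' * (κ₁ * s + 1)) = Real.exp C' * Real.exp (C' * κ₁ * s) := by
      rw [← Real.exp_add]; congr 1; ring
    have : 1 ≤ Real.exp (C' * (κ₁ * s + 1)) := Real.one_le_exp hC'
    rw [← h6]
    linarith
  have h3 : 2 * K * BC * Real.exp C' * X ≤ c' * Real.exp ((κ * e - C' * κ₁) * s) := by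
    have := mul_le_mul_of_nonneg_left h hc'.le
    calc 2 * K * BC * Real.exp C' * X = c' * ((2 * K * BC * Real.exp C' / c') * X) := by field_simp
      _ ≤ _ := this
  calc K * X * Real.exp b * (BC * (1 + Real.exp (C' * (κ₁ * s + 1))))
      ≤ K * X * Real.exp ((1 - κ) * s * e) *
        (BC * (2 * (Real.exp C' * Real.exp (C' * κ₁ * s)))) := by gcongr
    _ = 2 * K * BC * Real.exp C' * X *
        (Real.exp ((1 - κ) * s * e) * Real.exp (C' * κ₁ * s)) := by ring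
    _ ≤ c' * Real.exp ((κ * e - C' * κ₁) * s) *
        (Real.exp ((1 - κ) * s * e) * Real.exp (C' * κ₁ * s)) := by gcongr
    _ = c' * Real.exp (s * e) := by
        rw [mul_assoc, ← Real.exp_add, ← Real.exp_add]
        congr 2
        ring

theorem small_mem (B : M.NatBox) : ∃ C' : ℝ, 1 ≤ C' ∧ ∀ κ κ₁ δ d₁ c : ℝ, 0 < κ → κ < 1 →
    0 < κ₁ → κ₁ ≤ 1 → (∀ b ∈ M.Φ, C' * κ₁ < κ * en b) → 0 < δ → δ * κ₁ < d₁ → 0 < c →
    ∀ᶠ s : ℝ in atTop, ∀ w ∈ Wn M ((1 - κ) * s), ∀ g : S,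
      ((M.l g : ℝ) ≤ κ₁ * s ∨ g ∈ M.FB δ (κ₁ * s)) →
      M.τ w * g * (M.sec (M.τ w * g))⁻¹ ∈ B.Bx (fun i => c * M.sz d₁ s i) := by
  classical
  obtain ⟨CP, hCP0, hCP⟩ := exists_window_bdd M
  obtain ⟨C', hC'1, hdec⟩ := exists_dec_small M
  have hC0 := M.one_le_C0
  have hBC := B.one_le
  refine ⟨C', hC'1, ?_⟩
  intro κ κ₁ δ d₁ c hκ hκ1 hκ₁ hκ₁1 hκb hδ hδd hc
  set P1 : ℝ := 4 + 3 * M.C0 * (1 + CP + M.C0) with hP1
  have hP10 : 0 < P1 := by positivity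
  set D : ℕ := B.dg + M.deg with hD
  set K : ℝ := B.C * (1 + M.C0) * P1 ^ D with hK
  have hK0 : 0 < K := by positivity
  set c' : ℝ := c / (B.C * B.C) with hc'
  have hc'0 : 0 < c' := by positivity
  -- the estimates
  have hevA : ∀ᶠ s : ℝ in atTop, (2 * K / c') * (1 + s) ^ D ≤ Real.exp ((d₁ - δ * κ₁) * s) :=
    ev_poly _ _ (by linarith)
  have hevB : ∀ᶠ s : ℝ in atTop, ∀ b ∈ M.Φ,
      (2 * K * B.C * Real.exp C' / c') * (1 + s) ^ D ≤ Real.exp ((κ * en b - C' * κ₁) * s) ∧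
      (1 / c') * (1 + s) ^ 0 ≤ Real.exp (en b * s) := by
    rw [Filter.eventually_all_finset]
    intro b hb
    exact (ev_poly _ _ (by linarith [hκb b hb])).and (ev_poly _ _ (en_pos (M.Φ_ne b hb)))
  filter_upwards [hevA, hevB, eventually_ge_atTop 1] with s hsA hsB hs1 w hw g hg
  have hs0 : (0 : ℝ) ≤ s := by linarith
  obtain ⟨v, y, c₀, n, hv, hv', hy, hy', hc₀, hn, hgd, hθg⟩ := hdec κ₁ δ s hκ₁ hκ₁1 hδ hs1 g hg
  -- heights
  have hws : ‖vec w‖ ≤ CP * s := by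
    have h1 := hCP (vec w) ((1 - κ) * s) (by nlinarith) hw
    have h2 : CP * ((1 - κ) * s) ≤ CP * s := mul_le_mul_of_nonneg_left (by nlinarith) hCP0.le
    exact h1.trans h2
  have hκ₁s : κ₁ * s ≤ s := by nlinarith
  have hθg' : ‖M.θ g‖ ≤ M.C0 * s :=
    hθg.trans (mul_le_mul_of_nonneg_left hκ₁s (by linarith))
  have hN : 1 + (⌈M.C0 * (1 + ‖vec w‖)⌉₊ : ℝ) + n + ⌈M.C0 * (1 + ‖vec w + M.θ g‖)⌉₊ ≤
      P1 * (1 + s) :=
    count_le hC0 hCP0.le hs1 (norm_nonneg _) hws (norm_nonneg _)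
      ((norm_add_le _ _).trans (add_le_add hws hθg')) hn
  have hPow : (P1 * (1 + s)) ^ D = P1 ^ D * (1 + s) ^ D := mul_pow _ _ _
  have h1s : 0 ≤ (1 + s) ^ D := by positivity
  have hmain := conj_mem B (w := w) (g := g) (c := c₀) (N := P1 * (1 + s)) hv hv' hy hy' hc₀ hgd hN
    (R := fun i => c' * M.sz d₁ s i) ?_ ?_
  · have : (fun i => B.C * (B.C * (c' * M.sz d₁ s i))) = fun i => c * M.sz d₁ s i := by
      funext i
      rw [hc']
      field_simp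
    rw [this] at hmain
    exact hmain
  · -- neutral letters
    intro i hi
    have hsz : M.sz d₁ s i = Real.exp (d₁ * s) := by unfold sz; rw [if_pos hi]
    rw [hsz, hPow]
    have := est_neutral (K := K) hK0.le h1s hc'0 (by positivity) hsA
    calc B.C * (1 + M.C0) * (P1 ^ D * (1 + s) ^ D) * (1 + Real.exp (δ * (κ₁ * s)))
        = K * (1 + s) ^ D * (1 + Real.exp (δ * (κ₁ * s))) := by rw [hK]; ring
      _ ≤ _ := this
  · -- the other letters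
    intro i hi
    have hΦ : M.wt i ∈ M.Φ := (M.wt_mem i).resolve_right hi
    have hsz : M.sz d₁ s i = Real.exp (s * en (M.wt i)) := by unfold sz; rw [if_neg hi]
    obtain ⟨h4, h5⟩ := hsB _ hΦ
    rw [hsz]
    refine ⟨?_, ?_⟩
    · rw [pow_zero, mul_one, div_le_iff₀ hc'0] at h5
      calc (1 : ℝ) ≤ Real.exp (en (M.wt i) * s) * c' := h5
        _ = c' * Real.exp (s * en (M.wt i)) := by rw [mul_comm (en _) s]; ring
    · rw [hPow]
      have := est_other (K := K) (BC := B.C) hK0.le (by linarith) h1s hc'0 (by positivity)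
        (hw _ hΦ) h4
      calc B.C * (1 + M.C0) * (P1 ^ D * (1 + s) ^ D) * Real.exp (M.wt i (vec w)) *
            (B.C * (1 + Real.exp (C' * (κ₁ * s + 1))))
          = K * (1 + s) ^ D * Real.exp (M.wt i (vec w)) *
            (B.C * (1 + Real.exp (C' * (κ₁ * s + 1)))) := by rw [hK]; ring
        _ ≤ _ := this

end DB

end Vale.Agent.P188.Z1
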