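import Vale.Agent.P188.Z1.DBox3
import Vale.Agent.P188.H540.Lattice2

/-!
# P188, Z1, block DBOX: general windows
-/

set_option linter.all false

open MeasureTheory Set Filter Topology
open Vale.Agent.P188.H530 (hgt hgt_mul)
open Vale.Agent.P188.H540 (vec LP LP_finite lat_ratio' vec_injective tendsto_LP ball_dbl ball_finite)
open scoped Pointwise ENNReal

namespace Vale.Agent.P188.Z1

namespace DB

variable {S : Type} [Group S] [MeasurableSpace S] {Γ : Type} [Group Γ]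
  {V : Type} [AddCommGroup V] [Module ℝ V] {k : ℕ} {M : RModel S Γ V k}

open RModel

/-- the integral heights of the window `t h` -/
def WnH (M : RModel S Γ V k) (h : (Ht k →L[ℝ] ℝ) → ℝ) (t : ℝ) : Set (Fin k → ℤ) :=
  {w | ∀ b ∈ M.Φ, b (vec w) ≤ t * h b}

/-- the window -/
def PwH (M : RModel S Γ V k) (h : (Ht k →L[ℝ] ℝ) → ℝ) : Set (Ht k) := {x | ∀ b ∈ M.Φ, b x ≤ h b}

theorem exists_bdd (M : RModel S Γ V k) : ∃ C : ℝ, 0 < C ∧ ∀ (x : Ht k) (t : ℝ), 0 ≤ t →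
    (∀ b ∈ M.Φ, b x ≤ t) → ‖x‖ ≤ C * t := by
  obtain ⟨CP, hCP0, hCP⟩ := exists_window_bdd M
  obtain ⟨x₀, hx₀, _, hx₀'⟩ := exists_pos_lt M.Φ en fun b hb => en_pos (M.Φ_ne b hb)
  refine ⟨CP / x₀, by positivity, fun x t ht hx => ?_⟩
  have h1 := hCP x (t / x₀) (by positivity) fun b hb => by
    have h2 := hx₀' b hb
    calc b x ≤ t := hx b hb
      _ = t / x₀ * x₀ := by field_simp
      _ ≤ t / x₀ * en b := mul_le_mul_of_nonneg_left h2.le (by positivity)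
  calc ‖x‖ ≤ CP * (t / x₀) := h1
    _ = CP / x₀ * t := by ring

theorem PwH_convex (h : (Ht k →L[ℝ] ℝ) → ℝ) : Convex ℝ (PwH M h) := by
  have : PwH M h = ⋂ b ∈ M.Φ, {x : Ht k | b x ≤ h b} := by ext x; simp [PwH]
  rw [this]
  exact convex_iInter₂ fun b _ => convex_halfSpace_le b.toLinearMap.isLinear _

theorem PwH_closed (h : (Ht k →L[ℝ] ℝ) → ℝ) : IsClosed (PwH M h) := by
  have : PwH M h = ⋂ b ∈ M.Φ, {x : Ht k | b x ≤ h b} := by ext x; simp [PwH]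
  rw [this]
  exact isClosed_biInter fun b _ => isClosed_le b.continuous continuous_const

theorem PwH_bounded (h : (Ht k →L[ℝ] ℝ) → ℝ) : Bornology.IsBounded (PwH M h) := by
  obtain ⟨C, _, hC⟩ := exists_bdd M
  have h1 : ∃ t : ℝ, 0 ≤ t ∧ ∀ b ∈ M.Φ, h b ≤ t :=
    ⟨∑ b ∈ M.Φ, |h b|, Finset.sum_nonneg fun b _ => abs_nonneg _, fun b hb =>
      (le_abs_self _).trans (Finset.single_le_sum (f := fun b => |h b|)
        (fun b _ => abs_nonneg _) hb)⟩
  obtain ⟨t, ht, hht⟩ := h1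
  rw [isBounded_iff_forall_norm_le]
  exact ⟨C * t, fun x hx => hC x t ht fun b hb => (hx b hb).trans (hht b hb)⟩

theorem PwH_interior {h : (Ht k →L[ℝ] ℝ) → ℝ} (hh : ∀ b ∈ M.Φ, 0 < h b) :
    (0 : Ht k) ∈ interior (PwH M h) := by
  have h1 : IsOpen (⋂ b ∈ M.Φ, {x : Ht k | b x < h b}) :=
    isOpen_biInter_finset fun b _ => isOpen_lt b.continuous continuous_const
  have h2 : (⋂ b ∈ M.Φ, {x : Ht k | b x < h b}) ⊆ PwH M h := by
    intro x hx b hb
    have := mem_iInter₂.1 hx b hb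
    exact le_of_lt this
  refine interior_maximal h2 h1 (mem_iInter₂.2 fun b hb => ?_)
  show b 0 < h b
  rw [map_zero]
  exact hh b hb

theorem WnH_eq (h : (Ht k →L[ℝ] ℝ) → ℝ) {t : ℝ} (ht : 0 < t) : WnH M h t = LP (PwH M h) t := by
  ext w
  simp only [WnH, LP, mem_setOf_eq, mem_smul_set_iff_inv_smul_mem₀ ht.ne', PwH]
  refine forall₂_congr fun b _ => ?_
  rw [map_smul, smul_eq_mul, inv_mul_le_iff₀ ht]

theorem WnH_finite (h : (Ht k →L[ℝ] ℝ) → ℝ) {t : ℝ} (ht : 0 < t) : (WnH M h t).Finite := by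
  rw [WnH_eq h ht]
  exact LP_finite (PwH_bounded h) t

theorem zero_mem_WnH {c : ℝ} (hc : 0 < c) {h : (Ht k →L[ℝ] ℝ) → ℝ} (hh : M.HB c h) {t : ℝ}
    (ht : 0 ≤ t) : (0 : Fin k → ℤ) ∈ WnH M h t := by
  intro b hb
  have : vec (0 : Fin k → ℤ) = 0 := by funext i; simp [vec]
  rw [this, map_zero]
  exact mul_nonneg ht (hc.le.trans (hh b hb).1)

/-- uniform ratio of the numbers of lattice points -/
theorem WnH_ratio {c ε : ℝ} (hc : 0 < c) (hε : 0 < ε) : ∃ t : ℝ, 1 < t ∧ ∃ s₀ : ℝ, 0 < s₀ ∧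
    ∀ s : ℝ, s₀ ≤ s → ∀ h : (Ht k →L[ℝ] ℝ) → ℝ, M.HB c h →
    ((WnH M h (t * s)).ncard : ℝ) ≤ (1 + ε) * (WnH M h s).ncard := by
  classical
  obtain ⟨t₀, ht₀, hrat⟩ := lat_ratio' k hε
  set r : ℝ := Real.sqrt t₀ with hr
  have hr1 : 1 < r := by rw [hr, Real.lt_sqrt (by norm_num)]; simpa using ht₀
  have hrr : r * r = t₀ := Real.mul_self_sqrt (by linarith)
  obtain ⟨n, hn⟩ := pow_unbounded_of_one_lt (c⁻¹ / c) hr1
  have hn' : c⁻¹ ≤ c * r ^ n := by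
    rw [div_lt_iff₀ hc] at hn
    linarith
  -- the finitely many windows
  set hj : (M.Φ → Fin (n + 1)) → (Ht k →L[ℝ] ℝ) → ℝ := fun j b =>
    if hb : b ∈ M.Φ then c * r ^ (j ⟨b, hb⟩ : ℕ) else 1 with hhj
  have hjpos : ∀ j, ∀ b ∈ M.Φ, 0 < hj j b := by
    intro j b hb
    rw [hhj]
    simp only [dif_pos hb]
    positivity
  have hex : ∀ j, ∃ s₀ : ℝ, 0 < s₀ ∧ ∀ s : ℝ, s₀ ≤ s →
      ((LP (PwH M (hj j)) (t₀ * s)).ncard : ℝ) ≤ (1 + ε) * (LP (PwH M (hj j)) s).ncard := fun j =>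
    hrat _ (PwH_convex _) (PwH_bounded _) (PwH_closed _).measurableSet (PwH_interior (hjpos j))
  choose sj hsj hsj' using hex
  obtain ⟨s₀, hs₀⟩ := (Set.finite_range sj).bddAbove
  refine ⟨r, hr1, max s₀ 1, by positivity, fun s hs h hh => ?_⟩
  have hs1 : 1 ≤ s := (le_max_right _ _).trans hs
  have hs0 : 0 < s := by linarith
  -- the index of `h`
  have hidx : ∀ b : M.Φ, ∃ i : Fin (n + 1), c * r ^ (i : ℕ) ≤ h b ∧ h b ≤ r * (c * r ^ (i : ℕ)) := by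
    rintro ⟨b, hb⟩
    obtain ⟨h1, h2⟩ := hh b hb
    set P : ℕ → Prop := fun i => c * r ^ i ≤ h b with hP
    have hP0 : P 0 := by simpa [hP] using h1
    set i := Nat.findGreatest P n with hi
    have hi1 : P i := Nat.findGreatest_spec (m := 0) (Nat.zero_le _) hP0
    have hi2 : i ≤ n := Nat.findGreatest_le n
    refine ⟨⟨i, by omega⟩, hi1, ?_⟩
    show h b ≤ r * (c * r ^ i)
    by_cases hin : i = n
    · rw [hin]
      have h3 : 0 < c * r ^ n := by positivity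
      nlinarith
    · have h4 : ¬ P (i + 1) := Nat.findGreatest_is_greatest (Nat.lt_succ_self _) (by omega)
      have h5 : h b < c * r ^ (i + 1) := not_le.1 h4
      rw [pow_succ] at h5
      nlinarith
  choose j hj1 hj2 using hidx
  have hjb : ∀ b (hb : b ∈ M.Φ), hj j b = c * r ^ (j ⟨b, hb⟩ : ℕ) := by
    intro b hb
    rw [hhj]
    simp only [dif_pos hb]
  have hsub1 : WnH M h (r * s) ⊆ WnH M (hj j) (t₀ * s) := by
    intro w hw b hb
    refine (hw b hb).trans ?_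
    rw [hjb b hb, ← hrr]
    have := hj2 ⟨b, hb⟩
    calc r * s * h b ≤ r * s * (r * (c * r ^ (j ⟨b, hb⟩ : ℕ))) :=
          mul_le_mul_of_nonneg_left this (by positivity)
      _ = _ := by ring
  have hsub2 : WnH M (hj j) s ⊆ WnH M h s := by
    intro w hw b hb
    refine (hw b hb).trans ?_
    rw [hjb b hb]
    exact mul_le_mul_of_nonneg_left (hj1 ⟨b, hb⟩) hs0.le
  have h6 := hsj' j s ((hs₀ ⟨j, rfl⟩).trans ((le_max_left _ _).trans hs))
  rw [← WnH_eq _ (by positivity), ← WnH_eq _ hs0] at h6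
  have h7 : ((WnH M h (r * s)).ncard : ℝ) ≤ (WnH M (hj j) (t₀ * s)).ncard := by
    exact_mod_cast Set.ncard_le_ncard hsub1 (WnH_finite _ (by positivity))
  have h8 : ((WnH M (hj j) s).ncard : ℝ) ≤ (WnH M h s).ncard := by
    exact_mod_cast Set.ncard_le_ncard hsub2 (WnH_finite _ hs0)
  calc ((WnH M h (r * s)).ncard : ℝ) ≤ (WnH M (hj j) (t₀ * s)).ncard := h7
    _ ≤ (1 + ε) * (WnH M (hj j) s).ncard := h6
    _ ≤ (1 + ε) * (WnH M h s).ncard := mul_le_mul_of_nonneg_left h8 (by linarith)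

/-- small elements, general windows -/
theorem small_memH (B : M.NatBox) {c₂ : ℝ} (hc₂ : 0 < c₂) :
    ∃ C' : ℝ, 1 ≤ C' ∧ ∀ κ κ₁ δ d₁ c : ℝ, 0 < κ → κ < 1 →
    0 < κ₁ → κ₁ ≤ 1 → C' * κ₁ < κ * c₂ → 0 < δ → δ * κ₁ < d₁ → 0 < c →
    ∀ᶠ s : ℝ in atTop, ∀ h : (Ht k →L[ℝ] ℝ) → ℝ, M.HB c₂ h → ∀ w ∈ WnH M h ((1 - κ) * s), ∀ g : S,
      ((M.l g : ℝ) ≤ κ₁ * s ∨ g ∈ M.FB δ (κ₁ * s)) →
      M.τ w * g * (M.sec (M.τ w * g))⁻¹ ∈ B.Bx (fun i => c * M.szh h d₁ s i) := by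
  classical
  obtain ⟨CP, hCP0, hCP⟩ := exists_bdd M
  obtain ⟨C', hC'1, hdec⟩ := exists_dec_small M
  have hC0 := M.one_le_C0
  have hBC := B.one_le
  refine ⟨C', hC'1, ?_⟩
  intro κ κ₁ δ d₁ c hκ hκ1 hκ₁ hκ₁1 hκb hδ hδd hc
  set CQ : ℝ := CP * c₂⁻¹ with hCQ
  have hCQ0 : 0 < CQ := by positivity
  set P1 : ℝ := 4 + 3 * M.C0 * (1 + CQ + M.C0) with hP1
  have hP10 : 0 < P1 := by positivity
  set D : ℕ := B.dg + M.deg with hD
  set K : ℝ := B.C * (1 + M.C0) * P1 ^ D with hK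
  have hK0 : 0 < K := by positivity
  set c' : ℝ := c / (B.C * B.C) with hc'
  have hc'0 : 0 < c' := by positivity
  -- the estimates
  have hevA : ∀ᶠ s : ℝ in atTop, (2 * K / c') * (1 + s) ^ D ≤ Real.exp ((d₁ - δ * κ₁) * s) :=
    ev_poly _ _ (by linarith)
  have hevB : ∀ᶠ s : ℝ in atTop,
      (2 * K * B.C * Real.exp C' / c') * (1 + s) ^ D ≤ Real.exp ((κ * c₂ - C' * κ₁) * s) :=
    ev_poly _ _ (by linarith)
  have hevC : ∀ᶠ s : ℝ in atTop, (1 / c') * (1 + s) ^ 0 ≤ Real.exp (c₂ * s) := ev_poly _ _ hc₂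
  filter_upwards [hevA, hevB, hevC, eventually_ge_atTop 1] with s hsA hsB hsC hs1 h hh w hw g hg
  have hs0 : (0 : ℝ) ≤ s := by linarith
  obtain ⟨v, y, c₀, n, hv, hv', hy, hy', hc₀, hn, hgd, hθg⟩ := hdec κ₁ δ s hκ₁ hκ₁1 hδ hs1 g hg
  -- heights
  have hws : ‖vec w‖ ≤ CQ * s := by
    have h1 := hCP (vec w) (c₂⁻¹ * s) (by positivity) fun b hb => by
      obtain ⟨h3, h4⟩ := hh b hb
      calc b (vec w) ≤ (1 - κ) * s * h b := hw b hb
        _ ≤ 1 * s * c₂⁻¹ := by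
            have h5 : 0 ≤ (1 - κ) * s := mul_nonneg (by linarith) hs0
            have h6 : (1 - κ) * s ≤ 1 * s := mul_le_mul_of_nonneg_right (by linarith) hs0
            exact mul_le_mul h6 h4 (hc₂.le.trans h3) (by linarith)
        _ = c₂⁻¹ * s := by ring
    rw [← mul_assoc] at h1
    exact h1
  have hκ₁s : κ₁ * s ≤ s := by nlinarith
  have hθg' : ‖M.θ g‖ ≤ M.C0 * s :=
    hθg.trans (mul_le_mul_of_nonneg_left hκ₁s (by linarith))
  have hN : 1 + (⌈M.C0 * (1 + ‖vec w‖)⌉₊ : ℝ) + n + ⌈M.C0 * (1 + ‖vec w + M.θ g‖)⌉₊ ≤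
      P1 * (1 + s) :=
    count_le hC0 hCQ0.le hs1 (norm_nonneg _) hws (norm_nonneg _)
      ((norm_add_le _ _).trans (add_le_add hws hθg')) hn
  have hPow : (P1 * (1 + s)) ^ D = P1 ^ D * (1 + s) ^ D := mul_pow _ _ _
  have h1s : 0 ≤ (1 + s) ^ D := by positivity
  have hmain := conj_mem B (w := w) (g := g) (c := c₀) (N := P1 * (1 + s)) hv hv' hy hy' hc₀ hgd hN
    (R := fun i => c' * M.szh h d₁ s i) ?_ ?_
  · have : (fun i => B.C * (B.C * (c' * M.szh h d₁ s i))) = fun i => c * M.szh h d₁ s i := by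
      funext i
      rw [hc']
      field_simp
    rw [this] at hmain
    exact hmain
  · -- neutral letters
    intro i hi
    have hsz : M.szh h d₁ s i = Real.exp (d₁ * s) := by unfold szh; rw [if_pos hi]
    rw [hsz, hPow]
    have := est_neutral (K := K) hK0.le h1s hc'0 (by positivity) hsA
    calc B.C * (1 + M.C0) * (P1 ^ D * (1 + s) ^ D) * (1 + Real.exp (δ * (κ₁ * s)))
        = K * (1 + s) ^ D * (1 + Real.exp (δ * (κ₁ * s))) := by rw [hK]; ring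
      _ ≤ _ := this
  · -- the other letters
    intro i hi
    have hΦ : M.wt i ∈ M.Φ := (M.wt_mem i).resolve_right hi
    obtain ⟨h3, h4⟩ := hh _ hΦ
    have hsz : M.szh h d₁ s i = Real.exp (s * h (M.wt i)) := by unfold szh; rw [if_neg hi]
    rw [hsz]
    refine ⟨?_, ?_⟩
    · rw [pow_zero, mul_one, div_le_iff₀ hc'0] at hsC
      calc (1 : ℝ) ≤ Real.exp (c₂ * s) * c' := hsC
        _ ≤ Real.exp (s * h (M.wt i)) * c' := by
            apply mul_le_mul_of_nonneg_right _ hc'0.le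
            exact Real.exp_le_exp.2 (by nlinarith)
        _ = c' * Real.exp (s * h (M.wt i)) := mul_comm _ _
    · rw [hPow]
      have h5 : (2 * K * B.C * Real.exp C' / c') * (1 + s) ^ D ≤
          Real.exp ((κ * h (M.wt i) - C' * κ₁) * s) := by
        refine hsB.trans (Real.exp_le_exp.2 (mul_le_mul_of_nonneg_right ?_ hs0))
        have : κ * c₂ ≤ κ * h (M.wt i) := mul_le_mul_of_nonneg_left h3 hκ.le
        linarith
      have := est_other (K := K) (BC := B.C) hK0.le (by linarith) h1s hc'0 (by positivity)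
        (hw _ hΦ) h5
      calc B.C * (1 + M.C0) * (P1 ^ D * (1 + s) ^ D) * Real.exp (M.wt i (vec w)) *
            (B.C * (1 + Real.exp (C' * (κ₁ * s + 1))))
          = K * (1 + s) ^ D * Real.exp (M.wt i (vec w)) *
            (B.C * (1 + Real.exp (C' * (κ₁ * s + 1)))) := by rw [hK]; ring
        _ ≤ _ := this

end DB

end Vale.Agent.P188.Z1
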