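import Vale.Agent.P188.Z1.DecC

/-!
# P188, Z1: decompositions of fat displacements, second decomposition
-/

set_option linter.all false

open MeasureTheory Set
open Vale.Agent.P188.H530 (hgt hgt_mul)

namespace Vale.Agent.P188.Z1

namespace RModel

variable {S : Type} [Group S] [MeasurableSpace S] {Γ : Type} [Group Γ]
  {V : Type} [AddCommGroup V] [Module ℝ V] {k : ℕ} (M : RModel S Γ V k)

/-- expansion in the dual basis -/
theorem dual_expand {v : Fin k → (Fin k → ℤ)} {hh : Fin k → Ht k →L[ℝ] ℝ}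
    (hd : ∀ i j, hh j (ht (v i)) = if i = j then 1 else 0) (w : Ht k) :
    w = ∑ i, hh i w • ht (v i) := by
  classical
  let A : Ht k →ₗ[ℝ] Ht k := LinearMap.pi fun i => (hh i : Ht k →ₗ[ℝ] ℝ)
  let B : Ht k →ₗ[ℝ] Ht k := Fintype.linearCombination ℝ fun i => ht (v i)
  have h1 : A * B = 1 := by
    refine LinearMap.ext fun c => ?_
    funext j
    show hh j (Fintype.linearCombination ℝ (fun i => ht (v i)) c) = c j
    rw [Fintype.linearCombination_apply, map_sum]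
    simp_rw [map_smul, hd, smul_eq_mul, mul_ite, mul_one, mul_zero]
    simp
  have h2 : B * A = 1 := mul_eq_one_comm.mp h1
  have h3 := congrArg (fun L : Ht k →ₗ[ℝ] Ht k => L w) h2
  have h4 : (B * A) w = ∑ i, hh i w • ht (v i) := by
    show Fintype.linearCombination ℝ (fun i => ht (v i)) (A w) = _
    rw [Fintype.linearCombination_apply]
    rfl
  simp only [Module.End.one_apply] at h3
  rw [← h4]
  exact h3.symm

theorem CB_list (L : List S) {n : ℕ} (h : ∀ a ∈ L, a ∈ M.CB n) : L.prod ∈ M.CB (L.length * n) := by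
  induction L with
  | nil => simpa using M.one_mem_CB _
  | cons a L ih =>
    rw [List.prod_cons, List.length_cons, Nat.succ_mul, add_comm]
    exact M.CB_mul (h a (List.mem_cons_self ..)) (ih fun b hb => h b (List.mem_cons_of_mem _ hb))

/-- integral parts of the coordinates -/
theorem height_split {v : Fin k → (Fin k → ℤ)} {hh : Fin k → Ht k →L[ℝ] ℝ}
    (hd : ∀ i j, hh j (ht (v i)) = if i = j then 1 else 0) {H B R : ℝ}
    (hH : ∀ i, ‖hh i‖ ≤ H) (hB : ∑ i, ‖ht (v i)‖ ≤ B) (hH0 : 1 ≤ H) (hR : 1 ≤ R)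
    {w : Fin k → ℤ} (hw : ∀ i, |(w i : ℝ)| ≤ R) :
    ∃ (n : Fin k → ℤ) (w' : Fin k → ℤ), (∀ i, |(n i : ℝ)| ≤ 2 * H * R) ∧
      (∀ i, |(w' i : ℝ)| ≤ B) ∧ (∀ j, |hh j (ht w')| ≤ 1) ∧ w = (∑ i, n i • v i) + w' := by
  classical
  set n : Fin k → ℤ := fun i => ⌊hh i (ht w)⌋ with hn
  set w' : Fin k → ℤ := w - ∑ i, n i • v i with hw'
  have hht : ht w' = ht w - ∑ i, (n i : ℝ) • ht (v i) := by
    funext j
    have e1 : w' j = w j - ∑ i, n i * v i j := by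
      rw [hw', Pi.sub_apply, Finset.sum_apply]
      rfl
    have e2 : (∑ i, (n i : ℝ) • (ht (v i) : Ht k)) j = ∑ i, (n i : ℝ) * (v i j : ℝ) := by
      rw [Finset.sum_apply]
      rfl
    rw [Pi.sub_apply, e2]
    show ((w' j : ℤ) : ℝ) = (w j : ℝ) - _
    rw [e1]
    push_cast
    rfl
  have hfr : ∀ j, hh j (ht w') = Int.fract (hh j (ht w)) := by
    intro j
    rw [hht, map_sub, map_sum]
    simp_rw [map_smul, hd, smul_eq_mul, mul_ite, mul_one, mul_zero]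
    rw [Finset.sum_ite_eq' Finset.univ j, if_pos (Finset.mem_univ j)]
    exact Int.self_sub_floor _
  refine ⟨n, w', ?_, ?_, ?_, by rw [hw']; abel⟩
  · intro i
    have h1 : |hh i (ht w)| ≤ H * R := by
      have h2 := (hh i).le_opNorm (ht w)
      rw [Real.norm_eq_abs] at h2
      refine h2.trans (mul_le_mul (hH i) ?_ (norm_nonneg _) (by linarith))
      exact norm_int_le (by linarith) hw
    have h3 : |((⌊hh i (ht w)⌋ : ℤ) : ℝ)| ≤ |hh i (ht w)| + 1 := by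
      have h4 := Int.floor_le (hh i (ht w))
      have h5 := Int.lt_floor_add_one (hh i (ht w))
      rw [abs_le]
      constructor
      · have := neg_abs_le (hh i (ht w))
        linarith
      · have := le_abs_self (hh i (ht w))
        linarith
    refine h3.trans ?_
    nlinarith
  · intro i
    have h1 := dual_expand hd (ht w')
    have h2 : ‖ht w'‖ ≤ B := by
      rw [h1]
      refine (norm_sum_le _ _).trans ((Finset.sum_le_sum fun j _ => ?_).trans hB)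
      rw [norm_smul, Real.norm_eq_abs, hfr]
      have h3 : |Int.fract (hh j (ht w))| ≤ 1 := by
        rw [abs_of_nonneg (Int.fract_nonneg _)]
        exact (Int.fract_lt_one _).le
      exact mul_le_of_le_one_left (norm_nonneg _) h3
    exact (norm_le_pi_norm (ht w') i).trans h2
  · intro j
    rw [hfr, abs_of_nonneg (Int.fract_nonneg _)]
    exact (Int.fract_lt_one _).le

/-- contraction of the letters to bounded length -/
theorem typed_letter {n₁ : ℕ} {t : Fin k → (Fin k → ℤ)} (hn₁ : ∀ i, M.τ (t i) ∈ M.CB n₁) {β : ℝ}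
    (hβ : 0 < β) (hgap : ∀ i, ∀ b ∈ M.Φ, β ≤ |b (ht (t i))|) {hh : Fin k → Ht k →L[ℝ] ℝ}
    {R C : ℝ} {ρ : ℕ} (hR : 1 ≤ R) (hC : 2 * M.C0 ≤ C) (hC' : 2 * M.C0 / β + 1 ≤ C)
    (hCR : C * R ≤ ρ) {ρ₂ : ℕ} (hρ₂ : C * R ≤ ρ₂)
    (h1 : M.C0 * (M.C0 * 2 ^ M.C0) * (1 + n₁ * (2 * M.C0 / β + 1) * R) ^ M.deg ≤ Real.exp R)
    {Nt : Set S} {j : M.ι} (hj : M.wt j ≠ 0) {x : ℝ}
    (hx : |x| ≤ M.C0 * 2 ^ M.C0 * Real.exp (M.C0 * R)) :
    P188.H882.Typed (fun x => (M.l x : ℝ)) (fun i => M.τ (t i)) (fun j x => hh j (M.θ x))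
      ρ ρ₂ C Nt (M.ex (x • M.X j)) := by
  have hC0 := M.one_le_C0
  have hk : 0 < k := by
    rcases Nat.eq_zero_or_pos k with h | h
    · exfalso
      subst h
      apply hj
      ext w
      have : w = 0 := Subsingleton.elim _ _
      rw [this, map_zero, map_zero]
    · exact h
  have hΦ : M.wt j ∈ M.Φ := (M.wt_mem j).resolve_right hj
  obtain ⟨i, -⟩ : ∃ i : Fin k, True := ⟨⟨0, hk⟩, trivial⟩
  obtain ⟨σ, hσ, hσ'⟩ := exists_sign (M.wt j (ht (t i)))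
  set m : ℕ := ⌈2 * M.C0 / β * R⌉₊ with hm
  have hm1 : 2 * M.C0 / β * R ≤ m := Nat.le_ceil _
  have hm2 : (m : ℝ) ≤ (2 * M.C0 / β + 1) * R := by
    have := (Nat.ceil_lt_add_one (show 0 ≤ 2 * M.C0 / β * R by positivity)).le
    rw [hm]
    linarith
  have hm3 : 2 * M.C0 * R ≤ β * m := by
    have := mul_le_mul_of_nonneg_left hm1 hβ.le
    calc 2 * M.C0 * R = β * (2 * M.C0 / β * R) := by field_simp
      _ ≤ _ := this
  have hmC : (m : ℝ) ≤ C * R := hm2.trans (mul_le_mul_of_nonneg_right hC' (by linarith))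
  have hσm : |σ * (m : ℤ)| = m := by
    rcases hσ with rfl | rfl <;> simp
  refine Or.inr (Or.inl ⟨fun j => by
    show hh j (M.θ _) = 0
    rw [M.θ_ex, map_zero], i, σ * (m : ℤ), ?_, ?_, ?_⟩)
  · rw [hσm]
    exact_mod_cast hmC.trans hCR
  · rw [hσm]
    exact_mod_cast hmC.trans hρ₂
  · show (M.l (M.τ (t i) ^ (-(σ * (m:ℤ))) * M.ex (x • M.X j) * M.τ (t i) ^ (σ * (m:ℤ))) : ℝ) ≤ C
    rw [M.conj_ex]
    have hmem : x • M.X j ∈ M.Vw (M.wt j) := Submodule.smul_mem _ _ (M.X_mem j)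
    have h2 := M.contract (hn₁ i) (M.Φ_sub hΦ) hσ (β := β) ((hgap i _ hΦ).trans hσ') m hmem
    have h2C : (0:ℝ) ≤ 2 ^ M.C0 := by positivity
    have h3 : M.nm (M.Ad (M.τ (t i) ^ (-(σ * (m:ℤ)))) (x • M.X j)) ≤ 1 := by
      refine h2.trans ?_
      rw [M.nm_smul]
      have h3 : |x| * M.nm (M.X j) ≤ M.C0 * 2 ^ M.C0 * Real.exp (M.C0 * R) := by
        refine le_trans ?_ hx
        exact mul_le_of_le_one_right (abs_nonneg x) (M.X_le j)
      have h4 : M.C0 * (1 + (n₁:ℝ) * m) ^ M.deg ≤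
          M.C0 * (1 + n₁ * (2 * M.C0 / β + 1) * R) ^ M.deg := by
        refine mul_le_mul_of_nonneg_left (pow_le_pow_left₀ (by positivity) ?_ _) (by linarith)
        have : (0:ℝ) ≤ n₁ := by positivity
        nlinarith
      have h5 : Real.exp (-(β * m)) ≤ Real.exp (-(2 * M.C0 * R)) :=
        Real.exp_le_exp.mpr (by linarith)
      have h6 : Real.exp R ≤ Real.exp (M.C0 * R) := Real.exp_le_exp.mpr (by nlinarith)
      calc M.C0 * (1 + (n₁:ℝ) * m) ^ M.deg * Real.exp (-(β * m)) * (|x| * M.nm (M.X j))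
          ≤ M.C0 * (1 + n₁ * (2 * M.C0 / β + 1) * R) ^ M.deg * Real.exp (-(2 * M.C0 * R)) *
            (M.C0 * 2 ^ M.C0 * Real.exp (M.C0 * R)) := by
            refine mul_le_mul (mul_le_mul h4 h5 (Real.exp_pos _).le (by positivity)) h3
              (mul_nonneg (abs_nonneg _) (M.nm_nonneg _)) (by positivity)
        _ = (M.C0 * (M.C0 * 2 ^ M.C0) * (1 + n₁ * (2 * M.C0 / β + 1) * R) ^ M.deg) *
            (Real.exp (-(2 * M.C0 * R)) * Real.exp (M.C0 * R)) := by ring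
        _ ≤ Real.exp (M.C0 * R) * (Real.exp (-(2 * M.C0 * R)) * Real.exp (M.C0 * R)) :=
            mul_le_mul_of_nonneg_right (h1.trans h6) (by positivity)
        _ = 1 := by
            rw [← Real.exp_add, ← Real.exp_add, ← Real.exp_zero]
            congr 1; ring
    have h7 := M.met_V (M.Ad (M.τ (t i) ^ (-(σ * (m:ℤ)))) (x • M.X j))
    nlinarith

/-- the list of the second decomposition -/
theorem dec2_list {n₁ : ℕ} {v : Fin k → (Fin k → ℤ)} (hn₁ : ∀ i, M.τ (v i) ∈ M.CB n₁) {β : ℝ}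
    (hβ : 0 < β) (hgap : ∀ i, ∀ b ∈ M.Φ, β ≤ |b (ht (v i))|) {hh : Fin k → Ht k →L[ℝ] ℝ}
    (hd : ∀ i j, hh j (ht (v i)) = if i = j then 1 else 0) {H B CL : ℝ}
    (hH : ∀ i, ‖hh i‖ ≤ H) (hB : ∑ i, ‖ht (v i)‖ ≤ B) (hH0 : 1 ≤ H) (hB0 : 0 ≤ B) (hCL : 1 ≤ CL)
    (hl : ∀ n, ∀ c ∈ M.CB n, (M.l c : ℝ) ≤ CL * n)
    {δ R C : ℝ} {ρ : ℕ} (hδ : 0 < δ) (hR : 1 ≤ R) (hRρ : R ≤ ρ) (hC : 2 * M.C0 ≤ C)
    (hC' : 2 * M.C0 / β + 1 ≤ C) (hC2 : 2 * H ≤ C) (hC3 : 2 * CL * M.C0 * (1 + B) ≤ C)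
    (hCR : C * R ≤ ρ) {ρ₂ : ℕ} (hρ₂ : C * R ≤ ρ₂) {K : ℝ}
    (hK : K = 3 * k * n₁ * H + 2 * M.C0 * (1 + B) + 4 * M.C0)
    (h1 : M.C0 * (M.C0 * 2 ^ M.C0) * (1 + n₁ * (2 * M.C0 / β + 1) * R) ^ M.deg ≤ Real.exp R)
    (h2 : M.C0 * (1 + K * R) ^ M.deg ≤ Real.exp (δ * R))
    {u : S} (hu : u ∈ M.FB δ R) :
    ∃ (L₁ L₂ : List S) (y : V), L₁.length = M.mE ∧ L₂.length = k + 2 ∧ y ∈ M.Vw 0 ∧
      M.nm y ≤ Real.exp (δ * R) ∧ (∀ a ∈ L₁, (M.l a : ℝ) ≤ M.cA * R) ∧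
      (∀ a ∈ L₂, (M.l a : ℝ) ≤ (CL * (2 * n₁ * H + n₁) + C + CL * K) * R) ∧
      (L₁ ++ (M.ex y :: L₂)).prod = u ∧
      ∀ g ∈ L₁ ++ (M.ex y :: L₂),
        P188.H882.Typed (fun x => (M.l x : ℝ)) (fun i => M.τ (v i)) (fun j x => hh j (M.θ x))
          ρ ρ₂ C (M.Nt δ ρ) g := by
  have hC0 := M.one_le_C0
  have hR0 : 0 ≤ R := by linarith
  have hn1 : (0:ℝ) ≤ n₁ := by positivity
  have hk0 : (0:ℝ) ≤ k := by positivity
  have hK0 : 0 ≤ K := by rw [hK]; positivity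
  obtain ⟨x, hx, hxn, y, hy, hyn, w, hw, rfl⟩ := hu
  obtain ⟨r, hr, hrx⟩ := M.gen_e x hx
  have hrb : ∀ t, |r t| ≤ M.C0 * 2 ^ M.C0 * Real.exp (M.C0 * R) := fun t =>
    (hr t).trans (M.gen_bound hR0 hxn)
  have hNt : M.Nt δ R ⊆ M.Nt δ ρ := M.Nt_mono (mul_le_mul_of_nonneg_left hRρ hδ.le)
  obtain ⟨n, w', hnb, hwb, hhb, hwe⟩ := height_split hd hH hB hH0 hR hw
  set L₀ : List S := List.ofFn fun i => M.τ (v i) ^ n i with hL₀
  set z : S := (L₀.prod * M.τ w')⁻¹ * M.τ w with hz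
  -- the powers
  set N : ℕ := ⌈2 * H * R⌉₊ with hN
  have hN1 : 2 * H * R ≤ N := Nat.le_ceil _
  have hN2 : (N : ℝ) ≤ 3 * H * R := by
    have := (Nat.ceil_lt_add_one (show 0 ≤ 2 * H * R by positivity)).le
    rw [hN]
    nlinarith
  have hnN : ∀ i, (n i).natAbs ≤ N := by
    intro i
    have h3 : (((n i).natAbs : ℕ) : ℝ) ≤ N := by
      rw [Nat.cast_natAbs, Int.cast_abs]
      exact (hnb i).trans hN1
    exact_mod_cast h3
  have hpow : ∀ i, M.τ (v i) ^ n i ∈ M.CB (n₁ * N) := fun i =>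
    M.CB_mono (Nat.mul_le_mul_left _ (hnN i)) (M.CB_zpow (hn₁ i) (n i))
  have hL₀CB : L₀.prod ∈ M.CB (k * (n₁ * N)) := by
    have := M.CB_list L₀ (n := n₁ * N) (by
      intro a ha
      rw [hL₀, List.mem_ofFn] at ha
      obtain ⟨i, rfl⟩ := ha
      exact hpow i)
    rwa [hL₀, List.length_ofFn] at this
  obtain ⟨n₂, hn₂, hτ₂⟩ := M.τ_word hB0 hwb
  obtain ⟨n₃, hn₃, hτ₃⟩ := M.τ_word hR0 hw
  have hzCB : z ∈ M.CB ((k * (n₁ * N) + n₂) + n₃) :=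
    M.CB_mul (M.CB_inv (M.CB_mul hL₀CB hτ₂)) hτ₃
  have hzK : (((k * (n₁ * N) + n₂) + n₃ : ℕ) : ℝ) ≤ K * R := by
    push_cast
    have e1 : (k:ℝ) * (n₁ * N) ≤ k * (n₁ * (3 * H * R)) := by gcongr
    have e2 : 2 * M.C0 * (1 + B) ≤ 2 * M.C0 * (1 + B) * R :=
      le_mul_of_one_le_right (by positivity) hR
    have e3 : 2 * M.C0 * (1 + R) ≤ 4 * M.C0 * R := by nlinarith
    rw [hK]
    nlinarith
  have hηz : M.η z = 1 := by
    have e1 : M.η L₀.prod = Multiplicative.ofAdd (∑ i, n i • v i) := by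
      rw [map_list_prod, hL₀, List.map_ofFn, List.prod_ofFn, ofAdd_sum]
      refine Finset.prod_congr rfl fun i _ => ?_
      show M.η (M.τ (v i) ^ n i) = _
      rw [map_zpow, M.η_τ, ofAdd_zsmul]
    rw [hz, map_mul, map_inv, map_mul, e1, M.η_τ, M.η_τ, hwe, ← ofAdd_add, inv_mul_cancel]
  have hzNt : z ∈ M.Nt δ R := M.neutral_word hzCB hηz hzK h2
  have hzl : (M.l z : ℝ) ≤ CL * K * R := by
    refine (hl _ _ hzCB).trans ?_
    calc _ ≤ CL * (K * R) := mul_le_mul_of_nonneg_left hzK (by linarith)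
      _ = _ := by ring
  have hτl : (M.l (M.τ w') : ℝ) ≤ C := (M.len_τ hCL hl hB0 hwb).trans hC3
  refine ⟨List.ofFn fun t => M.ex (r t • M.X (M.jE t)), L₀ ++ [M.τ w', z], y, by simp,
    by simp [hL₀], hy, hyn, ?_, ?_, ?_, ?_⟩
  · intro a ha
    rw [List.mem_ofFn] at ha
    obtain ⟨s, rfl⟩ := ha
    exact M.len_letter (M.jE_ne s) (hrb s) hR0 le_rfl hR
  · intro a ha
    have q1 : 0 ≤ CL * (2 * n₁ * H + n₁) * R := by positivity
    have q2 : 0 ≤ C * R := by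
      have : 0 ≤ C := by linarith
      positivity
    have q3 : 0 ≤ CL * K * R := by positivity
    have ha' : a ∈ L₀ ∨ a = M.τ w' ∨ a = z := by simpa using ha
    rcases ha' with ha | rfl | rfl
    · rw [hL₀, List.mem_ofFn] at ha
      obtain ⟨i, rfl⟩ := ha
      have e1 := hl _ _ (M.CB_zpow (hn₁ i) (n i))
      have e2 : ((n₁ * (n i).natAbs : ℕ) : ℝ) ≤ n₁ * (2 * H * R) := by
        push_cast
        rw [Nat.cast_natAbs, Int.cast_abs]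
        exact mul_le_mul_of_nonneg_left (hnb i) hn1
      have e3 : CL * (n₁ * (2 * H * R)) ≤ CL * (2 * n₁ * H + n₁) * R := by
        have : 0 ≤ CL * n₁ * R := by positivity
        nlinarith
      have e4 := mul_le_mul_of_nonneg_left e2 (by linarith : 0 ≤ CL)
      calc _ ≤ CL * (2 * n₁ * H + n₁) * R := e1.trans (e4.trans e3)
        _ ≤ _ := by linarith
    · refine hτl.trans ?_
      have : C ≤ C * R := le_mul_of_one_le_right (by linarith) hR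
      linarith
    · linarith
  · rw [List.prod_append, List.prod_cons, List.prod_append, List.prod_cons, List.prod_singleton,
      hrx, hz]
    group
  · intro g hg
    have hg' : g ∈ (List.ofFn fun t => M.ex (r t • M.X (M.jE t))) ∨ g = M.ex y ∨ g ∈ L₀ ∨
      g = M.τ w' ∨ g = z := by simpa using hg
    rcases hg' with hg | rfl | hg | rfl | rfl
    · rw [List.mem_ofFn] at hg
      obtain ⟨s, rfl⟩ := hg
      exact M.typed_letter hn₁ hβ hgap hR hC hC' hCR hρ₂ h1 (M.jE_ne s) (hrb s)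
    · exact Or.inr (Or.inr (Or.inl ⟨fun j => by
        show hh j (M.θ _) = 0
        rw [M.θ_ex, map_zero], hNt ⟨y, hy, hyn, rfl⟩⟩))
    · rw [hL₀, List.mem_ofFn] at hg
      obtain ⟨i, rfl⟩ := hg
      have e1 : |(n i : ℝ)| ≤ C * R := (hnb i).trans (mul_le_mul_of_nonneg_right hC2 hR0)
      refine Or.inl ⟨i, n i, ?_, ?_, rfl⟩
      · have := e1.trans hCR
        exact_mod_cast this
      · have := e1.trans hρ₂
        exact_mod_cast this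
    · refine Or.inr (Or.inr (Or.inr ⟨hτl, fun j => ?_⟩))
      have e1 : M.θ (M.τ w') = ht w' := M.θ_τ w'
      show |hh j (M.θ (M.τ w'))| ≤ C
      rw [e1]
      exact (hhb j).trans (by linarith)
    · refine Or.inr (Or.inr (Or.inl ⟨fun j => ?_, hNt hzNt⟩))
      have e1 : M.θ z = 0 := by
        rw [M.θ_of_η (y := 1) (by rw [hηz, map_one]), M.θ_one]
      show hh j (M.θ z) = 0
      rw [e1, map_zero]

theorem typed_mono {t : Fin k → S} {h : Fin k → S → ℝ} {ρ ρ₂ ρ₂' : ℕ} {τ τ' : ℝ} {Nt Nt' : Set S}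
    (hρ : ρ₂ ≤ ρ₂') (hτ : τ ≤ τ') (hN : Nt ⊆ Nt') {g : S}
    (hg : P188.H882.Typed (fun x => (M.l x : ℝ)) t h ρ ρ₂ τ Nt g) :
    P188.H882.Typed (fun x => (M.l x : ℝ)) t h ρ ρ₂' τ' Nt' g := by
  have hρ' : (ρ₂ : ℤ) ≤ ρ₂' := by exact_mod_cast hρ
  rcases hg with ⟨i, n, h1, h2, h3⟩ | ⟨h0, i, m, h1, h2, h3⟩ | ⟨h0, h1⟩ | ⟨h1, h2⟩
  · exact Or.inl ⟨i, n, h1, h2.trans hρ', h3⟩
  · exact Or.inr (Or.inl ⟨h0, i, m, h1, h2.trans hρ', h3.trans hτ⟩)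
  · exact Or.inr (Or.inr (Or.inl ⟨h0, hN h1⟩))
  · exact Or.inr (Or.inr (Or.inr ⟨h1.trans hτ, fun j => (h2 j).trans hτ⟩))

/-- **Second decomposition.** -/
theorem dec2 (v : Fin k → (Fin k → ℤ)) (hv : ∀ i, M.Generic (v i)) (hh : Fin k → Ht k →L[ℝ] ℝ)
    (hd : ∀ i j, hh j (ht (v i)) = if i = j then 1 else 0) :
    ∃ (c : ℕ) (C₁ : ℝ), 1 ≤ C₁ ∧ ∀ C : ℝ, C₁ ≤ C → ∀ d : ℝ, 0 < d → C * d ≤ 1 →
      ∀ δ : ℝ, 0 < δ → δ ≤ d → ∃ ρ₀ : ℕ, ∀ ρ : ℕ, ρ₀ ≤ ρ → ∀ u ∈ M.FB δ (d * ρ),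
        ∃ us : List S, us.length ≤ c ∧ us.prod = u ∧
          (∀ a ∈ us, P188.H882.Typed (fun x => (M.l x : ℝ)) (fun i => M.τ (v i))
            (fun j x => hh j (M.θ x)) ρ ⌈C * (d * ρ)⌉₊ C (M.Nt (C * δ) ρ) a) ∧
          ∀ ws, ws <+: us → ws.prod ∈ M.FB (C * δ) (C * (d * ρ)) := by
  classical
  have hC0 := M.one_le_C0
  obtain ⟨n₁, β, hβ, hn₁, hgap⟩ := M.dirs_const v hv
  obtain ⟨CL, hCL, hl⟩ := M.l_CB
  have hn1 : (0:ℝ) ≤ n₁ := by positivity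
  have hk0 : (0:ℝ) ≤ k := by positivity
  have hcA := M.cA_nonneg
  obtain ⟨H, hH1, hH⟩ := exists_top (Finset.univ : Finset (Fin k)) fun i => ‖hh i‖
  obtain ⟨B, hB⟩ : ∃ B : ℝ, B = ∑ i, ‖(ht (v i) : Ht k)‖ := ⟨_, rfl⟩
  have hB0 : 0 ≤ B := by rw [hB]; exact Finset.sum_nonneg fun i _ => norm_nonneg _
  obtain ⟨K, hK⟩ : ∃ K : ℝ, K = 3 * k * n₁ * H + 2 * M.C0 * (1 + B) + 4 * M.C0 := ⟨_, rfl⟩
  have hK0 : 0 ≤ K := by rw [hK]; positivity
  obtain ⟨Ca, hCa⟩ : ∃ Ca : ℝ, Ca = 2 * M.C0 + (2 * M.C0 / β + 1) + 2 * H +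
    2 * CL * M.C0 * (1 + B) := ⟨_, rfl⟩
  have q1 : 0 ≤ 2 * M.C0 / β + 1 := by positivity
  have q2 : 0 ≤ 2 * CL * M.C0 * (1 + B) := by positivity
  have q3 : 0 ≤ CL * (2 * n₁ * H + n₁) := by positivity
  have q4 : 0 ≤ CL * K := by positivity
  have hCa0 : 1 ≤ Ca := by rw [hCa]; linarith
  obtain ⟨C₂, hC₂, hpre⟩ := M.prefix_fb
    (A := M.cA + (CL * (2 * n₁ * H + n₁) + Ca + CL * K)) (by linarith) (M.mE + k + 2)
  refine ⟨M.mE + (k + 3), max C₂ Ca, le_max_of_le_left hC₂, ?_⟩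
  intro C hC d hd0 hCd δ hδ hδd
  have hCC₂ : C₂ ≤ C := (le_max_left _ _).trans hC
  have hCCa : Ca ≤ C := (le_max_right _ _).trans hC
  have hCpos : 0 < C := by linarith
  have hCad : Ca * d ≤ 1 := (mul_le_mul_of_nonneg_right hCCa hd0.le).trans hCd
  have hd1 : d ≤ 1 := by nlinarith
  have hδC₂ : δ ≤ 1 / C₂ := by
    rw [le_div_iff₀ (by linarith)]
    nlinarith
  obtain ⟨R₀, hpre'⟩ := hpre δ hδ hδC₂
  obtain ⟨R₁, hR₁⟩ := poly_le_exp (M.C0 * (M.C0 * 2 ^ M.C0)) (n₁ * (2 * M.C0 / β + 1))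
    (by positivity) M.deg (one_pos : (0:ℝ) < 1)
  obtain ⟨R₂, hR₂⟩ := poly_le_exp M.C0 K hK0 M.deg hδ
  obtain ⟨ρ₀, hρ₀⟩ := exists_nat_ge (max (max R₀ R₁) (max R₂ 1) / d)
  rw [div_le_iff₀ hd0, mul_comm] at hρ₀
  refine ⟨ρ₀, ?_⟩
  intro ρ hρ u hu
  have hρ' := hρ₀.trans (mul_le_mul_of_nonneg_left (by exact_mod_cast hρ : (ρ₀ : ℝ) ≤ ρ) hd0.le)
  have b0 : R₀ ≤ d * ρ := le_trans (by simp) hρ'
  have b1 : R₁ ≤ d * ρ := le_trans (by simp) hρ'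
  have b2 : R₂ ≤ d * ρ := le_trans (by simp) hρ'
  have b4 : (1:ℝ) ≤ d * ρ := le_trans (by simp) hρ'
  clear hρ' hρ₀
  have hρ0 : (0:ℝ) ≤ ρ := by positivity
  have hRρ : d * ρ ≤ ρ := mul_le_of_le_one_left hρ0 hd1
  have hCaρ : Ca * (d * ρ) ≤ ρ := by
    calc Ca * (d * ρ) = (Ca * d) * ρ := by ring
      _ ≤ 1 * ρ := mul_le_mul_of_nonneg_right hCad hρ0
      _ = ρ := one_mul _
  have h1 := hR₁ (d * ρ) b1
  rw [one_mul] at h1
  obtain ⟨L₁, L₂, y, hL₁, hL₂, hy, hyn, hL₁A, hL₂A, hprod, htyp⟩ := M.dec2_list (v := v) hn₁ hβ hgap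
    hd (fun i => hH i (Finset.mem_univ i)) hB.ge hH1 hB0 hCL hl hδ b4 hRρ
    (C := Ca) (by rw [hCa]; linarith) (by rw [hCa]; linarith) (by rw [hCa]; linarith)
    (by rw [hCa]; linarith) hCaρ (ρ₂ := ⌈Ca * (d * ρ)⌉₊) (Nat.le_ceil _) hK h1 (hR₂ _ b2) hu
  refine ⟨L₁ ++ (M.ex y :: L₂), by simp [hL₁, hL₂], hprod, fun g hg => ?_, fun ws hws => ?_⟩
  · refine M.typed_mono (Nat.ceil_mono (mul_le_mul_of_nonneg_right hCCa (by positivity))) hCCa
      (M.Nt_mono (mul_le_mul_of_nonneg_right ?_ hρ0)) (htyp g hg)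
    exact le_mul_of_one_le_left hδ.le (hCa0.trans hCCa)
  · have hdρ : 0 ≤ d * ρ := by positivity
    have h2 := hpre' (d * ρ) b0 L₁ L₂ y (by omega) (by omega)
      (fun a ha => (hL₁A a ha).trans (mul_le_mul_of_nonneg_right (by linarith) hdρ))
      (fun a ha => (hL₂A a ha).trans (mul_le_mul_of_nonneg_right (by linarith) hdρ))
      hy hyn ws hws 1 (by rw [M.len.one]; push_cast; positivity)
    rw [mul_one] at h2
    exact M.fb_monoD (by positivity) (mul_le_mul_of_nonneg_right hCC₂ hδ.le) (by positivity)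
      (mul_le_mul_of_nonneg_right hCC₂ hdρ) h2

end RModel

end Vale.Agent.P188.Z1
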