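import Vale.Agent.P188.Z1.Fat

/-!
# P188, Z1: decompositions of fat displacements, preliminaries

Heights of powers, invariance of `e`, gaps of generic directions, polynomial against exponential,
lists of short letters.
-/

set_option linter.all false

open MeasureTheory Set
open Vale.Agent.P188.H530 (hgt hgt_mul)

namespace Vale.Agent.P188.Z1

/-! ### numerical lemmas -/

/-- polynomial against exponential -/
theorem poly_le_exp (A K : ℝ) (hK : 0 ≤ K) (d : ℕ) {ε : ℝ} (hε : 0 < ε) :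
    ∃ R₀ : ℝ, ∀ R : ℝ, R₀ ≤ R → A * (1 + K * R) ^ d ≤ Real.exp (ε * R) := by
  have h1 := (isLittleO_pow_exp_pos_mul_atTop d hε).def
    (c := 1 / (|A| * (1 + K) ^ d + 1)) (by positivity)
  obtain ⟨R₀, hR₀⟩ := Filter.eventually_atTop.mp h1
  refine ⟨max R₀ 1, fun R hR => ?_⟩
  have hR1 : 1 ≤ R := (le_max_right _ _).trans hR
  have h2 := hR₀ R ((le_max_left _ _).trans hR)
  rw [Real.norm_of_nonneg (by positivity), Real.norm_of_nonneg (Real.exp_pos _).le] at h2
  have h3 : (1 + K * R) ^ d ≤ ((1 + K) * R) ^ d := by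
    refine pow_le_pow_left₀ (by positivity) ?_ d
    nlinarith
  have hA : 0 < |A| * (1 + K) ^ d + 1 := by positivity
  have h4 : R ^ d * (|A| * (1 + K) ^ d + 1) ≤ Real.exp (ε * R) := by
    rw [one_div, inv_mul_eq_div, le_div_iff₀ hA] at h2
    exact h2
  calc A * (1 + K * R) ^ d ≤ |A| * (1 + K * R) ^ d :=
        mul_le_mul_of_nonneg_right (le_abs_self A) (by positivity)
    _ ≤ |A| * ((1 + K) * R) ^ d := mul_le_mul_of_nonneg_left h3 (abs_nonneg _)
    _ = R ^ d * (|A| * (1 + K) ^ d) := by rw [mul_pow]; ring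
    _ ≤ R ^ d * (|A| * (1 + K) ^ d + 1) := by
        refine mul_le_mul_of_nonneg_left (by linarith) (by positivity)
    _ ≤ _ := h4

/-- a positive lower bound on a finite set -/
theorem exists_gap {α : Type*} (s : Finset α) (f : α → ℝ) (hf : ∀ a ∈ s, 0 < f a) :
    ∃ β : ℝ, 0 < β ∧ ∀ a ∈ s, β ≤ f a := by
  classical
  induction s using Finset.induction_on with
  | empty => exact ⟨1, one_pos, by simp⟩
  | insert a s ha ih =>
    obtain ⟨β, hβ, h⟩ := ih fun b hb => hf b (Finset.mem_insert_of_mem hb)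
    refine ⟨min β (f a), lt_min hβ (hf a (Finset.mem_insert_self _ _)), ?_⟩
    intro b hb
    rcases Finset.mem_insert.mp hb with rfl | hb
    · exact min_le_right _ _
    · exact (min_le_left _ _).trans (h b hb)

/-- an upper bound on a finite set -/
theorem exists_top {α : Type*} (s : Finset α) (f : α → ℝ) : ∃ B : ℝ, 1 ≤ B ∧ ∀ a ∈ s, f a ≤ B := by
  classical
  induction s using Finset.induction_on with
  | empty => exact ⟨1, le_rfl, by simp⟩
  | insert a s ha ih =>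
    obtain ⟨β, hβ, h⟩ := ih
    refine ⟨max β (f a), hβ.trans (le_max_left _ _), ?_⟩
    intro b hb
    rcases Finset.mem_insert.mp hb with rfl | hb
    · exact le_max_right _ _
    · exact (h b hb).trans (le_max_left _ _)

/-- prefixes of a concatenation -/
theorem prefix_append_cases {α : Type*} {L₁ L₂ ws : List α} (h : ws <+: L₁ ++ L₂) :
    ws <+: L₁ ∨ ∃ ws', ws' <+: L₂ ∧ ws = L₁ ++ ws' := by
  induction L₁ generalizing ws with
  | nil => exact Or.inr ⟨ws, by simpa using h, by simp⟩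
  | cons a L₁ ih =>
    cases ws with
    | nil => exact Or.inl List.nil_prefix
    | cons b ws =>
      rw [List.cons_append, List.cons_prefix_cons] at h
      obtain ⟨rfl, h⟩ := h
      rcases ih h with h | ⟨ws', h1, rfl⟩
      · exact Or.inl (List.cons_prefix_cons.mpr ⟨rfl, h⟩)
      · exact Or.inr ⟨ws', h1, by simp⟩

namespace RModel

variable {S : Type} [Group S] [MeasurableSpace S] {Γ : Type} [Group Γ]
  {V : Type} [AddCommGroup V] [Module ℝ V] {k : ℕ} (M : RModel S Γ V k)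

/-! ### heights -/

theorem hgt_zpow (x : S) (n : ℤ) : hgt M.η (x ^ n) = (n : ℝ) • hgt M.η x := by
  funext i
  simp [hgt, map_zpow, toAdd_zpow]

theorem hgt_τ (w : Fin k → ℤ) : hgt M.η (M.τ w) = ht w := by
  funext i
  simp [hgt, M.η_τ, ht]

theorem l_list (L : List S) {B : ℝ} (hB : ∀ a ∈ L, (M.l a : ℝ) ≤ B) :
    (M.l L.prod : ℝ) ≤ L.length * B := by
  induction L with
  | nil => simp [M.len.one]
  | cons a L ih =>
    have h1 := ih fun b hb => hB b (List.mem_cons_of_mem _ hb)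
    have h2 := hB a (List.mem_cons_self ..)
    have h3 : (M.l (a * L.prod) : ℝ) ≤ M.l a + M.l L.prod := by
      exact_mod_cast M.len.mul a L.prod
    rw [List.prod_cons, List.length_cons]
    push_cast
    linarith

theorem l_mulD (x y : S) : (M.l (x * y) : ℝ) ≤ M.l x + M.l y := by
  exact_mod_cast M.len.mul x y

theorem CB_zpow {n : ℕ} {a : S} (ha : a ∈ M.CB n) (m : ℤ) : a ^ m ∈ M.CB (n * m.natAbs) := by
  rw [Nat.mul_comm]
  rcases Int.natAbs_eq m with h | h
  · rw [h, zpow_natCast, Int.natAbs_natCast]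
    exact M.CB_pow ha _
  · rw [h, zpow_neg, zpow_natCast, Int.natAbs_neg, Int.natAbs_natCast]
    exact M.CB_inv (M.CB_pow ha _)

/-- the exponentials of multiples of a letter -/
theorem nm_smul (x : ℝ) (v : V) : M.nm (x • v) = |x| * M.nm v := by
  rw [map_smul_eq_mul, Real.norm_eq_abs]

theorem fb_monoD {δ δ' R R' : ℝ} (hδ : 0 ≤ δ) (h : δ ≤ δ') (hR : 0 ≤ R) (h' : R ≤ R') :
    M.FB δ R ⊆ M.FB δ' R' := M.FB_mono' hδ hR h' h

theorem fb_of_lenD : ∃ C : ℝ, 1 ≤ C ∧ ∀ δ : ℝ, 0 < δ → ∃ R₀ : ℝ, ∀ R : ℝ, R₀ ≤ R → ∀ g,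
    (M.l g : ℝ) ≤ R → g ∈ M.FB δ (C * R) := by
  obtain ⟨C, hC, h⟩ := M.fb_of_len
  exact ⟨C, hC, fun δ hδ => Filter.eventually_atTop.mp (h δ hδ)⟩

theorem fb_mulD : ∃ C : ℝ, 1 ≤ C ∧ ∀ δ : ℝ, 0 < δ → δ ≤ 1 → ∃ R₀ : ℝ, ∀ R : ℝ, R₀ ≤ R →
    ∀ g ∈ M.FB δ R, ∀ g' ∈ M.FB δ R, g * g' ∈ M.FB (C * δ) (C * R) := by
  obtain ⟨C, hC, h⟩ := M.fb_mul
  exact ⟨C, hC, fun δ hδ hδ' => Filter.eventually_atTop.mp (h δ hδ hδ')⟩

end RModel

end Vale.Agent.P188.Z1
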