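import Vale.Agent.P188.Z1.LinRel

/-!
# LIN in the model, 2: from the measure estimate to the pointwise form at a common scale
-/

open MeasureTheory Set Finset
open scoped ENNReal BigOperators

namespace Vale.Agent.P188.Z1

open _root_.P188.H882

universe u

variable {S : Type u} [Group S] [MeasurableSpace S] {μ : Measure S} {ι : Type} [Fintype ι]

/-- basic data for coarse differentiation -/
structure Base (μ : Measure S) (l : S → ℝ) (t : ι → S) (h : ι → S → ℝ) (C : ℝ) [DecidableEq ι] :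
    Prop where
  one_le_C : 1 ≤ C
  h_mul : ∀ i x y, h i (x * y) = h i x + h i y
  h_t : ∀ i j, h j (t i) = if i = j then 1 else 0
  h_meas : ∀ i, Measurable (h i)
  l_t : ∀ i, l (t i) ≤ C
  mp : ∀ w : S, MeasurePreserving (fun x : S => x * w) μ μ

/-- displacement sets at the scale `ρ` -/
structure Sc (μ : Measure S) (l : S → ℝ) (t : ι → S) (h : ι → S → ℝ) (C ε1 d : ℝ) (c ρ : ℕ)
    (Nt W0 W2 W3 Q : Set S) : Prop where
  h23 : W2 ⊆ W3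
  h02 : W0 ⊆ W2
  dec1 : ∀ i, ∀ u ∈ W2, ∃ us : List S, us.length ≤ c ∧ us.prod = u ∧
      (∀ v ∈ us, Mrg l Nt (t i) ρ (ε1 * ρ) v) ∧ ∀ ws, ws <+: us → ws.prod ∈ W3 ∧
        ∀ m : ℤ, |m| ≤ (ρ : ℤ) → ∀ a, l a ≤ ε1 * ρ → ws.prod * t i ^ m * a ∈ W3
  dec2 : ∀ u ∈ W0, ∃ us : List S, us.length ≤ c ∧ us.prod = u ∧
      (∀ v ∈ us, Typed l t h ρ ⌈C * (C * d * ρ)⌉₊ C Nt v) ∧ ∀ ws, ws <+: us → ws.prod ∈ W2
  Qm : MeasurableSet Q
  Q0 : μ Q ≠ 0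
  Qf : μ Q ≠ ∞
  Qinv : ∀ q ∈ Q, q⁻¹ ∈ W0
  Qh : ∀ q ∈ Q, ∀ i, |h i q| ≤ 2 * C ^ 2 * (d * ρ)

omit [Fintype ι] in
lemma Base.dqb [DecidableEq ι] {l : S → ℝ} {t : ι → S} {h : ι → S → ℝ} {C : ℝ}
    (B : Base μ l t h C) {L : ℝ} (hL : 0 ≤ L) {f : S → ℝ}
    (hf : ∀ x s, |f (x * s) - f x| ≤ L * (l s + 1)) {ρ : ℕ} (hρ : 0 < ρ) (x : S) (i : ι) :
    |dq f (t i) ρ x| ≤ L * (C + 1) := by
  refine abs_dq_le (L := L * (C + 1)) (fun y => ?_) hρ x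
  refine (hf y (t i)).trans ?_
  have := B.l_t i
  exact mul_le_mul_of_nonneg_left (by linarith) hL

/-- step 1: the measure estimate -/
lemma core1 [DecidableEq ι] {l : S → ℝ} {t : ι → S} {h : ι → S → ℝ} {C : ℝ}
    (B : Base μ l t h C) {L ε ε0 ε1 d ω : ℝ} {c : ℕ}
    (hL : 0 < L) {ρ : ℕ} (hρ : 2 ≤ ρ) (hε00 : 0 < ε0) (hε10 : 0 < ε1)
    (he3 : (32 * ((c : ℝ) + 1) ^ 2 * (Fintype.card ι + 1) * (Fintype.card ι + 2)) * ε0 ≤ ε)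
    {Nt W0 W2 W3 Q : Set S} (hS : Sc μ l t h C ε1 d c ρ Nt W0 W2 W3 Q)
    (hω : ω = c * (3 * (4 * (ε0 * ρ) + 2 * L * (ε1 * ρ + 1) + 2 * (ε0 * ρ)) / ρ))
    {f : S → ℝ} (hf : ∀ x s, |f (x * s) - f x| ≤ L * (l s + 1)) {D Gd : Set S}
    (hDf : μ D ≠ ∞)
    (hFol : ∀ w ∈ W3, μ.real {x ∈ D | x * w ∉ D} ≤ ε0 * μ.real D)
    (hNF : ∀ v ∈ Nt, μ.real {x ∈ D | ¬ |f (x * v) - f x| ≤ ε0 * ρ} ≤ ε0 * μ.real D)
    (hGD : Gd ⊆ D) (hGdA : ∀ x ∈ Gd, ∀ i, Aff f (t i) ρ (ε0 * ρ) x)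
    (hGm : μ.real (D \ Gd) ≤ Fintype.card ι * (ε0 * μ.real D))
    (u : S) (hu : u ∈ W0) :
    μ.real {x ∈ D | ¬ Rel f t h ρ (c * (2 * (ε0 * ρ) + 2 * (⌈C * (C * d * ρ)⌉₊ : ℝ) * ω
      + L * (C + 1) + ε0 * ρ + Fintype.card ι * (C * (L * (C + 1))))) ω x (x * u)} ≤
      (ε / 4) * μ.real D := by
  have hC := B.one_le_C
  have hC0 : 0 < C := by linarith
  have hρR : (0:ℝ) < ρ := by positivity
  have hD0 : 0 ≤ μ.real D := measureReal_nonneg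
  have h1 := rel_meas' (S := S) (μ := μ) (D := D) (Gd := Gd) (Nt := Nt) (c := c)
      (W0 := W0) (W2 := W2) (W3 := W3)
      (ρ2 := ⌈C * (C * d * ρ)⌉₊) (τ := ε1 * ρ) (τ2 := C) (τ3 := ε0 * ρ)
      (ε0 := Fintype.card ι * (ε0 * μ.real D)) (δ := ε0 * μ.real D) (θ := ε0 * μ.real D)
      hL.le (by positivity) hf B.h_mul B.h_t B.mp hρ
      (by positivity) (by positivity) hC0.le (by positivity) hDf
      hGD hGdA (B.dqb hL.le hf (by omega)) (by positivity)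
      (by positivity) (by positivity) hGm hS.h23 hS.h02 hFol hS.dec1 hS.dec2 hNF hω u hu
  refine h1.trans ?_
  have e1 : 8 * ((c:ℝ) + 1) ^ 2 * (Fintype.card ι + 1) * (Fintype.card ι * (ε0 * μ.real D)
      + ε0 * μ.real D + ε0 * μ.real D)
      = ((32 * ((c:ℝ) + 1) ^ 2 * (Fintype.card ι + 1) * (Fintype.card ι + 2)) * ε0) / 4 * μ.real D := by
    ring
  rw [e1]
  refine mul_le_mul_of_nonneg_right ?_ hD0
  linarith

variable [MeasurableMul₂ S] [MeasurableInv S]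

/-- **one scale** -/
theorem one_scale' (ι : Type) [Fintype ι] [DecidableEq ι] (c : ℕ) {C L ε : ℝ} (hC : 1 ≤ C)
    (hL : 0 < L) (hε : 0 < ε) :
    ∃ ε1 : ℝ, 0 < ε1 ∧ ε1 ≤ 1 ∧ ∀ d : ℝ, 0 < d → d ≤ 1 → ∃ ε0 : ℝ, 0 < ε0 ∧ ∃ ρ0 : ℕ, ∀ ρ ≥ ρ0,
      ∀ (S : Type u) [Group S] [MeasurableSpace S] [MeasurableMul₂ S] [MeasurableInv S]
        (μ : Measure S) [SFinite μ] (l : S → ℝ) (t : ι → S) (h : ι → S → ℝ),
      Base μ l t h C → ∀ Nt W0 W2 W3 Q : Set S, Sc μ l t h C ε1 d c ρ Nt W0 W2 W3 Q →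
      ∀ f : S → ℝ, Measurable f → (∀ x s, |f (x * s) - f x| ≤ L * (l s + 1)) →
      ∀ D : Set S, MeasurableSet D → μ D ≠ ∞ →
      (∀ w ∈ W3, μ.real {x ∈ D | x * w ∉ D} ≤ ε0 * μ.real D) →
      (∀ v ∈ Nt, μ.real {x ∈ D | ¬ |f (x * v) - f x| ≤ ε0 * ρ} ≤ ε0 * μ.real D) →
      (∀ i, μ.real {x ∈ D | ¬ Aff f (t i) ρ (ε0 * ρ) x} ≤ ε0 * μ.real D) →
      ∃ D0 ⊆ D, MeasurableSet D0 ∧ μ.real (D \ D0) ≤ ε * μ.real D ∧
        ∀ x ∈ D0, ∀ x' ∈ D0, μ.real {q ∈ Q | q * (x⁻¹ * x') ∉ Q} ≤ μ.real Q / 4 →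
          Rel f t h ρ (ε * (d * ρ)) ε x x' := by
  have hC0 : 0 < C := by linarith
  have hk0 : (0:ℝ) ≤ Fintype.card ι := by positivity
  have hc0 : (0:ℝ) ≤ c := by positivity
  obtain ⟨wm, hwm⟩ : ∃ wm : ℝ, wm = ε / (100 * (c + 1) * (Fintype.card ι + 1) * C ^ 2) := ⟨_, rfl⟩
  have hwm0 : 0 < wm := by rw [hwm]; positivity
  have hwm' : wm * (100 * (c + 1) * (Fintype.card ι + 1) * C ^ 2) = ε := by
    rw [hwm]; field_simp
  obtain ⟨ε1, hε1⟩ : ∃ ε1 : ℝ, ε1 = min (wm / (24 * (c + 1) * (L + 1))) 1 := ⟨_, rfl⟩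
  have hε10 : 0 < ε1 := by rw [hε1]; exact lt_min (by positivity) one_pos
  have hε1a : 24 * (c + 1) * (L + 1) * ε1 ≤ wm := by
    have : ε1 ≤ wm / (24 * (c + 1) * (L + 1)) := by rw [hε1]; exact min_le_left _ _
    rwa [le_div_iff₀ (by positivity), mul_comm] at this
  have hε1b : ε1 ≤ 1 := by rw [hε1]; exact min_le_right _ _
  refine ⟨ε1, hε10, hε1b, ?_⟩
  intro d hd0 hd1'
  obtain ⟨ε0, hε0⟩ : ∃ ε0 : ℝ, ε0 = min (min (wm / (48 * (c + 1))) (ε * d / (64 * (c + 1))))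
    (ε / (32 * ((c : ℝ) + 1) ^ 2 * (Fintype.card ι + 1) * (Fintype.card ι + 2))) := ⟨_, rfl⟩
  have hε00 : 0 < ε0 := by
    rw [hε0]; exact lt_min (lt_min (by positivity) (by positivity)) (by positivity)
  have he1 : 48 * (c + 1) * ε0 ≤ wm := by
    have : ε0 ≤ wm / (48 * (c + 1)) := by rw [hε0]; exact (min_le_left _ _).trans (min_le_left _ _)
    rwa [le_div_iff₀ (by positivity), mul_comm] at this
  have he2 : 64 * (c + 1) * ε0 ≤ ε * d := by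
    have : ε0 ≤ ε * d / (64 * (c + 1)) := by
      rw [hε0]; exact (min_le_left _ _).trans (min_le_right _ _)
    rwa [le_div_iff₀ (by positivity), mul_comm] at this
  have he3 : (32 * ((c : ℝ) + 1) ^ 2 * (Fintype.card ι + 1) * (Fintype.card ι + 2)) * ε0 ≤ ε := by
    have : ε0 ≤ ε / (32 * ((c : ℝ) + 1) ^ 2 * (Fintype.card ι + 1) * (Fintype.card ι + 2)) := by
      rw [hε0]; exact min_le_right _ _
    rwa [le_div_iff₀ (by positivity), mul_comm] at this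
  clear hε0 hε1 hwm
  -- large scale thresholds
  obtain ⟨ρ3, hρ3⟩ := exists_nat_gt (24 * (c + 1) * (L + 1) / wm)
  obtain ⟨ρ4, hρ4⟩ := exists_nat_gt
    (16 * (c + 1) * (L * (C + 1) + Fintype.card ι * (C * (L * (C + 1))) + 1) / (ε * d))
  obtain ⟨ρ5, hρ5⟩ := exists_nat_gt (1 / d)
  refine ⟨ε0, hε00, max (max ρ3 ρ4) (max ρ5 2), ?_⟩
  intro ρ hρ S _ _ _ _ μ _ l t h B Nt W0 W2 W3 Q hS f hfm hf D hD hDf hFol hNF hAff
  have hρc : ρ3 ≤ ρ := le_trans (by simp) hρ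
  have hρd : ρ4 ≤ ρ := le_trans (by simp) hρ
  have hρe : ρ5 ≤ ρ := le_trans (by simp) hρ
  have hρf : 2 ≤ ρ := le_trans (by simp) hρ
  have t3 : 24 * (c + 1) * (L + 1) ≤ wm * ρ := by
    have h1 : 24 * (c + 1) * (L + 1) / wm < ρ := hρ3.trans_le (by exact_mod_cast hρc)
    rw [div_lt_iff₀ hwm0] at h1; linarith
  have t4 : 16 * (c + 1) * (L * (C + 1) + Fintype.card ι * (C * (L * (C + 1))) + 1)
      ≤ ε * (d * ρ) := by
    have h1 : 16 * (c + 1) * (L * (C + 1) + Fintype.card ι * (C * (L * (C + 1))) + 1)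
        / (ε * d) < ρ := hρ4.trans_le (by exact_mod_cast hρd)
    rw [div_lt_iff₀ (by positivity)] at h1; linarith
  have t5 : 1 ≤ d * ρ := by
    have h1 : 1 / d < ρ := hρ5.trans_le (by exact_mod_cast hρe)
    rw [div_lt_iff₀ hd0] at h1; linarith
  have hρR : (0:ℝ) < ρ := by positivity
  obtain ⟨Gd, hGD, hGdm, hGdA, hGm⟩ := good_set hfm t ρ (ε0 * ρ) hD hDf hAff
  -- the slope tolerance
  obtain ⟨ω, hω⟩ : ∃ ω : ℝ, ω = c * (3 * (4 * (ε0 * ρ) + 2 * L * (ε1 * ρ + 1)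
    + 2 * (ε0 * ρ)) / ρ) := ⟨_, rfl⟩
  have hωle : ω ≤ wm := by
    rw [hω]; exact omega_num hc0 hL hwm0 hε1a hε10.le hε00.le he1 hρR t3
  have hω0 : 0 ≤ ω := by rw [hω]; positivity
  have hD0 : 0 ≤ μ.real D := measureReal_nonneg
  have hmain := fun q (hq : q ∈ Q) => core1 B hL hρf hε00 hε10 he3 hS hω
    hf hDf hFol hNF hGD hGdA hGm q⁻¹ (hS.Qinv q hq)
  obtain ⟨D0, hD0D, hD0m, hD0meas, hpts⟩ := nice_pts B.mp
    (measurableSet_rel hfm B.h_meas) hD hS.Qm hDf hS.Qf hS.Q0 (by positivity) hmain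
  refine ⟨D0, hD0D, hD0m, by linarith, ?_⟩
  intro x hx x' hx' hxx'
  obtain ⟨q, hq, hqv, h1, h2⟩ := hpts x hx x' hx' hxx'
  have hH : ∀ i, |h i (q * (x⁻¹ * x'))| ≤ 2 * C ^ 2 * (d * ρ) := fun i => hS.Qh _ hqv i
  have h3 := rel_of_common B.h_mul h1 h2 hH
  refine ⟨h3.1.trans ?_, fun i => (h3.2 i).trans ?_⟩
  · exact err_num hc0 hC hk0 hL (by positivity) hε hwm' hω0 hωle hd0 hρR he2 hε00.le t4 t5
      (Nat.ceil_lt_add_one (by positivity)).le le_rfl (by positivity)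
  · have := two_wm_le hc0 hk0 hC hwm0 hwm'
    linarith

/-- the scales of coarse differentiation -/
def scl (q n0 j : ℕ) : ℕ := q * ((2 * q) ^ j * n0)

/-- **LIN core**: a common scale, chosen in a prescribed set of at least half of the indices. -/
theorem lin_core (ι : Type) [Fintype ι] [DecidableEq ι] (p c : ℕ) {C L ε : ℝ} (hC : 1 ≤ C)
    (hL : 0 < L) (hε : 0 < ε) :
    ∃ ε1 : ℝ, 0 < ε1 ∧ ε1 ≤ 1 ∧ ∀ d : ℝ, 0 < d → d ≤ 1 → ∃ ε0 : ℝ, 0 < ε0 ∧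
      ∃ q J ρ0 : ℕ, 0 < q ∧ 0 < J ∧ ∀ n0 ≥ ρ0, 0 < n0 →
      ∀ 𝒥 : Finset ℕ, 𝒥 ⊆ range J → J ≤ 2 * 𝒥.card →
      ∀ (S : Type u) [Group S] [MeasurableSpace S] [MeasurableMul₂ S] [MeasurableInv S]
        (μ : Measure S) [SFinite μ] (l : S → ℝ) (t : ι → S) (h : ι → S → ℝ),
      Base μ l t h C → ∀ Nt W0 W2 W3 Q : ℕ → Set S,
      (∀ j ∈ 𝒥, Sc μ l t h C ε1 d c (scl q n0 j) (Nt j) (W0 j) (W2 j) (W3 j) (Q j)) →
      ∀ (A : Type) [Fintype A], Fintype.card A ≤ p →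
      ∀ (f : A → S → ℝ) (D : A → Set S), (∀ α, Measurable (f α)) →
      (∀ α x s, |f α (x * s) - f α x| ≤ L * (l s + 1)) →
      (∀ α, MeasurableSet (D α)) → (∀ α, μ (D α) ≠ ∞) →
      (∀ α i (m : ℤ), |m| ≤ ((2 * q) ^ J * n0 : ℕ) →
        μ.real {x ∈ D α | x * t i ^ m ∉ D α} ≤ ε0 * μ.real (D α)) →
      (∀ α, ∀ j ∈ 𝒥, ∀ w ∈ W3 j, μ.real {x ∈ D α | x * w ∉ D α} ≤ ε0 * μ.real (D α)) →
      (∀ α, ∀ j ∈ 𝒥, ∀ v ∈ Nt j,
        μ.real {x ∈ D α | ¬ |f α (x * v) - f α x| ≤ ε0 * (scl q n0 j : ℕ)} ≤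
          ε0 * μ.real (D α)) →
      ∃ j ∈ 𝒥, ∀ α, ∃ D0 ⊆ D α, MeasurableSet D0 ∧ μ.real (D α \ D0) ≤ ε * μ.real (D α) ∧
        ∀ x ∈ D0, ∀ x' ∈ D0, μ.real {y ∈ Q j | y * (x⁻¹ * x') ∉ Q j} ≤ μ.real (Q j) / 4 →
          Rel (f α) t h (scl q n0 j) (ε * (d * (scl q n0 j : ℕ))) ε x x' := by
  have hC0 : 0 < C := by linarith
  obtain ⟨ε1, hε10, hε11, H1⟩ := one_scale'.{u} ι c hC hL hε
  refine ⟨ε1, hε10, hε11, ?_⟩
  intro d hd0 hd1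
  obtain ⟨ε0', hε00, ρ0, H2⟩ := H1 d hd0 hd1
  obtain ⟨q, J, hq, hJ, δ, hδ, hlin⟩ := lin0'.{u} (p * Fintype.card ι) (L := L * (C + 1))
    (ε := ε0') (by positivity) hε00
  refine ⟨min ε0' δ, lt_min hε00 hδ, q, J, ρ0, hq, hJ, ?_⟩
  intro n0 hn0 hn00 𝒥 h𝒥 h𝒥c S _ _ _ _ μ _ l t h B Nt W0 W2 W3 Q hS A _ hA f D hfm hf hD hDf
    hFt hFol hNF
  obtain ⟨j, hj, hbad⟩ := hlin n0 hn00 𝒥 h𝒥 h𝒥c (A × ι) (by
      rw [Fintype.card_prod]; exact Nat.mul_le_mul_right _ hA) (fun _ => S) (fun _ => μ)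
    (fun x => f x.1) (fun x => t x.2) (fun x => D x.1)
    (fun x m => B.mp _) (fun x => hfm _) (fun x y => by
      refine (hf x.1 y (t x.2)).trans ?_
      have := B.l_t x.2
      exact mul_le_mul_of_nonneg_left (by linarith) hL.le)
    (fun x => hD _) (fun x => hDf _) (fun x m hm => by
      refine (hFt x.1 x.2 m hm).trans ?_
      exact mul_le_mul_of_nonneg_right (min_le_right _ _) measureReal_nonneg)
  have hρn0 : n0 ≤ scl q n0 j := by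
    unfold scl
    have h1 : 1 ≤ (2 * q) ^ j := Nat.one_le_pow _ _ (by omega)
    calc n0 = 1 * (1 * n0) := by ring
      _ ≤ q * ((2 * q) ^ j * n0) := Nat.mul_le_mul hq (Nat.mul_le_mul_right _ h1)
  refine ⟨j, hj, fun α => ?_⟩
  refine H2 (scl q n0 j) (hn0.trans hρn0) S μ l t h B (Nt j) (W0 j) (W2 j) (W3 j) (Q j) (hS j hj)
    (f α) (hfm α) (hf α) (D α) (hD α) (hDf α) ?_ ?_ ?_
  · intro w hw
    refine (hFol α j hj w hw).trans ?_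
    exact mul_le_mul_of_nonneg_right (min_le_left _ _) measureReal_nonneg
  · intro v hv
    have h1 := hNF α j hj v hv
    refine (measureReal_mono ?_ (ne_top_of_le_ne_top (hDf α) (measure_mono (Set.sep_subset _ _)))).trans
      (h1.trans (mul_le_mul_of_nonneg_right (min_le_left _ _) measureReal_nonneg))
    rintro x ⟨hx, hxb⟩
    refine ⟨hx, fun h => hxb (h.trans ?_)⟩
    exact mul_le_mul_of_nonneg_right (min_le_left _ _) (by positivity)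
  · intro i
    have h1 := hbad (α, i)
    refine le_trans (le_of_eq ?_) h1
    congr 1
    ext x
    simp only [Set.mem_ofPred_eq, Aff, not_forall, not_le, scl]
    constructor
    · rintro ⟨hx, m, hm, h⟩; exact ⟨hx, m, hm, h⟩
    · rintro ⟨hx, m, hm, h⟩; exact ⟨hx, m, hm, h⟩

end Vale.Agent.P188.Z1
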