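import Vale.Agent.P188.Z1.Fat
import Vale.Agent.P188.Z1.Flat
import Vale.Agent.P188.Z1.LinCore

/-!
# P188, Z1, LIN: preparations
-/

set_option linter.all false

open MeasureTheory Set Filter
open scoped ENNReal
open Agent.P188.H428 (IsLen)
open Vale.Agent.P188.H530 (hgt hgt_mul)

namespace Vale.Agent.P188.Z1

/-! ### real and extended measures -/

theorem real_le_of_le {S : Type*} [MeasurableSpace S] {μ : Measure S} {A B : Set S} {c : ℝ}
    (hB : μ B ≠ ∞) (hc : 0 ≤ c) (h : μ A ≤ ENNReal.ofReal c * μ B) : μ.real A ≤ c * μ.real B := by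
  have h1 := ENNReal.toReal_mono (ENNReal.mul_ne_top ENNReal.ofReal_ne_top hB) h
  rwa [ENNReal.toReal_mul, ENNReal.toReal_ofReal hc] at h1

theorem le_of_real_le {S : Type*} [MeasurableSpace S] {μ : Measure S} {A B : Set S} {c : ℝ}
    (hA : μ A ≠ ∞) (hB : μ B ≠ ∞) (hc : 0 ≤ c) (h : μ.real A ≤ c * μ.real B) :
    μ A ≤ ENNReal.ofReal c * μ B := by
  rw [← ENNReal.ofReal_toReal hA, ← ENNReal.ofReal_toReal hB, ← ENNReal.ofReal_mul hc]
  exact ENNReal.ofReal_le_ofReal h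

/-! ### generic integral directions with a dual basis -/

/-- the integral vector `(n ^ j)_j` -/
def mom (k n : ℕ) : Fin k → ℤ := fun j => (n : ℤ) ^ (j : ℕ)

theorem finite_bad {k : ℕ} (b : Ht k →L[ℝ] ℝ) (hb : b ≠ 0) :
    {n : ℕ | b (fun j => (mom k n j : ℝ)) = 0}.Finite := by
  set P : Polynomial ℝ := ∑ j : Fin k, Polynomial.C (b (Pi.single j 1)) * Polynomial.X ^ (j : ℕ)
    with hP
  have heval : ∀ n : ℕ, P.eval (n : ℝ) = b (fun j => (mom k n j : ℝ)) := by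
    intro n
    have h1 : (fun j => (mom k n j : ℝ)) = ∑ j : Fin k, ((n : ℝ) ^ (j : ℕ)) • (Pi.single j (1 : ℝ)) := by
      funext i
      rw [Finset.sum_apply]
      simp only [Pi.smul_apply, smul_eq_mul, mom, Pi.single_apply]
      rw [Finset.sum_eq_single i]
      · simp
      · intro j _ hj; rw [if_neg (Ne.symm hj), mul_zero]
      · intro h; exact absurd (Finset.mem_univ i) h
    rw [h1, map_sum, hP, Polynomial.eval_finset_sum]
    refine Finset.sum_congr rfl fun j _ => ?_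
    rw [map_smul, smul_eq_mul, Polynomial.eval_mul, Polynomial.eval_C, Polynomial.eval_pow,
      Polynomial.eval_X, mul_comm]
  have hP0 : P ≠ 0 := by
    intro h0
    apply hb
    have hc : ∀ j : Fin k, b (Pi.single j 1) = 0 := by
      intro j
      have h2 : P.coeff (j : ℕ) = b (Pi.single j 1) := by
        rw [hP, Polynomial.finset_sum_coeff, Finset.sum_eq_single j]
        · simp
        · intro i _ hi
          rw [Polynomial.coeff_C_mul_X_pow, if_neg]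
          exact fun h => hi (Fin.ext h.symm)
        · intro h; exact absurd (Finset.mem_univ j) h
      rw [← h2, h0, Polynomial.coeff_zero]
    ext w
    have h1 : w = ∑ j : Fin k, (w j) • (Pi.single j (1 : ℝ)) := by
      funext i
      rw [Finset.sum_apply]
      simp only [Pi.smul_apply, smul_eq_mul, Pi.single_apply]
      rw [Finset.sum_eq_single i]
      · simp
      · intro j _ hj; rw [if_neg (Ne.symm hj), mul_zero]
      · intro h; exact absurd (Finset.mem_univ i) h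
    rw [h1, map_sum]
    simp [map_smul, hc]
  have h3 : ((fun n : ℕ => (n : ℝ)) ⁻¹' {x | P.IsRoot x}).Finite :=
    (Polynomial.finite_setOf_isRoot hP0).preimage (Nat.cast_injective.injOn)
  refine h3.subset ?_
  intro n hn
  simp only [mem_preimage, mem_setOf_eq, Polynomial.IsRoot]
  rw [heval]; exact hn

theorem exists_mom (k : ℕ) (W : Finset (Ht k →L[ℝ] ℝ)) :
    ∃ (v : Fin k → Fin k → ℤ) (hh : Fin k → Ht k →L[ℝ] ℝ),
      (∀ i, ∀ b ∈ W, b ≠ 0 → b (fun j => (v i j : ℝ)) ≠ 0) ∧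
      ∀ i j, hh j (fun l => (v i l : ℝ)) = if i = j then 1 else 0 := by
  classical
  have hfin : (⋃ b ∈ {b | b ∈ W ∧ b ≠ 0}, {n : ℕ | b (fun j => (mom k n j : ℝ)) = 0}).Finite := by
    refine Set.Finite.biUnion ?_ fun b hb => finite_bad b hb.2
    exact W.finite_toSet.subset fun b hb => hb.1
  have hinf := hfin.infinite_compl
  haveI := hinf.to_subtype
  let φ := Infinite.natEmbedding
    ↑(⋃ b ∈ {b | b ∈ W ∧ b ≠ 0}, {n : ℕ | b (fun j => (mom k n j : ℝ)) = 0})ᶜ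
  let n : Fin k → ℕ := fun i => (φ i : ℕ)
  have hninj : Function.Injective n := by
    intro i j hij
    exact Fin.ext (φ.injective (Subtype.ext hij))
  have hgen : ∀ i, ∀ b ∈ W, b ≠ 0 → b (fun j => (mom k (n i) j : ℝ)) ≠ 0 := by
    intro i b hb hb0 h
    apply (φ i).2
    simp only [mem_iUnion]
    exact ⟨b, ⟨hb, hb0⟩, h⟩
  have hdet : (Matrix.vandermonde fun i : Fin k => (n i : ℝ)).det ≠ 0 := by
    rw [Matrix.det_vandermonde_ne_zero_iff]
    intro i j hij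
    have hij' : ((n i : ℕ) : ℝ) = (n j : ℕ) := hij
    exact hninj (by exact_mod_cast hij')
  have hli : LinearIndependent ℝ fun i : Fin k => (fun j => (mom k (n i) j : ℝ) : Ht k) := by
    have h1 := Matrix.linearIndependent_rows_of_det_ne_zero hdet
    have h2 : (fun i => Matrix.vandermonde (fun i : Fin k => (n i : ℝ)) i) =
        fun i : Fin k => (fun j => (mom k (n i) j : ℝ) : Ht k) := by
      funext i j
      simp [Matrix.vandermonde, mom]
    have h3 : LinearIndependent ℝ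
        (fun i => Matrix.vandermonde (fun i : Fin k => (n i : ℝ)) i) := h1
    rwa [h2] at h3
  let B : Module.Basis (Fin k) ℝ (Ht k) := basisOfLinearIndependentOfCardEqFinrank' _ hli (by simp)
  have hB : ∀ i, B i = fun j => (mom k (n i) j : ℝ) := fun i => by
    simp [B]
  refine ⟨fun i => mom k (n i), fun j => LinearMap.toContinuousLinearMap (B.coord j), hgen, ?_⟩
  intro i j
  rw [← hB]
  simp [Finsupp.single_apply]

namespace RModel

variable {S : Type} [Group S] [MeasurableSpace S] {Γ : Type} [Group Γ]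
  {V : Type} [AddCommGroup V] [Module ℝ V] {k : ℕ} (M : RModel S Γ V k)

/-- neutral elements of size `exp (δ ρ)` -/
def Nt (δ ρ : ℝ) : Set S := {z | ∃ y ∈ M.Vw 0, M.nm y ≤ Real.exp (δ * ρ) ∧ M.ex y = z}

/-- neutral exponentials are in fat balls -/
theorem ex_mem_FB : ∃ C : ℝ, 1 ≤ C ∧ ∀ δ : ℝ, 0 < δ → ∀ᶠ R : ℝ in atTop,
    M.Nt δ R ⊆ M.FB (C * δ) R := by
  obtain ⟨C, hC, hmul⟩ := M.ev_mul0
  refine ⟨C, hC, fun δ hδ => ?_⟩
  obtain ⟨z, hz, hze, hzn⟩ := M.τ_inv 0 (le_refl (0 : ℝ)) (by simp)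
  obtain ⟨y0, hy0, hye0, _⟩ := M.C_ker _ _ (M.CB_inv (M.τ_CB 0)) (by
    rw [map_inv, M.η_τ, ofAdd_zero, inv_one])
  filter_upwards [eventually_ge_atTop (0 : ℝ), hmul δ hδ, ev_const (M.nm y0) hδ] with R hR h1 h2
  rintro _ ⟨y, hy, hyn, rfl⟩
  obtain ⟨u, hu, hue, hun⟩ := h1 y hy y0 hy0 hyn h2
  refine ⟨0, zero_mem _, by simp [Real.exp_nonneg], u, hu, hun, 0, fun i => by simpa using hR, ?_⟩
  rw [M.ex_zero, one_mul, hue, hye0, inv_mul_cancel_right]

/-- **Neutral flatness for sets with small boundary.** -/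
theorem NFp.apply (h : M.NFp) (K κ C₁ : ℝ) (hκ : 0 < κ) :
    ∃ (δ c₀ CR r₀ : ℝ), 0 < δ ∧ 0 < c₀ ∧ 0 ≤ CR ∧ ∀ r : ℝ, r₀ ≤ r →
    ∀ F F' : Γ → Γ, M.QIm K F F' → ∀ D Dp : Set S, MeasurableSet Dp → M.μ D ≠ 0 → M.μ D ≠ ⊤ →
    M.μ Dp ≤ ENNReal.ofReal (1 + C₁) * M.μ D → ∀ y ∈ M.Vw 0, M.nm y ≤ Real.exp (δ * r) →
    (∀ z ∈ D, ∀ x : ℝ, 0 ≤ x → x ≤ 1 → ∀ g, (M.l g : ℝ) ≤ CR * r → z * M.ex (x • y) * g ∈ Dp) →
    M.μ {x | x ∈ D ∧ κ * r < ‖M.f F (x * M.ex y) - M.f F x‖} ≤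
      ENNReal.ofReal (Real.exp (-(c₀ * r))) * M.μ Dp := by
  obtain ⟨δ, c₀, CR, r₀, hδ, hc₀, H⟩ := h K κ C₁ hκ
  have hC := M.C0_pos
  refine ⟨δ, c₀, |CR| + 2 * M.C0, max r₀ 1, hδ, hc₀, by positivity, ?_⟩
  intro r hr F F' hF D Dp hDp hD0 hDt hle y hy hyn hsub
  have hr0 : r₀ ≤ r := (le_max_left _ _).trans hr
  have hr1 : 1 ≤ r := (le_max_right _ _).trans hr
  set Dm : Set S := M.cells (M.fl '' {w | ∃ z ∈ D, ∃ x : ℝ, 0 ≤ x ∧ x ≤ 1 ∧ w = z * M.ex (x • y)})
    with hDm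
  have hmem : ∀ z ∈ D, ∀ x : ℝ, 0 ≤ x → x ≤ 1 → z * M.ex (x • y) ∈ Dm := by
    intro z hz x hx0 hx1
    exact ⟨z * M.ex (x • y), ⟨z, hz, x, hx0, hx1, rfl⟩, rfl⟩
  have hDDm : D ⊆ Dm := by
    intro z hz
    have := hmem z hz 0 le_rfl zero_le_one
    rwa [zero_smul, M.ex_zero, mul_one] at this
  have hsubm : ∀ z' ∈ Dm, ∀ g, (M.l g : ℝ) ≤ |CR| * r → z' * g ∈ Dp := by
    rintro z' ⟨_, ⟨z, hz, x, hx0, hx1, rfl⟩, hfl⟩ g hg
    have h1 := M.fl_close (z * M.ex (x • y))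
    have h2 := M.fl_close z'
    rw [← hfl] at h2
    have h3 := M.l_triR (z * M.ex (x • y)) (M.inG (M.fl (z * M.ex (x • y)))) z'
    rw [M.l_comm] at h1
    have h4 : (M.l ((z * M.ex (x • y))⁻¹ * z' * g) : ℝ) ≤
        M.l ((z * M.ex (x • y))⁻¹ * z') + M.l g := by exact_mod_cast M.len.mul _ _
    have h5 := hsub z hz x hx0 hx1 ((z * M.ex (x • y))⁻¹ * z' * g) (by nlinarith)
    have e : z * M.ex (x • y) * ((z * M.ex (x • y))⁻¹ * z' * g) = z' * g := by group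
    rwa [e] at h5
  have hDmDp : Dm ⊆ Dp := by
    intro z hz
    have := hsubm z hz 1 (by rw [M.len.one]; simp; positivity)
    rwa [mul_one] at this
  have hDpt : M.μ Dp ≠ ⊤ :=
    ne_top_of_le_ne_top (ENNReal.mul_ne_top ENNReal.ofReal_ne_top hDt) hle
  have hfat : M.Fat (CR * r) C₁ Dm Dp := by
    refine ⟨M.measurableSet_cells _, hDp, fun h0 => hD0 (measure_mono_null hDDm h0),
      ne_top_of_le_ne_top hDpt (measure_mono hDmDp), fun z hz g hg => hsubm z hz g (hg.trans ?_),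
      hle.trans ?_⟩
    · exact mul_le_mul_of_nonneg_right (le_abs_self _) (by linarith)
    · gcongr
  refine (H r hr0 F F' hF Dm Dp hfat y hy hyn D (fun z hz x hx0 hx1 => hmem z hz x hx0 hx1)).trans ?_
  gcongr

end RModel

end Vale.Agent.P188.Z1
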