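import Vale.Agent.P188.Z1.DecA
import Vale.Agent.P188.Z1.LinPre

/-!
# P188, Z1: decompositions of fat displacements, merging
-/

set_option linter.all false

open MeasureTheory Set
open Vale.Agent.P188.H530 (hgt hgt_mul)

namespace Vale.Agent.P188.Z1

namespace RModel

variable {S : Type} [Group S] [MeasurableSpace S] {Γ : Type} [Group Γ]
  {V : Type} [AddCommGroup V] [Module ℝ V] {k : ℕ} (M : RModel S Γ V k)

theorem one_mem_Nt (δ ρ : ℝ) : (1 : S) ∈ M.Nt δ ρ :=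
  ⟨0, Submodule.zero_mem _, by rw [map_zero]; exact (Real.exp_pos _).le, M.ex_zero⟩

theorem Nt_mono {δ δ' ρ ρ' : ℝ} (h : δ * ρ ≤ δ' * ρ') : M.Nt δ ρ ⊆ M.Nt δ' ρ' := by
  rintro z ⟨y, hy, hn, rfl⟩
  exact ⟨y, hy, hn.trans (Real.exp_le_exp.mpr h), rfl⟩

theorem conj_ex (s : S) (m : ℤ) (v : V) :
    s ^ (-m) * M.ex v * s ^ m = M.ex (M.Ad (s ^ (-m)) v) := by
  rw [M.ex_Ad, zpow_neg, inv_inv]

theorem exists_sign (r : ℝ) : ∃ σ : ℤ, (σ = 1 ∨ σ = -1) ∧ |r| ≤ σ * r := by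
  rcases le_total 0 r with h | h
  · exact ⟨1, Or.inl rfl, by rw [abs_of_nonneg h]; push_cast; linarith⟩
  · exact ⟨-1, Or.inr rfl, by rw [abs_of_nonpos h]; push_cast; linarith⟩

/-- contraction along a power -/
theorem contract {n₁ : ℕ} {w : Fin k → ℤ} (hw : M.τ w ∈ M.CB n₁) {b : Ht k →L[ℝ] ℝ}
    (hb : b ∈ M.Wt) {σ : ℤ} (hσ : σ = 1 ∨ σ = -1) {β : ℝ} (hβ : β ≤ σ * b (ht w)) (m : ℕ)
    {x : V} (hx : x ∈ M.Vw b) :
    M.nm (M.Ad (M.τ w ^ (-(σ * (m : ℤ)))) x) ≤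
      M.C0 * (1 + n₁ * m) ^ M.deg * Real.exp (-(β * m)) * M.nm x := by
  have h0 : (-(σ * (m : ℤ))).natAbs = m := by
    rcases hσ with rfl | rfl <;> simp
  have h1 := M.C_le (n₁ * m) (M.τ w ^ (-(σ * (m : ℤ)))) (by
    have := M.CB_zpow hw (-(σ * (m : ℤ)))
    rwa [h0] at this) b hb x hx
  rw [M.hgt_zpow, M.hgt_τ, map_smul, smul_eq_mul] at h1
  have h2 : ((-(σ * (m : ℤ)) : ℤ) : ℝ) * b (ht w) ≤ -(β * m) := by
    push_cast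
    have : (0:ℝ) ≤ m := by positivity
    nlinarith
  refine h1.trans ?_
  push_cast
  push_cast at h2
  have hC := M.one_le_C0
  refine mul_le_mul_of_nonneg_right ?_ (M.nm_nonneg _)
  refine mul_le_mul_of_nonneg_left (Real.exp_le_exp.mpr h2) (by positivity)

/-- neutral elements stay neutral -/
theorem neutral_conj {n₁ : ℕ} {w : Fin k → ℤ} (hw : M.τ w ∈ M.CB n₁)
    {σ : ℤ} (hσ : σ = 1 ∨ σ = -1) (m : ℕ) {x : V} (hx : x ∈ M.Vw 0) :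
    M.Ad (M.τ w ^ (-(σ * (m : ℤ)))) x ∈ M.Vw 0 ∧
    M.nm (M.Ad (M.τ w ^ (-(σ * (m : ℤ)))) x) ≤ M.C0 * (1 + n₁ * m) ^ M.deg * M.nm x := by
  refine ⟨M.C_inv _ _ (M.CB_zpow hw _) 0 x hx, ?_⟩
  have := M.contract hw M.zero_mem_Wt hσ (β := 0) (by simp) m hx
  simpa using this

/-- the coordinates of `gen_e` -/
theorem gen_bound {v : V} {R : ℝ} (hR : 0 ≤ R) (hv : M.nm v ≤ Real.exp R) :
    M.C0 * (1 + M.nm v) ^ M.C0 ≤ M.C0 * 2 ^ M.C0 * Real.exp (M.C0 * R) := by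
  have hC := M.one_le_C0
  have h1 : 1 + M.nm v ≤ 2 * Real.exp R := by
    have := Real.one_le_exp hR
    linarith
  have h2 : (1 + M.nm v) ^ M.C0 ≤ (2 * Real.exp R) ^ M.C0 :=
    Real.rpow_le_rpow (by have := M.nm_nonneg v; positivity) h1 (by linarith)
  rw [Real.mul_rpow (by norm_num) (Real.exp_pos _).le, ← Real.exp_mul, mul_comm R] at h2
  rw [mul_assoc]
  exact mul_le_mul_of_nonneg_left h2 (by linarith)

/-- length of a vector of `e` -/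
theorem len_of_exp {v : V} (hv : v ∈ M.e) {B R : ℝ} (hB : 0 ≤ B) (hR : 0 ≤ R)
    (h : M.nm v ≤ B * Real.exp R) :
    (M.l (M.ex v) : ℝ) ≤ M.C0 * (1 + Real.log (1 + B) + R) := by
  have hC := M.one_le_C0
  refine (M.met_e v hv).trans (mul_le_mul_of_nonneg_left ?_ (by linarith))
  have h1 : 1 + M.nm v ≤ (1 + B) * Real.exp R := by
    have := Real.one_le_exp hR
    nlinarith
  have h2 : Real.log (1 + M.nm v) ≤ Real.log ((1 + B) * Real.exp R) :=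
    Real.log_le_log (by have := M.nm_nonneg v; positivity) h1
  rw [Real.log_mul (by positivity) (Real.exp_pos _).ne', Real.log_exp] at h2
  linarith

/-- norm of an integral vector -/
theorem norm_int_le {w : Fin k → ℤ} {R : ℝ} (hR : 0 ≤ R) (h : ∀ i, |(w i : ℝ)| ≤ R) :
    ‖(fun i => (w i : ℝ) : Fin k → ℝ)‖ ≤ R := by
  rw [pi_norm_le_iff_of_nonneg hR]
  intro i
  rw [Real.norm_eq_abs]
  exact h i

/-- `τ w` as a word -/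
theorem τ_word {w : Fin k → ℤ} {R : ℝ} (hR : 0 ≤ R) (h : ∀ i, |(w i : ℝ)| ≤ R) :
    ∃ n : ℕ, (n : ℝ) ≤ 2 * M.C0 * (1 + R) ∧ M.τ w ∈ M.CB n := by
  have hC := M.one_le_C0
  refine ⟨_, ?_, M.τ_CB w⟩
  have h1 := norm_int_le hR h
  have h2 : 0 ≤ ‖(fun i => (w i : ℝ) : Fin k → ℝ)‖ := norm_nonneg _
  refine (Nat.ceil_lt_add_one (by positivity)).le.trans ?_
  nlinarith

/-- neutral words are exponentials of neutral vectors -/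
theorem neutral_word {n : ℕ} {c : S} (hc : c ∈ M.CB n) (h : M.η c = 1) {K R ε : ℝ}
    (hn : (n : ℝ) ≤ K * R) (hR : M.C0 * (1 + K * R) ^ M.deg ≤ Real.exp (ε * R)) :
    c ∈ M.Nt ε R := by
  have hC := M.one_le_C0
  obtain ⟨y, hy, rfl, h1⟩ := M.C_ker n c hc h
  refine ⟨y, hy, h1.trans (le_trans ?_ hR), rfl⟩
  refine mul_le_mul_of_nonneg_left ?_ (by linarith)
  exact pow_le_pow_left₀ (by positivity) (by linarith) _

/-- merging of the letters of nonzero weight -/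
theorem mrg_letter {n₁ : ℕ} {w : Fin k → ℤ} (hw : M.τ w ∈ M.CB n₁) {β : ℝ} (hβ : 0 < β)
    (hwβ : ∀ b ∈ M.Φ, β ≤ |b (ht w)|) {δ : ℝ} {ρ : ℕ} {ε₁ : ℝ} {j : M.ι} (hj : M.wt j ≠ 0)
    {x : ℝ} {R : ℝ} (hx : |x| ≤ M.C0 * 2 ^ M.C0 * Real.exp (M.C0 * R))
    (hR : M.C0 * R ≤ β / 4 * ρ)
    (hρ : M.C0 * (M.C0 * 2 ^ M.C0) * (1 + n₁ * (ρ : ℝ)) ^ M.deg ≤ Real.exp (β / 4 * ρ))
    (hρ' : 2 * M.C0 ≤ ε₁ * ρ) :
    P188.H882.Mrg (fun x => (M.l x : ℝ)) (M.Nt δ ρ) (M.τ w) ρ (ε₁ * ρ) (M.ex (x • M.X j)) := by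
  have hC := M.one_le_C0
  have hΦ : M.wt j ∈ M.Φ := (M.wt_mem j).resolve_right hj
  obtain ⟨σ, hσ, hσ'⟩ := exists_sign (M.wt j (ht w))
  refine ⟨σ, hσ, fun m hm => ⟨M.τ w ^ (-(σ * (m:ℤ))) * M.ex (x • M.X j) * M.τ w ^ (σ * (m:ℤ)), 1,
    by rw [mul_one], ?_, M.one_mem_Nt _ _⟩⟩
  have hm1 : m ≤ ρ := by omega
  have hm2 : ρ ≤ 2 * m := by omega
  have hm1R : (m:ℝ) ≤ ρ := by exact_mod_cast hm1
  have hm2R : (ρ:ℝ) ≤ 2 * m := by exact_mod_cast hm2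
  rw [M.conj_ex]
  have hmem : x • M.X j ∈ M.Vw (M.wt j) := Submodule.smul_mem _ _ (M.X_mem j)
  have h1 := M.contract hw (M.Φ_sub hΦ) hσ (β := β) ((hwβ _ hΦ).trans hσ') m hmem
  have h2 : M.nm (M.Ad (M.τ w ^ (-(σ * (m:ℤ)))) (x • M.X j)) ≤ 1 := by
    refine h1.trans ?_
    rw [M.nm_smul]
    have h3 : |x| * M.nm (M.X j) ≤ M.C0 * 2 ^ M.C0 * Real.exp (M.C0 * R) := by
      refine le_trans ?_ hx
      have := M.X_le j
      nlinarith [abs_nonneg x]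
    have h4 : M.C0 * (1 + (n₁:ℝ) * m) ^ M.deg ≤ M.C0 * (1 + (n₁:ℝ) * ρ) ^ M.deg := by
      refine mul_le_mul_of_nonneg_left (pow_le_pow_left₀ (by positivity) ?_ _) (by linarith)
      have : (0:ℝ) ≤ n₁ := by positivity
      nlinarith
    have h5 : Real.exp (-(β * m)) ≤ Real.exp (-(β / 2 * ρ)) := by
      refine Real.exp_le_exp.mpr ?_
      nlinarith
    have h6 : Real.exp (M.C0 * R) ≤ Real.exp (β / 4 * ρ) := Real.exp_le_exp.mpr hR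
    have h2C : (0:ℝ) ≤ 2 ^ M.C0 := by positivity
    calc M.C0 * (1 + (n₁:ℝ) * m) ^ M.deg * Real.exp (-(β * m)) * (|x| * M.nm (M.X j))
        ≤ M.C0 * (1 + (n₁:ℝ) * ρ) ^ M.deg * Real.exp (-(β / 2 * ρ)) *
          (M.C0 * 2 ^ M.C0 * Real.exp (β / 4 * ρ)) := by
          refine mul_le_mul (mul_le_mul h4 h5 (Real.exp_pos _).le (by positivity))
            (h3.trans (mul_le_mul_of_nonneg_left h6 (by positivity)))
            (mul_nonneg (abs_nonneg _) (M.nm_nonneg _)) (by positivity)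
      _ = (M.C0 * (M.C0 * 2 ^ M.C0) * (1 + (n₁:ℝ) * ρ) ^ M.deg) *
          (Real.exp (-(β / 2 * ρ)) * Real.exp (β / 4 * ρ)) := by ring
      _ ≤ Real.exp (β / 4 * ρ) * (Real.exp (-(β / 2 * ρ)) * Real.exp (β / 4 * ρ)) :=
          mul_le_mul_of_nonneg_right hρ (by positivity)
      _ = 1 := by
          rw [← Real.exp_add, ← Real.exp_add, ← Real.exp_zero]
          congr 1; ring
  have h7 := M.met_V (M.Ad (M.τ w ^ (-(σ * (m:ℤ)))) (x • M.X j))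
  have : M.C0 * (1 + M.nm (M.Ad (M.τ w ^ (-(σ * (m:ℤ)))) (x • M.X j))) ≤ 2 * M.C0 := by
    nlinarith
  show (M.l _ : ℝ) ≤ _
  linarith

/-- merging of neutral elements -/
theorem mrg_neutral {n₁ : ℕ} {w : Fin k → ℤ} (hw : M.τ w ∈ M.CB n₁) {δ δ' : ℝ} {ρ : ℕ} {τ : ℝ}
    (hτ : 0 ≤ τ) {y : V} (hy : y ∈ M.Vw 0) (hyn : M.nm y ≤ Real.exp (δ * ρ))
    (hρ : M.C0 * (1 + n₁ * (ρ : ℝ)) ^ M.deg ≤ Real.exp (δ' * ρ)) :
    P188.H882.Mrg (fun x => (M.l x : ℝ)) (M.Nt (δ + δ') ρ) (M.τ w) ρ τ (M.ex y) := by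
  have hC := M.one_le_C0
  refine ⟨1, Or.inl rfl, fun m hm => ⟨1,
    M.τ w ^ (-(1 * (m:ℤ))) * M.ex y * M.τ w ^ (1 * (m:ℤ)), (one_mul _).symm, ?_, ?_⟩⟩
  · simpa [M.len.one] using hτ
  · rw [M.conj_ex]
    have hm1 : m ≤ ρ := by omega
    have hm1R : (m:ℝ) ≤ ρ := by exact_mod_cast hm1
    obtain ⟨h1, h2⟩ := M.neutral_conj hw (Or.inl rfl : (1:ℤ) = 1 ∨ (1:ℤ) = -1) m hy
    refine ⟨_, h1, h2.trans ?_, rfl⟩
    have h4 : M.C0 * (1 + (n₁:ℝ) * m) ^ M.deg ≤ M.C0 * (1 + (n₁:ℝ) * ρ) ^ M.deg := by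
      refine mul_le_mul_of_nonneg_left (pow_le_pow_left₀ (by positivity) ?_ _) (by linarith)
      have : (0:ℝ) ≤ n₁ := by positivity
      nlinarith
    calc _ ≤ Real.exp (δ' * ρ) * Real.exp (δ * ρ) :=
          mul_le_mul (h4.trans hρ) hyn (M.nm_nonneg _) (Real.exp_pos _).le
      _ = _ := by rw [← Real.exp_add]; congr 1; ring

/-- merging of `τ w'` -/
theorem mrg_τ {n₁ n₂ : ℕ} {w : Fin k → ℤ} (hw : M.τ w ∈ M.CB n₁) {g : S} (hg : g ∈ M.CB n₂)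
    {δ K : ℝ} {ρ : ℕ} {τ : ℝ} (hτ : (M.l g : ℝ) ≤ τ) (hK : (2 * n₁ * ρ + 2 * n₂ : ℝ) ≤ K * ρ)
    (hρ : M.C0 * (1 + K * (ρ : ℝ)) ^ M.deg ≤ Real.exp (δ * ρ)) :
    P188.H882.Mrg (fun x => (M.l x : ℝ)) (M.Nt δ ρ) (M.τ w) ρ τ g := by
  refine ⟨1, Or.inl rfl, fun m hm => ⟨g,
    g⁻¹ * (M.τ w ^ (-(1 * (m:ℤ))) * g * M.τ w ^ (1 * (m:ℤ))), by group, hτ, ?_⟩⟩
  have hm1 : m ≤ ρ := by omega
  have hm1R : (m:ℝ) ≤ ρ := by exact_mod_cast hm1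
  have h1 : g⁻¹ * (M.τ w ^ (-(1 * (m:ℤ))) * g * M.τ w ^ (1 * (m:ℤ))) ∈
      M.CB (n₂ + ((n₁ * m + n₂) + n₁ * m)) := by
    have e1 : (-(1 * (m:ℤ))).natAbs = m := by simp
    have e2 : (1 * (m:ℤ)).natAbs = m := by simp
    have a1 := M.CB_zpow hw (-(1 * (m:ℤ)))
    have a2 := M.CB_zpow hw (1 * (m:ℤ))
    rw [e1] at a1
    rw [e2] at a2
    exact M.CB_mul (M.CB_inv hg) (M.CB_mul (M.CB_mul a1 hg) a2)
  refine M.neutral_word h1 ?_ (K := K) ?_ hρ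
  · simp only [map_mul, map_inv, map_zpow]
    rw [mul_comm (M.η (M.τ w) ^ (-(1 * (m:ℤ)))) (M.η g), mul_assoc, ← zpow_add]
    simp
  · push_cast
    have : (0:ℝ) ≤ n₁ := by positivity
    nlinarith

end RModel

end Vale.Agent.P188.Z1
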