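import Vale.Agent.P188.Z1.DecB

/-!
# P188, Z1: decompositions of fat displacements, prefixes
-/

set_option linter.all false

open MeasureTheory Set
open Vale.Agent.P188.H530 (hgt hgt_mul)

namespace Vale.Agent.P188.Z1

namespace RModel

variable {S : Type} [Group S] [MeasurableSpace S] {Γ : Type} [Group Γ]
  {V : Type} [AddCommGroup V] [Module ℝ V] {k : ℕ} (M : RModel S Γ V k)

/-- neutral elements are in fat balls -/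
theorem fb_neutral : ∃ C : ℝ, 1 ≤ C ∧ ∀ δ : ℝ, 0 < δ → ∃ R₀ : ℝ, ∀ R : ℝ, R₀ ≤ R → ∀ y ∈ M.Vw 0,
    M.nm y ≤ Real.exp (δ * R) → M.ex y ∈ M.FB (C * δ) R := by
  have hC := M.one_le_C0
  obtain ⟨n₀, hn₀⟩ : ∃ n₀ : ℕ, (M.τ 0)⁻¹ ∈ M.CB n₀ := ⟨_, M.CB_inv (M.τ_CB 0)⟩
  have hη : M.η (M.τ 0)⁻¹ = 1 := by rw [map_inv, M.η_τ]; simp
  obtain ⟨y₀, hy₀, hy₀e, -⟩ := M.C_ker n₀ _ hn₀ hη
  refine ⟨M.C0 + 1, by linarith, ?_⟩
  intro δ hδ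
  set B := M.C0 * (2 + M.nm y₀) ^ M.C0 with hB
  have hB0 : 0 < B := by have := M.nm_nonneg y₀; positivity
  refine ⟨max 0 (Real.log B / δ), ?_⟩
  intro R hR y hy hyn
  have hR0 : 0 ≤ R := (le_max_left _ _).trans hR
  have hR1 : Real.log B ≤ δ * R := by
    have := (le_max_right _ _).trans hR
    rw [div_le_iff₀ hδ] at this; linarith
  have h1 : M.ex y ∈ M.CB ⌈M.nm y⌉₊ := M.ex_mem_CB hy (Nat.le_ceil _)
  obtain ⟨y', hy', hye, -⟩ := M.C_ker _ _ (M.CB_mul h1 hn₀) (by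
    rw [map_mul, hη, mul_one, M.η_ex])
  have h2 := M.ex_mul_le y y₀ y' (by rw [hye, hy₀e])
  have h3 : (1 + M.nm y + M.nm y₀) ≤ (2 + M.nm y₀) * Real.exp (δ * R) := by
    have h4 : 1 ≤ Real.exp (δ * R) := Real.one_le_exp (by positivity)
    have := M.nm_nonneg y₀
    nlinarith
  have h4 : (1 + M.nm y + M.nm y₀) ^ M.C0 ≤ ((2 + M.nm y₀) * Real.exp (δ * R)) ^ M.C0 :=
    Real.rpow_le_rpow (by have := M.nm_nonneg y₀; have := M.nm_nonneg y; positivity) h3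
      (by linarith)
  rw [Real.mul_rpow (by have := M.nm_nonneg y₀; positivity) (Real.exp_pos _).le,
    ← Real.exp_mul] at h4
  refine ⟨0, Submodule.zero_mem _, by rw [map_zero]; exact (Real.exp_pos _).le, y', hy', ?_, 0,
    fun i => by simpa using hR0, ?_⟩
  · calc M.nm y' ≤ M.C0 * ((2 + M.nm y₀) ^ M.C0 * Real.exp (δ * R * M.C0)) :=
          h2.trans (mul_le_mul_of_nonneg_left h4 (by linarith))
      _ = B * Real.exp (δ * R * M.C0) := by rw [hB]; ring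
      _ = Real.exp (Real.log B) * Real.exp (δ * R * M.C0) := by rw [Real.exp_log hB0]
      _ ≤ Real.exp (δ * R) * Real.exp (δ * R * M.C0) :=
          mul_le_mul_of_nonneg_right (Real.exp_le_exp.mpr hR1) (Real.exp_pos _).le
      _ = _ := by rw [← Real.exp_add]; congr 1; ring
  · rw [M.ex_zero, one_mul, hye]; group

/-- short - neutral - short -/
theorem fb3 {A : ℝ} (hA : 1 ≤ A) : ∃ C : ℝ, 1 ≤ C ∧ ∀ δ : ℝ, 0 < δ → δ ≤ 1 / C → ∃ R₀ : ℝ,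
    ∀ R : ℝ, R₀ ≤ R → ∀ (g g' : S) (y : V), (M.l g : ℝ) ≤ A * R → (M.l g' : ℝ) ≤ A * R →
    y ∈ M.Vw 0 → M.nm y ≤ Real.exp (δ * R) → g * M.ex y * g' ∈ M.FB (C * δ) (C * R) := by
  obtain ⟨C₁, hC₁, h1⟩ := M.fb_of_lenD
  obtain ⟨C₂, hC₂, h2⟩ := M.fb_mulD
  obtain ⟨C₃, hC₃, h3⟩ := M.fb_neutral
  have hAC : 1 ≤ C₁ * A := by nlinarith
  have hC22 : 1 ≤ C₂ * C₂ := by nlinarith
  have hC3A : 1 ≤ C₃ * (C₁ * A) := by nlinarith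
  refine ⟨C₂ * C₂ * (C₃ * (C₁ * A)), by nlinarith, ?_⟩
  intro δ hδ hδ'
  have hδC : C₂ * C₂ * (C₃ * (C₁ * A)) * δ ≤ 1 := by
    rw [le_div_iff₀ (by positivity)] at hδ'
    linarith
  have hδ2 : C₂ * (C₃ * δ) ≤ 1 := by
    refine le_trans ?_ hδC
    have : C₂ * (C₃ * δ) * 1 ≤ C₂ * (C₃ * δ) * (C₂ * (C₁ * A)) :=
      mul_le_mul_of_nonneg_left (by nlinarith) (by positivity)
    nlinarith
  have hδ1 : C₃ * δ ≤ 1 := by
    refine le_trans ?_ hδ2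
    have : 0 < C₃ * δ := by positivity
    nlinarith
  obtain ⟨R₁, h1'⟩ := h1 (C₃ * δ) (by positivity)
  obtain ⟨R₂, h2'⟩ := h2 (C₃ * δ) (by positivity) hδ1
  obtain ⟨R₃, h3'⟩ := h2 (C₂ * (C₃ * δ)) (by positivity) hδ2
  obtain ⟨R₄, h4'⟩ := h3 δ hδ
  refine ⟨max (max (max R₁ R₂) (max R₃ R₄)) 1, ?_⟩
  intro R hR g g' y hg hg' hy hyn
  have hR1 : R₁ ≤ R := le_trans (by simp) hR
  have hR2 : R₂ ≤ R := le_trans (by simp) hR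
  have hR3 : R₃ ≤ R := le_trans (by simp) hR
  have hR4 : R₄ ≤ R := le_trans (by simp) hR
  have hR0 : 1 ≤ R := le_trans (by simp) hR
  have e0 : R ≤ A * R := by nlinarith
  have e1 : R ≤ C₁ * (A * R) := by nlinarith
  have e2 : C₁ * (A * R) ≤ C₂ * (C₁ * (A * R)) := by nlinarith
  have a1 : g ∈ M.FB (C₃ * δ) (C₁ * (A * R)) := h1' (A * R) (hR1.trans e0) g hg
  have a2 : g' ∈ M.FB (C₂ * (C₃ * δ)) (C₂ * (C₁ * (A * R))) :=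
    M.fb_monoD (by positivity) (by nlinarith [mul_pos (lt_of_lt_of_le one_pos hC₃) hδ])
      (by positivity) e2 (h1' (A * R) (hR1.trans e0) g' hg')
  have a3 : M.ex y ∈ M.FB (C₃ * δ) (C₁ * (A * R)) :=
    M.fb_monoD (by positivity) le_rfl (by positivity) e1 (h4' R hR4 y hy hyn)
  have a4 := h2' (C₁ * (A * R)) (hR2.trans e1) g a1 _ a3
  have a5 := h3' (C₂ * (C₁ * (A * R))) (hR3.trans (e1.trans e2)) _ a4 _ a2
  refine M.fb_monoD (by positivity) ?_ (by positivity) ?_ a5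
  · have : C₂ * C₂ * (C₃ * δ) * 1 ≤ C₂ * C₂ * (C₃ * δ) * (C₁ * A) :=
      mul_le_mul_of_nonneg_left hAC (by positivity)
    nlinarith
  · have : C₂ * (C₂ * (C₁ * A)) * R * 1 ≤ C₂ * (C₂ * (C₁ * A)) * R * C₃ :=
      mul_le_mul_of_nonneg_left hC₃ (by positivity)
    nlinarith

/-- **prefixes of a list of short letters with one neutral letter** -/
theorem prefix_fb {A : ℝ} (hA : 1 ≤ A) (n : ℕ) : ∃ C : ℝ, 1 ≤ C ∧ ∀ δ : ℝ, 0 < δ → δ ≤ 1 / C →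
    ∃ R₀ : ℝ, ∀ R : ℝ, R₀ ≤ R → ∀ (L₁ L₂ : List S) (y : V), L₁.length ≤ n → L₂.length ≤ n →
    (∀ a ∈ L₁, (M.l a : ℝ) ≤ A * R) → (∀ a ∈ L₂, (M.l a : ℝ) ≤ A * R) →
    y ∈ M.Vw 0 → M.nm y ≤ Real.exp (δ * R) → ∀ ws, ws <+: L₁ ++ (M.ex y :: L₂) →
    ∀ g, (M.l g : ℝ) ≤ A * R → ws.prod * g ∈ M.FB (C * δ) (C * R) := by
  have hA' : 1 ≤ ((n:ℝ) + 1) * A := by
    have : (0:ℝ) ≤ n := by positivity
    nlinarith
  obtain ⟨C, hC, h⟩ := M.fb3 hA'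
  refine ⟨C, hC, ?_⟩
  intro δ hδ hδ'
  obtain ⟨R₀, h'⟩ := h δ hδ hδ'
  refine ⟨max R₀ 0, ?_⟩
  intro R hR L₁ L₂ y hL₁ hL₂ h₁ h₂ hy hyn ws hws g hg
  have hR0 : 0 ≤ R := (le_max_right _ _).trans hR
  have hRR : R₀ ≤ R := (le_max_left _ _).trans hR
  have hAR : 0 ≤ A * R := by positivity
  -- lengths of products of prefixes
  have key : ∀ L : List S, L.length ≤ n → (∀ a ∈ L, (M.l a : ℝ) ≤ A * R) → ∀ ws, ws <+: L →
      (M.l ws.prod : ℝ) ≤ n * (A * R) := by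
    intro L hL hLl ws hws
    refine (M.l_list ws fun a ha => hLl a (hws.subset ha)).trans ?_
    have : (ws.length : ℝ) ≤ n := by exact_mod_cast (hws.length_le.trans hL)
    exact mul_le_mul_of_nonneg_right this hAR
  have hlong : ∀ L : List S, L.length ≤ n → (∀ a ∈ L, (M.l a : ℝ) ≤ A * R) → ∀ ws, ws <+: L →
      (M.l (ws.prod * g) : ℝ) ≤ ((n:ℝ) + 1) * A * R := by
    intro L hL hLl ws hws
    have h3 := key L hL hLl ws hws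
    have h4 := M.l_mulD ws.prod g
    linarith
  have hshort : ∀ ws, ws <+: L₁ → ws.prod * g ∈ M.FB (C * δ) (C * R) := by
    intro ws hws
    have h5 := h' R hRR (ws.prod * g) 1 0 (hlong L₁ hL₁ h₁ ws hws) (by
      rw [M.len.one]; push_cast; positivity) (Submodule.zero_mem _) (by
      rw [map_zero]; exact (Real.exp_pos _).le)
    rwa [M.ex_zero, mul_one, mul_one] at h5
  rcases prefix_append_cases hws with hws | ⟨ws', hws', rfl⟩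
  · exact hshort ws hws
  · cases ws' with
    | nil =>
      rw [List.append_nil]
      exact hshort L₁ (List.prefix_refl _)
    | cons b ws'' =>
      rw [List.cons_prefix_cons] at hws'
      obtain ⟨rfl, hws''⟩ := hws'
      have h6 := h' R hRR L₁.prod (ws''.prod * g) y (by
        have := key L₁ hL₁ h₁ L₁ (List.prefix_refl _)
        nlinarith) (hlong L₂ hL₂ h₂ ws'' hws'') hy hyn
      have e : (L₁ ++ M.ex y :: ws'').prod * g = L₁.prod * M.ex y * (ws''.prod * g) := by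
        rw [List.prod_append, List.prod_cons]; group
      rw [e]
      exact h6

/-- constants attached to a finite family of generic directions -/
theorem dirs_const (v : Fin k → (Fin k → ℤ)) (hv : ∀ i, M.Generic (v i)) :
    ∃ (n₁ : ℕ) (β : ℝ), 0 < β ∧ (∀ i, M.τ (v i) ∈ M.CB n₁) ∧
      ∀ i, ∀ b ∈ M.Φ, β ≤ |b (ht (v i))| := by
  classical
  obtain ⟨β, hβ, hβ'⟩ := exists_gap ((Finset.univ : Finset (Fin k)) ×ˢ M.Φ)
    (fun p => |p.2 (ht (v p.1))|) (by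
      rintro ⟨i, b⟩ hb
      simp only [Finset.mem_product, Finset.mem_univ, true_and] at hb
      exact abs_pos.mpr (hv i b (M.Φ_sub hb) (M.Φ_ne b hb)))
  refine ⟨Finset.univ.sup fun i => ⌈M.C0 * (1 + ‖(fun j => (v i j : ℝ) : Fin k → ℝ)‖)⌉₊, β, hβ,
      fun i => M.CB_mono ?_ (M.τ_CB (v i)), fun i b hb => hβ' (i, b) (by simp [hb])⟩
  exact Finset.le_sup (f := fun i => ⌈M.C0 * (1 + ‖(fun j => (v i j : ℝ) : Fin k → ℝ)‖)⌉₊)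
      (Finset.mem_univ i)

/-- the constant of the lengths of the letters -/
noncomputable def cA : ℝ := M.C0 * (1 + Real.log (1 + M.C0 * 2 ^ M.C0) + M.C0)

theorem cA_nonneg : 0 ≤ M.cA := by
  have hC0 := M.one_le_C0
  have hlog : 0 ≤ Real.log (1 + M.C0 * 2 ^ M.C0) := Real.log_nonneg (by
    have : 0 < M.C0 * 2 ^ M.C0 := by positivity
    linarith)
  unfold cA
  positivity

/-- length of the letters -/
theorem len_letter {r R ρ : ℝ} {j : M.ι} (hj : M.wt j ≠ 0)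
    (hr : |r| ≤ M.C0 * 2 ^ M.C0 * Real.exp (M.C0 * R)) (hR : 0 ≤ R) (hRρ : R ≤ ρ) (hρ : 1 ≤ ρ) :
    (M.l (M.ex (r • M.X j)) : ℝ) ≤ M.cA * ρ := by
  have hC0 := M.one_le_C0
  have hCx0 : 0 < M.C0 * 2 ^ M.C0 := by positivity
  have hlog : 0 ≤ Real.log (1 + M.C0 * 2 ^ M.C0) := Real.log_nonneg (by linarith)
  have hmem : r • M.X j ∈ M.e := M.Vw_e _ hj (Submodule.smul_mem _ _ (M.X_mem _))
  have h1 := M.len_of_exp hmem hCx0.le (R := M.C0 * R) (by positivity) (by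
      rw [M.nm_smul]
      refine le_trans ?_ hr
      exact mul_le_of_le_one_right (abs_nonneg r) (M.X_le j))
  refine h1.trans ?_
  have h2 : M.C0 * R ≤ M.C0 * ρ := mul_le_mul_of_nonneg_left hRρ (by linarith)
  have h3 : 1 + Real.log (1 + M.C0 * 2 ^ M.C0) + M.C0 * R ≤
      (1 + Real.log (1 + M.C0 * 2 ^ M.C0) + M.C0) * ρ := by nlinarith
  calc _ ≤ M.C0 * ((1 + Real.log (1 + M.C0 * 2 ^ M.C0) + M.C0) * ρ) :=
          mul_le_mul_of_nonneg_left h3 (by linarith)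
    _ = _ := by unfold cA; ring

/-- length of `τ w` -/
theorem len_τ {CL : ℝ} (hCL : 1 ≤ CL) (hl : ∀ n, ∀ c ∈ M.CB n, (M.l c : ℝ) ≤ CL * n)
    {w : Fin k → ℤ} {R : ℝ} (hR : 0 ≤ R) (h : ∀ i, |(w i : ℝ)| ≤ R) :
    (M.l (M.τ w) : ℝ) ≤ 2 * CL * M.C0 * (1 + R) := by
  obtain ⟨n, hn, hτ⟩ := M.τ_word hR h
  refine (hl n _ hτ).trans ?_
  calc CL * n ≤ CL * (2 * M.C0 * (1 + R)) := mul_le_mul_of_nonneg_left hn (by linarith)
    _ = _ := by ring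

theorem mrg_mono {Nt Nt' : Set S} (h : Nt ⊆ Nt') {t : S} {ρ : ℕ} {τ : ℝ} {g : S}
    (hm : P188.H882.Mrg (fun x => (M.l x : ℝ)) Nt t ρ τ g) :
    P188.H882.Mrg (fun x => (M.l x : ℝ)) Nt' t ρ τ g := by
  obtain ⟨σ, hσ, h2⟩ := hm
  refine ⟨σ, hσ, fun m hm => ?_⟩
  obtain ⟨a, z, e1, e2, e3⟩ := h2 m hm
  exact ⟨a, z, e1, e2, h e3⟩

/-- the list of the first decomposition, and its merging properties -/
theorem dec1_list {n₁ : ℕ} {t : Fin k → ℤ} (hn₁ : M.τ t ∈ M.CB n₁) {β : ℝ} (hβ : 0 < β)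
    (hgap : ∀ b ∈ M.Φ, β ≤ |b (ht t)|) {CL : ℝ} (hCL : 1 ≤ CL)
    (hl : ∀ n, ∀ c ∈ M.CB n, (M.l c : ℝ) ≤ CL * n) {δ ε₁ R : ℝ} (hδ : 0 < δ) (hε₁ : 0 < ε₁)
    {ρ : ℕ} (hρ1 : (1 : ℝ) ≤ ρ) (hR0 : 0 ≤ R) (hRρ : R ≤ ρ)
    (hRβ : M.C0 * R ≤ β / 4 * ρ) (hRε : 2 * CL * M.C0 * (1 + R) ≤ ε₁ * ρ) (hρε : 2 * M.C0 ≤ ε₁ * ρ)
    (h1 : M.C0 * (M.C0 * 2 ^ M.C0) * (1 + n₁ * (ρ : ℝ)) ^ M.deg ≤ Real.exp (β / 4 * ρ))
    (h2 : M.C0 * (1 + n₁ * (ρ : ℝ)) ^ M.deg ≤ Real.exp (δ * ρ))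
    (h3 : M.C0 * (1 + (2 * n₁ + 8 * M.C0) * (ρ : ℝ)) ^ M.deg ≤ Real.exp (δ * ρ))
    {u : S} (hu : u ∈ M.FB δ R) :
    ∃ (L₁ : List S) (y : V) (w : Fin k → ℤ), L₁.length = M.mE ∧ y ∈ M.Vw 0 ∧
      M.nm y ≤ Real.exp (δ * ρ) ∧ (∀ a ∈ L₁, (M.l a : ℝ) ≤ M.cA * ρ) ∧
      (M.l (M.τ w) : ℝ) ≤ ε₁ * ρ ∧ (L₁ ++ (M.ex y :: [M.τ w])).prod = u ∧
      ∀ g ∈ L₁ ++ (M.ex y :: [M.τ w]),
        P188.H882.Mrg (fun x => (M.l x : ℝ)) (M.Nt (2 * δ) ρ) (M.τ t) ρ (ε₁ * ρ) g := by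
  have hC0 := M.one_le_C0
  obtain ⟨x, hx, hxn, y, hy, hyn, w, hw, rfl⟩ := hu
  obtain ⟨r, hr, hrx⟩ := M.gen_e x hx
  have hrb : ∀ t, |r t| ≤ M.C0 * 2 ^ M.C0 * Real.exp (M.C0 * R) := fun t =>
    (hr t).trans (M.gen_bound hR0 hxn)
  have hyρ : M.nm y ≤ Real.exp (δ * ρ) := hyn.trans (Real.exp_le_exp.mpr
    (mul_le_mul_of_nonneg_left hRρ hδ.le))
  have hlτ : (M.l (M.τ w) : ℝ) ≤ ε₁ * ρ := (M.len_τ hCL hl hR0 hw).trans hRε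
  refine ⟨List.ofFn fun t => M.ex (r t • M.X (M.jE t)), y, w, by simp, hy, hyρ, ?_, hlτ, ?_, ?_⟩
  · intro a ha
    rw [List.mem_ofFn] at ha
    obtain ⟨s, rfl⟩ := ha
    exact M.len_letter (M.jE_ne s) (hrb s) hR0 hRρ hρ1
  · rw [List.prod_append, List.prod_cons, List.prod_singleton, hrx, mul_assoc]
  · intro g hg
    rw [List.mem_append, List.mem_cons, List.mem_singleton] at hg
    rcases hg with hg | rfl | rfl
    · rw [List.mem_ofFn] at hg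
      obtain ⟨s, rfl⟩ := hg
      exact M.mrg_letter hn₁ hβ hgap (M.jE_ne s) (hrb s) hRβ h1 hρε
    · refine M.mrg_mono (M.Nt_mono ?_) (M.mrg_neutral hn₁ (δ := δ) (δ' := δ) (ρ := ρ)
        (τ := ε₁ * ρ) (by linarith) hy hyρ h2)
      exact le_of_eq (by ring)
    · obtain ⟨n₂, hn₂, hτ₂⟩ := M.τ_word hR0 hw
      refine M.mrg_mono (M.Nt_mono ?_) (M.mrg_τ hn₁ hτ₂ (δ := δ) (K := 2 * n₁ + 8 * M.C0)
        (ρ := ρ) (τ := ε₁ * ρ) hlτ ?_ h3)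
      · exact mul_le_mul_of_nonneg_right (by linarith) (by linarith)
      · have h4 : (n₂ : ℝ) ≤ 4 * M.C0 * ρ := by
          refine hn₂.trans ?_
          nlinarith
        nlinarith

/-- the choice of `d₁` -/
theorem choose_d {β ε₁ CL C₀ : ℝ} (hβ : 0 < β) (hε₁ : 0 < ε₁) (hCL : 1 ≤ CL) (hC : 1 ≤ C₀) :
    ∃ d : ℝ, 0 < d ∧ d ≤ 1 ∧ C₀ * d ≤ β / 4 ∧ 4 * CL * C₀ * d ≤ ε₁ := by
  refine ⟨min (min (β / (4 * C₀)) (ε₁ / (4 * CL * C₀))) 1, lt_min (lt_min (by positivity)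
    (by positivity)) one_pos, min_le_right _ _, ?_, ?_⟩
  · have h1 : min (min (β / (4 * C₀)) (ε₁ / (4 * CL * C₀))) 1 ≤ β / (4 * C₀) :=
      (min_le_left _ _).trans (min_le_left _ _)
    rw [le_div_iff₀ (by positivity)] at h1
    linarith
  · have h1 : min (min (β / (4 * C₀)) (ε₁ / (4 * CL * C₀))) 1 ≤ ε₁ / (4 * CL * C₀) :=
      (min_le_left _ _).trans (min_le_right _ _)
    rw [le_div_iff₀ (by positivity)] at h1
    linarith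

/-- **First decomposition.** -/
theorem dec1 (v : Fin k → (Fin k → ℤ)) (hv : ∀ i, M.Generic (v i)) :
    ∃ (c : ℕ) (C₁ : ℝ), 1 ≤ C₁ ∧ ∀ C : ℝ, C₁ ≤ C → ∀ ε₁ : ℝ, 0 < ε₁ → ε₁ ≤ 1 →
      ∃ d₁ : ℝ, 0 < d₁ ∧ d₁ ≤ 1 ∧ ∀ δ : ℝ, 0 < δ → δ ≤ 1 / C → ∃ ρ₀ : ℕ, ∀ ρ : ℕ, ρ₀ ≤ ρ →
      ∀ i, ∀ u ∈ M.FB δ (d₁ * ρ), ∃ us : List S, us.length ≤ c ∧ us.prod = u ∧
        (∀ w ∈ us, P188.H882.Mrg (fun x => (M.l x : ℝ)) (M.Nt (C * δ) ρ) (M.τ (v i)) ρ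
          (ε₁ * ρ) w) ∧
        ∀ ws, ws <+: us → ws.prod ∈ M.FB (C * δ) (C * ρ) ∧
          ∀ m : ℤ, |m| ≤ (ρ : ℤ) → ∀ a, (M.l a : ℝ) ≤ ε₁ * ρ →
            ws.prod * M.τ (v i) ^ m * a ∈ M.FB (C * δ) (C * ρ) := by
  have hC0 := M.one_le_C0
  obtain ⟨n₁, β, hβ, hn₁, hgap⟩ := M.dirs_const v hv
  obtain ⟨CL, hCL, hl⟩ := M.l_CB
  have hn1 : (0:ℝ) ≤ n₁ := by positivity
  have hcA := M.cA_nonneg
  have hCLn : 0 ≤ CL * n₁ := by positivity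
  obtain ⟨C₂, hC₂, hpre⟩ := M.prefix_fb (A := M.cA + CL * n₁ + 1) (by linarith) (M.mE + 1)
  refine ⟨M.mE + 2, max C₂ 2, le_max_of_le_left hC₂, ?_⟩
  intro C hC ε₁ hε₁ hε₁'
  have hC2 : C₂ ≤ C := (le_max_left _ _).trans hC
  have hC22 : 2 ≤ C := (le_max_right _ _).trans hC
  obtain ⟨d₁, hd0, hd1, hdβ, hdε⟩ := choose_d hβ hε₁ hCL hC0
  refine ⟨d₁, hd0, hd1, ?_⟩
  intro δ hδ hδC
  have hδC₂ : δ ≤ 1 / C₂ := hδC.trans (one_div_le_one_div_of_le (by linarith) hC2)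
  obtain ⟨R₀, hpre'⟩ := hpre δ hδ hδC₂
  obtain ⟨R₁, hR₁⟩ := poly_le_exp (M.C0 * (M.C0 * 2 ^ M.C0)) n₁ hn1 M.deg
    (by positivity : 0 < β / 4)
  obtain ⟨R₂, hR₂⟩ := poly_le_exp M.C0 n₁ hn1 M.deg hδ
  obtain ⟨R₃, hR₃⟩ := poly_le_exp M.C0 (2 * n₁ + 8 * M.C0) (by positivity) M.deg hδ
  obtain ⟨ρ₀, hρ₀⟩ := exists_nat_ge (max (max (max R₀ R₁) (max R₂ R₃))
    (max 1 ((4 * CL * M.C0) / ε₁)))
  refine ⟨ρ₀, ?_⟩
  intro ρ hρ i u hu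
  have hρ' := hρ₀.trans (by exact_mod_cast hρ : (ρ₀ : ℝ) ≤ ρ)
  have b0 : R₀ ≤ ρ := le_trans (by simp) hρ'
  have b1 : R₁ ≤ ρ := le_trans (by simp) hρ'
  have b2 : R₂ ≤ ρ := le_trans (by simp) hρ'
  have b3 : R₃ ≤ ρ := le_trans (by simp) hρ'
  have b4 : (1:ℝ) ≤ ρ := le_trans (by simp) hρ'
  have b5 : (4 * CL * M.C0) / ε₁ ≤ ρ := le_trans (by simp) hρ'
  clear hρ' hρ₀
  rw [div_le_iff₀ hε₁] at b5
  have hρ0 : (0:ℝ) < ρ := by linarith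
  have hCLC : M.C0 ≤ CL * M.C0 := by nlinarith
  have hε₁ρ : ε₁ * ρ ≤ ρ := by nlinarith
  obtain ⟨L₁, y, w, hL₁, hy, hyn, hL₁A, hlτ, hprod, hmrg⟩ := M.dec1_list (hn₁ i) hβ (hgap i) hCL hl
    hδ hε₁ b4 (by positivity : 0 ≤ d₁ * ρ) (by nlinarith) (by nlinarith)
    (by nlinarith [mul_le_mul_of_nonneg_right hdε hρ0.le])
    (by nlinarith) (hR₁ ρ b1) (hR₂ ρ b2) (hR₃ ρ b3) hu
  refine ⟨L₁ ++ (M.ex y :: [M.τ w]), by simp [hL₁], hprod, fun g hg => ?_, fun ws hws => ?_⟩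
  · exact M.mrg_mono (M.Nt_mono (mul_le_mul_of_nonneg_right
      (mul_le_mul_of_nonneg_right hC22 hδ.le) hρ0.le)) (hmrg g hg)
  have main : ∀ g, (M.l g : ℝ) ≤ (M.cA + CL * n₁ + 1) * ρ →
      ws.prod * g ∈ M.FB (C * δ) (C * ρ) := by
    intro g hg
    have h1 := hpre' ρ b0 L₁ [M.τ w] y (by omega) (by simp) (fun a ha => (hL₁A a ha).trans
      (mul_le_mul_of_nonneg_right (by linarith) hρ0.le)) (by
      intro a ha
      rw [List.mem_singleton] at ha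
      rw [ha]
      refine (hlτ.trans hε₁ρ).trans ?_
      nlinarith [mul_nonneg hcA hρ0.le, mul_nonneg hCLn hρ0.le]) hy hyn ws hws g hg
    exact M.fb_monoD (by positivity) (mul_le_mul_of_nonneg_right hC2 hδ.le) (by positivity)
      (mul_le_mul_of_nonneg_right hC2 hρ0.le) h1
  refine ⟨?_, fun m hm a ha => ?_⟩
  · have := main 1 (by rw [M.len.one]; push_cast; positivity)
    rwa [mul_one] at this
  · rw [mul_assoc]
    refine main _ ((M.l_mulD _ _).trans ?_)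
    have h1 := hl _ _ (M.CB_zpow (hn₁ i) m)
    have h2 : ((n₁ * m.natAbs : ℕ) : ℝ) ≤ n₁ * ρ := by
      push_cast
      refine mul_le_mul_of_nonneg_left ?_ hn1
      have : m.natAbs ≤ ρ := by
        have := Int.abs_eq_natAbs m
        omega
      exact_mod_cast this
    have h3 : (M.l (M.τ (v i) ^ m) : ℝ) ≤ CL * (n₁ * ρ) :=
      h1.trans (mul_le_mul_of_nonneg_left h2 (by linarith))
    nlinarith [mul_nonneg hcA hρ0.le]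

end RModel

end Vale.Agent.P188.Z1
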