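import Vale.Agent.P188.Z1.LineS
import Vale.Agent.P188.H616.M18

/-!
# P188, FLATG in the model, final assembly, part L: labels

From `STRAIGHT` (labels are sets of functionals) to a finite type of labels, `StrSc`, `LabD`.
-/

set_option linter.all false

open MeasureTheory Set Filter
open Vale.Agent.P188.H530 (hgt)
open Vale.Agent.P188.H616 (Coord Sec Phi slide Script StrAt badR badL)

namespace Vale.Agent.P188.Z1.RModel.F6

variable {S : Type} [Group S] [MeasurableSpace S] {Γ : Type} [Group Γ]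
  {V : Type} [AddCommGroup V] [Module ℝ V] {k : ℕ} (M : RModel S Γ V k)

/-! ### the finite type of good labels -/

section labels

variable {Φ₁ : Finset (Ht k →L[ℝ] ℝ)} {V₁ : Finset (Fin k → ℤ)}

/-- the sets of functionals -/
def upL (a : V₁ → Set Φ₁) : V₁ → Set (Ht k →L[ℝ] ℝ) := fun v => Subtype.val '' a v

theorem upL_inj {a a' : V₁ → Set Φ₁} (h : upL a = upL a') : a = a' := by
  funext v
  exact Subtype.val_injective.image_injective (congrFun h v)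

theorem exists_upL {a : V₁ → Set (Ht k →L[ℝ] ℝ)} (h : ∀ v, a v ⊆ ↑Φ₁) :
    ∃ a' : V₁ → Set Φ₁, upL a' = a := by
  refine ⟨fun v => Subtype.val ⁻¹' a v, ?_⟩
  funext v
  ext b
  constructor
  · rintro ⟨b', hb', rfl⟩
    exact hb'
  · intro hb
    exact ⟨⟨b, h v hb⟩, hb, rfl⟩

/-- the type of the good labels -/
def Lb (Φ₁ : Finset (Ht k →L[ℝ] ℝ)) (V₁ : Finset (Fin k → ℤ)) (c₀ L : ℝ)
    (T : (V₁ → Set (Ht k →L[ℝ] ℝ)) → (Ht k →L[ℝ] Ht k)) : Type :=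
  {a : V₁ → Set Φ₁ // GoodLab Φ₁ V₁ c₀ L (T (upL a)) (upL a)}

variable {c₀ L : ℝ} {T : (V₁ → Set (Ht k →L[ℝ] ℝ)) → (Ht k →L[ℝ] Ht k)}

noncomputable instance : Fintype (Lb Φ₁ V₁ c₀ L T) := by
  classical
  exact Subtype.fintype _

instance : MeasurableSpace (Lb Φ₁ V₁ c₀ L T) := ⊤

instance : MeasurableSingletonClass (Lb Φ₁ V₁ c₀ L T) := ⟨fun _ => trivial⟩

/-- the label as a family of sets of functionals -/
def Lb.lab (x : Lb Φ₁ V₁ c₀ L T) : V₁ → Set (Ht k →L[ℝ] ℝ) := upL x.1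

/-- the linear map of a label -/
def Lb.lin (x : Lb Φ₁ V₁ c₀ L T) : Ht k →L[ℝ] Ht k := T x.lab

theorem Lb.good (x : Lb Φ₁ V₁ c₀ L T) : GoodLab Φ₁ V₁ c₀ L x.lin x.lab := x.2

theorem Lb.ext {x y : Lb Φ₁ V₁ c₀ L T} (h : x.lab = y.lab) : x = y :=
  Subtype.ext (upL_inj h)

/-- the bound of the number of labels -/
noncomputable def NLb (Φ₁ : Finset (Ht k →L[ℝ] ℝ)) (V₁ : Finset (Fin k → ℤ)) : ℕ :=
  Nat.card (V₁ → Set Φ₁)

theorem Lb.card_le : Fintype.card (Lb Φ₁ V₁ c₀ L T) ≤ NLb Φ₁ V₁ := by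
  classical
  rw [NLb, ← Nat.card_eq_fintype_card]
  exact Nat.card_le_card_of_injective _ Subtype.val_injective

open Classical in
/-- the positive functionals of a label in a direction -/
noncomputable def Lb.P (v : Fin k → ℤ) (x : Lb Φ₁ V₁ c₀ L T) : Set Φ₁ :=
  if h : v ∈ V₁ then x.1 ⟨v, h⟩ else ∅

theorem Lb.P_of {v : Fin k → ℤ} (h : v ∈ V₁) (x : Lb Φ₁ V₁ c₀ L T) : Lb.P v x = x.1 ⟨v, h⟩ := by
  rw [Lb.P, dif_pos h]

theorem Lb.mem_P {v : Fin k → ℤ} (h : v ∈ V₁) (x : Lb Φ₁ V₁ c₀ L T) (b : Φ₁) :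
    b ∈ Lb.P v x ↔ (b : Ht k →L[ℝ] ℝ) ∈ x.lab ⟨v, h⟩ := by
  rw [Lb.P_of h]
  show b ∈ x.1 ⟨v, h⟩ ↔ (b : Ht k →L[ℝ] ℝ) ∈ Subtype.val '' x.1 ⟨v, h⟩
  constructor
  · intro hb; exact ⟨b, hb, rfl⟩
  · rintro ⟨b', hb', he⟩
    rwa [← Subtype.ext he]

theorem Lb.norm_T_le (x : Lb Φ₁ V₁ c₀ L T) : ‖x.lin‖ ≤ L := x.good.norm_le

theorem ht_neg (v : Fin k → ℤ) : ht (-v) = -ht v := by
  funext i; simp [ht]

/-- complementary labels in opposite directions -/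
theorem Lb.mem_neg (hc₀ : 0 < c₀) {v : Fin k → ℤ} (h : v ∈ V₁) (h' : -v ∈ V₁)
    (x : Lb Φ₁ V₁ c₀ L T) (b : Φ₁) : b ∈ Lb.P (-v) x ↔ b ∉ Lb.P v x := by
  rw [Lb.mem_P h', Lb.mem_P h]
  have e : (b : Ht k →L[ℝ] ℝ) (x.lin (ht (-v))) = -(b : Ht k →L[ℝ] ℝ) (x.lin (ht v)) := by
    rw [ht_neg, map_neg, map_neg]
  constructor
  · intro h1 h2
    have h3 := x.good.pos ⟨-v, h'⟩ b b.2 h1
    have h4 := x.good.pos ⟨v, h⟩ b b.2 h2
    simp only at h3 h4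
    rw [e] at h3
    linarith
  · intro h1
    by_contra h2
    have h3 := x.good.neg ⟨-v, h'⟩ b b.2 h2
    have h4 := x.good.neg ⟨v, h⟩ b b.2 h1
    simp only at h3 h4
    rw [e] at h3
    linarith

theorem Lb.labD (hΦ : M.Rays Φ₁) (hV : M.Dirs Φ₁ V₁) (hc₀ : 0 < c₀) :
    LabD M Φ₁ V₁ (Lb.lin (c₀ := c₀) (L := L) (T := T)) (Lb.P (c₀ := c₀) (L := L) (T := T)) where
  sub := hΦ.sub
  pos := by
    intro v hv a b hb
    exact hc₀.le.trans (a.good.pos ⟨v, hv⟩ b b.2 ((Lb.mem_P hv a b).1 hb))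
  neg := by
    intro v hv a b hb
    exact (a.good.neg ⟨v, hv⟩ b b.2 fun h => hb ((Lb.mem_P hv a b).2 h)).trans (by linarith)
  card := by
    intro v hv a a'
    have h1 : ∀ a : Lb Φ₁ V₁ c₀ L T, (Lb.P v a).ncard = {b | b ∈ Φ₁ ∧ 0 < b (ht v)}.ncard := by
      intro a
      rw [Lb.P_of hv, ← a.good.card ⟨v, hv⟩]
      exact (ncard_image_of_injective _ Subtype.val_injective).symm
    rw [h1, h1]
  inj := by
    intro b₀ hb₀ a a' hh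
    refine Lb.ext ?_
    have key : ∀ v (hv : v ∈ V₁), Lb.P v a = Lb.P v a' := by
      intro v hv
      have hne := hV.generic v hv b₀ (M.Φ_sub hb₀) (M.Φ_ne b₀ hb₀)
      rcases lt_or_gt_of_ne hne with h1 | h1
      · have hv' := hV.neg v hv
        have h2 := hh (-v) hv' (by
          rw [ht_neg, map_neg]
          have : b₀ (ht v) < 0 := h1
          linarith)
        ext b
        have h3 : b ∈ Lb.P (-v) a ↔ b ∈ Lb.P (-v) a' := by rw [h2]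
        rw [Lb.mem_neg hc₀ hv hv', Lb.mem_neg hc₀ hv hv'] at h3
        exact not_iff_not.1 h3
      · exact hh v hv h1
    funext v
    ext b
    constructor
    · intro hb
      have hbΦ : b ∈ Φ₁ := a.good.sub v hb
      have h1 := (Lb.mem_P v.2 a ⟨b, hbΦ⟩).2 hb
      rw [key v v.2] at h1
      exact (Lb.mem_P v.2 a' ⟨b, hbΦ⟩).1 h1
    · intro hb
      have hbΦ : b ∈ Φ₁ := a'.good.sub v hb
      have h1 := (Lb.mem_P v.2 a' ⟨b, hbΦ⟩).2 hb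
      rw [← key v v.2] at h1
      exact (Lb.mem_P v.2 a ⟨b, hbΦ⟩).1 h1

end labels

/-! ### straightness at one scale -/

variable {M}

/-- **Straightness at one scale with a finite type of labels**, from `STRAIGHT`. -/
theorem exists_strSc (hS : M.STRAIGHT) (p : ℕ) (K : ℝ) {Φ₁ : Finset (Ht k →L[ℝ] ℝ)}
    (hΦ : M.Rays Φ₁) {V₁ : Finset (Fin k → ℤ)} (hV : M.Dirs Φ₁ V₁) :
    ∃ (c₀ L : ℝ), 0 < c₀ ∧ 0 ≤ L ∧ ∀ A ε κ₁ : ℝ, 0 < ε → 0 < κ₁ → ∃ d κ₂ : ℝ, 0 < d ∧ 0 < κ₂ ∧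
    ∀ κ₃ δ : ℝ, 0 < κ₃ → 0 < δ → ∃ lam s₀ : ℝ, 0 < lam ∧ 0 < s₀ ∧
    ∃ T : ℕ → (V₁ → Set (Ht k →L[ℝ] ℝ)) → (Ht k →L[ℝ] Ht k),
    ∀ s, s₀ ≤ s → ∀ (F F' : Fin p → Γ → Γ) (D Dp : Fin p → Set S),
    (∀ α, M.QIm K (F α) (F' α)) → (∀ α, M.FFat δ (κ₃ * s) κ₂ (D α) (Dp α)) →
    (∀ α, ∀ z ∈ D α, ‖M.θ z‖ ≤ A * s) →
    ∃ ρ : ℕ, lam * s ≤ ρ ∧ (ρ : ℝ) ≤ s ∧ ∀ α, ∃ σ : S → Lb Φ₁ V₁ c₀ L (T ρ), Measurable σ ∧
      StrSc M σ Lb.lin (M.f (F α)) (D α) A ε κ₁ d s := by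
  obtain ⟨c₀, L, hc₀, h1⟩ := hS p K Φ₁ hΦ V₁ hV
  refine ⟨c₀, max L 0, hc₀, le_max_right _ _, ?_⟩
  intro A ε κ₁ hε hκ₁
  obtain ⟨d, κ₂, hd, hκ₂, h2⟩ := h1 ⌈A⌉₊ 1 ε κ₁ hε hκ₁
  refine ⟨d, κ₂, hd, hκ₂, ?_⟩
  intro κ₃ δ hκ₃ hδ
  obtain ⟨lam, s₀, hlam, T, h3⟩ := h2 κ₃ δ hκ₃ hδ
  refine ⟨lam, max s₀ 1, hlam, lt_max_of_lt_right one_pos, T, ?_⟩
  intro s hs F F' D Dp hF hD hDθ
  have hs1 : 0 < s := lt_of_lt_of_le one_pos (le_trans (le_max_right _ _) hs)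
  obtain ⟨ρ, hρ1, hρ2, h4⟩ := h3 s (le_trans (le_max_left _ _) hs) F F' D Dp hF hD
  refine ⟨ρ, hρ1, hρ2, ?_⟩
  intro α
  obtain ⟨σ, hσm, hσg, hpath, hneut⟩ := h4 α
  have hA : A * s ≤ (⌈A⌉₊ : ℝ) * s := mul_le_mul_of_nonneg_right (Nat.le_ceil _) hs1.le
  have hgood : ∀ z, ∃ x : Lb Φ₁ V₁ c₀ (max L 0) (T ρ), x.lab = σ z := by
    intro z
    have h5 := hσg z
    obtain ⟨a', ha'⟩ := exists_upL h5.sub
    refine ⟨⟨a', ?_⟩, ha'⟩
    rw [ha']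
    exact ⟨h5.sub, h5.norm_le.trans (le_max_left _ _), h5.pos, h5.neg, h5.card⟩
  choose σ' hσ' using hgood
  have hσ'T : ∀ z, (σ' z).lin = T ρ (σ z) := fun z => by rw [Lb.lin, hσ']
  have hiff : ∀ z z', σ' z ≠ σ' z' ↔ σ z ≠ σ z' := by
    intro z z'
    refine not_congr ⟨fun h => ?_, fun h => ?_⟩
    · rw [← hσ', ← hσ', h]
    · exact Lb.ext (by rw [hσ', hσ', h])
  have hinD : ∀ z : S, z ∈ M.In (κ₁ * s) (D α) → z ∈ D α := by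
    intro z hz
    have h5 := hz 1 (by
      rw [M.len.one]
      have : 0 ≤ κ₁ * s := by positivity
      simpa using this)
    rwa [mul_one] at h5
  refine ⟨σ', ?_, ?_, ?_⟩
  · refine measurable_to_countable' fun x => ?_
    have : σ' ⁻¹' {x} = {z | σ z = x.lab} := by
      ext z
      constructor
      · intro h5
        show σ z = x.lab
        rw [← hσ', show σ' z = x from h5]
      · intro h5
        show σ' z = x
        exact Lb.ext (by rw [hσ']; exact h5)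
    rw [this]
    exact hσm _
  · intro n hn q hq0 hqs Din hDin
    have h5 := hpath n (hn.trans hA) q hq0 hqs Din hDin
    refine le_trans (measure_mono ?_) h5
    rintro z ⟨hz, hz2⟩
    refine ⟨hz, ?_⟩
    rcases hz2 with hz2 | ⟨i, hi, hz2⟩
    · exact Or.inl ((hiff _ _).1 hz2)
    · refine Or.inr ⟨i, hi, ?_⟩
      rwa [hσ'T] at hz2
  · intro y hy Din hDin
    have h5 := hneut y hy Din (fun z hz => ⟨?_, hDin z hz⟩)
    · refine le_trans (measure_mono ?_) h5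
      rintro z ⟨hz, hz2⟩
      refine ⟨hz, ?_⟩
      rcases hz2 with hz2 | hz2
      · exact Or.inl ((hiff _ _).1 hz2)
      · exact Or.inr hz2
    · have h6 := hDin z hz 0 le_rfl zero_le_one
      rw [zero_smul, M.ex_zero, mul_one] at h6
      exact (hDθ α z (hinD z h6)).trans hA

/-- the heights of the points of the box sets are bounded -/
theorem norm_θ_DboxH {c₂ : ℝ} (hc : 0 < c₂) : ∃ C : ℝ, 0 < C ∧ ∀ (B : M.NatBox)
    (h : (Ht k →L[ℝ] ℝ) → ℝ), M.HB c₂ h → ∀ (Λ d₁ κ s : ℝ), 0 ≤ κ → κ ≤ 1 → 0 ≤ s →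
      ∀ z ∈ B.DboxH h Λ d₁ κ s, ‖M.θ z‖ ≤ C * s := by
  obtain ⟨C, hC, h1⟩ := exists_win_bdd (M := M) hc
  exact ⟨C, hC, fun B h hh Λ d₁ κ s h0 h1' hs z hz => h1 h hh κ s h0 h1' hs _ hz.2⟩

end Vale.Agent.P188.Z1.RModel.F6
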