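import Vale.Agent.P188.Z1.FlatgG
import Vale.Agent.P188.Z1.FlatgL
import Vale.Agent.P188.H616.M20

/-!
# P188, FLATG in the model: the theorem
-/

set_option linter.all false

open MeasureTheory Set Filter
open Vale.Agent.P188.H530 (hgt)
open Vale.Agent.P188.H616 (Coord Sec Phi slide Script StrAt badR badL)

namespace Vale.Agent.P188.Z1.RModel.F6

variable {S : Type} [Group S] [MeasurableSpace S] {Γ : Type} [Group Γ]
  {V : Type} [AddCommGroup V] [Module ℝ V] {k : ℕ} {M : RModel S Γ V k}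

theorem DF_mono4 (B : M.NatBox) {h : (Ht k →L[ℝ] ℝ) → ℝ} {Λ d₁ κ4 κ4' s : ℝ} {g : S}
    (hκ : κ4' ≤ κ4) (hs : 0 ≤ s) : DF B h Λ d₁ κ4' s g ⊆ DF B h Λ d₁ κ4 s g :=
  fun _ hz => ⟨hz.1, hz.2.trans (mul_le_mul_of_nonneg_right hκ hs)⟩

theorem num_min3 {a b c : ℝ} (ha : 0 < a) (hb : 0 < b) (hc : 0 < c) :
    ∃ x : ℝ, 0 < x ∧ x ≤ a ∧ x ≤ b ∧ x ≤ c :=
  ⟨min a (min b c), lt_min ha (lt_min hb hc), min_le_left _ _,
    (min_le_right _ _).trans (min_le_left _ _), (min_le_right _ _).trans (min_le_right _ _)⟩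

theorem num_max4 (a b c d : ℝ) : ∃ x : ℝ, a ≤ x ∧ b ≤ x ∧ c ≤ x ∧ d ≤ x :=
  ⟨max (max a b) (max c d), (le_max_left _ _).trans (le_max_left _ _),
    (le_max_right _ _).trans (le_max_left _ _), (le_max_left _ _).trans (le_max_right _ _),
    (le_max_right _ _).trans (le_max_right _ _)⟩

theorem num_κ4 {κ4 AN κ₅ b a₁ a₂ : ℝ} (h1 : 0 < κ4) (h2 : 0 < AN) (h3 : 0 < κ₅) (hb : 0 < b)
    (ha₁ : 0 < a₁) (ha₂ : 0 < a₂) : ∃ x : ℝ, 0 < x ∧ x ≤ κ4 ∧ x ≤ 1 ∧ x ≤ AN ∧ x ≤ κ₅ ∧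
      b * x ≤ a₁ ∧ 4 * (b * x) ≤ a₂ := by
  obtain ⟨x, hx, x1, x2, x3⟩ := num_min3 h1 h2 h3
  obtain ⟨y, hy, y1, y2, y3⟩ := num_min3 one_pos (show 0 < a₁ / b by positivity)
    (show 0 < a₂ / (4 * b) by positivity)
  rw [le_div_iff₀ hb] at y2
  rw [le_div_iff₀ (by positivity)] at y3
  have hmx : min x y ≤ x := min_le_left _ _
  have hmy : min x y ≤ y := min_le_right _ _
  have hbm : b * min x y ≤ b * y := mul_le_mul_of_nonneg_left hmy hb.le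
  exact ⟨min x y, lt_min hx hy, hmx.trans x1, hmy.trans y1, hmx.trans x2, hmx.trans x3,
    by linarith, by linarith⟩

/-- **FLATG** (general windows), from STRAIGHT, SPREAD and the box sets. -/
theorem flatg_of (hS : M.STRAIGHT) (hSp : M.SPREAD) (B : M.NatBox) (hD : M.DBOXH B)
    (hV : M.DVOLH B) : M.FLATG B := by
  classical
  intro p K Φ₁ hΦ V₁ hV₁ c₂ hc₂
  obtain ⟨c₀, L, hc₀, hL0, hST⟩ := exists_strSc hS p K hΦ hV₁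
  obtain ⟨C, hC, hpk⟩ := exists_pack (M := M) B
  obtain ⟨c₁, hc₁, hCc₁⟩ := num_lt (C := C) (by linarith) hc₂
  refine ⟨c₀, L, c₁, hc₀, hc₁, ?_⟩
  intro ε κ A hε hκ hκ1
  have hC0 := M.C0_pos
  have hBC := B.one_le
  have hBC0 : 0 < B.C := by linarith
  have hL1 := one_le_L1 B
  have hb0 : 0 < bΦ M := lt_of_lt_of_le one_pos (one_le_bΦ M)
  have hΛm : 1 ≤ B.C * L1 B := one_le_mul_of_one_le_of_one_le hBC hL1
  -- the net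
  obtain ⟨κw, hκw0, hκwκ, hκw2, -⟩ := num_min3 hκ (show (0 : ℝ) < 1 / 2 by norm_num) one_pos
  obtain ⟨κ₅, η, hκ₅, hη, hthr⟩ := num_κ₅ B.m (Lf := max (M.lnLf K) 0) (L := L) (C0 := M.C0) (C := C)
    (le_max_right _ _) hL0 hC0.le (by linarith) hε
  obtain ⟨n, AN, hAN, hpk⟩ := hpk c₂ κw κ₅ hc₂ hκw0 hκw2 hκ₅
  obtain ⟨δ, hδ0, hδ1, hfol⟩ := B.fol (ε / 2) (by linarith)
  -- the letters
  obtain ⟨κ', κ4₀, κp, Λ3, AS, hκ', hκ'2, -, hκ4₀, -, hκp, -, hΛ3, hNF⟩ :=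
    nofold_letter hSp B K hV₁ hc₂ (NLb Φ₁ V₁) (Λm := B.C * L1 B) (Λ_L := B.C) (η := η)
      (κmax := 1) (A_g := 2 * c₂⁻¹ + 1) hΛm hBC0 hη one_pos
  obtain ⟨κ4, hκ4, hκ4₀', hκ41, hκ4N, hκ45, hb4, h4'⟩ := num_κ4 hκ4₀ hAN hκ₅ hb0
    (show 0 < κw / 4 * c₂ by positivity) (show 0 < κ' * c₂ by positivity)
  -- the box
  obtain ⟨κD, hκD, hκDw, hκD', hκDp⟩ := num_min3 (show 0 < κw / 4 by positivity)
    (show 0 < κ' / 4 by positivity) (show 0 < κp / 2 by positivity)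
  have hκD1 : κD < 1 := by linarith
  obtain ⟨ΛD, hΛD, hΛD', hΛD1, -⟩ := num_max4 (B.C * (B.C * (B.C * (B.C * L1 B)))) (B.C * Λ3) 1 1
  have hΛD0 : 0 < ΛD := by linarith
  obtain ⟨κS, hκS, hCκS⟩ := num_lt (C := C) (by linarith) (show 0 < κD * c₂ by positivity)
  obtain ⟨Cw, hCw, hbdd⟩ := DboxH_bdd B hc₂
  obtain ⟨AT, hAN', hAS', hAg', hCw'⟩ := num_max4 AN AS (2 * c₂⁻¹ + 1) Cw
  obtain ⟨CV, hvol⟩ := hV c₂ hc₂ κD κ4 ΛD δ hκD hκD1 hκ4 hΛD0 hδ0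
  obtain ⟨θ, hθ, hθn⟩ := num_θ B.m n (CV := max CV 0) (le_max_right _ _) hε
  obtain ⟨εS, hεS, hNF⟩ := hNF θ hθ
  obtain ⟨εT, hεT, hεTS, hεTη, hεTθ⟩ := num_min3 hεS hη hθ
  obtain ⟨d, κ₂, hd, hκ₂, hST⟩ := hST AT εT κS hεT hκS
  obtain ⟨κ₁, hκ₁, hDB⟩ := hD c₂ hc₂ κD hκD hκD1 ΛD hΛD0 κ₂ hκ₂
  refine ⟨d / 2, by linarith, fun d₁ hd₁ hd₁d => ?_⟩
  have hδS : 0 < d₁ / (2 * κ₁) := by positivity
  obtain ⟨lam, s₀, hlam, hs₀, T, hST⟩ := hST κ₁ (d₁ / (2 * κ₁)) hκ₁ hδS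
  obtain ⟨s₁, hDB⟩ := hDB d₁ (d₁ / (2 * κ₁)) hd₁ hδS (by
    have : d₁ / (2 * κ₁) * κ₁ = d₁ / 2 := by field_simp
    linarith)
  obtain ⟨s₂, hvol⟩ := hvol d₁ hd₁
  have hev := (hpk κ A c₁ d₁ κ4 κ' κp κS δ Λ3 AS AT κD ΛD hc₁.le hCc₁ hκwκ hd₁ hκ' hκ'2 hκ4.le hκ41
    hκ4N hκ45 hb4 h4' hκp hΛ3 hδ0 hκS.le hκD hCκS hκDw hκD' hκDp hΛD hΛD' hAN').and
    ((hNF d₁ hd₁).and (ev_hAd B (d₁ := d₁) (dm := d) (A := κ4) (by linarith)))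
  obtain ⟨s₃, hev⟩ := eventually_atTop.1 hev
  obtain ⟨sm, hm0, hm1, hm2, hm3⟩ := num_max4 s₀ s₁ s₂ s₃
  refine ⟨lam, sm, hlam, T, ?_⟩
  intro s hs h hh F F' hQ
  have hs0 : 0 ≤ s := by linarith
  obtain ⟨hP, hNFs, hAd⟩ := hev s (hm3.trans hs)
  obtain ⟨Dp, hDp⟩ := hDB s (hm1.trans hs) h hh.bd
  obtain ⟨ρ, hρ1, hρ2, hσ⟩ := hST s (hm0.trans hs) F F' (fun _ => B.DboxH h ΛD d₁ κD s)
    (fun _ => Dp) hQ (fun _ => hDp) (fun _ z hz => (hbdd h hh.bd ΛD d₁ κD s hκD.le hκD1.le hs0 z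
      hz).trans (mul_le_mul_of_nonneg_right hCw' hs0))
  refine ⟨ρ, hρ1, hρ2, fun α => ?_⟩
  obtain ⟨σ, hσm, hσS⟩ := hσ α
  have hvol' : M.μ (B.DboxH h ΛD d₁ κD s) ≤ ENNReal.ofReal (max CV 0) *
      M.μ (B.DsmH h δ d₁ κ4 s) := (hvol s (hm2.trans hs) h hh.bd).trans
    (mul_le_mul_left (ENNReal.ofReal_le_ofReal (le_max_left _ _)) _)
  have hthr' : (3 * B.m + 1 : ℕ) * η + M.lnLf K * (C * κ₅) + L * (M.C0 * (C * κ₅)) ≤ ε := by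
    refine le_trans ?_ hthr
    have : M.lnLf K * (C * κ₅) ≤ max (M.lnLf K) 0 * (C * κ₅) :=
      mul_le_mul_of_nonneg_right (le_max_left _ _) (by positivity)
    linarith
  obtain ⟨a, c, h1, h2⟩ := flat_scale B (hQ α) hσm hL0 (fun a => Lb.norm_T_le a) hσS (hP h hh)
    (η := η) (θ := θ) (ε := ε) (CV := max CV 0) hs0 hδ0 hδ1 hη.le hεTη hεTθ hκ4.le hε.le hθ.le
    (le_max_right _ _) hAg' (hAd h) (by
      intro i hi u hu n hn g hg hclose x hx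
      have h3 := hNFs h hh (F α) (F' α) (hQ α) i hi u hu n hn g hg hclose Lb.card_le σ hσm Lb.lin
        Lb.P (Lb.labD M hΦ hV₁ hc₀) _ AT εT κS d hAS' hεT.le hεTS hκS.le hσS (hP h hh).inn x
        (by rw [← szh_ne (M := M) (h := h) (d₁ := d₁) (s := s) hi]; exact hx)
        (B.letter _ (fun i => by
          have := (szh_pos (M := M) (h := h) (d₁ := d₁) (s := s) i).le
          positivity) i x (hx.trans (by
            have := (szh_pos (M := M) (h := h) (d₁ := d₁) (s := s) i).le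
            have h5 : B.C ≤ B.C * L1 B := le_mul_of_one_le_right hBC0.le hL1
            exact mul_le_mul_of_nonneg_right h5 this)))
      refine le_trans (measure_mono (inter_subset_inter_left _ ?_)) h3
      exact DF_mono4 B hκ4₀' hs0) (by
      intro x hx y hy
      exact hfol _ (fun i => szh_pos (M := M) i) x hx y hy) hvol' hθn hthr'
  exact ⟨a.lab, c, a.good, h1, h2⟩

end Vale.Agent.P188.Z1.RModel.F6
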