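import Vale.Agent.P188.H616.M11
import Vale.Agent.P188.H269.FlatB

/-!
# P188, FLATG in the model, final assembly, part A: one scale
-/

set_option linter.all false

open MeasureTheory Set Filter
open Vale.Agent.P188.H530 (hgt)
open Vale.Agent.P188.H616 (Coord Sec Phi slide Script StrAt badR badL)

namespace Vale.Agent.P188.Z1.RModel.F6

variable {S : Type} [Group S] [MeasurableSpace S] {Γ : Type} [Group Γ]
  {V : Type} [AddCommGroup V] [Module ℝ V] {k : ℕ} {M : RModel S Γ V k}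

/-- **All slices are flat, one scale.** -/
theorem flat_at (B : M.NatBox) {Λ : Type} [MeasurableSpace Λ] [Countable Λ]
    [MeasurableSingletonClass Λ] {σ : S → Λ} (hσ : Measurable σ) {T : Λ → Ht k →L[ℝ] Ht k}
    {f : S → Ht k} (hf : Measurable f) {h : (Ht k →L[ℝ] ℝ) → ℝ} {δ d₁ s η : ℝ}
    {J : Type} {g : J → S} {Lt : J → Set S} {D0 Dm : Set S} {Ds : J → Set S} {PE : Set S}
    {e : ENNReal}
    (Sc : Script M.μ M.η.ker M.sec σ f (Ta T) M.θ g Lt D0 Dm Ds PE (η * s) e)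
    (hD0 : ∀ z ∈ D0, np M z ∈ B.Bx fun i => δ * M.szh h d₁ s i)
    (hD0m : MeasurableSet D0) (h0 : M.μ D0 ≠ 0) (h1 : M.μ D0 ≠ ⊤)
    (hη : 0 ≤ η) (hs : 0 ≤ s) (hδ : 0 ≤ δ) {m : ℕ}
    (hus : ∀ u ∈ B.Bx (M.szh h d₁ s), ∃ us : List (J × S), us.length ≤ m ∧
      (∀ q ∈ us, q.2 ∈ Lt q.1) ∧ Script.Pre PE 1 us ∧ (us.map Prod.snd).prod = u)
    {n : ℕ} {hh : Fin n → S} (hgo : ∀ i, M.μ (Dm ∩ badR σ f (Ta T) M.θ (hh i) (η * s)) ≤ e)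
    {ε' : ENNReal} (hε : (3 * m + 1 : ℕ) * e ≤ ε' * M.μ D0)
    (ν : Measure M.η.ker) [SFinite ν]
    (hν : ∀ A : Set S, ν (Subtype.val ⁻¹' A) = M.μ (A ∩ M.η.ker))
    (hνi : ∀ (n e : M.η.ker) (A : Set M.η.ker), ν {v | n * v * e ∈ A} ≤ ν A)
    {L Lf κr : ℝ} (hLf : 0 ≤ Lf) (hlip : ∀ z g, ‖f (z * g) - f z‖ ≤ Lf * M.l g)
    (hL : ∀ a, ‖T a‖ ≤ L) (hL0 : 0 ≤ L) {G : Set S} {ε2 : ENNReal}
    (hG : ∀ z ∈ D0, ∀ x ∈ G, ∃ i, ∃ e' r : S, M.η e' = 1 ∧ (M.l r : ℝ) ≤ κr ∧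
      x = e' * M.sec z * hh i * r ∧ e' ∈ B.Bx (fun i => δ * M.szh h d₁ s i))
    (hfol : ∀ x ∈ B.Bx (fun i => δ * M.szh h d₁ s i), ∀ y ∈ B.Bx (fun i => δ * M.szh h d₁ s i),
      M.μ {v | v ∈ B.Bx (M.szh h d₁ s) ∧ x * v * y ∉ B.Bx (M.szh h d₁ s)} ≤ ε2) :
    ∃ a : Λ, ∃ c : Ht k, ∀ x ∈ G, M.μ {v | v ∈ B.Bx (M.szh h d₁ s) ∧
      (3 * m + 1 : ℕ) * (η * s) + Lf * κr + L * (M.C0 * κr) < ‖f (v * x) - c - T a (M.θ x)‖} ≤
        n * ε' * M.μ (B.Bx (M.szh h d₁ s)) + ε2 := by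
  classical
  haveI := M.mm
  haveI := M.mi
  haveI : MeasurableSingletonClass Λ := inferInstance
  have hC0 := M.C0_pos
  have hsub : ∀ A : Set S, A ⊆ B.Bx (M.szh h d₁ s) → A ∩ M.η.ker = A := by
    intro A hA
    exact inter_eq_left.2 fun x hx => B.sub _ _ (hA hx)
  have hBx : ν (Subtype.val ⁻¹' B.Bx (M.szh h d₁ s)) = M.μ (B.Bx (M.szh h d₁ s)) := by
    rw [hν, hsub _ subset_rfl]
  have key := Script.flat Sc (mul_nonneg hη hs) (M := m) (by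
      show Measurable fun z => M.τ (Multiplicative.toAdd (M.η z))
      exact measurable_of_η M fun w => M.τ (Multiplicative.toAdd w)) hσ hf (h := hh) hgo ν
    (Bx := Subtype.val ⁻¹' B.Bx (M.szh h d₁ s)) (measurable_subtype_coe (B.meas _))
    (fun u hu => hus u hu) hD0m h0 h1 (ε := ε') hε hνi (l := fun x => (M.l x : ℝ)) (L := Lf)
    (K := L * (M.C0 * κr)) (κ := κr) hlip hLf (fun e he => θ_eq_zero M he)
    (fun a r hr => by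
      show ‖T a (M.θ r)‖ ≤ _
      refine ((T a).le_opNorm _).trans (mul_le_mul (hL a) ?_ (norm_nonneg _) hL0)
      exact (M.θ_le r).trans (mul_le_mul_of_nonneg_left hr hC0.le))
    (G := G) (ε2 := ε2) (by
      intro z hz x hx
      obtain ⟨i, e', r, he', hr, hxe, heB⟩ := hG z hz x hx
      refine ⟨i, ⟨e', he'⟩, r, hr, hxe, ?_⟩
      have h3 := hfol (np M z)⁻¹ (B.inv _ _ (hD0 z hz)) e' heB
      refine le_trans (le_of_eq ?_) h3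
      rw [← hsub {v | v ∈ B.Bx (M.szh h d₁ s) ∧ (np M z)⁻¹ * v * e' ∉ B.Bx (M.szh h d₁ s)}
        fun v hv => hv.1, ← hν]
      rfl)
  obtain ⟨a, c, hac⟩ := key
  refine ⟨a, c, fun x hx => ?_⟩
  have h3 := hac x hx
  rw [hBx, Fintype.card_fin] at h3
  refine le_trans (le_of_eq ?_) h3
  rw [← hsub {v | v ∈ B.Bx (M.szh h d₁ s) ∧ (3 * m + 1 : ℕ) * (η * s) + Lf * κr +
    L * (M.C0 * κr) < ‖f (v * x) - c - T a (M.θ x)‖} fun v hv => hv.1, ← hν]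
  rfl

end Vale.Agent.P188.Z1.RModel.F6
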