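import Vale.Agent.P188.Z1.FlatgA

/-!
# P188, FLATG in the model, final assembly, part B: positions
-/

set_option linter.all false

open MeasureTheory Set Filter
open Vale.Agent.P188.H530 (hgt)
open Vale.Agent.P188.H616 (Coord Sec Phi slide Script StrAt badR badL)

namespace Vale.Agent.P188.Z1.RModel.F6

variable {S : Type} [Group S] [MeasurableSpace S] {Γ : Type} [Group Γ]
  {V : Type} [AddCommGroup V] [Module ℝ V] {k : ℕ} {M : RModel S Γ V k}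

/-- **positions after a Cartan word are inner points of `D`** -/
theorem exists_posCB (B : M.NatBox) : ∃ C : ℝ, 1 ≤ C ∧ ∀ (c₂ d₁ κa κS A Λ : ℝ), 0 < c₂ → 0 < d₁ →
    0 < κa → 0 ≤ κS → C * κS < κa * c₂ → 1 ≤ Λ → ∀ᶠ s : ℝ in atTop,
      ∀ h : (Ht k →L[ℝ] ℝ) → ℝ, M.HB c₂ h → ∀ z : S, np M z ∈ B.Bx (fun i => Λ * M.szh h d₁ s i) →
      ‖M.θ z‖ ≤ A * s → ∀ n : ℕ, (n : ℝ) ≤ A * s → ∀ g ∈ M.CB n,
      WinH M h κa s (M.θ z + M.θ g) →
      z * g ∈ M.In (κS * s) (B.DboxH h (B.C * (B.C * Λ)) d₁ (κa / 2) s) := by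
  obtain ⟨C, hC, hIn⟩ := exists_In M B
  refine ⟨C, hC, ?_⟩
  intro c₂ d₁ κa κS A Λ hc₂ hd hκa hκS hlt hΛ
  have hBC := B.one_le
  filter_upwards [hIn c₂ d₁ κa κS (2 * A) (B.C * Λ) hc₂ hd hκa hκS hlt (by nlinarith),
    ev_cocycle B (d₁ := d₁) hc₂ hd A one_pos] with s h1 h2 h hh z hz hθ n hn g hg hw
  have e1 : M.θ (z * g) = M.θ z + M.θ g := M.θ_mul z g
  refine h1 h hh (z * g) ?_ (by rw [e1]; exact hw) ?_
  · rw [np_mul]
    have h3 := h2 h hh z hθ n hn g hg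
    have h4 := Bx_mul B (R := fun i => Λ * M.szh h d₁ s i)
      (fun i => by have := szh_pos (M := M) (h := h) (d₁ := d₁) (s := s) i; positivity)
      (fun i => by have := szh_pos (M := M) (h := h) (d₁ := d₁) (s := s) i; positivity)
      (fun i => le_rfl) (fun i => by
        have := (szh_pos (M := M) (h := h) (d₁ := d₁) (s := s) i).le
        nlinarith) hz h3
    have e : (fun i => B.C * Λ * M.szh h d₁ s i) = fun i => B.C * (Λ * M.szh h d₁ s i) := by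
      funext i; ring
    rw [e]; exact h4
  · rw [e1]
    refine (norm_add_le _ _).trans ?_
    have := (θ_CB M hg).trans hn
    linarith

/-- heights near a segment from `0` to a point of the window -/
theorem win_seg {h : (Ht k →L[ℝ] ℝ) → ℝ} {c₂ κw κ4 s t : ℝ} (hc : 0 < c₂) (hh : M.HB c₂ h)
    (hs : 0 ≤ s) (hκw : 0 ≤ κw) (hκw1 : κw ≤ 1) (ht0 : 0 ≤ t) (ht1 : t ≤ 1)
    (h4 : bΦ M * κ4 ≤ κw / 4 * c₂) (h5 : bΦ M ≤ κw / 4 * c₂ * s) {u x y : Ht k}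
    (hu : WinH M h κw s u) (hx : ‖x‖ ≤ κ4 * s) (hy : ‖y - t • u‖ ≤ 1 / 2) :
    WinH M h (κw / 2) s (x + y) := by
  intro b hb
  have hb1 := one_le_bΦ M
  have hbh := (hh b hb).1
  have hb0 : 0 ≤ h b := by linarith
  have e1 : b (x + y) = b x + (t * b u + b (y - t • u)) := by
    rw [map_add, map_sub, map_smul, smul_eq_mul]; ring
  have e2 : b x ≤ bΦ M * (κ4 * s) :=
    (le_abs_self _).trans ((abs_le_bΦ M hb _).trans (mul_le_mul_of_nonneg_left hx (by linarith)))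
  have e3 : b (y - t • u) ≤ bΦ M * (1 / 2) :=
    (le_abs_self _).trans ((abs_le_bΦ M hb _).trans (mul_le_mul_of_nonneg_left hy (by linarith)))
  have e4 : t * b u ≤ (1 - κw) * s * h b := by
    have h6 := hu b hb
    have h7 : 0 ≤ (1 - κw) * s * h b := mul_nonneg (mul_nonneg (by linarith) hs) hb0
    calc t * b u ≤ t * ((1 - κw) * s * h b) := mul_le_mul_of_nonneg_left h6 ht0
      _ ≤ 1 * ((1 - κw) * s * h b) := mul_le_mul_of_nonneg_right ht1 h7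
      _ = _ := one_mul _
  have e5 : bΦ M * (κ4 * s) ≤ κw / 4 * c₂ * s := by
    rw [← mul_assoc]
    exact mul_le_mul_of_nonneg_right h4 hs
  have e6 : κw / 4 * c₂ * s ≤ κw / 4 * h b * s :=
    mul_le_mul_of_nonneg_right (mul_le_mul_of_nonneg_left hbh (by linarith)) hs
  rw [e1]
  nlinarith

/-- **net of end frames**: finitely many Cartan paths inside the window, ending near every height of
the window. -/
theorem exists_net_frames (B : M.NatBox) : ∃ C : ℝ, 1 ≤ C ∧ ∀ (c₂ κw κ₅ : ℝ), 0 < c₂ → 0 < κw →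
    κw ≤ 1 → 0 < κ₅ → ∃ (n : ℕ) (A : ℝ), 0 < A ∧ ∀ (d₁ κS κ4 Λ : ℝ), 0 < d₁ →
    0 ≤ κS → C * κS < κw / 2 * c₂ → 1 ≤ Λ → 0 ≤ κ4 → κ4 ≤ A → bΦ M * κ4 ≤ κw / 4 * c₂ →
    ∀ᶠ s : ℝ in atTop, ∀ h : (Ht k →L[ℝ] ℝ) → ℝ, M.HB c₂ h →
      ∃ (nn : ℕ) (q : Fin n → ℕ → S), (nn : ℝ) ≤ A * s ∧ (∀ i, q i 0 = 1) ∧
        (∀ i, ∀ j < nn, (q i j)⁻¹ * q i (j + 1) ∈ M.CB 1) ∧ (∀ i, q i nn ∈ M.CB nn) ∧
        (∀ z : S, np M z ∈ B.Bx (fun i => Λ * M.szh h d₁ s i) → ‖M.θ z‖ ≤ κ4 * s →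
          ∀ i, ∀ j ≤ nn, z * q i j ∈ M.In (κS * s)
            (B.DboxH h (B.C * (B.C * Λ)) d₁ (κw / 4) s)) ∧
        ∀ w : Ht k, WinH M h κw s w → ‖w‖ ≤ A * s ∧ ∃ i, ‖w - M.θ (q i nn)‖ ≤ κ₅ * s := by
  obtain ⟨C, hC, hpos⟩ := exists_posCB B
  refine ⟨C, hC, ?_⟩
  intro c₂ κw κ₅ hc₂ hκw hκw1 hκ₅
  obtain ⟨Cw, hCw, hwin⟩ := exists_win_bdd M hc₂
  obtain ⟨n, hn⟩ := exists_net k Cw (κ₅ / 2) (by linarith)
  refine ⟨n, 2 * Cw + 1, by linarith, ?_⟩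
  intro d₁ κS κ4 Λ hd hκS hlt hΛ hκ4 hκ4A h4
  have hκc : 0 < κw / 4 * c₂ := by positivity
  filter_upwards [hpos c₂ d₁ (κw / 2) κS (2 * Cw + 1) Λ hc₂ hd (by linarith) hκS hlt hΛ,
    eventually_ge_atTop (1 : ℝ), eventually_ge_atTop (bΦ M / (κw / 4 * c₂)),
    eventually_ge_atTop (1 / κ₅)] with s h1 hs h5 h6 h hh
  rw [div_le_iff₀ hκc, mul_comm s] at h5
  rw [div_le_iff₀ hκ₅] at h6
  have hs0 : 0 < s := by linarith
  have hW0 : WinH M h κw s 0 := by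
    intro b hb
    rw [map_zero]
    have := (hh b hb).1
    exact mul_nonneg (mul_nonneg (by linarith) hs0.le) (by linarith)
  have hbd : ∀ w ∈ {w : Ht k | WinH M h κw s w}, ‖w‖ ≤ Cw * s := fun w hw =>
    hwin h hh κw s hκw.le hκw1 hs0.le w hw
  obtain ⟨u, hu, hcov⟩ := hn s hs0 {w | WinH M h κw s w} hbd ⟨0, hW0⟩
  set nn : ℕ := ⌈2 * Cw * s⌉₊ with hnn
  have hnn1 : 2 * Cw * s ≤ nn := Nat.le_ceil _
  have hnn2 : (nn : ℝ) ≤ (2 * Cw + 1) * s := by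
    have := (Nat.ceil_lt_add_one (show 0 ≤ 2 * Cw * s by positivity)).le
    rw [← hnn] at this
    linarith
  have hnn0 : (0 : ℝ) < nn := lt_of_lt_of_le (by positivity) hnn1
  have hpath := fun i => exists_path M (u i) (n := nn) (by
    have := hbd _ (hu i)
    linarith)
  choose q q0 qs qC qθ using hpath
  refine ⟨nn, q, hnn2, q0, qs, fun i => qC i nn, ?_, ?_⟩
  · intro z hz hθ i j hj
    have h7 : WinH M h (κw / 2) s (M.θ z + M.θ (q i j)) := by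
      refine win_seg hc₂ hh hs0.le hκw.le hκw1 (t := (j : ℝ) / nn) (by positivity) ?_ h4
        h5 (hu i) hθ (qθ i j hj)
      rw [div_le_one hnn0]
      exact_mod_cast hj
    have h8 := h1 h hh z hz (hθ.trans (mul_le_mul_of_nonneg_right hκ4A hs0.le)) j
      ((Nat.cast_le.2 hj).trans hnn2) (q i j) (qC i j) h7
    have e : κw / 2 / 2 = κw / 4 := by ring
    rwa [e] at h8
  · intro w hw
    refine ⟨(hbd w hw).trans (mul_le_mul_of_nonneg_right (by linarith) hs0.le), ?_⟩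
    obtain ⟨i, hi⟩ := hcov w hw
    refine ⟨i, ?_⟩
    have h9 := qθ i nn le_rfl
    rw [div_self hnn0.ne', one_smul] at h9
    have e : w - M.θ (q i nn) = (w - u i) - (M.θ (q i nn) - u i) := by abel
    rw [e]
    refine (norm_sub_le _ _).trans ?_
    linarith

end Vale.Agent.P188.Z1.RModel.F6
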