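import Vale.Agent.P188.Z1.FlatgB

/-!
# P188, FLATG in the model, final assembly, part C: frames of the letters
-/

set_option linter.all false

open MeasureTheory Set Filter
open Vale.Agent.P188.H530 (hgt)
open Vale.Agent.P188.H616 (Coord Sec Phi slide Script StrAt badR badL)

namespace Vale.Agent.P188.Z1.RModel.F6

variable {S : Type} [Group S] [MeasurableSpace S] {Γ : Type} [Group Γ]
  {V : Type} [AddCommGroup V] [Module ℝ V] {k : ℕ} {M : RModel S Γ V k}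

theorem one_mem_CB1 : (1 : S) ∈ M.CB 1 := M.one_mem_CB 1

/-- **frames of the letters**: paths to the facets -/
theorem exists_letter_frames (B : M.NatBox) : ∃ C : ℝ, 1 ≤ C ∧ ∀ (c₂ κ' κ4 κS Λ d₁ : ℝ), 0 < c₂ →
    0 < κ' → κ' ≤ 1 / 2 → 0 ≤ κ4 → κ4 ≤ 1 → 4 * (bΦ M * κ4) ≤ κ' * c₂ → 0 < d₁ → 0 ≤ κS →
    C * κS < κ' / 2 * c₂ → 1 ≤ Λ →
    ∀ᶠ s : ℝ in atTop, ∀ h : (Ht k →L[ℝ] ℝ) → ℝ, M.HGood c₂ h →
      ∃ (nn : ℕ) (q : M.ι → ℕ → S), (nn : ℝ) ≤ (2 * c₂⁻¹ + 1) * s ∧ (∀ i, q i 0 = 1) ∧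
        (∀ i, ∀ j < nn, (q i j)⁻¹ * q i (j + 1) ∈ M.CB 1) ∧ (∀ i, q i nn ∈ M.CB nn) ∧
        (∀ i, M.wt i = 0 → ∀ j, q i j = 1) ∧
        (∀ i, M.wt i ≠ 0 → ∃ u : Ht k, Fct M h c₂ (M.wt i) u ∧
          ‖M.θ (q i nn) - ((1 - κ') * s) • u‖ ≤ 1 / 2) ∧
        ∀ z : S, np M z ∈ B.Bx (fun i => Λ * M.szh h d₁ s i) → ‖M.θ z‖ ≤ κ4 * s →
          ∀ i, ∀ j ≤ nn, z * q i j ∈ M.In (κS * s)
            (B.DboxH h (B.C * (B.C * Λ)) d₁ (κ' / 4) s) := by
  classical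
  obtain ⟨C, hC, hpos⟩ := exists_posCB B
  refine ⟨C, hC, ?_⟩
  intro c₂ κ' κ4 κS Λ d₁ hc₂ hκ' hκ'2 hκ4 hκ41 h4 hd hκS hlt hΛ
  have hb1 := one_le_bΦ M
  have hci : 0 < c₂⁻¹ := inv_pos.2 hc₂
  have hx0 : 0 < κ' * c₂ / (4 * bΦ M) := by positivity
  filter_upwards [hpos c₂ d₁ (κ' / 2) κS (2 * c₂⁻¹ + 1) Λ hc₂ hd (by linarith) hκS hlt hΛ,
    eventually_ge_atTop (1 : ℝ), eventually_ge_atTop (1 / (κ' * c₂ / (4 * bΦ M)))]
    with s h1 hs h5 h hh
  rw [div_le_iff₀ hx0] at h5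
  have hs0 : 0 < s := by linarith
  obtain ⟨nn, hnn⟩ : ∃ nn : ℕ, nn = ⌈2 * c₂⁻¹ * s⌉₊ := ⟨_, rfl⟩
  have hnn1 : 2 * c₂⁻¹ * s ≤ nn := by rw [hnn]; exact Nat.le_ceil _
  have hnn2 : (nn : ℝ) ≤ (2 * c₂⁻¹ + 1) * s := by
    have := (Nat.ceil_lt_add_one (show 0 ≤ 2 * c₂⁻¹ * s by positivity)).le
    rw [← hnn] at this
    linarith
  have hnn0 : (0 : ℝ) < nn := lt_of_lt_of_le (by positivity) hnn1
  -- one letter
  have hone : ∀ i : M.ι, ∃ q : ℕ → S, q 0 = 1 ∧ (∀ j < nn, (q j)⁻¹ * q (j + 1) ∈ M.CB 1) ∧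
      (∀ j, q j ∈ M.CB j) ∧ (M.wt i = 0 → ∀ j, q j = 1) ∧
      (M.wt i ≠ 0 → ∃ u : Ht k, Fct M h c₂ (M.wt i) u ∧ ∀ j ≤ nn,
        ‖M.θ (q j) - (((j : ℝ) / nn) * ((1 - κ') * s)) • u‖ ≤ 1 / 2) := by
    intro i
    by_cases hi : M.wt i = 0
    · refine ⟨fun _ => 1, rfl, fun j _ => ?_, fun j => M.one_mem_CB j, fun _ _ => rfl,
        fun h' => absurd hi h'⟩
      rw [inv_one, one_mul]; exact M.one_mem_CB 1
    · have hiΦ : M.wt i ∈ M.Φ := by
        rcases wt_cases M i with h' | h'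
        · exact absurd h' hi
        · exact h'.1
      obtain ⟨u, hu1, hu2, hu3⟩ := hh.facet (M.wt i) hiΦ
      obtain ⟨q, q0, qs, qC, qθ⟩ := exists_path M (((1 - κ') * s) • u) (n := nn) (by
        rw [norm_smul, Real.norm_of_nonneg (mul_nonneg (by linarith) hs0.le)]
        have h7 : (1 - κ') * s * ‖u‖ ≤ s * c₂⁻¹ :=
          mul_le_mul (by nlinarith) hu1 (norm_nonneg _) hs0.le
        linarith)
      refine ⟨q, q0, qs, qC, fun h' => absurd h' hi, fun _ => ⟨u, ⟨hu1, hu2, hu3⟩, ?_⟩⟩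
      intro j hj
      have := qθ j hj
      rwa [smul_smul] at this
  choose q q0 qs qC qz qθ using hone
  refine ⟨nn, q, hnn2, q0, qs, fun i => qC i nn, qz, ?_, ?_⟩
  · intro i hi
    obtain ⟨u, hu, h7⟩ := qθ i hi
    refine ⟨u, hu, ?_⟩
    have := h7 nn le_rfl
    rwa [div_self hnn0.ne', one_mul] at this
  · intro z hz hθ i j hj
    have hA1 : κ4 ≤ 2 * c₂⁻¹ + 1 := by linarith
    have h7 : WinH M h (κ' / 2) s (M.θ z + M.θ (q i j)) := by
      by_cases hi : M.wt i = 0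
      · rw [qz i hi j, M.θ_one, add_zero]
        intro b hb
        have hbh := (hh.bd b hb).1
        have e2 : b (M.θ z) ≤ bΦ M * (κ4 * s) := (le_abs_self _).trans
          ((abs_le_bΦ M hb _).trans (mul_le_mul_of_nonneg_left hθ (by linarith)))
        have e3 : bΦ M * (κ4 * s) ≤ κ' * c₂ / 4 * s := by
          rw [← mul_assoc]
          exact mul_le_mul_of_nonneg_right (by linarith) hs0.le
        have e4 : κ' * c₂ / 4 * s ≤ (1 - κ' / 2) * s * h b := by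
          calc κ' * c₂ / 4 * s ≤ (1 - κ' / 2) * c₂ * s := by
                refine mul_le_mul_of_nonneg_right ?_ hs0.le
                nlinarith
            _ = (1 - κ' / 2) * s * c₂ := by ring
            _ ≤ (1 - κ' / 2) * s * h b :=
                mul_le_mul_of_nonneg_left hbh (mul_nonneg (by linarith) hs0.le)
        linarith
      · have hiΦ : M.wt i ∈ M.Φ := by
          rcases wt_cases M i with h' | h'
          · exact absurd h' hi
          · exact h'.1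
        obtain ⟨u, hu, h8⟩ := qθ i hi
        refine Fct.way hu hh hc₂ hiΦ hs0.le (by linarith) hκ' (t := (j : ℝ) / nn)
          (κ6 := κ4 + κ' * c₂ / (4 * bΦ M)) (by positivity) ?_ ?_ ?_
        · rw [div_le_one hnn0]
          exact_mod_cast hj
        · have e1 : bΦ M * (κ4 + κ' * c₂ / (4 * bΦ M)) = bΦ M * κ4 + κ' * c₂ / 4 := by
            have : bΦ M ≠ 0 := by linarith
            field_simp
          rw [e1]
          linarith
        · have e1 : M.θ z + M.θ (q i j) - ((j : ℝ) / nn * ((1 - κ') * s)) • u =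
              M.θ z + (M.θ (q i j) - ((j : ℝ) / nn * ((1 - κ') * s)) • u) := by abel
          rw [e1]
          refine (norm_add_le _ _).trans ?_
          have h9 := h8 j hj
          rw [add_mul]
          linarith
    have h8 := h1 h hh.bd z hz (hθ.trans (mul_le_mul_of_nonneg_right hA1 hs0.le)) j
      ((Nat.cast_le.2 hj).trans hnn2) (q i j) (qC i j) h7
    have e : κ' / 2 / 2 = κ' / 4 := by ring
    rwa [e] at h8

end Vale.Agent.P188.Z1.RModel.F6
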