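import Vale.Agent.P188.Z1.LineS
import Vale.Agent.P188.Z1.Fat
import Vale.Agent.P188.H654.LC2

/-!
# P188, Z1, block STRAIGHT, part A: elementary facts
-/

set_option linter.all false

open MeasureTheory Set
open scoped ENNReal
open Vale.P188.H654

namespace Vale.Agent.P188.Z1

/-- a positive lower bound of finitely many positive numbers -/
theorem ln_pos_lb {α : Type} (s : Finset α) (f : α → ℝ) (hf : ∀ a ∈ s, 0 < f a) :
    ∃ c : ℝ, 0 < c ∧ ∀ a ∈ s, c ≤ f a := by
  classical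
  induction s using Finset.induction_on with
  | empty => exact ⟨1, one_pos, by simp⟩
  | insert a s ha ih =>
    obtain ⟨c, hc, h⟩ := ih fun x hx => hf x (Finset.mem_insert_of_mem hx)
    refine ⟨min c (f a), lt_min hc (hf a (Finset.mem_insert_self a s)), ?_⟩
    intro x hx
    rcases Finset.mem_insert.1 hx with rfl | hx
    · exact min_le_right _ _
    · exact (min_le_left _ _).trans (h x hx)

/-- an upper bound `≥ 1` of finitely many numbers -/
theorem ln_ub {α : Type} (s : Finset α) (f : α → ℝ) : ∃ c : ℝ, 1 ≤ c ∧ ∀ a ∈ s, f a ≤ c := by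
  classical
  induction s using Finset.induction_on with
  | empty => exact ⟨1, le_rfl, by simp⟩
  | insert a s ha ih =>
    obtain ⟨c, hc, h⟩ := ih
    refine ⟨max c (f a), le_max_of_le_left hc, ?_⟩
    intro x hx
    rcases Finset.mem_insert.1 hx with rfl | hx
    · exact le_max_right _ _
    · exact (h x hx).trans (le_max_left _ _)

/-- an upper bound `≥ 1` of finitely many natural numbers -/
theorem ln_ubN {α : Type} (s : Finset α) (f : α → ℕ) : ∃ c : ℕ, 1 ≤ c ∧ ∀ a ∈ s, f a ≤ c :=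
  ⟨s.sup f + 1, by omega, fun a ha => (Finset.le_sup ha).trans (Nat.le_succ _)⟩

/-- polynomial times exponentially small -/
theorem ln_poly_exp (C c ε : ℝ) (m : ℕ) (hc : 0 < c) (hε : 0 < ε) :
    ∃ s₀ : ℝ, 0 ≤ s₀ ∧ ∀ s : ℝ, s₀ ≤ s → C * (1 + s) ^ m * Real.exp (-(c * s)) ≤ ε := by
  have h1 : Filter.Tendsto (fun x : ℝ => x ^ m * Real.exp (-x)) Filter.atTop (nhds 0) :=
    Real.tendsto_pow_mul_exp_neg_atTop_nhds_zero m
  have h2 : Filter.Tendsto (fun s : ℝ => c * (1 + s)) Filter.atTop Filter.atTop :=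
    (Filter.tendsto_atTop_add_const_left _ 1 Filter.tendsto_id).const_mul_atTop hc
  have h3 := (h1.comp h2).const_mul (C * (c⁻¹) ^ m * Real.exp c)
  rw [mul_zero] at h3
  have h4 := (h3.eventually (gt_mem_nhds hε)).and (Filter.eventually_ge_atTop (0:ℝ))
  obtain ⟨s₀, hs₀⟩ := Filter.eventually_atTop.1 h4
  refine ⟨max s₀ 0, le_max_right _ _, fun s hs => ?_⟩
  have h5 := (hs₀ s ((le_max_left _ _).trans hs)).1.le
  refine le_trans (le_of_eq ?_) h5
  simp only [Function.comp_apply]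
  have e1 : Real.exp (-(c * (1 + s))) = Real.exp (-(c * s)) * Real.exp (-c) := by
    rw [← Real.exp_add]; congr 1; ring
  have e2 : Real.exp c * Real.exp (-c) = 1 := by rw [← Real.exp_add]; simp
  rw [e1, mul_pow]
  have hcm : c⁻¹ ^ m * c ^ m = 1 := by rw [← mul_pow, inv_mul_cancel₀ hc.ne', one_pow]
  linear_combination (-(C * (1 + s) ^ m * Real.exp (-(c * s)) * (Real.exp c * Real.exp (-c)))) * hcm
    + (-(C * (1 + s) ^ m * Real.exp (-(c * s)))) * e2

namespace RModel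

variable {S : Type} [Group S] [MeasurableSpace S] {Γ : Type} [Group Γ]
  {V : Type} [AddCommGroup V] [Module ℝ V] {k : ℕ} (M : RModel S Γ V k)

theorem ln_C0 : 0 ≤ M.C0 := zero_le_one.trans M.one_le_C0

theorem ln_θ_τ (w : Fin k → ℤ) : M.θ (M.τ w) = ht w := M.θ_τ w

theorem ln_θ_pow (x : S) (n : ℕ) : M.θ (x ^ n) = (n : ℝ) • M.θ x := by
  induction n with
  | zero => simp [M.θ_one]
  | succ n ih => rw [pow_succ, M.θ_mul, ih]; push_cast; rw [add_smul, one_smul]

theorem ln_θ_zpow (x : S) (n : ℤ) : M.θ (x ^ n) = (n : ℝ) • M.θ x := by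
  cases n with
  | ofNat n => rw [Int.ofNat_eq_natCast, zpow_natCast, M.ln_θ_pow]; simp
  | negSucc n =>
    rw [zpow_negSucc, M.θ_inv, M.ln_θ_pow, ← neg_smul]
    congr 1
    push_cast
    ring

theorem ln_one : M.l 1 = 0 := M.len.one

theorem ln_mulR (x y : S) : (M.l (x * y) : ℝ) ≤ M.l x + M.l y := by exact_mod_cast M.len.mul x y

theorem ln_pow (x : S) (n : ℕ) : M.l (x ^ n) ≤ n * M.l x := by
  induction n with
  | zero => simp [M.ln_one]
  | succ n ih =>
    rw [pow_succ, Nat.succ_mul]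
    exact (M.len.mul _ _).trans (Nat.add_le_add_right ih _)

theorem ln_zpow (x : S) (n : ℤ) : M.l (x ^ n) ≤ n.natAbs * M.l x := by
  cases n with
  | ofNat n => rw [Int.ofNat_eq_natCast, zpow_natCast]; exact M.ln_pow x n
  | negSucc n =>
    rw [zpow_negSucc, M.len.inv]
    exact M.ln_pow x (n + 1)

/-- Lipschitz constant of the height functions -/
noncomputable def lnLf (K : ℝ) : ℝ := M.C0 * (K * (2 * M.C0 + 2))

theorem lnLf_nonneg {K : ℝ} (hK : 0 ≤ K) : 0 ≤ M.lnLf K := by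
  have := M.ln_C0
  unfold lnLf; positivity

theorem QIm.ln_lip {M : RModel S Γ V k} {K : ℝ} {F F' : Γ → Γ} (h : M.QIm K F F') (z g : S) :
    ‖M.f F (z * g) - M.f F z‖ ≤ M.lnLf K * M.l g := by
  have hC0 := M.ln_C0
  have hK := h.K_nonneg
  rcases Nat.eq_zero_or_pos (M.l g) with h0 | h0
  · rw [M.l_zero g h0, mul_one, sub_self, norm_zero]
    have := M.lnLf_nonneg hK
    positivity
  · have h1 : (1 : ℝ) ≤ M.l g := by exact_mod_cast h0
    have e : M.f F (z * g) - M.f F z =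
        M.θ (M.inG ((F (M.fl z))⁻¹ * F (M.fl z * ((M.fl z)⁻¹ * M.fl (z * g))))) := by
      rw [mul_inv_cancel_left, map_mul, map_inv, M.θ_inv_mul]; rfl
    rw [e]
    refine (M.θ_le _).trans ?_
    unfold lnLf
    rw [mul_assoc]
    refine mul_le_mul_of_nonneg_left ?_ hC0
    refine (h.lip _ _).trans ?_
    rw [mul_assoc]
    refine mul_le_mul_of_nonneg_left ?_ hK
    rw [map_mul, map_inv]
    have t0 := M.fl_close z
    have t1 := M.fl_close (z * g)
    rw [M.l_comm] at t1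
    have t2 := M.l_triR (M.inG (M.fl z)) z (M.inG (M.fl (z * g)))
    have t3 := M.l_triR z (z * g) (M.inG (M.fl (z * g)))
    rw [inv_mul_cancel_left] at t3
    nlinarith

theorem ln_ri : RI M.μ := RI.of_measurable _ fun g A hA =>
  (M.mp g).measure_preimage hA.nullMeasurableSet

/-! ### inner sets -/

variable {M}

theorem ln_In_sub {r : ℝ} {D : Set S} (hr : 0 ≤ r) : M.In r D ⊆ D := by
  intro x hx
  have := hx 1 (by rw [M.ln_one]; simpa using hr)
  rwa [mul_one] at this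

theorem ln_In_mul {r r' : ℝ} {D : Set S} {x g : S} (hx : x ∈ M.In r D) (hg : (M.l g : ℝ) + r' ≤ r) :
    x * g ∈ M.In r' D := by
  intro g' hg'
  rw [mul_assoc]
  refine hx _ ((M.ln_mulR g g').trans ?_)
  linarith

theorem ln_In_mono {r r' : ℝ} {D : Set S} (h : r' ≤ r) : M.In r D ⊆ M.In r' D := by
  intro x hx g hg
  exact hx g (hg.trans h)

open Classical in
/-- union bound for finitely many translations -/
theorem ln_In_union {r r' : ℝ} {D A : Set S} {ι : Type} (I : Finset ι) (g : ι → S)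
    (hg : ∀ i ∈ I, (M.l (g i) : ℝ) + r' ≤ r) {e : ℝ≥0∞} (he : M.μ (M.In r' D \ A) ≤ e) :
    M.μ {x | x ∈ M.In r D ∧ ∃ i ∈ I, x * g i ∉ A} ≤ I.card * e := by
  have h1 : {x | x ∈ M.In r D ∧ ∃ i ∈ I, x * g i ∉ A} ⊆
      ⋃ i ∈ I, (fun x => x * g i) ⁻¹' (M.In r' D \ A) := by
    rintro x ⟨hx, i, hi, hxi⟩
    simp only [mem_iUnion]
    exact ⟨i, hi, ln_In_mul hx (hg i hi), hxi⟩
  refine (measure_mono h1).trans ((measure_biUnion_finset_le _ _).trans ?_)
  refine (Finset.sum_le_sum fun i _ => (M.ln_ri _ _).trans he).trans ?_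
  rw [Finset.sum_const, nsmul_eq_mul]

variable (M)

/-! ### words in the Cartan group -/

/-- a constant for all the directions: lengths and Cartan lengths of `τ v` -/
theorem ln_lm (V₁ : Finset (Fin k → ℤ)) : ∃ lm : ℕ, 1 ≤ lm ∧ (∀ v ∈ V₁, M.l (M.τ v) ≤ lm) ∧
    ∀ v ∈ V₁, M.τ v ∈ M.CB lm := by
  obtain ⟨c1, h1, h1'⟩ := ln_ubN V₁ fun v => M.l (M.τ v)
  obtain ⟨c2, h2, h2'⟩ := ln_ubN V₁ fun v => ⌈M.C0 * (1 + ‖(fun i => (v i : ℝ))‖)⌉₊
  refine ⟨c1 + c2, by omega, fun v hv => (h1' v hv).trans (by omega), fun v hv => ?_⟩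
  exact M.CB_mono ((h2' v hv).trans (by omega)) (M.τ_CB v)

end RModel

end Vale.Agent.P188.Z1
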