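import Vale.Agent.P188.Z1.FlatgC
import Vale.Agent.P188.H269.FlatC
import Vale.Agent.P188.H269.Nu
import Vale.Agent.P188.Z1.LineA

/-!
# P188, FLATG in the model, final assembly, part D: one scale, with the script
-/

set_option linter.all false

open MeasureTheory Set Filter
open Vale.Agent.P188.H530 (hgt)
open Vale.Agent.P188.H616 (Coord Sec Phi slide Script StrAt badR badL)

namespace Vale.Agent.P188.Z1.RModel.F6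

variable {S : Type} [Group S] [MeasurableSpace S] {Γ : Type} [Group Γ]
  {V : Type} [AddCommGroup V] [Module ℝ V] {k : ℕ} {M : RModel S Γ V k}

theorem DF_one (B : M.NatBox) (h : (Ht k →L[ℝ] ℝ) → ℝ) (δ d₁ κ4 s : ℝ) :
    DF B h δ d₁ κ4 s 1 = B.DsmH h δ d₁ κ4 s := by
  ext z
  unfold DF NatBox.DsmH np
  rw [mem_setOf_eq, mem_setOf_eq, inv_one, mul_one]

/-- the constant `Λ₁` of the positions -/
noncomputable def L1 (B : M.NatBox) : ℝ := B.C ^ (B.m + 1)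

theorem one_le_L1 (B : M.NatBox) : 1 ≤ L1 B := one_le_pow₀ B.one_le

/-- **One scale**: from straightness at the scale `s`, the frames and the net. -/
theorem flat_one (B : M.NatBox) {K : ℝ} {F F' : Γ → Γ} (hQ : M.QIm K F F') {Λ : Type} [Fintype Λ]
    [MeasurableSpace Λ] [MeasurableSingletonClass Λ] {σ : S → Λ} (hσ : Measurable σ)
    {T : Λ → Ht k →L[ℝ] Ht k} {L : ℝ} (hL0 : 0 ≤ L) (hL : ∀ a, ‖T a‖ ≤ L) {D : Set S}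
    {A ε₀ κS dm s : ℝ} (hSt : StrSc M σ T (M.f F) D A ε₀ κS dm s) {h : (Ht k →L[ℝ] ℝ) → ℝ}
    {d₁ κ4 δ η θ ε CV : ℝ} (hs : 0 ≤ s) (hδ0 : 0 < δ) (hδ : δ ≤ 1) (hη0 : 0 ≤ η) (hε₀η : ε₀ ≤ η)
    (hε₀θ : ε₀ ≤ θ) (hκ4 : 0 ≤ κ4) (hε0 : 0 ≤ ε) (hθ0 : 0 ≤ θ) (hCV : 0 ≤ CV)
    {ql : M.ι → ℕ → S} {nl : ℕ} (hnl : (nl : ℝ) ≤ A * s) (hl0 : ∀ i, ql i 0 = 1)
    (hls : ∀ i, ∀ j < nl, (ql i j)⁻¹ * ql i (j + 1) ∈ M.CB 1)
    (hg0 : ∀ i, M.wt i = 0 → ql i nl = 1)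
    (hlpos : ∀ z, np M z ∈ B.Bx (fun i => B.C * (B.C * L1 B) * M.szh h d₁ s i) →
        ‖M.θ z‖ ≤ κ4 * s → ∀ i, ∀ j ≤ nl, z * ql i j ∈ M.In (κS * s) D)
    (hAd : ∀ i, M.wt i = 0 → ∀ x : ℝ, |x| ≤ B.C * M.szh h d₁ s i → ∀ z, ‖M.θ z‖ ≤ κ4 * s →
      M.nm (M.Ad (M.sec z)⁻¹ (x • M.X i)) ≤ Real.exp (dm * s))
    (hNF : ∀ i, M.wt i ≠ 0 → ∀ x : ℝ, |x| ≤ B.C * M.szh h d₁ s i →
      M.μ (DF B h (B.C * L1 B) d₁ κ4 s (ql i nl) ∩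
        badL σ (M.f F) (slide M.sec (M.ex (x • M.X i)) (ql i nl)) (η * s)) ≤
          ENNReal.ofReal θ * M.μ D)
    {n nn : ℕ} {q : Fin n → ℕ → S} (hnn : (nn : ℝ) ≤ A * s) (hq0 : ∀ i, q i 0 = 1)
    (hqs : ∀ i, ∀ j < nn, (q i j)⁻¹ * q i (j + 1) ∈ M.CB 1)
    (hqpos : ∀ z, np M z ∈ B.Bx (fun i => B.C * L1 B * M.szh h d₁ s i) →
      ‖M.θ z‖ ≤ κ4 * s → ∀ i, ∀ j ≤ nn, z * q i j ∈ M.In (κS * s) D)
    {G : Set S} {κr : ℝ}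
    (hG : ∀ z, np M z ∈ B.Bx (fun i => δ * M.szh h d₁ s i) → ‖M.θ z‖ ≤ κ4 * s → ∀ x ∈ G,
      ∃ i, ∃ e' r : S, M.η e' = 1 ∧ (M.l r : ℝ) ≤ κr ∧
      x = e' * M.sec z * q i nn * r ∧ e' ∈ B.Bx (fun i => δ * M.szh h d₁ s i))
    (hfol : ∀ x ∈ B.Bx (fun i => δ * M.szh h d₁ s i), ∀ y ∈ B.Bx (fun i => δ * M.szh h d₁ s i),
      M.μ {v | v ∈ B.Bx (M.szh h d₁ s) ∧ x * v * y ∉ B.Bx (M.szh h d₁ s)} ≤
        ENNReal.ofReal (ε / 2) * M.μ (B.Bx (M.szh h d₁ s)))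
    (hvol : M.μ D ≤ ENNReal.ofReal CV * M.μ (B.DsmH h δ d₁ κ4 s))
    (hθ : n * ((3 * B.m + 1 : ℕ) * θ * CV) ≤ ε / 2) :
    ∃ a : Λ, ∃ c : Ht k, ∀ x ∈ G, M.μ {v | v ∈ B.Bx (M.szh h d₁ s) ∧
      (3 * B.m + 1 : ℕ) * (η * s) + M.lnLf K * κr + L * (M.C0 * κr) <
        ‖M.f F (v * x) - c - T a (M.θ x)‖} ≤ ENNReal.ofReal ε * M.μ (B.Bx (M.szh h d₁ s)) := by
  classical
  have hBC := B.one_le
  have hΛ₁ : (1 : ℝ) ≤ L1 B := one_le_L1 B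
  have Sc := script' hSt B (h := h) (d₁ := d₁) (κ4 := κ4) (δ := δ) (Λ₁ := L1 B) (η := η)
    (e := ENNReal.ofReal θ * M.μ D) hs hδ0.le (hδ.trans hΛ₁) hΛ₁ hε₀η
    (mul_le_mul_left (ENNReal.ofReal_le_ofReal hε₀θ) _) hnl hl0 hls hg0 hlpos hAd hNF
  have hD0 : M.μ (DF B h δ d₁ κ4 s 1) ≠ 0 := by
    have h1 := DF_ge B (h := h) (Λ := δ) (d₁ := d₁) (κ4 := κ4) (s := s) (g := 1)
      (mul_nonneg hκ4 hs)
    have h2 := B.pos (fun i => δ * M.szh h d₁ s i) fun i => mul_pos hδ0 (szh_pos (M := M) i)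
    exact fun h0 => h2 (le_antisymm (h1.trans h0.le) bot_le)
  have hgo : ∀ i, M.μ (DF B h (B.C * L1 B) d₁ κ4 s 1 ∩
      badR σ (M.f F) (Ta T) M.θ (q i nn) (η * s)) ≤ ENNReal.ofReal θ * M.μ D := by
    intro i
    have h1 := hSt.go hnn (hq0 i) (hqs i) (Dm := DF B h (B.C * L1 B) d₁ κ4 s 1) (by
      rintro z ⟨h1, h2⟩ j hj
      rw [inv_one, mul_one] at h1 h2
      exact hqpos z h1 h2 i j hj)
    refine le_trans (measure_mono (inter_subset_inter_right _ (badR_mono σ (M.f F) _ _ _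
      (mul_le_mul_of_nonneg_right hε₀η hs)))) (h1.trans ?_)
    exact mul_le_mul_left (ENNReal.ofReal_le_ofReal hε₀θ) _
  have hus : ∀ u ∈ B.Bx (M.szh h d₁ s), ∃ us : List (M.ι × S), us.length ≤ B.m ∧
      (∀ q ∈ us, q.2 ∈ LtS B h d₁ s q.1) ∧
      Script.Pre (B.Bx fun i => L1 B * M.szh h d₁ s i) 1 us ∧
      (us.map Prod.snd).prod = u := fun u hu =>
    exists_us B (fun i => (szh_pos (M := M) i).le) hu
  have hε : (3 * B.m + 1 : ℕ) * (ENNReal.ofReal θ * M.μ D) ≤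
      ENNReal.ofReal ((3 * B.m + 1 : ℕ) * θ * CV) * M.μ (DF B h δ d₁ κ4 s 1) := by
    rw [DF_one]
    calc ((3 * B.m + 1 : ℕ) : ENNReal) * (ENNReal.ofReal θ * M.μ D)
        ≤ ((3 * B.m + 1 : ℕ) : ENNReal) * (ENNReal.ofReal θ *
          (ENNReal.ofReal CV * M.μ (B.DsmH h δ d₁ κ4 s))) := by gcongr
      _ = ENNReal.ofReal ((3 * B.m + 1 : ℕ) * θ * CV) * M.μ (B.DsmH h δ d₁ κ4 s) := by
          rw [ENNReal.ofReal_mul (mul_nonneg (Nat.cast_nonneg _) hθ0),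
            ENNReal.ofReal_mul (Nat.cast_nonneg _), ENNReal.ofReal_natCast]
          ring
  obtain ⟨a, c, hac⟩ := flat_at B hσ (M.measurable_f F) (η := η) (s := s) Sc (by
      rintro z ⟨h1, _⟩
      rwa [inv_one, mul_one] at h1) (DF_meas B) hD0 (DF_ne_top B) hη0 hs hδ0.le hus hgo hε (nuK M)
    (nuK_preimage M) (nuK_inv M)
    (M.lnLf_nonneg hQ.K_nonneg) (fun z g => hQ.ln_lip z g) hL hL0 (G := G) (κr := κr) (by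
      rintro z ⟨h1, h2⟩ x hx
      rw [inv_one, mul_one] at h1 h2
      exact hG z h1 h2 x hx) hfol
  refine ⟨a, c, fun x hx => (hac x hx).trans ?_⟩
  have hT0 : 0 ≤ (3 * B.m + 1 : ℕ) * θ * CV :=
    mul_nonneg (mul_nonneg (Nat.cast_nonneg _) hθ0) hCV
  calc (n : ENNReal) * ENNReal.ofReal ((3 * B.m + 1 : ℕ) * θ * CV) * M.μ (B.Bx (M.szh h d₁ s)) +
        ENNReal.ofReal (ε / 2) * M.μ (B.Bx (M.szh h d₁ s))
      = ENNReal.ofReal (n * ((3 * B.m + 1 : ℕ) * θ * CV) + ε / 2) *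
        M.μ (B.Bx (M.szh h d₁ s)) := by
        rw [ENNReal.ofReal_add (mul_nonneg (Nat.cast_nonneg _) hT0) (by linarith),
          ENNReal.ofReal_mul (Nat.cast_nonneg n), ENNReal.ofReal_natCast, add_mul]
    _ ≤ ENNReal.ofReal ε * M.μ (B.Bx (M.szh h d₁ s)) := by
        gcongr
        linarith

end Vale.Agent.P188.Z1.RModel.F6
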