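import Vale.Agent.P188.Z1.FlatgD

/-!
# P188, FLATG in the model, final assembly, part E: the cover, the constants
-/

set_option linter.all false

open MeasureTheory Set Filter
open Vale.Agent.P188.H530 (hgt)
open Vale.Agent.P188.H616 (Coord Sec Phi slide Script StrAt badR badL)

namespace Vale.Agent.P188.Z1.RModel.F6

variable {S : Type} [Group S] [MeasurableSpace S] {Γ : Type} [Group Γ]
  {V : Type} [AddCommGroup V] [Module ℝ V] {k : ℕ} {M : RModel S Γ V k}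

theorem In_mono {r : ℝ} {D D' : Set S} (h : D ⊆ D') : M.In r D ⊆ M.In r D' :=
  fun _ hx g hg => h (hx g hg)

theorem DboxH_mono (B : M.NatBox) {h : (Ht k →L[ℝ] ℝ) → ℝ} {c₂ Λ Λ' d₁ κ κ' s : ℝ} (hc : 0 ≤ c₂)
    (hh : M.HB c₂ h) (hs : 0 ≤ s) (hΛ0 : 0 ≤ Λ) (hΛ : Λ ≤ Λ') (hκ : κ' ≤ κ) :
    B.DboxH h Λ d₁ κ s ⊆ B.DboxH h Λ' d₁ κ' s := by
  rintro z ⟨h1, h2⟩
  refine ⟨B.mono _ _ (fun i => ?_) (fun i => ?_) h1, WinH.mono (M := M) hc hh hs hκ h2⟩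
  · have := szh_pos (M := M) (h := h) (d₁ := d₁) (s := s) i
    positivity
  · exact mul_le_mul_of_nonneg_right hΛ (szh_pos (M := M) i).le

theorem DboxH_bdd (B : M.NatBox) {c₂ : ℝ} (hc : 0 < c₂) : ∃ C : ℝ, 0 < C ∧
    ∀ (h : (Ht k →L[ℝ] ℝ) → ℝ), M.HB c₂ h → ∀ (Λ d₁ κ s : ℝ), 0 ≤ κ → κ ≤ 1 → 0 ≤ s →
      ∀ z ∈ B.DboxH h Λ d₁ κ s, ‖M.θ z‖ ≤ C * s := by
  obtain ⟨C, hC, h1⟩ := exists_win_bdd M hc
  exact ⟨C, hC, fun h hh Λ d₁ κ s h0 h1' hs z hz => h1 h hh κ s h0 h1' hs _ hz.2⟩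

/-- the right translations of the slices -/
def GG (M : RModel S Γ V k) (h : (Ht k →L[ℝ] ℝ) → ℝ) (κ A c₁ s : ℝ) : Set S :=
  {x | (M.l x : ℝ) ≤ c₁ * s ∨ ∃ n : ℕ, (n : ℝ) ≤ A * s ∧ x ∈ M.CB n ∧ WinH M h κ s (M.θ x)}

/-- **all right translations of the slices are near frames** -/
theorem exists_cover (B : M.NatBox) : ∃ C : ℝ, 1 ≤ C ∧
    ∀ (c₂ d₁ c₁ δ κ κw κ4 κ₅ A AN : ℝ), 0 < c₂ → 0 < d₁ → 0 ≤ c₁ → C * c₁ < c₂ → 0 < δ → 0 < κ₅ →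
    0 ≤ κw → κw ≤ κ → κw ≤ 1 / 2 → 0 ≤ κ4 → κ4 ≤ κ₅ → 0 ≤ AN → ∀ᶠ s : ℝ in atTop,
      ∀ h : (Ht k →L[ℝ] ℝ) → ℝ, M.HB c₂ h → ∀ (n nn : ℕ) (q : Fin n → ℕ → S),
      (nn : ℝ) ≤ AN * s → (∀ i, q i nn ∈ M.CB nn) →
      (∀ w : Ht k, WinH M h κw s w → ‖w‖ ≤ AN * s ∧ ∃ i, ‖w - M.θ (q i nn)‖ ≤ κ₅ * s) →
      ∀ z : S, ‖M.θ z‖ ≤ κ4 * s → ∀ x ∈ GG M h κ A c₁ s,
        ∃ i, ∃ e' r : S, M.η e' = 1 ∧ (M.l r : ℝ) ≤ C * (κ₅ * s) ∧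
          x = e' * M.sec z * q i nn * r ∧ e' ∈ B.Bx (fun i => δ * M.szh h d₁ s i) := by
  obtain ⟨C₁, hC₁, hfr⟩ := exists_frame (M := M) B
  obtain ⟨C₂, hC₂, hsh⟩ := exists_np_short (M := M) B
  have hC0 := M.C0_pos
  have hb1 := one_le_bΦ M
  have hBC := C_pos B
  refine ⟨2 * C₁ + C₂ + 2 * (bΦ M * M.C0), by nlinarith [mul_pos (by linarith : 0 < bΦ M) hC0], ?_⟩
  intro c₂ d₁ c₁ δ κ κw κ4 κ₅ A AN hc₂ hd hc₁ hC hδ hκ₅ hκw hκwκ hκw2 hκ4 hκ45 hAN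
  have hbC : 0 < bΦ M * M.C0 := mul_pos (by linarith) hC0
  have h0 : 0 ≤ C₁ * c₁ := by positivity
  have h0' : 0 ≤ C₂ * c₁ := by positivity
  have h0'' : 0 ≤ bΦ M * M.C0 * c₁ := by positivity
  have hC1 : C₂ * c₁ < c₂ := by nlinarith
  have hC2 : 2 * (bΦ M * M.C0 * c₁) < c₂ := by nlinarith
  have hδ' : 0 < δ / B.C := by positivity
  filter_upwards [hfr c₂ d₁ (AN + κ4) (2 * κ₅) δ hc₂ hd (by linarith) hδ,
    hsh c₂ d₁ c₁ (δ / B.C) hc₂ hd hc₁ hC1 hδ', ev_np_CB B (d₁ := d₁) hc₂ hd A hδ',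
    eventually_ge_atTop (0 : ℝ)] with s h1 h2 h3 hs h hh n nn q hnn hq hcov z hz x hx
  have hnp : np M x ∈ B.Bx fun i => δ / B.C * M.szh h d₁ s i := by
    rcases hx with hx | ⟨j, hj, hx, -⟩
    · exact h2 h hh x hx
    · exact h3 h hh j hj x hx
  have hw : WinH M h κw s (M.θ x) := by
    rcases hx with hx | ⟨j, hj, hx, hw⟩
    · intro b hb
      have hbh := (hh b hb).1
      have h4 : ‖M.θ x‖ ≤ M.C0 * (c₁ * s) :=
        (M.θ_le x).trans (mul_le_mul_of_nonneg_left hx hC0.le)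
      have h5 : b (M.θ x) ≤ bΦ M * (M.C0 * (c₁ * s)) :=
        (le_abs_self _).trans ((abs_le_bΦ M hb _).trans
          (mul_le_mul_of_nonneg_left h4 (by linarith)))
      have h6 : bΦ M * (M.C0 * (c₁ * s)) ≤ c₂ / 2 * s := by
        have : bΦ M * (M.C0 * (c₁ * s)) = bΦ M * M.C0 * c₁ * s := by ring
        rw [this]
        exact mul_le_mul_of_nonneg_right (by linarith) hs
      have h7 : c₂ / 2 * s ≤ (1 - κw) * s * h b := by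
        have e1 : c₂ / 2 * s = (1 / 2 * s) * c₂ := by ring
        rw [e1]
        exact mul_le_mul (mul_le_mul_of_nonneg_right (by linarith) hs) hbh hc₂.le
          (mul_nonneg (by linarith) hs)
      linarith
    · exact WinH.mono (M := M) hc₂.le hh hs hκwκ hw
  obtain ⟨h8, i, hi⟩ := hcov _ hw
  have hκs : 0 ≤ κ4 * s := mul_nonneg hκ4 hs
  have hANs : 0 ≤ AN * s := mul_nonneg hAN hs
  obtain ⟨e', r, he, hr, hxe, heB⟩ := h1 h hh z x (by linarith [add_mul AN κ4 s])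
    (by linarith [add_mul AN κ4 s]) hnp nn (by linarith [add_mul AN κ4 s]) (q i nn) (hq i) (by
      have e1 : M.θ x - M.θ z - M.θ (q i nn) = (M.θ x - M.θ (q i nn)) - M.θ z := by abel
      rw [e1]
      refine (norm_sub_le _ _).trans ?_
      have := mul_le_mul_of_nonneg_right hκ45 hs
      linarith)
  refine ⟨i, e', r, he, hr.trans ?_, hxe, heB⟩
  have h9 : 0 ≤ κ₅ * s := mul_nonneg hκ₅.le hs
  nlinarith

end Vale.Agent.P188.Z1.RModel.F6
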