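import Vale.Agent.P188.Z1.FlatgE

/-!
# P188, FLATG in the model, final assembly, part F: all the geometry of one scale
-/

set_option linter.all false

open MeasureTheory Set Filter
open Vale.Agent.P188.H530 (hgt)
open Vale.Agent.P188.H616 (Coord Sec Phi slide Script StrAt badR badL)

namespace Vale.Agent.P188.Z1.RModel.F6

variable {S : Type} [Group S] [MeasurableSpace S] {Γ : Type} [Group Γ]
  {V : Type} [AddCommGroup V] [Module ℝ V] {k : ℕ} {M : RModel S Γ V k}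

/-- the geometry of one scale and one window -/
structure Pk (B : M.NatBox) (c₂ κ A c₁ d₁ κ4 κ' κp κS δ Λ3 AS AT κr : ℝ) (n : ℕ) (D : Set S)
    (h : (Ht k →L[ℝ] ℝ) → ℝ) (s : ℝ) : Prop where
  net : ∃ (nn : ℕ) (q : Fin n → ℕ → S), (nn : ℝ) ≤ AT * s ∧ (∀ i, q i 0 = 1) ∧
    (∀ i, ∀ j < nn, (q i j)⁻¹ * q i (j + 1) ∈ M.CB 1) ∧
    (∀ z, np M z ∈ B.Bx (fun i => B.C * L1 B * M.szh h d₁ s i) → ‖M.θ z‖ ≤ κ4 * s →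
      ∀ i, ∀ j ≤ nn, z * q i j ∈ M.In (κS * s) D) ∧
    ∀ z : S, ‖M.θ z‖ ≤ κ4 * s → ∀ x ∈ GG M h κ A c₁ s,
        ∃ i, ∃ e' r : S, M.η e' = 1 ∧ (M.l r : ℝ) ≤ κr * s ∧
          x = e' * M.sec z * q i nn * r ∧ e' ∈ B.Bx (fun i => δ * M.szh h d₁ s i)
  letters : ∃ (nl : ℕ) (q : M.ι → ℕ → S), (nl : ℝ) ≤ (2 * c₂⁻¹ + 1) * s ∧ (∀ i, q i 0 = 1) ∧
    (∀ i, ∀ j < nl, (q i j)⁻¹ * q i (j + 1) ∈ M.CB 1) ∧ (∀ i, q i nl ∈ M.CB nl) ∧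
    (∀ i, M.wt i = 0 → ∀ j, q i j = 1) ∧
    (∀ i, M.wt i ≠ 0 → ∃ u : Ht k, Fct M h c₂ (M.wt i) u ∧
      ‖M.θ (q i nl) - ((1 - κ') * s) • u‖ ≤ 1 / 2) ∧
    ∀ z, np M z ∈ B.Bx (fun i => B.C * (B.C * L1 B) * M.szh h d₁ s i) → ‖M.θ z‖ ≤ κ4 * s →
      ∀ i, ∀ j ≤ nl, z * q i j ∈ M.In (κS * s) D
  inn : ∀ z : S, np M z ∈ B.Bx (fun i => Λ3 * M.szh h d₁ s i) → WinH M h κp s (M.θ z) →
    ‖M.θ z‖ ≤ AS * s → z ∈ M.In (κS * s) D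

theorem exists_pack (B : M.NatBox) : ∃ C : ℝ, 1 ≤ C ∧ ∀ c₂ κw κ₅ : ℝ, 0 < c₂ → 0 < κw →
    κw ≤ 1 / 2 → 0 < κ₅ → ∃ (n : ℕ) (AN : ℝ), 0 < AN ∧
    ∀ κ A c₁ d₁ κ4 κ' κp κS δ Λ3 AS AT κD ΛD : ℝ, 0 ≤ c₁ → C * c₁ < c₂ → κw ≤ κ → 0 < d₁ →
    0 < κ' → κ' ≤ 1 / 2 → 0 ≤ κ4 → κ4 ≤ 1 → κ4 ≤ AN → κ4 ≤ κ₅ → bΦ M * κ4 ≤ κw / 4 * c₂ →
    4 * (bΦ M * κ4) ≤ κ' * c₂ → 0 < κp → 1 ≤ Λ3 → 0 < δ → 0 ≤ κS → 0 < κD → C * κS < κD * c₂ →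
    κD ≤ κw / 4 → κD ≤ κ' / 4 → κD ≤ κp / 2 → B.C * (B.C * (B.C * (B.C * L1 B))) ≤ ΛD →
    B.C * Λ3 ≤ ΛD → AN ≤ AT → ∀ᶠ s : ℝ in atTop, ∀ h : (Ht k →L[ℝ] ℝ) → ℝ, M.HGood c₂ h →
      Pk B c₂ κ A c₁ d₁ κ4 κ' κp κS δ Λ3 AS AT (C * κ₅) n (B.DboxH h ΛD d₁ κD s) h s := by
  obtain ⟨Cn, hCn, hnet⟩ := exists_net_frames (M := M) B
  obtain ⟨Cl, hCl, hlet⟩ := exists_letter_frames (M := M) B
  obtain ⟨Cc, hCc, hcov⟩ := exists_cover (M := M) B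
  obtain ⟨Ci, hCi, hIn⟩ := exists_In M B
  have hBC := B.one_le
  have hL1 := one_le_L1 B
  have hBC0 : 0 ≤ B.C := by linarith
  refine ⟨Cn + Cl + Cc + Ci, by linarith, ?_⟩
  intro c₂ κw κ₅ hc₂ hκw hκw2 hκ₅
  obtain ⟨n, AN, hAN, hnet⟩ := hnet c₂ κw κ₅ hc₂ hκw (by linarith) hκ₅
  refine ⟨n, AN, hAN, ?_⟩
  intro κ A c₁ d₁ κ4 κ' κp κS δ Λ3 AS AT κD ΛD hc₁ hCc₁ hκwκ hd hκ' hκ'2 hκ4 hκ41 hκ4N hκ45 hb4
    h4' hκp hΛ3 hδ hκS hκD hCκS hDw hD' hDp hΛD hΛD' hAT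
  have hx1 : 0 ≤ Cn * κS := by positivity
  have hx2 : 0 ≤ Cl * κS := by positivity
  have hx3 : 0 ≤ Cc * κS := by positivity
  have hx4 : 0 ≤ Ci * κS := by positivity
  have hy1 : 0 ≤ Cn * c₁ := by positivity
  have hy2 : 0 ≤ Cl * c₁ := by positivity
  have hy3 : 0 ≤ Ci * c₁ := by positivity
  have hw1 : κD * c₂ ≤ κw / 4 * c₂ := mul_le_mul_of_nonneg_right hDw hc₂.le
  have hw2 : κD * c₂ ≤ κ' / 4 * c₂ := mul_le_mul_of_nonneg_right hD' hc₂.le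
  have hw3 : κD * c₂ ≤ κp / 2 * c₂ := mul_le_mul_of_nonneg_right hDp hc₂.le
  have hw4 : 0 < κw * c₂ := by positivity
  have hw5 : 0 < κ' * c₂ := by positivity
  have hw6 : 0 < κp * c₂ := by positivity
  have hL2 : 1 ≤ B.C * L1 B := one_le_mul_of_one_le_of_one_le hBC hL1
  have hL3 : 1 ≤ B.C * (B.C * L1 B) := one_le_mul_of_one_le_of_one_le hBC hL2
  have hL4 : 1 ≤ B.C * (B.C * (B.C * L1 B)) := one_le_mul_of_one_le_of_one_le hBC hL3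
  have hL6 : 1 ≤ B.C * (B.C * (B.C * (B.C * L1 B))) := one_le_mul_of_one_le_of_one_le hBC hL4
  have hL5 : B.C * (B.C * (B.C * L1 B)) ≤ ΛD :=
    (le_mul_of_one_le_left (by linarith) hBC).trans hΛD
  have hL7 : 0 ≤ B.C * Λ3 := mul_nonneg hBC0 (by linarith)
  have hc1 : Cn * κS < κw / 2 * c₂ := by
    rw [add_mul, add_mul, add_mul] at hCκS
    linarith
  have hc2 : Cl * κS < κ' / 2 * c₂ := by
    rw [add_mul, add_mul, add_mul] at hCκS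
    linarith
  have hc3 : Ci * κS < κp * c₂ := by
    rw [add_mul, add_mul, add_mul] at hCκS
    linarith
  have hc4 : Cc * c₁ < c₂ := by
    rw [add_mul, add_mul, add_mul] at hCc₁
    linarith
  filter_upwards [hnet d₁ κS κ4 (B.C * L1 B) hd hκS hc1 hL2 hκ4 hκ4N hb4,
    hlet c₂ κ' κ4 κS (B.C * (B.C * L1 B)) d₁ hc₂ hκ' hκ'2 hκ4 hκ41 h4' hd hκS hc2 hL3,
    hcov c₂ d₁ c₁ δ κ κw κ4 κ₅ A AN hc₂ hd hc₁ hc4 hδ hκ₅ hκw.le hκwκ hκw2 hκ4 hκ45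
      hAN.le,
    hIn c₂ d₁ κp κS AS Λ3 hc₂ hd hκp hκS hc3 hΛ3,
    eventually_ge_atTop (0 : ℝ)] with s h1 h2 h3 h4 hs h hh
  have hbd := hh.bd
  refine ⟨?_, ?_, ?_⟩
  · obtain ⟨nn, q, hnn, q0, qs, qC, qpos, qcov⟩ := h1 h hbd
    refine ⟨nn, q, hnn.trans (mul_le_mul_of_nonneg_right hAT hs), q0, qs, ?_, ?_⟩
    · intro z hz hθ i j hj
      exact In_mono (DboxH_mono B hc₂.le hbd hs (by linarith) hL5 hDw) (qpos z hz hθ i j hj)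
    · intro z hz x hx
      obtain ⟨i, e', r, he, hr, hxe, heB⟩ := h3 h hbd n nn q hnn qC qcov z hz x hx
      refine ⟨i, e', r, he, hr.trans ?_, hxe, heB⟩
      have h9 : 0 ≤ κ₅ * s := mul_nonneg hκ₅.le hs
      have e1 : (Cn + Cl + Cc + Ci) * κ₅ * s = (Cn + Cl + Cc + Ci) * (κ₅ * s) := by ring
      rw [e1]
      exact mul_le_mul_of_nonneg_right (by linarith) h9
  · obtain ⟨nl, q, hnl, q0, qs, qC, qz, qf, qpos⟩ := h2 h hh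
    refine ⟨nl, q, hnl, q0, qs, qC, qz, qf, ?_⟩
    intro z hz hθ i j hj
    exact In_mono (DboxH_mono B hc₂.le hbd hs (by linarith) hΛD hD') (qpos z hz hθ i j hj)
  · intro z hz hw hθ
    exact In_mono (DboxH_mono B hc₂.le hbd hs hL7 hΛD' hDp) (h4 h hbd z hz hw hθ)

end Vale.Agent.P188.Z1.RModel.F6
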