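import Vale.Agent.P188.Z1.FlatgF

/-!
# P188, FLATG in the model, final assembly, part G: one scale, final form; numbers
-/

set_option linter.all false

open MeasureTheory Set Filter
open Vale.Agent.P188.H530 (hgt)
open Vale.Agent.P188.H616 (Coord Sec Phi slide Script StrAt badR badL)

namespace Vale.Agent.P188.Z1.RModel.F6

variable {S : Type} [Group S] [MeasurableSpace S] {Γ : Type} [Group Γ]
  {V : Type} [AddCommGroup V] [Module ℝ V] {k : ℕ} {M : RModel S Γ V k}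

/-- **One scale, one map.** -/
theorem flat_scale (B : M.NatBox) {K : ℝ} {F F' : Γ → Γ} (hQ : M.QIm K F F') {Λ : Type} [Fintype Λ]
    [MeasurableSpace Λ] [MeasurableSingletonClass Λ] {σ : S → Λ} (hσ : Measurable σ)
    {T : Λ → Ht k →L[ℝ] Ht k} {L : ℝ} (hL0 : 0 ≤ L) (hL : ∀ a, ‖T a‖ ≤ L) {D : Set S}
    {AT ε₀ κS dm s : ℝ} (hSt : StrSc M σ T (M.f F) D AT ε₀ κS dm s) {h : (Ht k →L[ℝ] ℝ) → ℝ}
    {c₂ κ A c₁ d₁ κ4 κ' κp δ Λ3 AS κr η θ ε CV : ℝ} {n : ℕ}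
    (hP : Pk B c₂ κ A c₁ d₁ κ4 κ' κp κS δ Λ3 AS AT κr n D h s)
    (hs : 0 ≤ s) (hδ0 : 0 < δ) (hδ : δ ≤ 1) (hη0 : 0 ≤ η) (hε₀η : ε₀ ≤ η)
    (hε₀θ : ε₀ ≤ θ) (hκ4 : 0 ≤ κ4) (hε0 : 0 ≤ ε) (hθ0 : 0 ≤ θ) (hCV : 0 ≤ CV)
    (hAT : 2 * c₂⁻¹ + 1 ≤ AT)
    (hAd : ∀ i, M.wt i = 0 → ∀ x : ℝ, |x| ≤ B.C * M.szh h d₁ s i → ∀ z, ‖M.θ z‖ ≤ κ4 * s →
      M.nm (M.Ad (M.sec z)⁻¹ (x • M.X i)) ≤ Real.exp (dm * s))
    (hNF : ∀ i, M.wt i ≠ 0 → ∀ u, Fct M h c₂ (M.wt i) u → ∀ n : ℕ, (n : ℝ) ≤ (2 * c₂⁻¹ + 1) * s →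
      ∀ g ∈ M.CB n, ‖M.θ g - ((1 - κ') * s) • u‖ ≤ 1 / 2 →
      ∀ x : ℝ, |x| ≤ B.C * M.szh h d₁ s i →
      M.μ (DF B h (B.C * L1 B) d₁ κ4 s g ∩
        badL σ (M.f F) (slide M.sec (M.ex (x • M.X i)) g) (η * s)) ≤ ENNReal.ofReal θ * M.μ D)
    (hfol : ∀ x ∈ B.Bx (fun i => δ * M.szh h d₁ s i), ∀ y ∈ B.Bx (fun i => δ * M.szh h d₁ s i),
      M.μ {v | v ∈ B.Bx (M.szh h d₁ s) ∧ x * v * y ∉ B.Bx (M.szh h d₁ s)} ≤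
        ENNReal.ofReal (ε / 2) * M.μ (B.Bx (M.szh h d₁ s)))
    (hvol : M.μ D ≤ ENNReal.ofReal CV * M.μ (B.DsmH h δ d₁ κ4 s))
    (hθ : n * ((3 * B.m + 1 : ℕ) * θ * CV) ≤ ε / 2)
    (hthr : (3 * B.m + 1 : ℕ) * η + M.lnLf K * κr + L * (M.C0 * κr) ≤ ε) :
    ∃ a : Λ, ∃ c : Ht k,
      (∀ x : S, (M.l x : ℝ) ≤ c₁ * s →
        M.μ {v | v ∈ B.Bx (M.szh h d₁ s) ∧ ε * s < ‖M.f F (v * x) - c - T a (M.θ x)‖} ≤
          ENNReal.ofReal ε * M.μ (B.Bx (M.szh h d₁ s))) ∧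
      (∀ n : ℕ, (n : ℝ) ≤ A * s → ∀ x ∈ M.CB n, (∀ b ∈ M.Φ, b (M.θ x) ≤ (1 - κ) * s * h b) →
        M.μ {v | v ∈ B.Bx (M.szh h d₁ s) ∧ ε * s < ‖M.f F (v * x) - c - T a (M.θ x)‖} ≤
          ENNReal.ofReal ε * M.μ (B.Bx (M.szh h d₁ s))) := by
  classical
  obtain ⟨nn, q, hnn, q0, qs, qpos, qcov⟩ := hP.net
  obtain ⟨nl, ql, hnl, l0, ls, lC, lz, lf, lpos⟩ := hP.letters
  obtain ⟨a, c, hac⟩ := flat_one B hQ hσ hL0 hL hSt (h := h) (d₁ := d₁) (κ4 := κ4) (δ := δ)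
    (η := η) (θ := θ) (ε := ε) (CV := CV) hs hδ0 hδ hη0 hε₀η hε₀θ hκ4 hε0 hθ0 hCV
    (ql := ql) (nl := nl) (hnl.trans (mul_le_mul_of_nonneg_right hAT hs)) l0 ls
    (fun i hi => lz i hi nl) lpos hAd (by
      intro i hi x hx
      obtain ⟨u, hu, hclose⟩ := lf i hi
      exact hNF i hi u hu nl hnl (ql i nl) (lC i) hclose x hx)
    (n := n) (nn := nn) (q := q) hnn q0 qs qpos (G := GG M h κ A c₁ s) (κr := κr * s) (by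
      intro z hz hθz x hx
      exact qcov z hθz x hx) hfol hvol hθ
  have hthr' : (3 * B.m + 1 : ℕ) * (η * s) + M.lnLf K * (κr * s) + L * (M.C0 * (κr * s)) ≤
      ε * s := by
    have := mul_le_mul_of_nonneg_right hthr hs
    refine le_trans (le_of_eq ?_) this
    ring
  have key : ∀ x ∈ GG M h κ A c₁ s,
      M.μ {v | v ∈ B.Bx (M.szh h d₁ s) ∧ ε * s < ‖M.f F (v * x) - c - T a (M.θ x)‖} ≤
          ENNReal.ofReal ε * M.μ (B.Bx (M.szh h d₁ s)) := by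
    intro x hx
    refine le_trans (measure_mono ?_) (hac x hx)
    rintro v ⟨hv1, hv2⟩
    exact ⟨hv1, lt_of_le_of_lt hthr' hv2⟩
  exact ⟨a, c, fun x hx => key x (Or.inl hx), fun j hj x hx hw => key x (Or.inr ⟨j, hj, hx, hw⟩)⟩

/-! ### numbers -/

theorem num_small {a b ε : ℝ} (ha : 0 ≤ a) (hb : 0 ≤ b) (hε : 0 < ε) :
    ∃ x : ℝ, 0 < x ∧ a * x + b * x ≤ ε := by
  refine ⟨ε / (a + b + 1), by positivity, ?_⟩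
  rw [← add_mul, mul_div_assoc', div_le_iff₀ (by positivity)]
  nlinarith

theorem num_κ₅ (m : ℕ) {Lf L C0 C ε : ℝ} (hLf : 0 ≤ Lf) (hL : 0 ≤ L) (hC0 : 0 ≤ C0) (hC : 0 ≤ C)
    (hε : 0 < ε) : ∃ κ₅ η : ℝ, 0 < κ₅ ∧ 0 < η ∧
      (3 * m + 1 : ℕ) * η + Lf * (C * κ₅) + L * (C0 * (C * κ₅)) ≤ ε := by
  obtain ⟨κ₅, hκ₅, h1⟩ := num_small (a := Lf * C) (b := L * (C0 * C)) (ε := ε / 2) (by positivity)
    (by positivity) (by linarith)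
  obtain ⟨η, hη, h2⟩ := num_small (a := (3 * m + 1 : ℕ)) (b := 0) (ε := ε / 2)
    (Nat.cast_nonneg _) le_rfl (by linarith)
  refine ⟨κ₅, η, hκ₅, hη, ?_⟩
  have e1 : Lf * (C * κ₅) + L * (C0 * (C * κ₅)) = Lf * C * κ₅ + L * (C0 * C) * κ₅ := by ring
  rw [add_assoc, e1]
  rw [zero_mul, add_zero] at h2
  linarith

theorem num_θ (m n : ℕ) {CV ε : ℝ} (hCV : 0 ≤ CV) (hε : 0 < ε) : ∃ θ : ℝ, 0 < θ ∧
    n * ((3 * m + 1 : ℕ) * θ * CV) ≤ ε / 2 := by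
  obtain ⟨θ, hθ, h1⟩ := num_small (a := n * ((3 * m + 1 : ℕ) * CV)) (b := 0) (ε := ε / 2)
    (by positivity) le_rfl (by linarith)
  refine ⟨θ, hθ, ?_⟩
  rw [zero_mul, add_zero] at h1
  refine le_trans (le_of_eq ?_) h1
  ring

theorem num_lt {C a : ℝ} (hC : 0 < C) (ha : 0 < a) : ∃ x : ℝ, 0 < x ∧ C * x < a := by
  refine ⟨a / (2 * C), by positivity, ?_⟩
  rw [mul_div_assoc', div_lt_iff₀ (by positivity)]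
  nlinarith

end Vale.Agent.P188.Z1.RModel.F6
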