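import Mathlib

/-!
# P188, Z1, block GCL: the choice of the parameters (real numbers only)
-/

set_option linter.all false

open Filter

namespace Vale.Agent.P188.Z1.GclNum

theorem ev_const' (B : ℝ) {ε : ℝ} (hε : 0 < ε) : ∀ᶠ r : ℝ in atTop, B ≤ Real.exp (ε * r) := by
  have h1 : Tendsto (fun r : ℝ => Real.exp (ε * r)) atTop atTop :=
    Real.tendsto_exp_atTop.comp (tendsto_id.const_mul_atTop hε)
  exact h1.eventually_ge_atTop B

/-- number of points of the filling -/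
theorem floor_le (K' : ℕ) {ε c1 r : ℝ} (hε : 0 ≤ ε * r) :
    ((⌊((K' : ℝ) * (1 + Real.exp (ε * r)) / Real.exp (-(c1 * r))) ^ K'⌋₊ : ℕ) : ℝ) ≤
      (2 * (K' : ℝ)) ^ K' * Real.exp ((K' : ℝ) * (ε + c1) * r) := by
  have hCI1 : 1 ≤ Real.exp (ε * r) := Real.one_le_exp hε
  have hK : (0 : ℝ) ≤ K' := Nat.cast_nonneg _
  refine (Nat.floor_le (by positivity)).trans ?_
  have e1 : (K' : ℝ) * (1 + Real.exp (ε * r)) / Real.exp (-(c1 * r)) ≤
      2 * K' * Real.exp ((ε + c1) * r) := by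
    rw [div_eq_mul_inv, ← Real.exp_neg, neg_neg, add_mul ε c1 r, Real.exp_add]
    have h1 : (K' : ℝ) * (1 + Real.exp (ε * r)) ≤ 2 * K' * Real.exp (ε * r) := by nlinarith
    calc (K' : ℝ) * (1 + Real.exp (ε * r)) * Real.exp (c1 * r)
        ≤ 2 * K' * Real.exp (ε * r) * Real.exp (c1 * r) :=
          mul_le_mul_of_nonneg_right h1 (Real.exp_pos _).le
      _ = _ := by ring
  have e2 := pow_le_pow_left₀ (by positivity) e1 K'
  refine e2.trans (le_of_eq ?_)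
  rw [mul_pow, ← Real.exp_nat_mul, mul_assoc (K' : ℝ)]

theorem two_pow_le {C η r : ℝ} (j : ℕ) (hj : (j : ℝ) ≤ C + 4 * η * r + 1) :
    (2 : ℝ) ^ j ≤ Real.exp (C + 1) * Real.exp (4 * η * r) := by
  have hlog1 : Real.log 2 ≤ 1 := by
    have := Real.log_le_sub_one_of_pos (show (0 : ℝ) < 2 by norm_num)
    linarith
  rw [← Real.exp_add]
  have e1 : (2 : ℝ) ^ j = Real.exp (Real.log 2 * j) := by
    rw [mul_comm, Real.exp_nat_mul, Real.exp_log (by norm_num)]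
  rw [e1]
  apply Real.exp_le_exp.2
  have : Real.log 2 * j ≤ 1 * j := mul_le_mul_of_nonneg_right hlog1 (Nat.cast_nonneg _)
  linarith

theorem le_two_pow {κ C r σ : ℝ} (hσ : σ = κ / C * Real.log 2) (q : ℕ)
    (hq : κ * r / C - 2 ≤ q) : Real.exp (σ * r) / 4 ≤ (2 : ℝ) ^ q := by
  have hlog : 0 < Real.log 2 := Real.log_pos (by norm_num)
  have e1 : (2 : ℝ) ^ q = Real.exp (Real.log 2 * q) := by
    rw [mul_comm, Real.exp_nat_mul, Real.exp_log (by norm_num)]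
  have e2 : Real.exp (σ * r) / 4 = Real.exp (Real.log 2 * (κ * r / C - 2)) := by
    have e3 : Real.log 2 * (κ * r / C - 2) = σ * r - 2 * Real.log 2 := by
      rw [hσ]; ring
    rw [e3, Real.exp_sub]
    congr 1
    have : (2 : ℝ) * Real.log 2 = ((2 : ℕ) : ℝ) * Real.log 2 := by norm_num
    rw [this, Real.exp_nat_mul, Real.exp_log (by norm_num)]
    norm_num
  rw [e1, e2]
  exact Real.exp_le_exp.2 (mul_le_mul_of_nonneg_left hq hlog.le)

theorem expo {σ c1 η ε : ℝ} (K' : ℕ) (hσ : 0 < σ) (hc1 : c1 = σ / (8 * (K' + 1)))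
    (hη : η = σ / 64) (hε : ε = σ / (16 * (K' + 1))) :
    ε + K' * (ε + c1) + 4 * η ≤ σ / 4 ∧ c1 ≤ σ / 8 := by
  have hK : (0 : ℝ) ≤ K' := Nat.cast_nonneg _
  have hK1 : (0 : ℝ) < K' + 1 := by linarith
  have e1 : ε * (K' + 1) = σ / 16 := by rw [hε]; field_simp
  have e2 : c1 * (K' + 1) = σ / 8 := by rw [hc1]; field_simp
  have h0 : 0 < c1 := by rw [hc1]; positivity
  constructor
  · rw [hη]
    nlinarith
  · nlinarith

/-- the main inequality between the number of points and the number of cells -/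
theorem main_ineq {σ c1 η ε C r : ℝ} (K' : ℕ) (m' j q Nn : ℕ) (hr : 0 ≤ r) (hC : 0 < C)
    (hex : ε + K' * (ε + c1) + 4 * η ≤ σ / 4) (hc1 : c1 ≤ σ / 8) (hσ : 0 < σ)
    (hN : (Nn : ℝ) ≤ Real.exp (ε * r) *
      ((2 * (K' : ℝ)) ^ K' * Real.exp ((K' : ℝ) * (ε + c1) * r)))
    (h2j : (2 : ℝ) ^ j ≤ Real.exp (C + 1) * Real.exp (4 * η * r))
    (h2q : Real.exp (σ * r) / 4 ≤ (2 : ℝ) ^ q)
    (h1 : 4 * C * m' * Real.exp (C + 1) * (2 * (K' : ℝ)) ^ K' + 1 ≤ Real.exp (σ / 2 * r)) :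
    ((Nn * 2 ^ j : ℕ) : ℝ) * (C * m') < 2 ^ q * Real.exp (-(c1 * r)) := by
  have hK : (0 : ℝ) ≤ K' := Nat.cast_nonneg _
  have hm : (0 : ℝ) ≤ m' := Nat.cast_nonneg _
  set P : ℝ := (2 * (K' : ℝ)) ^ K' with hP
  have hP0 : 0 ≤ P := by positivity
  have e0 : Real.exp (ε * r) * (P * Real.exp ((K' : ℝ) * (ε + c1) * r)) *
      (Real.exp (C + 1) * Real.exp (4 * η * r)) * (C * m') =
      C * m' * Real.exp (C + 1) * P * Real.exp ((ε + K' * (ε + c1) + 4 * η) * r) := by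
    have : Real.exp ((ε + K' * (ε + c1) + 4 * η) * r) =
        Real.exp (ε * r) * Real.exp ((K' : ℝ) * (ε + c1) * r) * Real.exp (4 * η * r) := by
      rw [← Real.exp_add, ← Real.exp_add]
      congr 1
      ring
    rw [this]
    ring
  have e1 : ((Nn * 2 ^ j : ℕ) : ℝ) * (C * m') ≤
      C * m' * Real.exp (C + 1) * P * Real.exp (σ / 4 * r) := by
    have h2 : ((Nn * 2 ^ j : ℕ) : ℝ) ≤ Real.exp (ε * r) *
        (P * Real.exp ((K' : ℝ) * (ε + c1) * r)) *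
        (Real.exp (C + 1) * Real.exp (4 * η * r)) := by
      push_cast
      exact mul_le_mul hN h2j (by positivity) (by positivity)
    have h3 : ((Nn * 2 ^ j : ℕ) : ℝ) * (C * m') ≤ _ :=
      mul_le_mul_of_nonneg_right h2 (by positivity)
    refine h3.trans ?_
    rw [e0]
    exact mul_le_mul_of_nonneg_left (Real.exp_le_exp.2
      (mul_le_mul_of_nonneg_right hex hr)) (by positivity)
  have e2 : Real.exp (7 * σ / 8 * r) / 4 ≤ 2 ^ q * Real.exp (-(c1 * r)) := by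
    have h2 : Real.exp (7 * σ / 8 * r) / 4 ≤ Real.exp (σ * r) / 4 * Real.exp (-(c1 * r)) := by
      have h3 : Real.exp (σ * r) / 4 * Real.exp (-(c1 * r)) =
          Real.exp (σ * r + -(c1 * r)) / 4 := by
        rw [Real.exp_add]; ring
      rw [h3]
      refine div_le_div_of_nonneg_right (Real.exp_le_exp.2 ?_) (by norm_num)
      nlinarith
    exact h2.trans (mul_le_mul_of_nonneg_right h2q (Real.exp_pos _).le)
  refine lt_of_le_of_lt e1 (lt_of_lt_of_le ?_ e2)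
  have e3 : Real.exp (σ / 4 * r) ≤ Real.exp (3 * σ / 8 * r) :=
    Real.exp_le_exp.2 (mul_le_mul_of_nonneg_right (by linarith) hr)
  have e4 : Real.exp (7 * σ / 8 * r) = Real.exp (σ / 2 * r) * Real.exp (3 * σ / 8 * r) := by
    rw [← Real.exp_add]; congr 1; ring
  rw [e4, lt_div_iff₀ (by norm_num)]
  have e5 := Real.exp_pos (3 * σ / 8 * r)
  have e6 : 0 ≤ C * m' * Real.exp (C + 1) * P := by positivity
  have e7 : C * m' * Real.exp (C + 1) * P * Real.exp (σ / 4 * r) * 4 ≤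
      C * m' * Real.exp (C + 1) * P * Real.exp (3 * σ / 8 * r) * 4 :=
    mul_le_mul_of_nonneg_right (mul_le_mul_of_nonneg_left e3 e6) (by norm_num)
  have e8 : (4 * C * m' * Real.exp (C + 1) * P) * Real.exp (3 * σ / 8 * r) <
      Real.exp (σ / 2 * r) * Real.exp (3 * σ / 8 * r) :=
    mul_lt_mul_of_pos_right (by linarith) e5
  linarith

/-- the distortion inequality -/
theorem big_ineq {η r B C a : ℝ} (nf m : ℕ) (hm : (m : ℝ) ≤ Real.exp (η * r)) (hr : 0 ≤ η * r)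
    (ha : 0 ≤ a) (hj : 4 * η * r ≤ B)
    (h2 : 2 * (nf : ℝ) * 3 * a * Real.exp C ≤ Real.exp (η * r)) :
    2 * ((nf : ℝ) * ((2 * m + 1) * (a * Real.exp (2 * (η * r) + C)))) ≤ Real.exp B := by
  have h0 : 1 ≤ Real.exp (η * r) := Real.one_le_exp hr
  have hf : (0 : ℝ) ≤ nf := Nat.cast_nonneg _
  have e1 : (2 * (m : ℝ) + 1) ≤ 3 * Real.exp (η * r) := by linarith
  have e0 : 0 ≤ a * Real.exp (2 * (η * r) + C) := by positivity
  have e2 : 2 * ((nf : ℝ) * ((2 * m + 1) * (a * Real.exp (2 * (η * r) + C)))) ≤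
      2 * ((nf : ℝ) * ((3 * Real.exp (η * r)) * (a * Real.exp (2 * (η * r) + C)))) :=
    mul_le_mul_of_nonneg_left (mul_le_mul_of_nonneg_left
      (mul_le_mul_of_nonneg_right e1 e0) hf) (by norm_num)
  refine e2.trans ?_
  have e3 : 2 * ((nf : ℝ) * ((3 * Real.exp (η * r)) * (a * Real.exp (2 * (η * r) + C)))) =
      (2 * (nf : ℝ) * 3 * a * Real.exp C) * Real.exp (3 * (η * r)) := by
    rw [Real.exp_add, show 3 * (η * r) = η * r + 2 * (η * r) by ring, Real.exp_add]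
    ring
  rw [e3]
  refine (mul_le_mul_of_nonneg_right h2 (Real.exp_pos _).le).trans ?_
  rw [← Real.exp_add]
  exact Real.exp_le_exp.2 (by linarith)

/-- **All the parameters.** -/
theorem params {C κ : ℝ} (hC : 1 ≤ C) (hκ : 0 < κ) (K' m' nf nι : ℕ) {a B B0 : ℝ} (ha : 0 ≤ a) :
    ∃ (η c1 ε : ℝ) (Mn : ℕ), 0 < η ∧ 0 < c1 ∧ 0 < ε ∧ 2 ≤ Mn ∧ B0 ≤ ((Mn : ℝ) - 2) * η ∧
    ∀ᶠ r : ℝ in atTop, ∃ q j : ℕ, C * ((q : ℝ) + 1) ≤ κ * r ∧
      ((⌊Real.exp (ε * r)⌋₊ * ⌊((K' : ℝ) * (1 + Real.exp (ε * r)) /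
        Real.exp (-(c1 * r))) ^ K'⌋₊ * 2 ^ j : ℕ) : ℝ) * (C * m') <
        2 ^ q * Real.exp (-(c1 * r)) ∧
      (∀ m : ℕ, (m : ℝ) ≤ Real.exp (η * r) →
        2 * ((nf : ℝ) * ((2 * m + 1) * (a * Real.exp (2 * (η * r) + B)))) ≤
          Real.exp ((j : ℝ) - C)) ∧
      (Mn : ℝ) * (1 + nι * m') * Real.exp (-(c1 * r)) ≤ Real.exp (-(c1 / 2 * r)) := by
  have hCpos : 0 < C := by linarith
  have hlog : 0 < Real.log 2 := Real.log_pos (by norm_num)
  obtain ⟨σ, hσ⟩ : ∃ σ : ℝ, σ = κ / C * Real.log 2 := ⟨_, rfl⟩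
  have hσ0 : 0 < σ := by rw [hσ]; positivity
  obtain ⟨c1, hc1⟩ : ∃ c1 : ℝ, c1 = σ / (8 * (K' + 1)) := ⟨_, rfl⟩
  obtain ⟨η, hη⟩ : ∃ η : ℝ, η = σ / 64 := ⟨_, rfl⟩
  obtain ⟨ε, hε⟩ : ∃ ε : ℝ, ε = σ / (16 * (K' + 1)) := ⟨_, rfl⟩
  have hK : (0 : ℝ) ≤ K' := Nat.cast_nonneg _
  have hc10 : 0 < c1 := by rw [hc1]; positivity
  have hη0 : 0 < η := by rw [hη]; positivity
  have hε0 : 0 < ε := by rw [hε]; positivity
  obtain ⟨hex, hc1σ⟩ := expo K' hσ0 hc1 hη hε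
  obtain ⟨Mn, hMn⟩ : ∃ Mn : ℕ, Mn = ⌈B0 / η⌉₊ + 2 := ⟨_, rfl⟩
  have ev1 := ev_const' (4 * C * m' * Real.exp (C + 1) * (2 * (K' : ℝ)) ^ K' + 1) (ε := σ / 2)
    (by positivity)
  have ev2 := ev_const' (2 * (nf : ℝ) * 3 * a * Real.exp B) hη0
  have ev3 := ev_const' ((Mn : ℝ) * (1 + nι * m')) (ε := c1 / 2) (by positivity)
  refine ⟨η, c1, ε, Mn, hη0, hc10, hε0, by omega, ?_, ?_⟩
  · have e1 : B0 / η ≤ (Mn : ℝ) - 2 := by
      rw [hMn]; push_cast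
      have := Nat.le_ceil (B0 / η)
      linarith
    rwa [div_le_iff₀ hη0] at e1
  filter_upwards [ev1, ev2, ev3, eventually_ge_atTop (C / κ), eventually_ge_atTop (0 : ℝ)]
    with r h1 h2 h3 h4 hr
  have h4' : 1 ≤ κ * r / C := by
    rw [div_le_iff₀ hκ] at h4
    rw [le_div_iff₀ hCpos]
    linarith
  have hεr : 0 ≤ ε * r := by positivity
  have hηr : 0 ≤ η * r := by positivity
  obtain ⟨q, hq⟩ : ∃ q : ℕ, q = ⌊κ * r / C - 1⌋₊ := ⟨_, rfl⟩
  obtain ⟨j, hj⟩ : ∃ j : ℕ, j = ⌈C + 4 * η * r⌉₊ := ⟨_, rfl⟩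
  have hq1 : (q : ℝ) ≤ κ * r / C - 1 := by rw [hq]; exact Nat.floor_le (by linarith)
  have hq2 : κ * r / C - 2 ≤ q := by
    have := Nat.lt_floor_add_one (κ * r / C - 1)
    rw [← hq] at this
    linarith
  have hj1 : C + 4 * η * r ≤ j := by rw [hj]; exact Nat.le_ceil _
  have hj2 : (j : ℝ) ≤ C + 4 * η * r + 1 := by
    rw [hj]; exact (Nat.ceil_lt_add_one (by positivity)).le
  refine ⟨q, j, ?_, ?_, ?_, ?_⟩
  · have : C * ((q : ℝ) + 1) ≤ C * (κ * r / C) :=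
      mul_le_mul_of_nonneg_left (by linarith) hCpos.le
    rwa [mul_div_cancel₀ _ hCpos.ne'] at this
  · refine main_ineq K' m' j q _ hr hCpos hex hc1σ hσ0 ?_ (two_pow_le j hj2)
      (le_two_pow hσ q hq2) h1
    push_cast
    exact mul_le_mul (Nat.floor_le (Real.exp_pos _).le) (floor_le K' hεr) (Nat.cast_nonneg _)
      (Real.exp_pos _).le
  · intro m hm
    exact big_ineq nf m hm hηr ha (by linarith) h2
  · have e1 : (Mn : ℝ) * (1 + nι * m') * Real.exp (-(c1 * r)) ≤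
        Real.exp (c1 / 2 * r) * Real.exp (-(c1 * r)) :=
      mul_le_mul_of_nonneg_right h3 (Real.exp_pos _).le
    refine e1.trans (le_of_eq ?_)
    rw [← Real.exp_add]; congr 1; ring

end Vale.Agent.P188.Z1.GclNum
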