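import Vale.Agent.P188.Z1.Fat
import Vale.Agent.P188.Z1.Flat
import Vale.Agent.P188.H893.Gcl
import Vale.Agent.P188.H329.PackQ
import Vale.Agent.P188.Z1.GclNum

/-!
# P188, Z1, block GCL: few points are peaks for contracting paths

`gcl_of_spread : M.SPREAD → M.GCL`.
-/

set_option linter.all false

open MeasureTheory Set Filter
open Agent.P188.H428 (IsLen)
open Vale.Agent.P188.H530 (hgt hgt_mul)
open Vale.Agent.P188.H329 (Rel InP prS fillQ)
open Vale.Agent.P188.H616 (Coord)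
open Vale.Agent.P188.H893 (Paths Tol gcl_core)

namespace Vale.Agent.P188.Z1

namespace RModel

variable {S : Type} [Group S] [MeasurableSpace S] {Γ : Type} [Group Γ]
  {V : Type} [AddCommGroup V] [Module ℝ V] {k : ℕ} (M : RModel S Γ V k)

/-- The sizes of the letters: `1` for neutral letters, `e^{c r}` for the others. -/
noncomputable def gR (u : ℝ) (i : M.ι) : ℝ := M.two 1 (Real.exp u) i

/-- the letters -/
noncomputable def gcS (u : ℝ) (i : M.ι) (x : ℝ) : S := M.ex ((M.gR u i * x) • M.X i)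

theorem gR_zero {u : ℝ} {i : M.ι} (h : M.wt i = 0) : M.gR u i = 1 := by
  unfold gR two; rw [if_pos h]

theorem gR_ne {u : ℝ} {i : M.ι} (h : M.wt i ≠ 0) : M.gR u i = Real.exp u := by
  unfold gR two; rw [if_neg h]

private lemma rpow_le_pow {x : ℝ} (hx : 1 ≤ x) (a : ℝ) : x ^ a ≤ x ^ ⌈a⌉₊ := by
  rw [← Real.rpow_natCast]
  exact Real.rpow_le_rpow_of_exponent_le hx (Nat.le_ceil a)

/-- Decomposition of an element of length at most `ρ`, heights first. -/
theorem cover_dec : ∃ (Cb : ℝ) (D : ℕ), 1 ≤ Cb ∧ ∀ ρ : ℝ, 0 ≤ ρ → ∀ g : S, (M.l g : ℝ) ≤ ρ →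
    ∃ (W : Fin k → ℤ), ∃ v ∈ M.e, ∃ y ∈ M.Vw 0, g = M.τ W * (M.ex v * M.ex y) ∧
      (∀ i, |(W i : ℝ)| ≤ M.C0 * ρ) ∧ M.nm v ≤ Real.exp (Cb * (1 + ρ)) ∧
      M.nm y ≤ Cb * (1 + ρ) ^ D := by
  obtain ⟨Cl, hCl, hlCB⟩ := M.l_CB
  have hC0 := M.C0_pos
  have hC1 := M.one_le_C0
  set a : ℝ := M.C0 + M.C0 * M.C0 + 1 with ha
  have ha1 : 1 ≤ a := by nlinarith
  set Cb1 : ℝ := M.C0 * (Cl * a) + M.C0 * (2 + Cl * a) with hCb1
  set Cb2 : ℝ := M.C0 * (3 * a) ^ M.deg * (M.C0 * (3 * a) ^ M.deg) with hCb2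
  have h01 : 0 ≤ Cb1 := by positivity
  have h02 : 0 ≤ Cb2 := by positivity
  refine ⟨1 + Cb1 + Cb2, 2 * M.deg, by linarith, fun ρ hρ g hlg => ?_⟩
  obtain ⟨v, hv, w, hw, hgw⟩ := M.dec g
  set W : Fin k → ℤ := Multiplicative.toAdd (M.η g) with hW
  have hθg : ‖M.θ g‖ ≤ M.C0 * ρ := (M.η_le g).trans (mul_le_mul_of_nonneg_left hlg hC0.le)
  have hWi : ∀ i, |(W i : ℝ)| ≤ M.C0 * ρ := fun i => (norm_le_pi_norm (M.θ g) i).trans hθg
  have hηw : M.η w = M.η g := by rw [hgw, map_mul, M.η_ex, one_mul]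
  set N1 : ℕ := ⌈M.C0 * M.l g⌉₊ with hN1
  set N2 : ℕ := ⌈M.C0 * (1 + M.C0 * ρ)⌉₊ with hN2
  have hCρ : 0 ≤ M.C0 * ρ := mul_nonneg hC0.le hρ
  have hCCρ : 0 ≤ M.C0 * M.C0 * ρ := mul_nonneg (mul_nonneg hC0.le hC0.le) hρ
  have ht : M.τ W ∈ M.CB N2 := M.τ_mem_CB (by positivity) hWi
  have hN1r : (N1 : ℝ) ≤ a * (1 + ρ) := by
    have h1 := (Nat.ceil_lt_add_one (show 0 ≤ M.C0 * (M.l g : ℝ) by positivity)).le
    have h2 := mul_le_mul_of_nonneg_left hlg hC0.le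
    rw [ha]
    nlinarith
  have hN2r : (N2 : ℝ) ≤ a * (1 + ρ) := by
    have h1 := (Nat.ceil_lt_add_one (show 0 ≤ M.C0 * (1 + M.C0 * ρ) by positivity)).le
    rw [ha]
    nlinarith
  have hρ1 : 1 ≤ 1 + ρ := by linarith
  -- neutral part
  obtain ⟨y, hy, hye, hyn⟩ := M.C_ker _ _ (M.CB_mul hw (M.CB_inv ht)) (by
    rw [map_mul, map_inv, M.η_τ, hηw, hW]
    exact mul_inv_cancel _)
  have hdecomp : g = M.τ W * (M.ex (M.Ad (M.τ W)⁻¹ v) * M.ex (M.Ad (M.τ W)⁻¹ y)) := by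
    rw [M.ex_Ad, M.ex_Ad, hye, inv_inv]
    conv_lhs => rw [hgw]
    group
  refine ⟨W, M.Ad (M.τ W)⁻¹ v, M.Ad_mem_e hv _, M.Ad (M.τ W)⁻¹ y, M.Ad_CB (M.CB_inv ht) hy,
    hdecomp, hWi, ?_, ?_⟩
  · -- size of `v`
    have hlt : (M.l (M.τ W)⁻¹ : ℝ) ≤ Cl * (a * (1 + ρ)) :=
      (hlCB _ _ (M.CB_inv ht)).trans (mul_le_mul_of_nonneg_left hN2r (by linarith))
    have hlw : (M.l w : ℝ) ≤ Cl * (a * (1 + ρ)) :=
      (hlCB _ _ hw).trans (mul_le_mul_of_nonneg_left hN1r (by linarith))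
    have hlv : (M.l (M.ex v) : ℝ) ≤ ρ + Cl * (a * (1 + ρ)) := by
      have e1 : M.ex v = g * w⁻¹ := by rw [hgw]; group
      have e2 : (M.l (M.ex v) : ℝ) ≤ M.l g + M.l w := by
        rw [e1]
        have := M.len.mul g w⁻¹
        rw [M.len.inv] at this
        exact_mod_cast this
      linarith
    have hnv : M.nm v ≤ Real.exp (M.C0 * (1 + (ρ + Cl * (a * (1 + ρ))))) :=
      (M.met_lo v).trans (Real.exp_le_exp.2
        (mul_le_mul_of_nonneg_left (by linarith) hC0.le))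
    refine (M.Ad_le _ v).trans ?_
    refine (mul_le_mul (Real.exp_le_exp.2 (mul_le_mul_of_nonneg_left hlt hC0.le)) hnv
      (M.nm_nonneg v) (Real.exp_pos _).le).trans ?_
    rw [← Real.exp_add]
    apply Real.exp_le_exp.2
    have e1 : M.C0 * (Cl * (a * (1 + ρ))) + M.C0 * (1 + (ρ + Cl * (a * (1 + ρ)))) ≤
        Cb1 * (1 + ρ) := by
      have : M.C0 * (1 + ρ) ≤ M.C0 * (2 * (1 + ρ)) :=
        mul_le_mul_of_nonneg_left (by linarith) hC0.le
      calc M.C0 * (Cl * (a * (1 + ρ))) + M.C0 * (1 + (ρ + Cl * (a * (1 + ρ))))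
          = M.C0 * (Cl * a) * (1 + ρ) + (M.C0 * (1 + ρ) + M.C0 * (Cl * a) * (1 + ρ)) := by ring
        _ ≤ M.C0 * (Cl * a) * (1 + ρ) + (M.C0 * (2 * (1 + ρ)) + M.C0 * (Cl * a) * (1 + ρ)) := by
            linarith
        _ = Cb1 * (1 + ρ) := by rw [hCb1]; ring
    refine e1.trans (mul_le_mul_of_nonneg_right (by linarith) (by linarith))
  · -- size of `y`
    have h1 := M.Ad_CB_0 (M.CB_inv ht) hy
    have hb1 : M.C0 * (1 + (N2 : ℝ)) ^ M.deg ≤ M.C0 * ((3 * a) * (1 + ρ)) ^ M.deg :=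
      mul_le_mul_of_nonneg_left (pow_le_pow_left₀ (by positivity) (by nlinarith) _) hC0.le
    have hb2 : M.C0 * (1 + ((N1 + N2 : ℕ) : ℝ)) ^ M.deg ≤ M.C0 * ((3 * a) * (1 + ρ)) ^ M.deg := by
      refine mul_le_mul_of_nonneg_left (pow_le_pow_left₀ (by positivity) ?_ _) hC0.le
      push_cast
      nlinarith
    calc M.nm (M.Ad (M.τ W)⁻¹ y) ≤ M.C0 * (1 + (N2 : ℝ)) ^ M.deg * M.nm y := h1
      _ ≤ (M.C0 * ((3 * a) * (1 + ρ)) ^ M.deg) * (M.C0 * ((3 * a) * (1 + ρ)) ^ M.deg) :=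
          mul_le_mul hb1 (hyn.trans hb2) (M.nm_nonneg y) (by positivity)
      _ = Cb2 * (1 + ρ) ^ (2 * M.deg) := by rw [hCb2, mul_pow]; ring
      _ ≤ _ := mul_le_mul_of_nonneg_right (by linarith) (by positivity)

/-- **Covering of balls by boxes.** -/
theorem cover (c : ℝ) (hc : 0 < c) : ∃ κ : ℝ, 0 < κ ∧ ∀ ε : ℝ, 0 < ε → ∀ᶠ r : ℝ in atTop,
    ∀ z0 : S, ∃ T : Finset S, (T.card : ℝ) ≤ Real.exp (ε * r) ∧
      ∀ z : S, (M.l (z0⁻¹ * z) : ℝ) ≤ κ * r →
        ∃ z1 ∈ T, InP (M.gcS (c * r)) (M.mE + M.mN) (Real.exp (ε * r)) z1 z := by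
  classical
  obtain ⟨Cb, D, hCb, hdec⟩ := M.cover_dec
  have hC0 := M.C0_pos
  have hC1 := M.one_le_C0
  have hCb0 : 0 < Cb := by linarith
  set κ : ℝ := min (c / (2 * (M.C0 * Cb))) 1 with hκ
  have hκ0 : 0 < κ := lt_min (by positivity) one_pos
  have hκ1 : κ ≤ 1 := min_le_right _ _
  have hκc : M.C0 * Cb * κ ≤ c / 2 := by
    have : κ ≤ c / (2 * (M.C0 * Cb)) := min_le_left _ _
    calc M.C0 * Cb * κ ≤ M.C0 * Cb * (c / (2 * (M.C0 * Cb))) :=
          mul_le_mul_of_nonneg_left this (by positivity)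
      _ = c / 2 := by field_simp
  refine ⟨κ, hκ0, fun ε hε => ?_⟩
  set d0 : ℕ := ⌈M.C0⌉₊ with hd0
  -- eventual bounds
  have ev1 := ev_const (M.C0 * (2 : ℝ) ^ M.C0 * Real.exp (M.C0 * Cb)) (ε := c / 2) (by positivity)
  have ev2 : ∀ᶠ r : ℝ in atTop, M.C0 * (1 + Cb * (1 + r) ^ D) ^ d0 ≤ Real.exp (ε * r) := by
    have h1 := ev_poly (M.C0 * (1 + Cb) ^ d0) (D * d0) hε
    filter_upwards [h1, eventually_ge_atTop (0 : ℝ)] with r hr hr0
    refine le_trans ?_ hr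
    rw [mul_assoc (M.C0), pow_mul, ← mul_pow]
    refine mul_le_mul_of_nonneg_left (pow_le_pow_left₀ (by positivity) ?_ _) hC0.le
    have h2 : 1 ≤ (1 + r) ^ D := one_le_pow₀ (by linarith)
    nlinarith
  have ev3 : ∀ᶠ r : ℝ in atTop, (2 * (M.C0 * r) + 3) ^ k ≤ Real.exp (ε * r) := by
    have h1 := ev_poly ((2 * M.C0 + 3) ^ k) k hε
    filter_upwards [h1, eventually_ge_atTop (0 : ℝ)] with r hr hr0
    refine le_trans ?_ hr
    rw [← mul_pow]
    exact pow_le_pow_left₀ (by positivity) (by nlinarith) _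
  filter_upwards [ev1, ev2, ev3, eventually_ge_atTop (1 : ℝ)] with r h1 h2 h3 hr1
  intro z0
  have hr0 : 0 ≤ r := by linarith
  have hκr : κ * r ≤ r := by nlinarith
  have hκr0 : 0 ≤ κ * r := by positivity
  set n : ℕ := ⌊M.C0 * r⌋₊ with hn
  have hnr : (n : ℝ) ≤ M.C0 * r := Nat.floor_le (by positivity)
  set T : Finset S := (Fintype.piFinset fun _ : Fin k => Finset.Icc (-(n : ℤ)) n).image
    fun w => z0 * M.τ w with hT
  refine ⟨T, ?_, ?_⟩
  · have hcard : T.card ≤ (2 * n + 1) ^ k := by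
      refine Finset.card_image_le.trans ?_
      rw [Fintype.card_piFinset]
      simp only [Int.card_Icc, Finset.prod_const, Finset.card_univ, Fintype.card_fin]
      refine le_of_eq ?_
      congr 1
      omega
    calc (T.card : ℝ) ≤ (2 * n + 1) ^ k := by exact_mod_cast hcard
      _ ≤ (2 * (M.C0 * r) + 3) ^ k := pow_le_pow_left₀ (by positivity) (by linarith) _
      _ ≤ _ := h3
  · intro z hz
    obtain ⟨W, v, hv, y, hy, hg, hW, hvn, hyn⟩ := hdec (κ * r) hκr0 (z0⁻¹ * z) hz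
    obtain ⟨x, hx, hxe⟩ := M.gen_e v hv
    obtain ⟨x', hx', hxe'⟩ := M.gen_N y hy
    refine ⟨z0 * M.τ W, ?_, ?_⟩
    · refine Finset.mem_image.2 ⟨W, ?_, rfl⟩
      rw [Fintype.mem_piFinset]
      intro i
      have h5 : |(W i : ℝ)| ≤ M.C0 * r := (hW i).trans (mul_le_mul_of_nonneg_left hκr hC0.le)
      have h6 : (W i).natAbs ≤ n := by
        rw [hn]
        apply Nat.le_floor
        rw [Nat.cast_natAbs]
        push_cast
        exact h5
      rw [Finset.mem_Icc]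
      omega
    · refine ⟨Fin.append M.jE M.jN, Fin.append (fun t => x t / Real.exp (c * r)) x', ?_, ?_⟩
      · intro t
        refine Fin.addCases (fun t => ?_) (fun t => ?_) t
        · rw [Fin.append_left, abs_div, abs_of_pos (Real.exp_pos _), div_le_iff₀ (Real.exp_pos _)]
          have h5 : |x t| ≤ Real.exp (c * r) := by
            refine (hx t).trans ?_
            have h6 : 1 + M.nm v ≤ 2 * Real.exp (Cb * (1 + κ * r)) := by
              have : 1 ≤ Real.exp (Cb * (1 + κ * r)) := Real.one_le_exp (by positivity)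
              linarith
            calc M.C0 * (1 + M.nm v) ^ M.C0
                ≤ M.C0 * (2 * Real.exp (Cb * (1 + κ * r))) ^ M.C0 :=
                  mul_le_mul_of_nonneg_left (Real.rpow_le_rpow
                    (by have := M.nm_nonneg v; linarith) h6 hC0.le) hC0.le
              _ = M.C0 * (2 : ℝ) ^ M.C0 * Real.exp (M.C0 * Cb) *
                    Real.exp (M.C0 * Cb * κ * r) := by
                  have e2 : Real.exp (Cb * (1 + κ * r) * M.C0) =
                      Real.exp (M.C0 * Cb) * Real.exp (M.C0 * Cb * κ * r) := by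
                    rw [← Real.exp_add]; congr 1; ring
                  rw [Real.mul_rpow (by norm_num) (Real.exp_pos _).le, ← Real.exp_mul, e2]
                  ring
              _ ≤ Real.exp (c / 2 * r) * Real.exp (c / 2 * r) := by
                  refine mul_le_mul h1 (Real.exp_le_exp.2 ?_) (Real.exp_pos _).le
                    (Real.exp_pos _).le
                  exact mul_le_mul_of_nonneg_right hκc hr0
              _ = Real.exp (c * r) := by rw [← Real.exp_add]; congr 1; ring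
          have h6 : 1 ≤ Real.exp (ε * r) := Real.one_le_exp (by positivity)
          have h7 := Real.exp_pos (c * r)
          nlinarith
        · rw [Fin.append_right]
          refine (hx' t).trans ?_
          have h6 : 1 ≤ 1 + M.nm y := by have := M.nm_nonneg y; linarith
          calc M.C0 * (1 + M.nm y) ^ M.C0 ≤ M.C0 * (1 + M.nm y) ^ d0 :=
                mul_le_mul_of_nonneg_left (rpow_le_pow h6 _) hC0.le
            _ ≤ M.C0 * (1 + Cb * (1 + r) ^ D) ^ d0 := by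
                refine mul_le_mul_of_nonneg_left (pow_le_pow_left₀ (by linarith) ?_ _) hC0.le
                have : Cb * (1 + κ * r) ^ D ≤ Cb * (1 + r) ^ D :=
                  mul_le_mul_of_nonneg_left (pow_le_pow_left₀ (by positivity) (by linarith) _)
                    hCb0.le
                linarith
            _ ≤ _ := h2
      · have e1 : z = z0 * M.τ W * (M.ex v * M.ex y) := by
          rw [mul_assoc, ← hg]; group
        rw [e1, hxe, hxe']
        congr 1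
        unfold prS
        rw [← List.prod_append, ← List.ofFn_fin_append]
        congr 2
        funext t
        refine Fin.addCases (fun t => ?_) (fun t => ?_) t
        · simp only [Fin.append_left]
          unfold gcS
          rw [M.gR_ne (M.jE_ne t), mul_div_cancel₀ _ (Real.exp_pos _).ne']
        · simp only [Fin.append_right]
          unfold gcS
          rw [M.gR_zero (M.jN_eq t), one_mul]

theorem measurable_bf (F : Γ → Γ) (b : Ht k →L[ℝ] ℝ) : Measurable fun z => b (M.f F z) := by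
  intro B hB
  exact M.measurableSet_cells {g | b (M.θ (M.inG (F g))) ∈ B}

theorem gcS_add (u : ℝ) (i : M.ι) (x y : ℝ) : M.gcS u i (x + y) = M.gcS u i x * M.gcS u i y := by
  unfold gcS
  rw [mul_add, M.ex_add]

theorem gcS_zero (u : ℝ) (i : M.ι) : M.gcS u i 0 = 1 := by
  unfold gcS
  rw [mul_zero, zero_smul, M.ex_zero]

theorem gcS_meas (u : ℝ) (i : M.ι) : Measurable fun q : S × ℝ => q.1 * M.gcS u i q.2 := by
  have h := M.ex_meas (M.X i)
  have h2 : Measurable fun q : S × ℝ => (q.1, M.gR u i * q.2) :=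
    measurable_fst.prodMk (measurable_snd.const_mul _)
  exact h.comp h2

theorem gcS_len {c r : ℝ} (hc : 0 < c) (hr : 0 ≤ r) (i : M.ι) (x : ℝ) (hx : |x| ≤ 1) :
    (M.l (M.gcS (c * r) i x) : ℝ) ≤ M.C0 * (2 + c * r) := by
  have hC0 := M.C0_pos
  unfold gcS
  by_cases hi : M.wt i = 0
  · rw [M.gR_zero hi, one_mul]
    refine (M.met_V _).trans ?_
    have h1 : M.nm (x • M.X i) ≤ 1 := by
      rw [map_smul_eq_mul, Real.norm_eq_abs]
      have := M.X_le i
      have h0 := M.nm_nonneg (M.X i)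
      nlinarith [abs_nonneg x]
    have : 0 ≤ c * r := by positivity
    refine mul_le_mul_of_nonneg_left (by linarith) hC0.le
  · rw [M.gR_ne hi]
    have hmem : (Real.exp (c * r) * x) • M.X i ∈ M.e :=
      M.e.smul_mem _ (M.Vw_e _ hi (M.X_mem i))
    refine (M.met_e _ hmem).trans (mul_le_mul_of_nonneg_left ?_ hC0.le)
    have h1 : M.nm ((Real.exp (c * r) * x) • M.X i) ≤ Real.exp (c * r) := by
      rw [map_smul_eq_mul, Real.norm_eq_abs, abs_mul, abs_of_pos (Real.exp_pos _)]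
      have := M.X_le i
      have h0 := M.nm_nonneg (M.X i)
      have h2 : |x| * M.nm (M.X i) ≤ 1 := by nlinarith [abs_nonneg x]
      have h3 := Real.exp_pos (c * r)
      nlinarith
    have h2 : Real.log (1 + M.nm ((Real.exp (c * r) * x) • M.X i)) ≤ 1 + c * r := by
      rw [Real.log_le_iff_le_exp (by have := M.nm_nonneg ((Real.exp (c * r) * x) • M.X i); linarith),
        Real.exp_add]
      have h3 : (2 : ℝ) ≤ Real.exp 1 := by have := Real.add_one_le_exp (1 : ℝ); linarith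
      have h4 : 1 ≤ Real.exp (c * r) := Real.one_le_exp (by positivity)
      nlinarith
    linarith

/-- contracting paths in the model -/
theorem gcS_paths {A c r : ℝ} (hc : 0 < c) (hr : 0 ≤ r) (γ : M.ι → ℕ → S) (m : ℕ)
    (h1 : ∀ i, γ i 0 = 1)
    (h2 : ∀ i, ∀ n < m, (M.l ((γ i n)⁻¹ * γ i (n + 1)) : ℝ) ≤ A)
    (h3 : ∀ i, M.wt i = 0 → ∀ n, γ i n = 1)
    (h4 : ∀ i, M.wt i ≠ 0 → M.nm (M.Ad (γ i m)⁻¹ (M.X i)) ≤ Real.exp (-(c * r))) :
    Paths (fun z => (M.l z : ℝ)) (M.gcS (c * r)) γ m (2 * M.C0) |A| (M.C0 * (2 + c * r)) where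
  d0 := by have := M.C0_pos; positivity
  lt0 := abs_nonneg A
  one := h1
  stepl i k hk := (h2 i k hk).trans (le_abs_self A)
  merge i x hx := by
    have hC0 := M.C0_pos
    have e : (γ i m)⁻¹ * M.gcS (c * r) i x * γ i m =
        M.ex (M.Ad (γ i m)⁻¹ ((M.gR (c * r) i * x) • M.X i)) := by
      rw [M.ex_Ad, inv_inv]; rfl
    show (M.l _ : ℝ) ≤ _
    rw [e]
    refine (M.met_V _).trans ?_
    have h5 : M.nm (M.Ad (γ i m)⁻¹ ((M.gR (c * r) i * x) • M.X i)) ≤ 1 := by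
      rw [map_smul, map_smul_eq_mul, Real.norm_eq_abs, abs_mul]
      by_cases hi : M.wt i = 0
      · rw [M.gR_zero hi, h3 i hi m, inv_one, map_one, abs_one, one_mul]
        have := M.X_le i
        have h0 := M.nm_nonneg (M.X i)
        show |x| * M.nm (M.X i) ≤ 1
        nlinarith [abs_nonneg x]
      · rw [M.gR_ne hi, abs_of_pos (Real.exp_pos _)]
        have h6 := h4 i hi
        have h7 : Real.exp (c * r) * Real.exp (-(c * r)) = 1 := by
          rw [← Real.exp_add, add_neg_cancel, Real.exp_zero]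
        have h8 := Real.exp_pos (c * r)
        have h0 := M.nm_nonneg (M.Ad (γ i m)⁻¹ (M.X i))
        calc Real.exp (c * r) * |x| * M.nm (M.Ad (γ i m)⁻¹ (M.X i))
            ≤ Real.exp (c * r) * 1 * Real.exp (-(c * r)) := by
              refine mul_le_mul (mul_le_mul_of_nonneg_left hx h8.le) h6 h0 (by positivity)
          _ = 1 := by rw [mul_one, h7]
    calc M.C0 * (1 + M.nm (M.Ad (γ i m)⁻¹ ((M.gR (c * r) i * x) • M.X i)))
        ≤ M.C0 * (1 + 1) := mul_le_mul_of_nonneg_left (by linarith) hC0.le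
      _ = 2 * M.C0 := by ring
  len i x hx := M.gcS_len hc hr i x hx

/-- **GCL with an arbitrary enlargement constant `C₁`.** -/
def GCLp : Prop := ∀ K A c C₁ : ℝ, 0 < c → ∃ (η c₀ CR r₀ : ℝ), 0 < η ∧ 0 < c₀ ∧
  ∀ r : ℝ, r₀ ≤ r →
  ∀ F F' : Γ → Γ, M.QIm K F F' → ∀ b ∈ M.Φ, ∀ D Dp : Set S, M.Fat (CR * r) C₁ D Dp →
  ∀ (γ : M.ι → ℕ → S) (m : ℕ), (m : ℝ) ≤ Real.exp (η * r) → (∀ i, γ i 0 = 1) →
  (∀ i, ∀ n < m, (M.l ((γ i n)⁻¹ * γ i (n + 1)) : ℝ) ≤ A) →
  (∀ i, M.wt i = 0 → ∀ n, γ i n = 1) →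
  (∀ i, M.wt i ≠ 0 → M.nm (M.Ad (γ i m)⁻¹ (M.X i)) ≤ Real.exp (-(c * r))) →
  M.μ (D ∩ M.TolP (fun z => b (M.f F z)) γ m (η * r)) ≤
    ENNReal.ofReal (Real.exp (-(c₀ * r))) * M.μ D

/-- the final computation -/
private lemma final_comp {Mn nι m' : ℕ} {θ B : ℝ} {x y : ENNReal} (hθ : 0 ≤ θ)
    (hy : y ≤ (m' : ENNReal) * x) (hB : (Mn : ℝ) * (1 + nι * m') * θ ≤ B) :
    (Mn : ENNReal) * (ENNReal.ofReal θ * x + (nι : ENNReal) * (ENNReal.ofReal θ * y)) ≤
      ENNReal.ofReal B * x := by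
  have e1 : (Mn : ENNReal) * (ENNReal.ofReal θ * x + (nι : ENNReal) * (ENNReal.ofReal θ * y)) ≤
      ((Mn : ENNReal) * (1 + (nι : ENNReal) * m') * ENNReal.ofReal θ) * x := by
    calc (Mn : ENNReal) * (ENNReal.ofReal θ * x + (nι : ENNReal) * (ENNReal.ofReal θ * y))
        ≤ (Mn : ENNReal) * (ENNReal.ofReal θ * x +
          (nι : ENNReal) * (ENNReal.ofReal θ * ((m' : ENNReal) * x))) := by gcongr
      _ = _ := by ring
  refine e1.trans ?_
  gcongr
  have e2 : (Mn : ENNReal) * (1 + (nι : ENNReal) * m') * ENNReal.ofReal θ =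
      ENNReal.ofReal ((Mn : ℝ) * (1 + nι * m') * θ) := by
    rw [ENNReal.ofReal_mul (by positivity), ENNReal.ofReal_mul (Nat.cast_nonneg _),
      ENNReal.ofReal_natCast, ENNReal.ofReal_add (by norm_num) (by positivity),
      ENNReal.ofReal_one, ENNReal.ofReal_mul (Nat.cast_nonneg _), ENNReal.ofReal_natCast,
      ENNReal.ofReal_natCast]
  rw [e2]
  exact ENNReal.ofReal_le_ofReal hB

/-- the inequality of the number of cells in `ENNReal` -/
private lemma enn_ineq {N q m' : ℕ} {C θ : ℝ} (hC : 0 ≤ C) (hθ : 0 < θ)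
    (h : (N : ℝ) * (C * m') < 2 ^ q * θ) :
    (N : ENNReal) * (ENNReal.ofReal C * m') < 2 ^ q * ENNReal.ofReal θ := by
  have e1 : (N : ENNReal) * (ENNReal.ofReal C * m') = ENNReal.ofReal ((N : ℝ) * (C * m')) := by
    rw [ENNReal.ofReal_mul (Nat.cast_nonneg _), ENNReal.ofReal_natCast,
      ENNReal.ofReal_mul hC, ENNReal.ofReal_natCast]
  have e2 : (2 : ENNReal) ^ q * ENNReal.ofReal θ = ENNReal.ofReal (2 ^ q * θ) := by
    rw [ENNReal.ofReal_mul (by positivity), ENNReal.ofReal_pow (by norm_num)]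
    norm_num
  rw [e1, e2]
  exact (ENNReal.ofReal_lt_ofReal_iff (by positivity)).2 h

/-- **GCL in the model**, general form. -/
theorem gclp_of_spread (hS : M.SPREAD) : M.GCLp := by
  classical
  intro K A c C₁ hc
  obtain ⟨C, hC, HS⟩ := hS K
  obtain ⟨nf, hf⟩ := fillQ M.ι M.cls
  obtain ⟨K', hK', hfill⟩ := hf (M.mE + M.mN)
  obtain ⟨κ, hκ, hcov⟩ := M.cover c hc
  have hC0 := M.C0_pos
  have hCpos : 0 < C := by linarith
  obtain ⟨m', hm'⟩ : ∃ m' : ℕ, m' = ⌈1 + C₁⌉₊ := ⟨_, rfl⟩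
  obtain ⟨η, c1, ε, Mn, hη, hc1, hε, hMn2, hMn, hev⟩ := GclNum.params (C := C) (κ := κ) hC hκ K' m'
    (nf + nf) (Nat.card M.ι) (a := C * (1 + 2 * M.C0 + |A|)) (B := C * (2 * M.C0 + |A|))
    (B0 := C * (M.C0 * (2 + c))) (by positivity)
  obtain ⟨r₀, hr₀⟩ := (((hev.and (hcov ε hε))).and
    (eventually_ge_atTop (1 : ℝ))).exists_forall_of_atTop
  refine ⟨η, c1 / 2, κ + M.C0 * (2 + c), r₀, hη, by positivity, ?_⟩
  intro r hr F F' hF b hb D Dp hD γ m hm hγ0 hγ1 hγ2 hγ3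
  obtain ⟨⟨⟨q, j, hq, hlt, hbig, hfin⟩, h5⟩, h6⟩ := hr₀ r hr
  have hr0 : 0 ≤ r := by linarith
  obtain ⟨X, hX, hsp⟩ := HS F F' hF b hb
  have hθ0 : 0 < Real.exp (-(c1 * r)) := Real.exp_pos _
  have hθ1 : Real.exp (-(c1 * r)) ≤ 1 := Real.exp_le_one_iff.2 (by
    have : 0 ≤ c1 * r := by positivity
    linarith)
  have hCI0 : 0 ≤ Real.exp (ε * r) := (Real.exp_pos _).le
  have hCR1 : κ * r ≤ (κ + M.C0 * (2 + c)) * r := by
    have : 0 ≤ M.C0 * (2 + c) * r := by positivity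
    nlinarith
  have hCR2 : M.C0 * (2 + c * r) ≤ (κ + M.C0 * (2 + c)) * r := by
    have h7 : M.C0 * (2 + c * r) ≤ M.C0 * ((2 + c) * r) :=
      mul_le_mul_of_nonneg_left (by nlinarith) hC0.le
    have : 0 ≤ κ * r := by positivity
    nlinarith
  have P := M.gcS_paths (A := A) hc hr0 γ m hγ0 hγ1 hγ2 hγ3
  have hμp : M.μ Dp ≤ (m' : ℕ) * M.μ D := by
    refine hD.le.trans (mul_le_mul_left ?_ _)
    rw [← ENNReal.ofReal_natCast]
    apply ENNReal.ofReal_le_ofReal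
    rw [hm']
    exact Nat.le_ceil _
  have hMr : C * (M.C0 * (2 + c * r)) ≤ ((Mn : ℝ) - 2) * (η * r) := by
    have h7 : M.C0 * (2 + c * r) ≤ M.C0 * ((2 + c) * r) :=
      mul_le_mul_of_nonneg_left (by nlinarith) hC0.le
    have h8 := mul_le_mul_of_nonneg_left h7 hCpos.le
    have h9 := mul_le_mul_of_nonneg_right hMn hr0
    linarith
  have hbig' := hbig m hm
  have hbig2 : 2 * (((nf + nf : ℕ) : ℝ) * ((2 * (m : ℝ) + 1) * (C * (1 + 2 * M.C0 + |A|) *
      Real.exp (2 * (η * r) + C * (2 * M.C0 + |A|))))) ≤ Real.exp ((j : ℝ) - C) := hbig'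
  have hmain := gcl_core M.μ hX P (M.gcS_add (c * r)) (M.gcS_zero (c * r)) (M.gcS_meas (c * r))
    (fun i x => M.mp _) (M.measurable_bf F b)
    (fun i k => (M.measurable_bf F b).comp (M.mp (γ i k)).measurable)
    (τ := η * r) (by positivity) (M := Mn) hMn2 hMr
    (DD := D) (Dq := Dp) hD.meas hD.meas'
    (fun z hz i x hx => hD.sub z hz _ ((M.gcS_len hc hr0 i x hx).trans hCR2))
    (θ := ENNReal.ofReal (Real.exp (-(c1 * r)))) (θ' := ENNReal.ofReal (Real.exp (-(c1 * r))))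
    (n := nf + nf) (N0 := ⌊((K' : ℝ) * (1 + Real.exp (ε * r)) / Real.exp (-(c1 * r))) ^ K'⌋₊)
    (N := ⌊Real.exp (ε * r)⌋₊ * ⌊((K' : ℝ) * (1 + Real.exp (ε * r)) /
        Real.exp (-(c1 * r))) ^ K'⌋₊)
    (p := ⌊Real.exp (ε * r)⌋₊)
    (cI := M.mE + M.mN) (CI := Real.exp (ε * r)) (κ0 := (j : ℝ) - C)
    (B := fun z0 => {z | (M.l (z0⁻¹ * z) : ℝ) ≤ C * (q + 1)})
    (by
      intro G hG hw z0
      obtain ⟨T, hT1, hT2, hT3⟩ := hfill _ hθ0 hθ1 _ hCI0 S (M.gcS (c * r)) (M.rel _)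
        (M.gcS_meas (c * r)) G hG hw z0
      exact ⟨T, Nat.le_floor hT1, hT3⟩)
    (by
      intro z0
      obtain ⟨T, hT1, hT2⟩ := h5 z0
      exact ⟨T, Nat.le_floor hT1, fun z hz => hT2 z (le_trans hz.2 hq)⟩)
    le_rfl
    (by
      intro Γ₀ hΓ hΓD hΓθ hΓ0
      obtain ⟨z0, hz0⟩ := hsp q j _ m' (ENNReal.ofReal (Real.exp (-(c1 * r)))) D Dp hD.fin hμp
        (fun z hz g hg => hD.sub z hz g (hg.trans (hq.trans hCR1)))
        (enn_ineq hCpos.le hθ0 hlt) Γ₀ hΓ hΓD hΓθ hΓ0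
      refine ⟨z0, fun Y φ hY hφ => ?_⟩
      obtain ⟨z, hz, z', hz', e1, _, e3⟩ := hz0 Y φ hY hφ
      exact ⟨z, hz, z', hz', e1, e3⟩)
    hbig2
  refine le_trans (le_trans (le_of_eq rfl) hmain) ?_
  exact final_comp hθ0.le hμp hfin

theorem gcl_of_gclp (h : M.GCLp) : M.GCL := fun K A c hc => h K A c 1 hc

/-- **GCL in the model.** -/
theorem gcl_of_spread (hS : M.SPREAD) : M.GCL := M.gcl_of_gclp (M.gclp_of_spread hS)

end RModel

end Vale.Agent.P188.Z1
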