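import Vale.Agent.P188.H615.GeoE2
import Vale.Agent.P188.H616.M1

/-!
# P188, route B: the windows of `Geo` and the windows of the real model

`hfun Rd ρ x` is the support function of the window of scale `x` with extents `ρ`.
-/

set_option linter.all false

open MeasureTheory Set
open Vale.Agent.P188.H615 (RayD)

namespace Vale.Agent.P188.Z1

variable {S : Type} [Group S] [MeasurableSpace S] {Γ : Type} [Group Γ]
  {V : Type} [AddCommGroup V] [Module ℝ V] {k : ℕ} {M : RModel S Γ V k} {J : Type}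

namespace InB

/-- the support function of the window with extents `ρ` at scale `x` -/
noncomputable def hfun (Rd : RayD M J) (ρ : Option J → ℝ) (x : ℝ) (b : Ht k →L[ℝ] ℝ) : ℝ :=
  open Classical in
  if h : ∃ j : J, ∃ t : ℝ, 0 < t ∧ b = t • Rd.b j then
    h.choose_spec.choose * ρ (some h.choose) / x else 0

theorem hfun_eq (Rd : RayD M J) (ρ : Option J → ℝ) (x : ℝ) {b : Ht k →L[ℝ] ℝ} {j : J} {t : ℝ}
    (ht : 0 < t) (hb : b = t • Rd.b j) : hfun Rd ρ x b = t * ρ (some j) / x := by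
  classical
  have h : ∃ j : J, ∃ t : ℝ, 0 < t ∧ b = t • Rd.b j := ⟨j, t, ht, hb⟩
  have key : ∀ (j' : J) (t' : ℝ), 0 < t' ∧ b = t' • Rd.b j' →
      t' * ρ (some j') / x = t * ρ (some j) / x := by
    rintro j' t' ⟨ht0, hb'⟩
    have h2 : Rd.b j' = (t'⁻¹ * t) • Rd.b j := by
      rw [mul_smul, ← hb, hb', inv_smul_smul₀ ht0.ne']
    have h3 : j' = j := Rd.uniq _ _ _ (mul_pos (inv_pos.2 ht0) ht) h2
    subst h3
    have h4 : t' = t := by
      have : t' • Rd.b j' = t • Rd.b j' := by rw [← hb', hb]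
      exact smul_left_injective ℝ (Rd.b_ne j') this
    rw [h4]
  unfold hfun
  rw [dif_pos h]
  exact key _ _ h.choose_spec.choose_spec

/-- the sizes agree -/
theorem szh_hfun (Rd : RayD M J) {ρ : Option J → ℝ} {d x : ℝ} (hx : 0 < x)
    (hρ : ρ none = d * x) : M.szh (hfun Rd ρ x) d x = Rd.sz ρ := by
  classical
  funext a
  unfold RModel.szh RayD.sz
  rcases h : Rd.ray a with _ | j
  · rw [if_pos (Rd.wt_none a h), Rd.τ_none a h, hρ, one_mul]
  · have h1 := Rd.wt_some a j h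
    have h2 : M.wt a ≠ 0 := by
      intro h0
      rw [h0] at h1
      exact Rd.b_ne j ((smul_eq_zero.1 h1.symm).resolve_left (Rd.τ_pos a).ne')
    rw [if_neg h2, hfun_eq Rd ρ x (Rd.τ_pos a) h1]
    congr 1
    field_simp

/-- `b = t b_j`, `t` bounded -/
theorem exists_T [Finite J] (Rd : RayD M J) : ∃ T : ℝ, 1 ≤ T ∧ ∀ b ∈ M.Φ, ∀ j : J, ∀ t : ℝ, 0 < t →
    b = t • Rd.b j → t ≤ T ∧ 1 / T ≤ t := by
  classical
  obtain ⟨e₀, he0, he⟩ := RModel.F6.exists_en_lower M
  set N : ℝ := 1 + ∑ b ∈ M.Φ, en b with hN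
  have hNb : ∀ b ∈ M.Φ, en b ≤ N := by
    intro b hb
    have : en b ≤ ∑ b ∈ M.Φ, en b :=
      Finset.single_le_sum (f := fun b => en b) (fun b _ => RModel.F6.en_nonneg b) hb
    linarith
  have hN1 : 1 ≤ N := by
    have : 0 ≤ ∑ b ∈ M.Φ, en b := Finset.sum_nonneg fun b _ => RModel.F6.en_nonneg b
    linarith
  refine ⟨max 1 (N / e₀), le_max_left _ _, fun b hb j t ht h => ?_⟩
  have h1 := he b hb
  have h2 := he _ (Rd.mem j)
  have h3 := hNb b hb
  have h4 := hNb _ (Rd.mem j)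
  rw [h, RModel.F6.en_smul t ht.le] at h1 h3
  have hT : 0 < max 1 (N / e₀) := lt_max_of_lt_left one_pos
  have h5 : t ≤ N / e₀ := by
    rw [le_div_iff₀ he0]
    nlinarith
  refine ⟨h5.trans (le_max_right _ _), ?_⟩
  rw [div_le_iff₀ hT]
  have h6 : 1 ≤ t * (N / e₀) := by
    rw [← mul_div_assoc, le_div_iff₀ he0]
    nlinarith
  exact h6.trans (mul_le_mul_of_nonneg_left (le_max_right _ _) ht.le)

/-- **the windows close to the Euclidean one are good** -/
theorem exists_win [Finite J] (Rd : RayD M J) : ∃ c δ₀ : ℝ, 0 < c ∧ 0 < δ₀ ∧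
    ∀ (ρ : Option J → ℝ) (x : ℝ), 0 < x →
    (∀ j, |ρ (some j) - x * en (Rd.b j)| ≤ δ₀ * x) → M.HGood c (hfun Rd ρ x) := by
  obtain ⟨c, δ, hc, hδ, H⟩ := RModel.F6.exists_hgood M
  obtain ⟨T, hT1, hT⟩ := exists_T Rd
  have hT0 : 0 < T := by linarith
  refine ⟨c, δ / T, hc, by positivity, fun ρ x hx hρ => H _ ?_ ?_⟩
  · intro b hb
    obtain ⟨j, t, ht, h⟩ := Rd.surj b hb
    rw [hfun_eq Rd ρ x ht h, h, RModel.F6.en_smul t ht.le]
    have h1 := hρ j
    have h2 := (hT b hb j t ht h).1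
    have h3 : t * ρ (some j) / x - t * en (Rd.b j) =
        t * ((ρ (some j) - x * en (Rd.b j)) / x) := by
      field_simp
    rw [h3, abs_mul, abs_of_pos ht, abs_div, abs_of_pos hx]
    have h4 : |ρ (some j) - x * en (Rd.b j)| / x ≤ δ / T := by
      rw [div_le_iff₀ hx]; exact h1
    calc t * (|ρ (some j) - x * en (Rd.b j)| / x) ≤ T * (δ / T) :=
          mul_le_mul h2 h4 (by positivity) hT0.le
      _ = δ := by field_simp
  · intro b hb b' hb' t ht h
    obtain ⟨j, u, hu, h1⟩ := Rd.surj b hb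
    have h2 : b' = (t * u) • Rd.b j := by rw [h, h1, smul_smul]
    rw [hfun_eq Rd ρ x (mul_pos ht hu) h2, hfun_eq Rd ρ x hu h1]
    ring

end InB

end Vale.Agent.P188.Z1
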