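import Vale.Agent.P188.Z1.InB2

/-!
# P188, route B: the hypothesis INPUT of `Geo` from FLAT1 and NEUT
-/

set_option linter.all false

open MeasureTheory Set Filter Topology
open Vale.Agent.P188.H615 (RayD)
open Vale.P188.H532 (Geo Input IsC NFl Wd)
open scoped ENNReal

namespace Vale.Agent.P188.Z1

variable {S : Type} [Group S] [MeasurableSpace S] {Γ : Type} [Group Γ]
  {V : Type} [AddCommGroup V] [Module ℝ V] {k : ℕ} {M : RModel S Γ V k}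
  {J L : Type} [Fintype J] [DecidableEq J] [Fintype L]

namespace InB

open RModel

variable {B : M.NatBox} {Rd : RayD M J} {G : Geo S M.NR (Ht k) J L} {δ₁ : ℝ}

/-- constants of the directions -/
theorem FitsI.dirs (hG : FitsI B Rd G δ₁) : ∃ (n0 : ℕ) (β0 : ℝ), 0 < β0 ∧
    (∀ i, G.t i ∈ M.CB n0) ∧ ∀ i, β0 ≤ Rd.b i (M.θ (G.t i)) := by
  classical
  obtain ⟨v, hv⟩ := hG.t
  have hpos : ∀ i, 0 < Rd.b i (M.θ (G.t i)) := fun i => by
    have := G.t_pos i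
    rwa [hG.b, hG.θ] at this
  have h1 : ∃ n0 : ℕ, ∀ i, G.t i ∈ M.CB n0 := by
    refine ⟨Finset.univ.sup fun i => ⌈M.C0 * (1 + ‖(fun j => ((v i j : ℤ) : ℝ))‖)⌉₊, fun i => ?_⟩
    rw [hv i]
    exact M.CB_mono (Finset.le_sup (f := fun i => ⌈M.C0 * (1 + ‖(fun j => ((v i j : ℤ) : ℝ))‖)⌉₊)
      (Finset.mem_univ i)) (M.τ_CB (v i))
  obtain ⟨n0, hn0⟩ := h1
  rcases isEmpty_or_nonempty J with hJ | hJ
  · exact ⟨n0, 1, one_pos, hn0, fun i => (hJ.false i).elim⟩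
  · obtain ⟨i0, -, h0⟩ := Finset.exists_min_image Finset.univ (fun i => Rd.b i (M.θ (G.t i)))
      Finset.univ_nonempty
    exact ⟨n0, _, hpos i0, hn0, fun i => h0 i (Finset.mem_univ _)⟩

/-- the window condition for the truncated power -/
theorem FitsI.win_ok (hG : FitsI B Rd G δ₁) {x κ : ℝ} {ρ : Option J → ℝ} (hx : 0 < x)
    (hκ0 : 0 ≤ κ) (hκ : κ * G.C ≤ G.c1)
    (hρ : ∀ j, |ρ (some j) - x * G.p j| ≤ G.δ0 * x) {i : J} {m' : ℕ}
    (hm : m' * Rd.b i (M.θ (G.t i)) ≤ (1 - κ) * ρ (some i)) :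
    ∀ b ∈ M.Φ, b (M.θ (G.t i ^ m')) ≤ (1 - κ) * x * hfun Rd ρ x b := by
  intro b hb
  obtain ⟨j, t, ht, h⟩ := Rd.surj b hb
  rw [hfun_eq Rd ρ x ht h, θ_pow, h]
  have hρj : ∀ j, 0 ≤ ρ (some j) ∧ ρ (some j) ≤ G.C * x := by
    intro j
    have h1 := abs_le.1 (hρ j)
    have h2 := G.p_lb j
    have h3 := G.p_ub j
    have h4 := G.c1_pos
    constructor
    · nlinarith
    · nlinarith
  have key : (m' : ℝ) * Rd.b j (M.θ (G.t i)) ≤ (1 - κ) * ρ (some j) := by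
    rcases eq_or_ne j i with rfl | hne
    · exact hm
    · have h1 := G.dir i j hne x ρ hx.le hρ m'
      rw [hG.b, hG.b, hG.θ] at h1
      have h2 : (m' : ℝ) * Rd.b i (M.θ (G.t i)) ≤ ρ (some i) + G.δ0 * x := by
        have h3 : κ * ρ (some i) ≥ 0 := mul_nonneg hκ0 (hρj i).1
        have h4 : 0 ≤ G.δ0 * x := mul_nonneg G.δ0_pos.le hx.le
        linarith
      have h5 := h1 h2
      have h6 : κ * ρ (some j) ≤ G.c1 * x :=
        calc κ * ρ (some j) ≤ κ * (G.C * x) := mul_le_mul_of_nonneg_left (hρj j).2 hκ0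
          _ = κ * G.C * x := by ring
          _ ≤ G.c1 * x := mul_le_mul_of_nonneg_right hκ hx.le
      linarith
  have e1 : (t • Rd.b j) ((m' : ℝ) • M.θ (G.t i)) = t * ((m' : ℝ) * Rd.b j (M.θ (G.t i))) := by
    rw [ContinuousLinearMap.smul_apply, map_smul, smul_eq_mul, smul_eq_mul]
  have e2 : (1 - κ) * x * (t * ρ (some j) / x) = t * ((1 - κ) * ρ (some j)) := by
    field_simp
  rw [e1, e2]
  exact mul_le_mul_of_nonneg_left key ht.le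

/-- the slices along the rays -/
theorem FitsI.ray_slice (hG : FitsI B Rd G δ₁) {K η κ x A : ℝ} {n0 : ℕ} {β0 : ℝ} (hβ0 : 0 < β0)
    (hη : 0 < η)
    (hn0 : ∀ i, G.t i ∈ M.CB n0) (hβ : ∀ i, β0 ≤ Rd.b i (M.θ (G.t i)))
    {E1 Lc : ℝ} (hLc : Lc = M.C0 * K * (2 * M.C0 + 1)) (hE1 : E1 = Lc * G.C + M.C0 * G.C)
    (hκ0 : 0 < κ) (hκ1 : κ ≤ 1) (hκ : κ * G.C ≤ G.c1) (hκ2 : κ * G.C / β0 * E1 ≤ η / 4)
    (hx : 0 < x) (hx1 : E1 + Lc ≤ η / 4 * x) (hA : (n0 : ℝ) * G.C / β0 ≤ A)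
    {ρ : Option J → ℝ} (hρ : ∀ j, |ρ (some j) - x * G.p j| ≤ G.δ0 * x)
    {F F' : Γ → Γ} (hF : M.QIm K F F') {g : S} {cc : Ht k}
    (H : ∀ n : ℕ, (n : ℝ) ≤ A * x → ∀ h' ∈ M.CB n,
      (∀ b ∈ M.Φ, b (M.θ h') ≤ (1 - κ) * x * hfun Rd ρ x b) →
      M.μ {v | v ∈ B.Bx (Rd.sz ρ) ∧ η / 4 * x < ‖M.f F (g * (v * h')) - cc - M.θ h'‖} ≤
        ENNReal.ofReal (η / 4) * M.μ (B.Bx (Rd.sz ρ)))
    (i : J) (m : ℕ) (hm : m * G.b i (G.θ (G.t i)) ≤ ρ (some i)) :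
    G.ν {n | n ∈ G.N ρ ∧
        η * x < ‖Wd G (H789.lf M F) (g * G.inc n * G.t i ^ m) - (cc - M.θ g)‖} ≤
      ENNReal.ofReal η * G.ν (G.N ρ) := by
  rw [hG.b, hG.θ] at hm
  have hρi : 0 ≤ ρ (some i) ∧ ρ (some i) ≤ G.C * x := by
    have h1 := abs_le.1 (hρ i)
    have h2 := G.p_lb i
    have h3 := G.p_ub i
    have h4 := G.c1_pos
    constructor
    · nlinarith
    · nlinarith
  have hβi := hβ i
  have hβi0 : 0 < Rd.b i (M.θ (G.t i)) := by linarith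
  obtain ⟨m', hm'm, hm'1, hm'2⟩ := exists_cut (κ := κ) hβi0 hρi.1 hκ1 hm
  have hC := G.one_le_C
  have hL : 0 ≤ Lc := by
    rw [hLc]
    have := hF.K_nonneg
    have := M.one_le_C0
    positivity
  have hE : 0 ≤ E1 := by
    rw [hE1]
    have := M.one_le_C0
    positivity
  rw [max_eq_right hκ0.le] at hm'2
  have hdiff : (m : ℝ) - m' ≤ κ * G.C * x / β0 + 1 := by
    refine hm'2.trans (add_le_add_left ?_ 1)
    have h1 : κ * ρ (some i) ≤ κ * G.C * x := by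
      have := mul_le_mul_of_nonneg_left hρi.2 hκ0.le
      linarith
    calc κ * ρ (some i) / Rd.b i (M.θ (G.t i)) ≤ κ * ρ (some i) / β0 :=
          div_le_div_of_nonneg_left (mul_nonneg hκ0.le hρi.1) hβ0 hβi
      _ ≤ κ * G.C * x / β0 := by gcongr
  have ht : (M.l (G.t i) : ℝ) ≤ G.C := by
    have := G.t_le i
    rwa [hG.l] at this
  refine hG.slice (ε := η / 4) (h' := G.t i ^ m') (by linarith) (fun z => ?_)
    (H (m' * n0) ?_ _ (M.CB_pow (hn0 i) m') (hG.win_ok hx hκ0.le hκ hρ hm'1))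
  · refine (pow_err hF ht hm'm z).trans ?_
    rw [← hLc, ← hE1]
    have h1 : E1 * ((m : ℝ) - m') ≤ E1 * (κ * G.C * x / β0 + 1) :=
      mul_le_mul_of_nonneg_left hdiff hE
    have h2 : E1 * (κ * G.C * x / β0 + 1) = (κ * G.C / β0 * E1) * x + E1 := by ring
    have h3 : (κ * G.C / β0 * E1) * x ≤ η / 4 * x := mul_le_mul_of_nonneg_right hκ2 hx.le
    have h4 : (η - η / 4) * x = η / 4 * x + η / 4 * x + η / 4 * x := by ring
    have h5 : 0 ≤ η / 4 * x := by positivity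
    linarith
  · push_cast
    have h1 : (m' : ℝ) * β0 ≤ G.C * x := by
      have h2 : (m' : ℝ) * β0 ≤ m' * Rd.b i (M.θ (G.t i)) :=
        mul_le_mul_of_nonneg_left hβi (Nat.cast_nonneg _)
      have h3 : 0 ≤ κ * ρ (some i) := mul_nonneg hκ0.le hρi.1
      linarith [hρi.2]
    have h2 : (m' : ℝ) ≤ G.C * x / β0 := by rw [le_div_iff₀ hβ0]; exact h1
    calc (m' : ℝ) * n0 ≤ G.C * x / β0 * n0 := mul_le_mul_of_nonneg_right h2 (Nat.cast_nonneg _)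
      _ = (n0 : ℝ) * G.C / β0 * x := by ring
      _ ≤ A * x := mul_le_mul_of_nonneg_right hA hx.le

end InB

end Vale.Agent.P188.Z1
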