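import Vale.Agent.P188.H269.RMb2
import Vale.Agent.P188.H953.Vw
import Vale.Agent.P188.H131.ModelC
import Vale.Agent.P188.H615.Letters
import Vale.Agent.P188.Z1.Extra

/-!
# P188, Z1: existence of the real model

Assembly of the blocks RM-a (796), RM-b (269, 953, 428, 796), RM-c (131), RM-d (615).
-/

set_option linter.all false

open MeasureTheory Set
open scoped commutatorElement

namespace Vale.Agent.P188.Z1

open Vale.Agent.P188.H796 Vale.Agent.P188.H615 Vale.Agent.P188.H269 Vale.Agent.P188.H131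
open Vale.Agent.P188.H530 (hgt Crossed Mod)
open Vale.Agent.P188.H789 (Bl)

section inst

variable {Γ : Type} [Group Γ] {k : ℕ} {η : Γ →* Multiplicative (Fin k → ℤ)} {d n : ℕ}
  (D : MB η.ker d n)

/-- the sets of forms of 269 have the properties used by 953 -/
theorem forms (hη : Function.Surjective η) : H953.Forms D (WtF D hη) (ΦF D hη) where
  memW b := mem_WtF D hη
  memP b := by
    rw [mem_ΦF D hη]
    exact ⟨fun h => ⟨h.1, H953.fm_ne D hη h.1, h.2⟩, fun h => ⟨h.1, h.2.2⟩⟩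
  form b' hb' := by
    obtain ⟨b, hb⟩ := exists_clm_of_Wts D hη hb'
    exact ⟨b, funext fun s => (hb s).symm⟩

theorem Vwt_eq (hη : Function.Surjective η) (t : D.S) (b : (Fin k → ℝ) →L[ℝ] ℝ) :
    H953.Vw D t (WtF D hη) b = Vwt D hη t b := rfl

/-- **The relation between the abstract model and the concrete group.** -/
structure Conc (hη : Function.Surjective η) (F : Set Γ) (t : D.S)
    (M : RModel D.S Γ D.R.V k) : Prop where
  sep : Sep D.AdE t
  l_eq : M.l = wl (D.U F)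
  μ_eq : M.μ = muD D
  η_eq : M.η = D.θ η
  inG_eq : M.inG = D.inΓ
  nm_eq : M.nm = D.nm
  ex_eq : M.ex = D.ex
  Ad_eq : M.Ad = D.AdE
  e_eq : M.e = (eId D.AdE t).toSubmodule
  E_eq : M.E = ER (eId D.AdE t)
  Wt_eq : M.Wt = WtF D hη
  Φ_eq : M.Φ = ΦF D hη
  Vw_eq : M.Vw = Vwt D hη t
  τ_mem : ∀ w, M.τ w ∈ (HS D).C t
  τ_zero : M.τ 0 = 1
  τ_CB' : ∀ w : Fin k → ℤ, M.τ w ∈ M.CB (∑ i, (w i).natAbs)
  cls_eq : M.cls = D.R.m
  /-- the letters of weight `b` span `Vw b` -/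
  letters_span : ∀ b, (b ∈ M.Φ ∨ b = 0) → M.Vw b ≤ Submodule.span ℝ (M.X '' {i | M.wt i = b})

/-- bound of the length of the word `τ w` -/
theorem sum_natAbs_le (w : Fin k → ℤ) {C : ℝ} (hC : (k : ℝ) ≤ C) :
    ∑ i, (w i).natAbs ≤ ⌈C * (1 + ‖(fun i => (w i : ℝ))‖)⌉₊ := by
  have h1 : ((∑ i, (w i).natAbs : ℕ) : ℝ) ≤ C * (1 + ‖(fun i => (w i : ℝ))‖) := by
    push_cast
    have h2 : ∀ i, ((w i).natAbs : ℝ) ≤ ‖(fun i => (w i : ℝ))‖ := by
      intro i
      rw [Nat.cast_natAbs, Int.cast_abs]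
      exact norm_le_pi_norm (fun i => (w i : ℝ)) i
    have h3 : ∑ i, ((w i).natAbs : ℝ) ≤ k * ‖(fun i => (w i : ℝ))‖ := by
      refine (Finset.sum_le_sum fun i _ => h2 i).trans (le_of_eq ?_)
      rw [Finset.sum_const, Finset.card_univ, Fintype.card_fin, nsmul_eq_mul]
    have h4 : 0 ≤ ‖(fun i => (w i : ℝ))‖ := norm_nonneg _
    have h5 : (0 : ℝ) ≤ k := Nat.cast_nonneg k
    nlinarith
  exact_mod_cast h1.trans (Nat.le_ceil _)

/-- monotone polynomial bounds -/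
theorem poly_mono {C C' x y : ℝ} {e e' : ℕ} (hC0 : 0 ≤ C) (hC : C ≤ C') (he : e ≤ e') (hx : 1 ≤ x)
    (hy : 0 ≤ y) : C * x ^ e * y ≤ C' * x ^ e' * y := by
  have h1 : x ^ e ≤ x ^ e' := pow_le_pow_right₀ hx he
  have h2 : 0 ≤ x ^ e := pow_nonneg (by linarith) _
  exact mul_le_mul_of_nonneg_right (mul_le_mul hC h1 h2 (hC0.trans hC)) hy

/-- **Existence of the real model.** -/
theorem exists_rmodel (hη : Function.Surjective η) {F : Set Γ} (hF : F.Finite)
    (hgen : Subgroup.closure F = ⊤)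
    (hspan : ∀ w : Fin k → ℝ, (∀ b ∈ ΦF D hη, b w = 0) → w = 0)
    (hdet : ∀ s : D.S, |LinearMap.det (D.AdE s)| = 1) :
    ∃ (t : D.S) (M : RModel D.S Γ D.R.V k), Conc D hη F t M := by
  classical
  have habel := comm_mem_ker η
  haveI := (HS D).normal
  haveI hcount : Countable Γ := countable_of_gen hF hgen
  obtain ⟨t, hs⟩ := (HS D).lrep.exists_sep
  have hfm := forms D hη
  -- the ideal
  have hinv : ∀ g, ∀ x ∈ eId D.AdE t, D.AdE g x ∈ eId D.AdE t := (HS D).lrep.eId_inv t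
  have hmet : Met D (wl (D.U F)) (eId D.AdE t) := met_of hη hF hgen hinv
    ((HS D).lrep.mem_PF_iff hs (covers_of_sep hs))
  -- the Cartan group
  obtain ⟨τ, hτC, hτη, hτ0, hτCB⟩ := exists_τ (D.θ η) ((HS D).C t) (fun w => exists_C D hη w)
  -- constants
  obtain ⟨CA, hA⟩ := D.exists_partA hη hF hgen
  obtain ⟨fl, CC, hC⟩ := exists_partC (D := D) hF hgen
  obtain ⟨F₁, hF₁⟩ := exists_F1 D hη
  obtain ⟨F0, hF0, C₀, hC₀, hFC₀⟩ := exists_F D
  obtain ⟨A, hAF, ⟨md⟩, MA, hMA1, hMA⟩ := exists_A hη hF hgen F₁ hF0 hC₀ hFC₀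
  obtain ⟨Cm, hCm0, hCm⟩ := hmet.met_e
  obtain ⟨Cl, el, hCl0, hCl⟩ := hfm.C_le habel hs hτC
  obtain ⟨Ck, ek, hCk0, hCk⟩ := H796.C_ker D habel hs hτC hτη
  obtain ⟨K, hK⟩ := H796.dec D habel hF hgen hτC hτη (fun w => ⟨_, hτCB D.nm _ D.ex w⟩)
  obtain ⟨ι, hι, X, wt, hwt, hX, hX1, hwts, hspn⟩ :=
    exists_letters D.nm (insert 0 (ΦF D hη)) (Vwt D hη t)
  obtain ⟨mE, jE, CE, hjE, hCE1, hCE⟩ := gen_field (D := D) X (fun i => wt i ∈ ΦF D hη)
    (eId D.AdE t).toSubmodule (fun v hv => mem_lieSpan_letters (fun b => b ∈ ΦF D hη)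
      (fun b hb => hspn b (Finset.mem_insert_of_mem hb)) (gen_e D hη hs v hv))
  obtain ⟨mN, jN, CN, hjN, hCN1, hCN⟩ := gen_field (D := D) X (fun i => wt i = 0)
    (Vwt D hη t 0) (fun v hv => mem_lieSpan_letters (Vw := Vwt D hη t) (fun b => b = 0)
      (fun b hb => by rw [hb]; exact hspn 0 (Finset.mem_insert_self _ _))
      (LieSubalgebra.subset_lieSpan ⟨0, rfl, hv⟩))
  obtain ⟨mult, hmult, hsum⟩ := hfm.exists_mult habel hη hs hdet
  have hk0 : (0 : ℝ) ≤ k := Nat.cast_nonneg k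
  have hK0 : (0 : ℝ) ≤ K := Nat.cast_nonneg K
  have hCA1 := hA.one_le
  have hCC1 := hC.one_le
  set C : ℝ := CA + CC + MA + Cm + Cl + Ck + CE + CN + k + K with hCdef
  have hV0 : ∀ n : ℕ, CBall D.nm (Vwt D hη t 0 : Set D.R.V) D.ex τ n =
      CBall D.nm (W D.AdE t 0 : Set D.R.V) D.ex τ n := fun n => by rw [Vwt_zero]
  have hA' := hA.mono D (C' := C) (by linarith)
  have hC' := hC.mono (C' := C) (by linarith)
  have hMA' := hMA C (by linarith)
  have f_met := hCm C (by linarith)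
  have f_mem_E : ∀ s, s ∈ ER (eId D.AdE t) ↔ ∃ v ∈ (eId D.AdE t).toSubmodule, D.ex v = s :=
    fun s => mem_ER_ex s
  have f_crossed : ∀ b ∈ ΦF D hη, ∃ c : Crossed (hgt ((D.θ η).comp D.inΓ)) b, c.u ∈ A := by
    intro b hb
    obtain ⟨c, hc⟩ := hF₁ b hb
    exact ⟨c, hAF hc⟩
  have f_C_inv : ∀ n, ∀ c ∈ CBall D.nm (Vwt D hη t 0 : Set D.R.V) D.ex τ n, ∀ b,
      ∀ v ∈ Vwt D hη t b, D.AdE c v ∈ Vwt D hη t b := by
    intro n c hc b v hv
    rw [hV0] at hc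
    exact Vwt_inv D hη (CBall_le_C D habel hτC hc) hv
  have f_C_le : ∀ n : ℕ, ∀ c ∈ CBall D.nm (Vwt D hη t 0 : Set D.R.V) D.ex τ n,
      ∀ b ∈ WtF D hη, ∀ v ∈ Vwt D hη t b,
      D.nm (D.AdE c v) ≤ C * (1 + n) ^ (el + ek) * Real.exp (b (hgt (D.θ η) c)) * D.nm v := by
    intro n c hc b hb v hv
    have h1 := hCl n c hc b hb v hv
    rw [mul_assoc] at h1 ⊢
    refine h1.trans (poly_mono hCl0 (by linarith) (Nat.le_add_right _ _) ?_ ?_)
    · linarith [(Nat.cast_nonneg n : (0 : ℝ) ≤ n)]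
    · exact mul_nonneg (Real.exp_pos _).le (apply_nonneg D.nm _)
  have f_C_ker : ∀ n : ℕ, ∀ c ∈ CBall D.nm (Vwt D hη t 0 : Set D.R.V) D.ex τ n, D.θ η c = 1 →
      ∃ v ∈ Vwt D hη t 0, D.ex v = c ∧ D.nm v ≤ C * (1 + n) ^ (el + ek) := by
    intro n c hc h1
    rw [hV0] at hc
    obtain ⟨v, hv, hvc, hvn⟩ := hCk n c hc h1
    refine ⟨v, by rw [Vwt_zero]; exact hv, hvc, hvn.trans ?_⟩
    have := poly_mono (y := 1) (x := 1 + (n : ℝ)) hCk0 (C' := C) (by linarith)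
      (Nat.le_add_left ek el) (by linarith [(Nat.cast_nonneg n : (0 : ℝ) ≤ n)]) zero_le_one
    rwa [mul_one, mul_one] at this
  have f_τ_CB' : ∀ w : Fin k → ℤ, τ w ∈ CBall D.nm (Vwt D hη t 0 : Set D.R.V) D.ex τ
      (∑ i, (w i).natAbs) := fun w => hτCB D.nm _ D.ex w
  have f_τ_CB : ∀ w : Fin k → ℤ, τ w ∈ CBall D.nm (Vwt D hη t 0 : Set D.R.V) D.ex τ
      ⌈C * (1 + ‖(fun i => (w i : ℝ))‖)⌉₊ := fun w =>
    CBall_mono (sum_natAbs_le w (by linarith)) (f_τ_CB' w)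
  have f_dec : ∀ s, ∃ v ∈ (eId D.AdE t).toSubmodule,
      ∃ c ∈ CBall D.nm (Vwt D hη t 0 : Set D.R.V) D.ex τ ⌈C * wl (D.U F) s⌉₊, s = D.ex v * c := by
    intro s
    obtain ⟨v, hv, c, hc, e⟩ := hK s
    refine ⟨v, hv, c, ?_, e⟩
    rw [hV0]
    refine CBall_mono ?_ hc
    have h1 : ((K * wl (D.U F) s : ℕ) : ℝ) ≤ C * wl (D.U F) s := by
      push_cast
      exact mul_le_mul_of_nonneg_right (by linarith) (Nat.cast_nonneg _)
    exact_mod_cast h1.trans (Nat.le_ceil _)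
  have f_gen_e := hCE C (by linarith)
  have f_gen_N := hCN C (by linarith)
  have f_wt : ∀ i, wt i ∈ ΦF D hη ∨ wt i = 0 := fun i =>
    (Finset.mem_insert.1 (hwt i)).symm
  refine ⟨t, {
    C0 := C
    one_le_C0 := by linarith
    l := wl (D.U F)
    len := hA'.len
    l_zero := hA'.l_zero
    l_path := hA'.l_path
    μ := muD D
    sfin := hC'.sfin
    mm := mm
    mi := mi
    mp := hC'.mp
    mpl := hC'.mpl
    ball_pos := hC'.ball_pos
    ball_lt := hC'.ball_lt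
    η := D.θ η
    η_surj := D.θ_surjective hη
    η_meas := hC'.η_meas
    η_le := hA'.η_le
    inG := D.inΓ
    inG_inj := D.P.inG_injective
    countable := hcount
    fl := fl
    fl_mul := hC'.fl_mul
    fl_meas := hC'.fl_meas
    fl_close := hC'.fl_close
    A := A
    md := md
    A_len := hMA'.1
    wordG := hMA'.2
    nm := D.nm
    nm_zero := D.nm_zero
    ex := D.ex
    ex_zero := D.ex_zero
    ex_inj := D.ex_injective
    ex_add := D.ex_add
    ex_meas := hC'.ex_meas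
    η_ex := D.θ_ex
    ex_of_η := D.ex_of_θ
    Ad := D.AdE
    ex_Ad := D.ex_AdE
    Ad_le := hA'.Ad_le
    Ad_ex_le := hA'.Ad_ex_le
    e := (eId D.AdE t).toSubmodule
    E := ER (eId D.AdE t)
    mem_E := f_mem_E
    E_normal := ER_normal hinv
    ex_mul_le := hA'.ex_mul_le
    met_V := hA'.met_V
    met_e := f_met
    met_lo := hA'.met_lo
    Wt := WtF D hη
    Vw := Vwt D hη t
    Vw_e := fun b hb => Vwt_e D hη hs hb
    Φ := ΦF D hη
    Φ_sub := ΦF_sub D hη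
    Φ_ne := fun b hb => ΦF_ne D hη hb
    Φ_span := hspan
    crossed := f_crossed
    mult := mult
    mult_pos := hmult
    unimod := hsum
    τ := τ
    η_τ := hτη
    C_inv := f_C_inv
    deg := el + ek
    C_le := f_C_le
    zero_mem_Wt := zero_mem_WtF D hη
    C_ker := f_C_ker
    τ_CB := f_τ_CB
    dec := f_dec
    ι := ι
    fin_ι := hι
    X := X
    wt := wt
    wt_mem := f_wt
    X_mem := hX
    X_le := hX1
    wt_surj := fun b hb => hwts b (Finset.mem_insert_of_mem hb)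
    cls := D.R.m
    rel := fun R => relS X R
    mE := mE
    jE := jE
    jE_ne := fun s => ΦF_ne D hη (hjE s)
    gen_e := f_gen_e
    mN := mN
    jN := jN
    jN_eq := hjN
    gen_N := f_gen_N }, ?_⟩
  exact {
    sep := hs
    l_eq := rfl
    μ_eq := rfl
    η_eq := rfl
    inG_eq := rfl
    nm_eq := rfl
    ex_eq := rfl
    Ad_eq := rfl
    e_eq := rfl
    E_eq := rfl
    Wt_eq := rfl
    Φ_eq := rfl
    Vw_eq := rfl
    τ_mem := hτC
    τ_zero := hτ0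
    τ_CB' := f_τ_CB'
    cls_eq := rfl
    letters_span := by
      rintro b (hb | rfl)
      · exact hspn b (Finset.mem_insert_of_mem hb)
      · exact hspn 0 (Finset.mem_insert_self _ _) }

end inst

end Vale.Agent.P188.Z1
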