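import Vale.Agent.P188.Z1.Fat
import Vale.Agent.P188.Z1.Flat

/-!
# P188, Z1, block LAB, part 1: test boxes, flat maps, uniqueness of the linear part
-/

set_option linter.all false

open MeasureTheory Set
open scoped ENNReal

namespace Vale.Agent.P188.Z1.Lab

variable {S : Type} [Group S] [MeasurableSpace S] {Γ : Type} [Group Γ]
  {V : Type} [AddCommGroup V] [Module ℝ V] {k : ℕ} {M : RModel S Γ V k}

/-- Test boxes: bounded sets, approximately invariant under right translations by elements of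
length `≤ r`, which overlap with their left translates by short elements. -/
structure TB (M : RModel S Γ V k) (r κ c A : ℝ) (D : Set S) : Prop where
  meas : MeasurableSet D
  pos : M.μ D ≠ 0
  fin : M.μ D ≠ ⊤
  bd : ∃ ρ : ℝ, ∀ z ∈ D, (M.l z : ℝ) ≤ ρ
  hts : ∀ z ∈ D, ‖M.θ z‖ ≤ A
  fol : ∀ g, (M.l g : ℝ) ≤ r → M.μ {z | z ∈ D ∧ z * g ∉ D} ≤ ENNReal.ofReal κ * M.μ D
  ov : ∀ g, M.l g ≤ 1 → ENNReal.ofReal c * M.μ D ≤ M.μ {z | z ∈ D ∧ g * z ∈ D}

/-- `f - T θ` is almost constant on `D` -/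
def Flt (M : RModel S Γ V k) (f : S → Ht k) (D : Set S) (T : Ht k →L[ℝ] Ht k) (δ ε : ℝ) : Prop :=
  ∃ c : Ht k, M.μ {z | z ∈ D ∧ δ < ‖f z - c - T (M.θ z)‖} ≤ ENNReal.ofReal ε * M.μ D

theorem Flt.mono {f : S → Ht k} {D : Set S} {T : Ht k →L[ℝ] Ht k} {δ δ' ε ε' : ℝ}
    (h : Flt M f D T δ ε) (hδ : δ ≤ δ') (hε : ε ≤ ε') : Flt M f D T δ' ε' := by
  obtain ⟨c, hc⟩ := h
  refine ⟨c, (measure_mono ?_).trans (hc.trans ?_)⟩
  · rintro z ⟨hz, h1⟩
    exact ⟨hz, hδ.trans_lt h1⟩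
  · gcongr

/-- change of the function -/
theorem Flt.congr {f f' : S → Ht k} {D : Set S} {T : Ht k →L[ℝ] Ht k} {δ δ' ε : ℝ}
    (h : Flt M f D T δ ε) (hf : ∀ z ∈ D, ‖f' z - f z‖ ≤ δ') : Flt M f' D T (δ + δ') ε := by
  obtain ⟨c, hc⟩ := h
  refine ⟨c, (measure_mono ?_).trans hc⟩
  rintro z ⟨hz, h1⟩
  refine ⟨hz, ?_⟩
  by_contra h2
  rw [not_lt] at h2
  have h3 := hf z hz
  have h4 : f' z - c - T (M.θ z) = (f z - c - T (M.θ z)) + (f' z - f z) := by abel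
  rw [h4] at h1
  have := norm_add_le (f z - c - T (M.θ z)) (f' z - f z)
  linarith

/-- change of the linear map -/
theorem Flt.congrT {f : S → Ht k} {D : Set S} {T T' : Ht k →L[ℝ] Ht k} {δ ε A t : ℝ}
    (h : Flt M f D T δ ε) (hA : ∀ z ∈ D, ‖M.θ z‖ ≤ A) (ht : ‖T' - T‖ ≤ t) :
    Flt M f D T' (δ + t * A) ε := by
  obtain ⟨c, hc⟩ := h
  refine ⟨c, (measure_mono ?_).trans hc⟩
  rintro z ⟨hz, h1⟩
  refine ⟨hz, ?_⟩
  by_contra h2
  rw [not_lt] at h2
  have h3 := hA z hz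
  have h4 : f z - c - T' (M.θ z) = (f z - c - T (M.θ z)) - (T' - T) (M.θ z) := by
    rw [ContinuousLinearMap.sub_apply]; abel
  rw [h4] at h1
  have h5 := norm_sub_le (f z - c - T (M.θ z)) ((T' - T) (M.θ z))
  have h6 := (T' - T).le_opNorm (M.θ z)
  have h7 : ‖T' - T‖ * ‖M.θ z‖ ≤ t * A :=
    mul_le_mul ht h3 (norm_nonneg _) ((norm_nonneg _).trans ht)
  linarith

theorem preimage_right (w : S) (A : Set S) : M.μ {z | z * w ∈ A} = M.μ A := by
  haveI := M.mm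
  have h := (M.mp w).measure_preimage_equiv (f := MeasurableEquiv.mulRight w) A
  exact h

theorem preimage_left (w : S) (A : Set S) : M.μ {z | w * z ∈ A} = M.μ A := by
  haveI := M.mm
  have h := (M.mpl w).measure_preimage_equiv (f := MeasurableEquiv.mulLeft w) A
  exact h

/-- **Uniqueness of the linear part**, for two overlapping locations. -/
theorem uniq {r κ c A : ℝ} {D : Set S} (hD : TB M r κ c A D) {h : S → Ht k}
    {T T' : Ht k →L[ℝ] Ht k} {δ δ' ε ε' : ℝ} {g : S} (hg : M.l g ≤ 1) (h1 : Flt M h D T δ ε)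
    (h2 : Flt M (fun z => h (g * z)) D T' δ' ε') (hκ : 0 ≤ κ) (hε : 0 ≤ ε) (hε' : 0 ≤ ε')
    (hc : 2 * κ + 2 * ε + 2 * ε' < c) {u : S} (hu : (M.l u : ℝ) ≤ r) :
    ‖(T - T') (M.θ u)‖ ≤ 2 * δ + 2 * δ' := by
  obtain ⟨c₁, hc₁⟩ := h1
  obtain ⟨c₂, hc₂⟩ := h2
  set E₁ := {z | z ∈ D ∧ δ < ‖h z - c₁ - T (M.θ z)‖} with hE₁
  set E₂ := {z | z ∈ D ∧ δ' < ‖h (g * z) - c₂ - T' (M.θ z)‖} with hE₂
  have hex : ∃ z, z ∈ D ∧ g * z ∈ D ∧ z * u ∈ D ∧ g * z * u ∈ D ∧ g * z ∉ E₁ ∧ g * z * u ∉ E₁ ∧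
      z ∉ E₂ ∧ z * u ∉ E₂ := by
    by_contra hcon
    push Not at hcon
    have hsub : {z | z ∈ D ∧ g * z ∈ D} ⊆ {z | z ∈ D ∧ z * u ∉ D} ∪
        ({z | g * z ∈ {y | y ∈ D ∧ y * u ∉ D}} ∪ ({z | g * z ∈ E₁} ∪
          ({z | g * z ∈ {y | y * u ∈ E₁}} ∪ (E₂ ∪ {z | z * u ∈ E₂})))) := by
      rintro z ⟨hz1, hz2⟩
      by_contra hz
      simp only [mem_union, mem_setOf_eq, not_or, not_and, not_not] at hz
      obtain ⟨a1, a2, a3, a4, a5, a6⟩ := hz
      exact a6 (hcon z hz1 hz2 (a1 hz1) (a2 hz2) a3 a4 a5)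
    have hμ := (hD.ov g hg).trans (measure_mono hsub)
    have b1 := hD.fol u hu
    have b2 : M.μ {z | g * z ∈ {y | y ∈ D ∧ y * u ∉ D}} ≤ ENNReal.ofReal κ * M.μ D := by
      rw [preimage_left]; exact b1
    have b3 : M.μ {z | g * z ∈ E₁} ≤ ENNReal.ofReal ε * M.μ D := by
      rw [preimage_left]; exact hc₁
    have b4 : M.μ {z | g * z ∈ {y | y * u ∈ E₁}} ≤ ENNReal.ofReal ε * M.μ D := by
      rw [preimage_left, preimage_right]; exact hc₁
    have b6 : M.μ {z | z * u ∈ E₂} ≤ ENNReal.ofReal ε' * M.μ D := by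
      rw [preimage_right]; exact hc₂
    have hsum := hμ.trans ((measure_union_le _ _).trans (add_le_add b1 ((measure_union_le _ _).trans
      (add_le_add b2 ((measure_union_le _ _).trans (add_le_add b3 ((measure_union_le _ _).trans
      (add_le_add b4 ((measure_union_le _ _).trans (add_le_add hc₂ b6))))))))))
    rw [← add_mul, ← add_mul, ← add_mul, ← add_mul, ← add_mul, ← ENNReal.ofReal_add hε' hε',
      ← ENNReal.ofReal_add hε (by positivity), ← ENNReal.ofReal_add hε (by positivity),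
      ← ENNReal.ofReal_add hκ (by positivity), ← ENNReal.ofReal_add hκ (by positivity)] at hsum
    have h3 : ENNReal.ofReal (κ + (κ + (ε + (ε + (ε' + ε'))))) * M.μ D <
        ENNReal.ofReal c * M.μ D := by
      refine (ENNReal.mul_lt_mul_iff_left hD.pos hD.fin).2 ?_
      refine (ENNReal.ofReal_lt_ofReal_iff_of_nonneg (by positivity)).2 (by linarith)
    exact absurd h3 (not_lt.2 hsum)
  obtain ⟨z, z1, z2, z3, z4, z5, z6, z7, z8⟩ := hex
  simp only [hE₁, hE₂, mem_setOf_eq, not_and, not_lt] at z5 z6 z7 z8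
  have e5 := z5 z2
  have e6 := z6 z4
  have e7 := z7 z1
  have e8 := z8 z3
  rw [← mul_assoc] at e8
  rw [M.θ_mul] at e5 e8
  rw [M.θ_mul, M.θ_mul] at e6
  rw [map_add] at e5 e8
  rw [map_add, map_add] at e6
  have key : (T - T') (M.θ u) = -(h (g * z * u) - c₁ - (T (M.θ g) + T (M.θ z) + T (M.θ u)))
      + (h (g * z * u) - c₂ - (T' (M.θ z) + T' (M.θ u)))
      + (h (g * z) - c₁ - (T (M.θ g) + T (M.θ z))) - (h (g * z) - c₂ - T' (M.θ z)) := by
    rw [ContinuousLinearMap.sub_apply]; abel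
  rw [key]
  have n1 := norm_sub_le (-(h (g * z * u) - c₁ - (T (M.θ g) + T (M.θ z) + T (M.θ u)))
      + (h (g * z * u) - c₂ - (T' (M.θ z) + T' (M.θ u)))
      + (h (g * z) - c₁ - (T (M.θ g) + T (M.θ z)))) (h (g * z) - c₂ - T' (M.θ z))
  have n2 := norm_add₃_le (a := -(h (g * z * u) - c₁ - (T (M.θ g) + T (M.θ z) + T (M.θ u))))
    (b := h (g * z * u) - c₂ - (T' (M.θ z) + T' (M.θ u)))
    (c := h (g * z) - c₁ - (T (M.θ g) + T (M.θ z)))
  rw [norm_neg] at n2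
  linarith

/-- the norm of a linear map from its values on heights of short elements -/
theorem norm_of_heights (M : RModel S Γ V k) : ∃ C : ℝ, 1 ≤ C ∧ ∀ r : ℝ, C ≤ r →
    ∀ (B : Ht k →L[ℝ] Ht k) (δ : ℝ), 0 ≤ δ →
    (∀ u : S, (M.l u : ℝ) ≤ r → ‖B (M.θ u)‖ ≤ δ) → ‖B‖ ≤ C * δ / r := by
  -- the lengths of the generators
  obtain ⟨L, hL1, hL⟩ : ∃ L : ℝ, 1 ≤ L ∧ ∀ i : Fin k, (M.l (M.τ (Pi.single i 1)) : ℝ) ≤ L := by
    refine ⟨1 + ∑ i : Fin k, (M.l (M.τ (Pi.single i 1)) : ℝ), ?_, fun i => ?_⟩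
    · have : 0 ≤ ∑ i : Fin k, (M.l (M.τ (Pi.single i 1)) : ℝ) :=
        Finset.sum_nonneg fun i _ => Nat.cast_nonneg _
      linarith
    · have h1 : (M.l (M.τ (Pi.single i 1)) : ℝ) ≤ ∑ i : Fin k, (M.l (M.τ (Pi.single i 1)) : ℝ) :=
        Finset.single_le_sum (f := fun i : Fin k => (M.l (M.τ (Pi.single i 1)) : ℝ))
          (fun j _ => Nat.cast_nonneg _) (Finset.mem_univ i)
      linarith
  refine ⟨2 * (k + 1) * L, by nlinarith [(Nat.cast_nonneg k : (0:ℝ) ≤ k)], ?_⟩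
  intro r hr B δ hδ h
  have hk : (0 : ℝ) ≤ k := Nat.cast_nonneg k
  have hr2 : 2 * L ≤ r := by nlinarith
  have hr0 : 0 < r := by linarith
  set n := ⌊r / L⌋₊ with hn
  have hn1 : (n : ℝ) ≤ r / L := Nat.floor_le (by positivity)
  have hn2 : r / (2 * L) ≤ n := by
    have h1 := Nat.lt_floor_add_one (r / L)
    have h2 : 1 ≤ r / (2 * L) := by rw [le_div_iff₀ (by positivity)]; linarith
    have h3 : r / L = 2 * (r / (2 * L)) := by field_simp
    rw [← hn] at h1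
    linarith
  have hn0 : 0 < (n : ℝ) := lt_of_lt_of_le (by positivity) hn2
  have hpow : ∀ (t : S) (m : ℕ), (M.l (t ^ m) : ℝ) ≤ m * M.l t := by
    intro t m
    induction m with
    | zero => simp [M.len.one]
    | succ m ih =>
      rw [pow_succ]
      have := M.len.mul (t ^ m) t
      have h2 : (M.l (t ^ m * t) : ℝ) ≤ M.l (t ^ m) + M.l t := by exact_mod_cast this
      push_cast
      linarith
  have hθ : ∀ (t : S) (m : ℕ), M.θ (t ^ m) = (m : ℝ) • M.θ t := by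
    intro t m
    induction m with
    | zero => simp [M.θ_one]
    | succ m ih =>
      rw [pow_succ, M.θ_mul, ih, Nat.cast_succ, add_smul, one_smul]
  have hB : ∀ i : Fin k, ‖B (Pi.single i 1)‖ ≤ δ * (2 * L) / r := by
    intro i
    have h1 := h (M.τ (Pi.single i 1) ^ n) ?_
    · rw [hθ, M.θ_τ] at h1
      have h2 : (fun j => ((Pi.single i (1 : ℤ) : Fin k → ℤ) j : ℝ)) =
          (Pi.single i (1 : ℝ) : Ht k) := by
        funext j
        by_cases hij : j = i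
        · subst hij; simp
        · simp [Pi.single_eq_of_ne hij]
      rw [h2, map_smul, norm_smul, Real.norm_eq_abs, abs_of_pos hn0] at h1
      have h3 : ‖B (Pi.single i 1)‖ ≤ δ / n := by
        rw [le_div_iff₀ hn0]; linarith
      refine h3.trans ?_
      rw [div_le_div_iff₀ hn0 hr0]
      have h4 : r ≤ 2 * L * n := by
        rw [div_le_iff₀ (by positivity)] at hn2; linarith
      nlinarith
    · refine (hpow _ _).trans ?_
      calc (n : ℝ) * M.l (M.τ (Pi.single i 1)) ≤ (r / L) * L :=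
            mul_le_mul hn1 (hL i) (Nat.cast_nonneg _) (by positivity)
        _ = r := by field_simp
  refine ContinuousLinearMap.opNorm_le_bound _ (by positivity) fun x => ?_
  have hx : x = ∑ i, x i • (Pi.single i (1 : ℝ) : Ht k) := by
    funext j
    simp [Finset.sum_apply, Pi.single_apply]
  conv_lhs => rw [hx]
  rw [map_sum]
  calc ‖∑ i, B (x i • (Pi.single i (1 : ℝ) : Ht k))‖
      ≤ ∑ i : Fin k, ‖B (x i • (Pi.single i (1 : ℝ) : Ht k))‖ := norm_sum_le _ _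
    _ ≤ ∑ i : Fin k, ‖x‖ * (δ * (2 * L) / r) := by
        refine Finset.sum_le_sum fun i _ => ?_
        rw [map_smul, norm_smul]
        exact mul_le_mul (norm_le_pi_norm x i) (hB i) (norm_nonneg _) (norm_nonneg _)
    _ = k * (‖x‖ * (δ * (2 * L) / r)) := by simp
    _ ≤ 2 * (k + 1) * L * δ / r * ‖x‖ := by
        have : 0 ≤ ‖x‖ * (δ * (2 * L) / r) := by positivity
        have h5 : 2 * (k + 1) * L * δ / r * ‖x‖ = (k + 1) * (‖x‖ * (δ * (2 * L) / r)) := by ring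
        rw [h5]
        nlinarith

/-- Uniqueness of the linear part, norm form. -/
theorem uniq_norm (M : RModel S Γ V k) : ∃ C : ℝ, 1 ≤ C ∧ ∀ (r κ c A : ℝ) (D : Set S),
    TB M r κ c A D → C ≤ r → 0 ≤ κ → ∀ (h : S → Ht k) (T T' : Ht k →L[ℝ] Ht k)
    (δ ε : ℝ) (g : S), M.l g ≤ 1 → 0 ≤ δ → 0 ≤ ε → 2 * κ + 4 * ε < c →
    Flt M h D T δ ε → Flt M (fun z => h (g * z)) D T' δ ε → ‖T - T'‖ ≤ C * δ / r := by
  obtain ⟨C, hC, h⟩ := norm_of_heights M
  refine ⟨4 * C, by linarith, ?_⟩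
  intro r κ c A D hD hr hκ f T T' δ ε g hg hδ hε hc h1 h2
  have := h r (by linarith) (T - T') (4 * δ) (by linarith) fun u hu => by
    have := uniq hD hg h1 h2 hκ hε hε (by linarith) hu
    linarith
  refine this.trans (le_of_eq (by ring))

end Vale.Agent.P188.Z1.Lab
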