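import Vale.Agent.P188.Z1.Lab1

/-!
# P188, Z1, block LAB, part 2: averaging over locations

If `f - T θ` is almost constant on all left translates of a test box `D`, then on every set `D'` with
small boundary at the scale of the diameter of `D` the function `f` is affine with linear part `T`
for all pairs of points of a large subset.
-/

set_option linter.all false

open MeasureTheory Set
open scoped ENNReal

namespace Vale.Agent.P188.Z1.Lab

variable {S : Type} [Group S] [MeasurableSpace S] {Γ : Type} [Group Γ]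
  {V : Type} [AddCommGroup V] [Module ℝ V] {k : ℕ} {M : RModel S Γ V k}

/-- bad triples -/
def BadT (M : RModel S Γ V k) (f : S → Ht k) (T : Ht k →L[ℝ] Ht k) (δ : ℝ) : Set (S × (S × S)) :=
  {q | 2 * δ < ‖f q.1 - f (q.1 * q.2.1⁻¹ * q.2.2) - T (M.θ q.2.1 - M.θ q.2.2)‖}

/-- bad triples, seen from the location -/
def BadY (M : RModel S Γ V k) (f : S → Ht k) (T : Ht k →L[ℝ] Ht k) (δ : ℝ) : Set (S × (S × S)) :=
  {q | 2 * δ < ‖f (q.1 * q.2.1) - f (q.1 * q.2.2) - T (M.θ q.2.1 - M.θ q.2.2)‖}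

theorem measurable_BadT {f : S → Ht k} (hf : Measurable f) (T : Ht k →L[ℝ] Ht k) (δ : ℝ) :
    MeasurableSet (BadT M f T δ) := by
  haveI := M.mm
  haveI := M.mi
  have hθ := M.measurable_θ
  have h1 : Measurable fun q : S × (S × S) => f q.1 := hf.comp measurable_fst
  have h2 : Measurable fun q : S × (S × S) => f (q.1 * q.2.1⁻¹ * q.2.2) :=
    hf.comp ((measurable_fst.mul (measurable_fst.comp measurable_snd).inv).mul
      (measurable_snd.comp measurable_snd))
  have h3 : Measurable fun q : S × (S × S) => T (M.θ q.2.1 - M.θ q.2.2) :=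
    T.continuous.measurable.comp ((hθ.comp (measurable_fst.comp measurable_snd)).sub
      (hθ.comp (measurable_snd.comp measurable_snd)))
  exact measurableSet_lt measurable_const ((h1.sub h2).sub h3).norm

theorem measurable_BadY {f : S → Ht k} (hf : Measurable f) (T : Ht k →L[ℝ] Ht k) (δ : ℝ) :
    MeasurableSet (BadY M f T δ) := by
  haveI := M.mm
  have hθ := M.measurable_θ
  have h1 : Measurable fun q : S × (S × S) => f (q.1 * q.2.1) :=
    hf.comp (measurable_fst.mul (measurable_fst.comp measurable_snd))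
  have h2 : Measurable fun q : S × (S × S) => f (q.1 * q.2.2) :=
    hf.comp (measurable_fst.mul (measurable_snd.comp measurable_snd))
  have h3 : Measurable fun q : S × (S × S) => T (M.θ q.2.1 - M.θ q.2.2) :=
    T.continuous.measurable.comp ((hθ.comp (measurable_fst.comp measurable_snd)).sub
      (hθ.comp (measurable_snd.comp measurable_snd)))
  exact measurableSet_lt measurable_const ((h1.sub h2).sub h3).norm

/-- at every location there are few bad pairs -/
theorem pairs_le {f : S → Ht k} (hf : Measurable f) {D : Set S} (hD : MeasurableSet D)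
    {T : Ht k →L[ℝ] Ht k} {δ ε : ℝ} {Y : S} (h : Flt M (fun z => f (Y * z)) D T δ ε) :
    ((M.μ.restrict D).prod (M.μ.restrict D)) {p | (Y, p) ∈ BadY M f T δ} ≤
      ENNReal.ofReal (2 * ε) * (M.μ D * M.μ D) := by
  haveI := M.mm
  obtain ⟨c, hc⟩ := h
  set E : Set S := {z | δ < ‖f (Y * z) - c - T (M.θ z)‖} with hE
  have hEm : MeasurableSet E :=
    measurableSet_lt measurable_const (((hf.comp (measurable_const.mul measurable_id)).sub
      measurable_const).sub (T.continuous.measurable.comp M.measurable_θ)).norm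
  have hsub : {p : S × S | (Y, p) ∈ BadY M f T δ} ⊆ E ×ˢ univ ∪ univ ×ˢ E := by
    rintro ⟨d, d'⟩ hp
    by_contra hcon
    simp only [mem_union, mem_prod, mem_univ, and_true, true_and, not_or, hE, mem_setOf_eq,
      not_lt] at hcon
    have hp' : 2 * δ < ‖f (Y * d) - f (Y * d') - T (M.θ d - M.θ d')‖ := hp
    have e : f (Y * d) - f (Y * d') - T (M.θ d - M.θ d') =
        (f (Y * d) - c - T (M.θ d)) - (f (Y * d') - c - T (M.θ d')) := by
      rw [map_sub]; abel
    rw [e] at hp'
    have := norm_sub_le (f (Y * d) - c - T (M.θ d)) (f (Y * d') - c - T (M.θ d'))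
    linarith [hcon.1, hcon.2]
  have hν : (M.μ.restrict D) E ≤ ENNReal.ofReal ε * M.μ D := by
    rw [Measure.restrict_apply hEm]
    refine le_trans (measure_mono ?_) hc
    rintro z ⟨h1, h2⟩
    exact ⟨h2, h1⟩
  have hu : (M.μ.restrict D) univ = M.μ D := by rw [Measure.restrict_apply_univ]
  refine (measure_mono hsub).trans ((measure_union_le _ _).trans ?_)
  rw [Measure.prod_prod, Measure.prod_prod, hu]
  calc (M.μ.restrict D) E * M.μ D + M.μ D * (M.μ.restrict D) E
      ≤ ENNReal.ofReal ε * M.μ D * M.μ D + M.μ D * (ENNReal.ofReal ε * M.μ D) := by gcongr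
    _ = ENNReal.ofReal (2 * ε) * (M.μ D * M.μ D) := by
        rw [ENNReal.ofReal_mul (by norm_num : (0:ℝ) ≤ 2), ENNReal.ofReal_ofNat]; ring

/-- the double counting -/
theorem count {f : S → Ht k} (hf : Measurable f) {r κ c A : ℝ} {D : Set S}
    (hD : TB M r κ c A D) {T : Ht k →L[ℝ] Ht k} {δ ε : ℝ}
    (h : ∀ Y : S, Flt M (fun z => f (Y * z)) D T δ ε) {R κ' : ℝ} {D' Dp : Set S}
    (hD' : M.Fat R κ' D' Dp) (hR : ∀ z ∈ D, (M.l z : ℝ) ≤ R) :
    ∫⁻ z in D', ((M.μ.restrict D).prod (M.μ.restrict D)) {p | (z, p) ∈ BadT M f T δ} ∂M.μ ≤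
      ENNReal.ofReal (2 * ε) * (M.μ D * M.μ D) * M.μ Dp := by
  haveI := M.mm
  set ν := M.μ.restrict D with hν
  have hT := measurable_BadT (M := M) hf T δ
  have hY := measurable_BadY (M := M) hf T δ
  change ∫⁻ z in D', (ν.prod ν) (Prod.mk z ⁻¹' BadT M f T δ) ∂M.μ ≤ _
  rw [← Measure.prod_apply hT, Measure.prod_apply_symm hT]
  have hstep : ∀ᵐ p ∂(ν.prod ν), (M.μ.restrict D') ((fun z => (z, p)) ⁻¹' BadT M f T δ) ≤
      (M.μ.restrict Dp) ((fun z => (z, p)) ⁻¹' BadY M f T δ) := by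
    have hmem : ∀ᵐ p ∂(ν.prod ν), p.1 ∈ D := by
      have h1 : ν.prod ν = (M.μ.prod M.μ).restrict (D ×ˢ D) := by
        rw [hν, Measure.prod_restrict]
      rw [h1]
      filter_upwards [ae_restrict_mem (hD.meas.prod hD.meas)] with p hp using hp.1
    filter_upwards [hmem] with p hp
    rw [Measure.restrict_apply (measurable_prodMk_right hT),
      Measure.restrict_apply (measurable_prodMk_right hY),
      ← preimage_right (M := M) p.1 ((fun z => (z, p)) ⁻¹' BadT M f T δ ∩ D')]
    refine measure_mono ?_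
    rintro Y ⟨h1, h2⟩
    constructor
    · have h3 : 2 * δ < ‖f (Y * p.1) - f (Y * p.1 * p.1⁻¹ * p.2) - T (M.θ p.1 - M.θ p.2)‖ := h1
      rw [mul_inv_cancel_right] at h3
      exact h3
    · have h3 := hD'.sub _ h2 p.1⁻¹ (by rw [M.len.inv]; exact hR _ hp)
      rwa [mul_inv_cancel_right] at h3
  refine (lintegral_mono_ae hstep).trans ?_
  rw [← Measure.prod_apply_symm hY, Measure.prod_apply hY]
  calc ∫⁻ Y in Dp, (ν.prod ν) (Prod.mk Y ⁻¹' BadY M f T δ) ∂M.μ
      ≤ ∫⁻ Y in Dp, ENNReal.ofReal (2 * ε) * (M.μ D * M.μ D) ∂M.μ :=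
        lintegral_mono fun Y => pairs_le hf hD.meas (h Y)
    _ = _ := by rw [lintegral_const, Measure.restrict_apply_univ]

/-- **Averaging over locations.** -/
theorem avg {f : S → Ht k} (hf : Measurable f) {r κ c A : ℝ} {D : Set S}
    (hD : TB M r κ c A D) (hκ : κ ≤ 1 / 8) {T : Ht k →L[ℝ] Ht k} {δ ε : ℝ} (hε : 0 ≤ ε)
    (h : ∀ Y : S, Flt M (fun z => f (Y * z)) D T δ ε) {R κ' : ℝ} {D' Dp : Set S} (hκ' : 0 ≤ κ')
    (hD' : M.Fat R κ' D' Dp) (hR : ∀ z ∈ D, (M.l z : ℝ) ≤ R) :
    ∃ D₀ ⊆ D', MeasurableSet D₀ ∧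
      M.μ (D' \ D₀) ≤ ENNReal.ofReal (16 * ε * (1 + κ')) * M.μ D' ∧
      ∀ z ∈ D₀, ∀ z' ∈ D₀, (M.l (z⁻¹ * z') : ℝ) ≤ r →
        ‖f z' - f z - T (M.θ (z⁻¹ * z'))‖ ≤ 4 * δ := by
  haveI := M.mm
  set ν := M.μ.restrict D with hν
  set m := M.μ D with hm
  have hm0 : m ≠ 0 := hD.pos
  have hmt : m ≠ ⊤ := hD.fin
  have hT := measurable_BadT (M := M) hf T δ
  set b : S → ℝ≥0∞ := fun z => (ν.prod ν) {p | (z, p) ∈ BadT M f T δ} with hb
  have hbm : Measurable b := measurable_measure_prodMk_left hT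
  have hcount := count hf hD h hD' hR
  set t : ℝ≥0∞ := ENNReal.ofReal (1 / 8) * (m * m) with ht
  have ht0 : t ≠ 0 := mul_ne_zero (by simp) (mul_ne_zero hm0 hm0)
  have htt : t ≠ ⊤ := ENNReal.mul_ne_top ENNReal.ofReal_ne_top (ENNReal.mul_ne_top hmt hmt)
  refine ⟨{z | z ∈ D' ∧ b z < t}, fun z hz => hz.1, hD'.meas.inter (measurableSet_lt hbm
    measurable_const), ?_, ?_⟩
  · have h1 : D' \ {z | z ∈ D' ∧ b z < t} ⊆ {z | t ≤ b z} ∩ D' := by
      rintro z ⟨h1, h2⟩
      refine ⟨?_, h1⟩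
      by_contra h3
      exact h2 ⟨h1, not_le.1 h3⟩
    have h2 : t * (M.μ.restrict D') {z | t ≤ b z} ≤ ∫⁻ z in D', b z ∂M.μ :=
      mul_meas_ge_le_lintegral hbm t
    rw [Measure.restrict_apply (measurableSet_le measurable_const hbm)] at h2
    have h3 : t * M.μ (D' \ {z | z ∈ D' ∧ b z < t}) ≤
        t * (ENNReal.ofReal (16 * ε * (1 + κ')) * M.μ D') := by
      calc t * M.μ (D' \ {z | z ∈ D' ∧ b z < t}) ≤ t * M.μ ({z | t ≤ b z} ∩ D') := by
            gcongr
        _ ≤ ENNReal.ofReal (2 * ε) * (m * m) * M.μ Dp := h2.trans hcount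
        _ ≤ ENNReal.ofReal (2 * ε) * (m * m) * (ENNReal.ofReal (1 + κ') * M.μ D') := by
            gcongr; exact hD'.le
        _ = (m * m) * ((ENNReal.ofReal (2 * ε) * ENNReal.ofReal (1 + κ')) * M.μ D') := by ring
        _ = (m * m) * ((ENNReal.ofReal (1 / 8) * ENNReal.ofReal (16 * ε * (1 + κ'))) *
              M.μ D') := by
            congr 2
            rw [← ENNReal.ofReal_mul (by positivity), ← ENNReal.ofReal_mul (by positivity)]
            congr 1; ring
        _ = _ := by rw [ht]; ring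
    exact (ENNReal.mul_le_mul_iff_right ht0 htt).1 h3
  · rintro z ⟨hz, hbz⟩ z' ⟨hz', hbz'⟩ hl
    set g := z⁻¹ * z' with hg
    have hzg : z' = z * g := by rw [hg]; group
    -- existence of a good pair
    have hex : ∃ p : S × S, p.1 ∈ D ∧ p.1 * g ∈ D ∧ (z, p) ∉ BadT M f T δ ∧
        (z', (p.1 * g, p.2)) ∉ BadT M f T δ := by
      by_contra hcon
      push Not at hcon
      have hsub : (univ : Set (S × S)) ⊆ {p | (z, p) ∈ BadT M f T δ} ∪
          ({p | p.1 ∉ D} ∪ ({z | z ∈ D ∧ z * g ∉ D} ×ˢ univ ∪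
            {p | p.1 * g ∈ D ∧ (z', (p.1 * g, p.2)) ∈ BadT M f T δ})) := by
        intro p _
        by_contra hp
        simp only [mem_union, mem_setOf_eq, mem_prod, mem_univ, and_true, not_or, not_and,
          not_not] at hp
        obtain ⟨a1, a2, a3, a4⟩ := hp
        exact a4 (a3 a2) (hcon p a2 (a3 a2) a1)
      have hμ := (measure_mono (μ := ν.prod ν) hsub).trans ((measure_union_le _ _).trans
        (add_le_add le_rfl ((measure_union_le _ _).trans (add_le_add le_rfl
          (measure_union_le _ _)))))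
      have hu : ν univ = m := by rw [hν, Measure.restrict_apply_univ]
      have e0 : (ν.prod ν) univ = m * m := by
        rw [← univ_prod_univ, Measure.prod_prod, hu]
      have e2 : (ν.prod ν) {p | p.1 ∉ D} = 0 := by
        have : {p : S × S | p.1 ∉ D} = Dᶜ ×ˢ univ := by ext p; simp
        rw [this, Measure.prod_prod, hν, Measure.restrict_apply hD.meas.compl]
        simp
      have e3 : (ν.prod ν) ({z | z ∈ D ∧ z * g ∉ D} ×ˢ univ) ≤
          ENNReal.ofReal (1 / 8) * (m * m) := by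
        rw [Measure.prod_prod, hu]
        have h1 : ν {z | z ∈ D ∧ z * g ∉ D} ≤ ENNReal.ofReal κ * m := by
          refine (Measure.restrict_apply_le _ _).trans (hD.fol g hl)
        calc ν {z | z ∈ D ∧ z * g ∉ D} * m ≤ ENNReal.ofReal κ * m * m := by gcongr
          _ ≤ ENNReal.ofReal (1 / 8) * m * m := by gcongr
          _ = _ := by ring
      have e4 : (ν.prod ν) {p | p.1 * g ∈ D ∧ (z', (p.1 * g, p.2)) ∈ BadT M f T δ} ≤ b z' := by
        have hmap : Measurable fun p : S × S => (z', (p.1 * g, p.2)) :=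
          measurable_const.prodMk ((measurable_fst.mul measurable_const).prodMk measurable_snd)
        have hset : MeasurableSet {p : S × S | p.1 * g ∈ D ∧ (z', (p.1 * g, p.2)) ∈ BadT M f T δ} :=
          ((measurable_fst.mul measurable_const) hD.meas).inter (hmap hT)
        have hset2 : MeasurableSet {p : S × S | (z', p) ∈ BadT M f T δ} :=
          measurable_prodMk_left hT
        show _ ≤ (ν.prod ν) {p | (z', p) ∈ BadT M f T δ}
        rw [Measure.prod_apply_symm hset, Measure.prod_apply_symm hset2]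
        refine lintegral_mono fun d' => ?_
        have hs1 : MeasurableSet ((fun x => (x, d')) ⁻¹' {p : S × S | (z', p) ∈ BadT M f T δ}) :=
          measurable_prodMk_right hset2
        show ν _ ≤ ν _
        rw [hν, Measure.restrict_apply hs1,
          ← preimage_right (M := M) g ((fun x => (x, d')) ⁻¹' {p : S × S | (z', p) ∈ BadT M f T δ} ∩ D)]
        refine (Measure.restrict_apply_le _ _).trans (measure_mono ?_)
        rintro d ⟨h1, h2⟩
        exact ⟨h2, h1⟩
      rw [e0, e2, zero_add] at hμ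
      have hlt : (ν.prod ν) {p | (z, p) ∈ BadT M f T δ} +
          ((ν.prod ν) ({z | z ∈ D ∧ z * g ∉ D} ×ˢ univ) +
            (ν.prod ν) {p | p.1 * g ∈ D ∧ (z', (p.1 * g, p.2)) ∈ BadT M f T δ}) < m * m := by
        calc (ν.prod ν) {p | (z, p) ∈ BadT M f T δ} +
          ((ν.prod ν) ({z | z ∈ D ∧ z * g ∉ D} ×ˢ univ) +
            (ν.prod ν) {p | p.1 * g ∈ D ∧ (z', (p.1 * g, p.2)) ∈ BadT M f T δ})
            ≤ t + (t + t) := by
              refine add_le_add hbz.le (add_le_add e3 (e4.trans hbz'.le))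
          _ = ENNReal.ofReal (3 / 8) * (m * m) := by
              rw [ht, ← add_mul, ← add_mul, ← ENNReal.ofReal_add (by norm_num) (by norm_num),
                ← ENNReal.ofReal_add (by norm_num) (by norm_num)]
              norm_num
          _ < 1 * (m * m) := by
              refine (ENNReal.mul_lt_mul_iff_left (mul_ne_zero hm0 hm0)
                (ENNReal.mul_ne_top hmt hmt)).2 ?_
              rw [← ENNReal.ofReal_one]
              exact (ENNReal.ofReal_lt_ofReal_iff one_pos).2 (by norm_num)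
          _ = m * m := one_mul _
      exact absurd hlt (not_lt.2 hμ)
    obtain ⟨p, p1, p2, p3, p4⟩ := hex
    have q3 : ‖f z - f (z * p.1⁻¹ * p.2) - T (M.θ p.1 - M.θ p.2)‖ ≤ 2 * δ := not_lt.1 p3
    have q4 : ‖f z' - f (z' * (p.1 * g)⁻¹ * p.2) - T (M.θ (p.1 * g) - M.θ p.2)‖ ≤ 2 * δ :=
      not_lt.1 p4
    have e1 : z' * (p.1 * g)⁻¹ * p.2 = z * p.1⁻¹ * p.2 := by rw [hzg]; group
    rw [e1, M.θ_mul] at q4
    have e2 : f z' - f z - T (M.θ g) =
        (f z' - f (z * p.1⁻¹ * p.2) - T (M.θ p.1 + M.θ g - M.θ p.2)) -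
        (f z - f (z * p.1⁻¹ * p.2) - T (M.θ p.1 - M.θ p.2)) := by
      simp only [map_sub, map_add]; abel
    rw [e2]
    have := norm_sub_le (f z' - f (z * p.1⁻¹ * p.2) - T (M.θ p.1 + M.θ g - M.θ p.2))
      (f z - f (z * p.1⁻¹ * p.2) - T (M.θ p.1 - M.θ p.2))
    linarith

end Vale.Agent.P188.Z1.Lab
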