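import Vale.Agent.P188.Z1.Lab2

/-!
# P188, Z1, block LAB, part 3: the linear part of a composition
-/

set_option linter.all false

open MeasureTheory Set
open scoped ENNReal

namespace Vale.Agent.P188.Z1.Lab

variable {S : Type} [Group S] [MeasurableSpace S] {Γ : Type} [Group Γ]
  {V : Type} [AddCommGroup V] [Module ℝ V] {k : ℕ} {M : RModel S Γ V k}

/-- the smallness constant of the composition law -/
noncomputable def cst (M : RModel S Γ V k) (K : ℝ) : ℝ :=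
  1000 * (1 + (M.mlt (2 * K)).toReal ^ 2) ^ 2

theorem cst_pos (M : RModel S Γ V k) (K : ℝ) : 1 ≤ cst M K := by
  unfold cst
  have : 0 ≤ (M.mlt (2 * K)).toReal ^ 2 := by positivity
  nlinarith

theorem θ_inG_close (M : RModel S Γ V k) (x : S) :
    ‖M.θ x - M.θ (M.inG (M.fl x))‖ ≤ M.C0 * M.C0 := by
  rw [← M.θ_inv_mul]
  exact (M.θ_le _).trans (mul_le_mul_of_nonneg_left (M.fl_close x) M.C0_pos.le)

theorem θ_inG_le (M : RModel S Γ V k) {g g' : Γ} {K : ℝ} (h : (M.l (M.inG (g⁻¹ * g')) : ℝ) ≤ K) :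
    ‖M.θ (M.inG g') - M.θ (M.inG g)‖ ≤ M.C0 * K := by
  rw [← M.θ_inv_mul, ← map_inv, ← map_mul]
  exact (M.θ_le _).trans (mul_le_mul_of_nonneg_left h M.C0_pos.le)

/-- two neighbouring good points of `Db` -/
theorem comp_pts {Db Dbp Bx : Set S} {R' η₁ : ℝ} (hR0 : 0 ≤ R') (hDb : M.Fat R' (1 / 8) Db Dbp)
    (hη₁0 : 0 ≤ η₁) (hBm : M.μ Bx ≤ ENNReal.ofReal η₁ * M.μ Db) (hη₁s : 2 * η₁ + 1 / 8 < 1)
    {u : S} (huR : (M.l u : ℝ) ≤ R') : ∃ x, x ∈ Db ∧ x ∉ Bx ∧ x * u ∈ Db ∧ x * u ∉ Bx := by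
  by_contra hcon
  push Not at hcon
  have hsub : Db ⊆ Bx ∪ ({x | x ∈ Db ∧ x * u ∉ Db} ∪ {x | x * u ∈ Bx}) := by
    intro x hx
    by_contra h
    simp only [mem_union, mem_setOf_eq, not_or, not_and, not_not] at h
    exact h.2.2 (hcon x hx h.1 (h.2.1 hx))
  have hBm' : M.μ {x | x * u ∈ Bx} ≤ ENNReal.ofReal η₁ * M.μ Db := by
    rw [preimage_right]; exact hBm
  have h1 := (measure_mono hsub).trans ((measure_union_le _ _).trans (add_le_add hBm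
    ((measure_union_le _ _).trans (add_le_add (hDb.fol hR0 (by norm_num) huR) hBm'))))
  rw [← add_mul, ← add_mul, ← ENNReal.ofReal_add (by norm_num) hη₁0,
    ← ENNReal.ofReal_add hη₁0 (by positivity)] at h1
  have h2 : ENNReal.ofReal (η₁ + (1 / 8 + η₁)) * M.μ Db < 1 * M.μ Db := by
    refine (ENNReal.mul_lt_mul_iff_left hDb.pos hDb.fin).2 ?_
    rw [← ENNReal.ofReal_one]
    exact (ENNReal.ofReal_lt_ofReal_iff one_pos).2 (by linarith)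
  rw [one_mul] at h2
  exact absurd h2 (not_lt.2 h1)

/-- the final computation of the composition law -/
theorem comp_fin {K : ℝ} {F₁ F₂ F₂' F₃ : Γ → Γ} (h₂ : M.QIm K F₂ F₂')
    (h₃ : ∀ g, (M.l (M.inG ((F₃ g)⁻¹ * F₁ (F₂ g))) : ℝ) ≤ K)
    {T₁ T₂ T₃ : Ht k →L[ℝ] Ht k} {δ L r : ℝ} (hδ : 0 ≤ δ) (hL : ‖T₁‖ ≤ L)
    {u : S} (hu' : K * (M.l u + 2 * M.C0 + 1) + 2 * M.C0 ≤ r) {x y y' : S}
    (hy : M.fl y = F₂ (M.fl x)) (hy' : M.fl y' = F₂ (M.fl (x * u)))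
    (e1 : (M.l (y⁻¹ * y') : ℝ) ≤ r → ‖M.f F₁ y' - M.f F₁ y - T₁ (M.θ (y⁻¹ * y'))‖ ≤ 4 * δ)
    (e2 : ‖M.f F₂ (x * u) - M.f F₂ x - T₂ (M.θ u)‖ ≤ 4 * δ)
    (e3 : ‖M.f F₃ (x * u) - M.f F₃ x - T₃ (M.θ u)‖ ≤ 4 * δ) :
    ‖(T₃ - T₁.comp T₂) (M.θ u)‖ ≤
      (8 + 4 * L) * δ + (2 * M.C0 * K + 2 * L * M.C0 * M.C0) := by
  have hC0 := M.C0_pos
  have hK := h₂.K_nonneg
  -- distances
  have hfl : (M.l (M.inG ((M.fl x)⁻¹ * M.fl (x * u))) : ℝ) ≤ M.l u + 2 * M.C0 := by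
    have t1 := M.fl_close x
    have t2 := M.fl_close (x * u)
    have t3 := M.l_triR (M.inG (M.fl x)) x (M.inG (M.fl (x * u)))
    have t4 := M.l_triR x (x * u) (M.inG (M.fl (x * u)))
    rw [M.l_comm (x * u), inv_mul_cancel_left] at t4
    rw [map_mul, map_inv]
    linarith
  have hlip := h₂.lip (M.fl x) ((M.fl x)⁻¹ * M.fl (x * u))
  rw [mul_inv_cancel_left] at hlip
  have hyy : (M.l (y⁻¹ * y') : ℝ) ≤ r := by
    have t1 := M.fl_close y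
    have t2 := M.fl_close y'
    have t3 := M.l_triR y (M.inG (M.fl y)) y'
    have t4 := M.l_triR (M.inG (M.fl y)) (M.inG (M.fl y')) y'
    have t3' : (M.l (y⁻¹ * M.inG (M.fl y)) : ℝ) = M.l ((M.inG (M.fl y))⁻¹ * y) := by
      rw [M.l_comm]
    have t5 : (M.l ((M.inG (M.fl y))⁻¹ * M.inG (M.fl y')) : ℝ) ≤
        K * (M.l u + 2 * M.C0 + 1) := by
      rw [hy, hy', ← map_inv, ← map_mul]
      exact hlip.trans (mul_le_mul_of_nonneg_left (by linarith) hK)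
    linarith
  have e1 := e1 hyy
  -- comparison of the functions
  have c1 : ∀ (z w : S), M.fl w = F₂ (M.fl z) → ‖M.f F₁ w - M.f F₃ z‖ ≤ M.C0 * K := by
    intro z w hw
    have : M.f F₁ w = M.θ (M.inG (F₁ (F₂ (M.fl z)))) := by rw [← hw]; rfl
    rw [this]
    exact θ_inG_le M (h₃ (M.fl z))
  have c2 : ∀ (z w : S), M.fl w = F₂ (M.fl z) → ‖M.θ w - M.f F₂ z‖ ≤ M.C0 * M.C0 := by
    intro z w hw
    have : M.f F₂ z = M.θ (M.inG (M.fl w)) := by rw [hw]; rfl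
    rw [this]
    exact θ_inG_close M w
  have d1 := c1 x y hy
  have d1' := c1 (x * u) y' hy'
  have d2 := c2 x y hy
  have d2' := c2 (x * u) y' hy'
  rw [M.θ_inv_mul] at e1
  have hT : ∀ v : Ht k, ‖T₁ v‖ ≤ L * ‖v‖ := fun v =>
    (T₁.le_opNorm v).trans (mul_le_mul_of_nonneg_right hL (norm_nonneg _))
  have hL0 : 0 ≤ L := (norm_nonneg _).trans hL
  set a := M.f F₃ (x * u) - M.f F₃ x - T₃ (M.θ u) with ha
  set b := M.f F₁ y' - M.f F₁ y - T₁ (M.θ y' - M.θ y) with hb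
  set p := M.f F₁ y' - M.f F₃ (x * u) with hp
  set q := M.f F₁ y - M.f F₃ x with hq
  set v := M.θ y' - M.f F₂ (x * u) with hv
  set w := M.θ y - M.f F₂ x with hw
  set e := M.f F₂ (x * u) - M.f F₂ x - T₂ (M.θ u) with he
  have hfin : (T₃ - T₁.comp T₂) (M.θ u) = (b - a) + (q - p) + ((T₁ v - T₁ w) + T₁ e) := by
    rw [ha, hb, hp, hq, hv, hw, he]
    simp only [ContinuousLinearMap.sub_apply, ContinuousLinearMap.comp_apply, map_sub]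
    abel
  rw [hfin]
  have n1 := hT v
  have n2 := hT w
  have n3 := hT e
  have n1' : L * ‖v‖ ≤ L * (M.C0 * M.C0) := mul_le_mul_of_nonneg_left d2' hL0
  have n2' : L * ‖w‖ ≤ L * (M.C0 * M.C0) := mul_le_mul_of_nonneg_left d2 hL0
  have n3' : L * ‖e‖ ≤ L * (4 * δ) := mul_le_mul_of_nonneg_left e2 hL0
  have m1 := norm_add₃_le (a := b - a) (b := q - p) (c := (T₁ v - T₁ w) + T₁ e)
  have m2 := norm_add_le (T₁ v - T₁ w) (T₁ e)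
  have m3 := norm_sub_le b a
  have m4 := norm_sub_le q p
  have m5 := norm_sub_le (T₁ v) (T₁ w)
  have e4 : (8 + 4 * L) * δ + (2 * M.C0 * K + 2 * L * M.C0 * M.C0) =
    4 * δ + 4 * δ + M.C0 * K + M.C0 * K + L * (M.C0 * M.C0) + L * (M.C0 * M.C0) + L * (4 * δ) := by
    ring
  rw [e4]
  linarith

/-- the numerical smallness -/
theorem comp_num {mr ε η₁ : ℝ} (hmr0 : 0 ≤ mr) (hε : 0 ≤ ε)
    (hsm : 1000 * (1 + mr ^ 2) ^ 2 * ε ≤ 1) (hη₁ : η₁ = 16 * ε * (1 + 1 / 8) +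
      (16 * ε * (1 + 1 / 8) + mr * (16 * ε * (1 + mr ^ 2 * (1 / 8)) * (mr * (1 + 1 / 8))))) :
    2 * η₁ + 1 / 8 < 1 := by
  have h1 : η₁ ≤ 54 * ((1 + mr ^ 2) ^ 2) * ε := by
    have : η₁ = ε * (36 + 18 * mr ^ 2 + (9 / 4) * mr ^ 4) := by rw [hη₁]; ring
    rw [this]
    have h2 : 36 + 18 * mr ^ 2 + (9 / 4) * mr ^ 4 ≤ 54 * (1 + mr ^ 2) ^ 2 := by
      have : 0 ≤ mr ^ 2 := by positivity
      have : 0 ≤ mr ^ 4 := by positivity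
      nlinarith
    nlinarith
  nlinarith

/-- the bad set of the composition law -/
theorem comp_bad {K : ℝ} {F₁ F₂ F₂' F₃ : Γ → Γ} (h₂ : M.QIm K F₂ F₂')
    {r κ c A : ℝ} {D : Set S} (hD : TB M r κ c A D) (hκ : κ ≤ 1 / 8)
    {T₁ T₂ T₃ : Ht k →L[ℝ] Ht k} {δ ε : ℝ} (hε : 0 ≤ ε)
    (f₁ : ∀ Y : S, Flt M (fun z => M.f F₁ (Y * z)) D T₁ δ ε)
    (f₂ : ∀ Y : S, Flt M (fun z => M.f F₂ (Y * z)) D T₂ δ ε)
    (f₃ : ∀ Y : S, Flt M (fun z => M.f F₃ (Y * z)) D T₃ δ ε)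
    (hsm : cst M K * ε ≤ 1) {R : ℝ} {Db Dbp : Set S} (hR0 : 0 ≤ R)
    (hR : ∀ z ∈ D, (M.l z : ℝ) ≤ R)
    (hDb : M.Fat (R + 2 * M.C0 + K + K * (K + 2 * M.C0 + R + 1)) (1 / 8) Db Dbp) :
    ∃ (D₁ D₂ D₃ Bx : Set S) (η₁ : ℝ), 0 ≤ η₁ ∧ 2 * η₁ + 1 / 8 < 1 ∧
      M.μ Bx ≤ ENNReal.ofReal η₁ * M.μ Db ∧
      (∀ y : S, y ∈ Db → y ∉ Bx → y ∈ D₂ ∧ y ∈ D₃ ∧ ∃ y' ∈ D₁, M.fl y' = F₂ (M.fl y)) ∧
      (∀ z ∈ D₁, ∀ z' ∈ D₁, (M.l (z⁻¹ * z') : ℝ) ≤ r →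
        ‖M.f F₁ z' - M.f F₁ z - T₁ (M.θ (z⁻¹ * z'))‖ ≤ 4 * δ) ∧
      (∀ z ∈ D₂, ∀ z' ∈ D₂, (M.l (z⁻¹ * z') : ℝ) ≤ r →
        ‖M.f F₂ z' - M.f F₂ z - T₂ (M.θ (z⁻¹ * z'))‖ ≤ 4 * δ) ∧
      (∀ z ∈ D₃, ∀ z' ∈ D₃, (M.l (z⁻¹ * z') : ℝ) ≤ r →
        ‖M.f F₃ z' - M.f F₃ z - T₃ (M.θ (z⁻¹ * z'))‖ ≤ 4 * δ) := by
  have hC0 := M.C0_pos
  have hK := h₂.K_nonneg
  set m := M.mlt (2 * K) with hm
  have hmt : m ≠ ⊤ := M.mlt_ne_top _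
  set mr := m.toReal with hmr
  have hmr0 : 0 ≤ mr := ENNReal.toReal_nonneg
  have hmo : m = ENNReal.ofReal mr := (ENNReal.ofReal_toReal hmt).symm
  have hRb : R ≤ R + 2 * M.C0 + K + K * (K + 2 * M.C0 + R + 1) := by
    have : 0 ≤ K * (K + 2 * M.C0 + R + 1) := by positivity
    linarith
  have hRb0 : 0 ≤ R + 2 * M.C0 + K + K * (K + 2 * M.C0 + R + 1) := hR0.trans hRb
  -- the image
  have htr := h₂.trans (κ := 1 / 8) (by norm_num) hR0 hDb (le_refl K) (by linarith)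
  obtain ⟨hFat', hmem, -, hGp⟩ := htr
  set G' : Set Γ := {γ | ∃ z ∈ Db, (M.l (M.inG (γ⁻¹ * F₂ (M.fl z))) : ℝ) ≤ K} with hG'
  set Gp' : Set Γ := {γ | ∃ z ∈ Db, (M.l (M.inG (γ⁻¹ * F₂ (M.fl z))) : ℝ) ≤ K + 2 * M.C0 + R}
    with hGp'
  -- large subsets
  obtain ⟨D₁, D₁s, D₁m, D₁e, D₁p⟩ := avg (M.measurable_f F₁) hD hκ hε f₁
    (κ' := mr ^ 2 * (1 / 8)) (by positivity) hFat' hR
  obtain ⟨D₂, D₂s, D₂m, D₂e, D₂p⟩ := avg (M.measurable_f F₂) hD hκ hε f₂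
    (κ' := 1 / 8) (by norm_num) (hDb.mono hRb le_rfl) hR
  obtain ⟨D₃, D₃s, D₃m, D₃e, D₃p⟩ := avg (M.measurable_f F₃) hD hκ hε f₃
    (κ' := 1 / 8) (by norm_num) (hDb.mono hRb le_rfl) hR
  -- bad cells
  set Gb : Set Γ := {γ | γ ∈ G' ∧ M.fl ⁻¹' {γ} ∩ D₁ = ∅} with hGb
  have hGbm : M.μ (M.cells Gb) ≤ ENNReal.ofReal (16 * ε * (1 + mr ^ 2 * (1 / 8))) *
      (m * (ENNReal.ofReal (1 + 1 / 8) * M.μ Db)) := by
    have s1 : M.cells Gb ⊆ M.cells G' \ D₁ := by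
      intro z hz
      have hz' : M.fl z ∈ G' ∧ M.fl ⁻¹' {M.fl z} ∩ D₁ = ∅ := hz
      refine ⟨hz'.1, fun h => ?_⟩
      have : z ∈ M.fl ⁻¹' {M.fl z} ∩ D₁ := ⟨rfl, h⟩
      rw [hz'.2] at this
      exact this
    have s2 : M.cells G' ⊆ M.cells Gp' := by
      apply preimage_mono
      rintro γ ⟨z, hz, hzγ⟩
      exact ⟨z, hz, by linarith⟩
    calc M.μ (M.cells Gb) ≤ M.μ (M.cells G' \ D₁) := measure_mono s1
      _ ≤ ENNReal.ofReal (16 * ε * (1 + mr ^ 2 * (1 / 8))) * M.μ (M.cells G') := D₁e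
      _ ≤ ENNReal.ofReal (16 * ε * (1 + mr ^ 2 * (1 / 8))) * (m * M.μ Dbp) := by
          gcongr
          exact (measure_mono s2).trans hGp
      _ ≤ _ := by
          gcongr
          exact hDb.le
  set Bx : Set S := (Db \ D₂) ∪ ((Db \ D₃) ∪ {z | F₂ (M.fl z) ∈ Gb}) with hBx
  set η₁ : ℝ := 16 * ε * (1 + 1 / 8) + (16 * ε * (1 + 1 / 8) +
    mr * (16 * ε * (1 + mr ^ 2 * (1 / 8)) * (mr * (1 + 1 / 8)))) with hη₁
  have hη₁0 : 0 ≤ η₁ := by positivity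
  have hBm : M.μ Bx ≤ ENNReal.ofReal η₁ * M.μ Db := by
    refine (measure_union_le _ _).trans ((add_le_add D₂e ((measure_union_le _ _).trans
      (add_le_add D₃e ((h₂.mu_le Gb).trans (mul_le_mul_right hGbm _))))).trans (le_of_eq ?_))
    have e1 : ENNReal.ofReal η₁ = ENNReal.ofReal (16 * ε * (1 + 1 / 8)) +
        (ENNReal.ofReal (16 * ε * (1 + 1 / 8)) + ENNReal.ofReal mr *
          (ENNReal.ofReal (16 * ε * (1 + mr ^ 2 * (1 / 8))) *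
            (ENNReal.ofReal mr * ENNReal.ofReal (1 + 1 / 8)))) := by
      rw [← ENNReal.ofReal_mul hmr0, ← ENNReal.ofReal_mul (by positivity),
        ← ENNReal.ofReal_mul hmr0, ← ENNReal.ofReal_add (by positivity) (by positivity),
        ← ENNReal.ofReal_add (by positivity) (by positivity)]
    rw [← hm, e1, hmo]
    ring
  refine ⟨D₁, D₂, D₃, Bx, η₁, hη₁0, comp_num hmr0 hε hsm hη₁, hBm, ?_, D₁p, D₂p, D₃p⟩
  intro y hy hyB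
  simp only [hBx, mem_union, mem_sdiff, mem_setOf_eq, not_or, not_and, not_not] at hyB
  refine ⟨hyB.1 hy, hyB.2.1 hy, ?_⟩
  have h1 := hmem y hy
  have h2 : F₂ (M.fl y) ∉ Gb := hyB.2.2
  have h3 : (M.fl ⁻¹' {F₂ (M.fl y)} ∩ D₁).Nonempty := by
    rw [Set.nonempty_iff_ne_empty]
    intro h
    exact h2 ⟨h1, h⟩
  obtain ⟨y', hy1, hy2⟩ := h3
  exact ⟨y', hy2, hy1⟩

/-- **The linear part of a composition.** -/
theorem comp {K : ℝ} {F₁ F₂ F₂' F₃ : Γ → Γ} (h₂ : M.QIm K F₂ F₂')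
    (h₃ : ∀ g, (M.l (M.inG ((F₃ g)⁻¹ * F₁ (F₂ g))) : ℝ) ≤ K)
    {r κ c A : ℝ} {D : Set S} (hD : TB M r κ c A D) (hκ : κ ≤ 1 / 8)
    {T₁ T₂ T₃ : Ht k →L[ℝ] Ht k} {δ ε L : ℝ} (hδ : 0 ≤ δ) (hε : 0 ≤ ε) (hL : ‖T₁‖ ≤ L)
    (f₁ : ∀ Y : S, Flt M (fun z => M.f F₁ (Y * z)) D T₁ δ ε)
    (f₂ : ∀ Y : S, Flt M (fun z => M.f F₂ (Y * z)) D T₂ δ ε)
    (f₃ : ∀ Y : S, Flt M (fun z => M.f F₃ (Y * z)) D T₃ δ ε)
    (hsm : cst M K * ε ≤ 1) {R : ℝ} {Db Dbp : Set S} (hR0 : 0 ≤ R) (hrR : r ≤ R)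
    (hR : ∀ z ∈ D, (M.l z : ℝ) ≤ R)
    (hDb : M.Fat (R + 2 * M.C0 + K + K * (K + 2 * M.C0 + R + 1)) (1 / 8) Db Dbp)
    {u : S} (hu : (M.l u : ℝ) ≤ r) (hu' : K * (M.l u + 2 * M.C0 + 1) + 2 * M.C0 ≤ r) :
    ‖(T₃ - T₁.comp T₂) (M.θ u)‖ ≤
      (8 + 4 * L) * δ + (2 * M.C0 * K + 2 * L * M.C0 * M.C0) := by
  obtain ⟨D₁, D₂, D₃, Bx, η₁, hη₁0, hη₁s, hBm, key, D₁p, D₂p, D₃p⟩ :=
    comp_bad h₂ hD hκ hε f₁ f₂ f₃ hsm hR0 hR hDb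
  have hC0 := M.C0_pos
  have hK := h₂.K_nonneg
  have hRb : R ≤ R + 2 * M.C0 + K + K * (K + 2 * M.C0 + R + 1) := by
    have : 0 ≤ K * (K + 2 * M.C0 + R + 1) := by positivity
    linarith
  obtain ⟨x, x1, x2, x3, x4⟩ := comp_pts (hR0.trans hRb) hDb hη₁0 hBm hη₁s
    (u := u) (hu.trans (hrR.trans hRb))
  obtain ⟨a2, a3, y, hyD, hy⟩ := key x x1 x2
  obtain ⟨b2, b3, y', hyD', hy'⟩ := key (x * u) x3 x4
  have hxu : (M.l (x⁻¹ * (x * u)) : ℝ) ≤ r := by rwa [inv_mul_cancel_left]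
  have e2 := D₂p x a2 (x * u) b2 hxu
  have e3 := D₃p x a3 (x * u) b3 hxu
  rw [inv_mul_cancel_left] at e2 e3
  exact comp_fin h₂ h₃ hδ hL hu' hy hy' (D₁p y hyD y' hyD') e2 e3

end Vale.Agent.P188.Z1.Lab
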