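import Vale.Agent.P188.Z1.Lab4

/-!
# P188, Z1, block LAB, part 5: overlap of the box sets with their left translates; test boxes
-/

set_option linter.all false

open MeasureTheory Set Filter
open scoped ENNReal
open Vale.Agent.P188.H540 (vec)

namespace Vale.Agent.P188.Z1.Lab

variable {S : Type} [Group S] [MeasurableSpace S] {Γ : Type} [Group Γ]
  {V : Type} [AddCommGroup V] [Module ℝ V] {k : ℕ} {M : RModel S Γ V k}

open RModel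

/-- left multiplication and the `N_R`-part -/
theorem left_part (z g : S) : g * z * (M.sec (g * z))⁻¹ =
    (g * (M.sec g)⁻¹) * (M.sec g * (z * (M.sec z)⁻¹) * (M.sec g)⁻¹) *
      (M.sec g * M.sec z * (M.sec (M.sec g * M.sec z))⁻¹) := by
  have h0 : M.η (g * z) = M.η (M.sec g * M.sec z) := by
    rw [map_mul, map_mul, DB.η_sec, DB.η_sec]
  have h : M.sec (g * z) = M.sec (M.sec g * M.sec z) :=
    congrArg (fun t => M.τ (Multiplicative.toAdd t)) h0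
  rw [h]
  group

/-- comparison of sizes -/
theorem szt_le {c₂ : ℝ} {h : (Ht k →L[ℝ] ℝ) → ℝ} (hh : M.HB c₂ h) {d₁ s t q : ℝ} (ht : 0 ≤ t)
    (h1 : Real.exp (-t) ≤ q) (h2 : Real.exp (-(t * c₂)) ≤ q) (i : M.ι) :
    szt M h d₁ s t i ≤ q * M.szh h d₁ s i := by
  unfold szt szh
  split_ifs with hi
  · rw [sub_eq_neg_add, Real.exp_add]
    exact mul_le_mul_of_nonneg_right h1 (Real.exp_pos _).le
  · have h3 := (hh _ ((M.wt_mem i).resolve_right hi)).1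
    have e : (s - t) * h (M.wt i) = -(t * h (M.wt i)) + s * h (M.wt i) := by ring
    rw [e, Real.exp_add]
    refine mul_le_mul_of_nonneg_right (le_trans (Real.exp_le_exp.2 ?_) h2) (Real.exp_pos _).le
    nlinarith

theorem le_szt {c₂ : ℝ} {h : (Ht k →L[ℝ] ℝ) → ℝ} (hh : M.HB c₂ h) {d₁ s t δ : ℝ} (ht : 0 ≤ t)
    (h1 : δ ≤ Real.exp (-t)) (h2 : δ ≤ Real.exp (-(t * c₂⁻¹))) (i : M.ι) :
    δ * M.szh h d₁ s i ≤ szt M h d₁ s t i := by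
  unfold szt szh
  split_ifs with hi
  · rw [sub_eq_neg_add, Real.exp_add]
    exact mul_le_mul_of_nonneg_right h1 (Real.exp_pos _).le
  · have h3 := (hh _ ((M.wt_mem i).resolve_right hi)).2
    have e : (s - t) * h (M.wt i) = -(t * h (M.wt i)) + s * h (M.wt i) := by ring
    rw [e, Real.exp_add]
    refine mul_le_mul_of_nonneg_right (h2.trans (Real.exp_le_exp.2 ?_)) (Real.exp_pos _).le
    nlinarith

/-- the inclusion of the small box set in the overlap -/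
theorem ovl_incl (B : M.NatBox) {c₂ : ℝ} (hc₂ : 0 < c₂) {h : (Ht k →L[ℝ] ℝ) → ℝ}
    (hh : M.HGood c₂ h) {d₁ s t q Fc δ κ₁ κ₄ Cl S₀ : ℝ} {nτ : ℕ}
    (hS₀0 : 0 ≤ S₀) (hbS : ∀ b ∈ M.Φ, ‖b‖ ≤ S₀) (hnτ : nτ = ⌈M.C0 * (1 + M.C0)⌉₊)
    (hFc : Fc = B.C * (1 + nτ) ^ B.dg * Real.exp (S₀ * M.C0)) (hq : q = 1 / (B.C * B.C))
    (ht0 : 0 ≤ t) (ht1 : Real.exp (-t) ≤ q / Fc) (ht2 : Real.exp (-(t * c₂)) ≤ q / Fc)
    (hδ0 : 0 < δ) (hδ1 : δ ≤ 1) (hδt : δ ≤ Real.exp (-t)) (hδt' : δ ≤ Real.exp (-(t * c₂⁻¹)))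
    (hl : ∀ w : Fin k → ℤ, ∀ R : ℝ, 0 ≤ R → (∀ i, |(w i : ℝ)| ≤ R) →
      (M.l (M.τ w) : ℝ) ≤ Cl * (1 + R))
    (hκ₄0 : 0 < κ₄) (hκ₄S : S₀ * κ₄ ≤ c₂ / 4) (hκ₄l : Cl * κ₄ ≤ κ₁ / 2)
    (hs₁' : ∀ w ∈ DB.WnH M h ((1 - 1 / 2) * s), ∀ g : S,
      ((M.l g : ℝ) ≤ κ₁ * s ∨ g ∈ M.FB (d₁ / 2) (κ₁ * s)) →
      M.τ w * g * (M.sec (M.τ w * g))⁻¹ ∈ B.Bx (fun i => q * M.szh h d₁ s i))
    (u1 : t ≤ d₁ * s) (u2 : 2 * t ≤ s) (u3 : 0 ≤ s) (hd : d₁ * s ≤ c₂ / 2 * s)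
    (u4 : S₀ * M.C0 ≤ 1 / 4 * s * c₂) (u5 : Cl ≤ κ₁ / 2 * s)
    (u6 : (M.l (M.τ (0 : Fin k → ℤ)) : ℝ) + 1 ≤ κ₁ * s) {g : S} (hg : M.l g ≤ 1) :
    B.DsmH h δ d₁ κ₄ s ⊆
      {z | z ∈ B.DboxH h 1 d₁ (1 / 2) s ∧ g * z ∈ B.DboxH h 1 d₁ (1 / 2) s} := by
  classical
  have hC0 := M.one_le_C0
  have hBC := B.one_le
  have hgR : (M.l g : ℝ) ≤ 1 := by exact_mod_cast hg
  have hθg : ‖M.θ g‖ ≤ M.C0 := (M.θ_le g).trans (by nlinarith)
  have hadm : M.Adm (szt M h d₁ s t) := by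
    refine adm_szt hc₂ hh u1 (by linarith) ?_
    have h5 : t * c₂ ≤ s / 2 * c₂ := mul_le_mul_of_nonneg_right (by linarith) hc₂.le
    have h6 : (s - t) * c₂ = s * c₂ - t * c₂ := by ring
    rw [h6]
    linarith
  have hszt : ∀ i, szt M h d₁ s t i ≤ q / Fc * M.szh h d₁ s i := szt_le hh.bd ht0 ht1 ht2
  have hszt' : ∀ i, δ * M.szh h d₁ s i ≤ szt M h d₁ s t i := le_szt hh.bd ht0 hδt hδt'
  have hszp : ∀ i, 0 < M.szh h d₁ s i := DB.szh_pos h d₁ s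
  have hq0 : 0 < q := by rw [hq]; positivity
  have hsc : 0 ≤ s * c₂ := by positivity
  have hhc : ∀ b ∈ M.Φ, s * c₂ ≤ s * h b := fun b hb =>
    mul_le_mul_of_nonneg_left (hh.bd b hb).1 u3
  have hbg : ∀ b ∈ M.Φ, b (M.θ g) ≤ 1 / 4 * (s * c₂) := by
    intro b hb
    calc b (M.θ g) ≤ ‖b‖ * ‖M.θ g‖ := (le_abs_self _).trans (b.le_opNorm _)
      _ ≤ S₀ * M.C0 := mul_le_mul (hbS b hb) hθg (norm_nonneg _) hS₀0
      _ ≤ _ := u4
      _ = _ := by ring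
  rintro z ⟨hz1, hz2⟩
  have hbz : ∀ b ∈ M.Φ, b (M.θ z) ≤ 1 / 4 * (s * c₂) := by
    intro b hb
    calc b (M.θ z) ≤ ‖b‖ * ‖M.θ z‖ := (le_abs_self _).trans (b.le_opNorm _)
      _ ≤ S₀ * (κ₄ * s) := mul_le_mul (hbS b hb) hz2 (norm_nonneg _) hS₀0
      _ = (S₀ * κ₄) * s := by ring
      _ ≤ c₂ / 4 * s := mul_le_mul_of_nonneg_right hκ₄S u3
      _ = _ := by ring
  refine ⟨⟨?_, ?_⟩, ?_, ?_⟩
  · refine B.mono _ _ (fun i => (mul_pos hδ0 (hszp i)).le) (fun i => ?_) hz1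
    exact mul_le_mul_of_nonneg_right hδ1 (hszp i).le
  · intro b hb
    have h1 := hbz b hb
    have h2 := hhc b hb
    have h3 : (1 - 1 / 2 : ℝ) * s * h b = 1 / 2 * (s * h b) := by ring
    rw [h3]
    linarith
  · rw [left_part]
    -- first factor
    have f1 : g * (M.sec g)⁻¹ ∈ B.Bx fun i => q * M.szh h d₁ s i := by
      have h5 := hs₁' 0 (DB.zero_mem_WnH hc₂ hh.bd (by linarith)) ((M.τ 0)⁻¹ * g)
        (Or.inl ?_)
      · rw [mul_inv_cancel_left] at h5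
        exact h5
      · have h6 : (M.l ((M.τ 0)⁻¹ * g) : ℝ) ≤ M.l (M.τ (0 : Fin k → ℤ))⁻¹ + M.l g := by
          exact_mod_cast M.len.mul _ _
        rw [M.len.inv] at h6
        linarith
    -- second factor
    have f2 : M.sec g * (z * (M.sec z)⁻¹) * (M.sec g)⁻¹ ∈ B.Bx fun i => q * M.szh h d₁ s i := by
      have h5 : z * (M.sec z)⁻¹ ∈ B.Bx (szt M h d₁ s t) :=
        B.mono _ _ (fun i => (mul_pos hδ0 (hszp i)).le) hszt' hz1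
      have hτ : M.sec g ∈ M.CB nτ := by
        have h6 := M.τ_CB (Multiplicative.toAdd (M.η g))
        rw [hnτ]
        refine M.CB_mono (Nat.ceil_mono ?_) h6
        have h7 : ‖(fun i => ((Multiplicative.toAdd (M.η g)) i : ℝ))‖ ≤ M.C0 := hθg
        exact mul_le_mul_of_nonneg_left (by linarith) (by linarith)
      have h6 := B.conj nτ _ hτ _ hadm _ h5
      refine B.mono _ _ (fun i => ?_) (fun i => ?_) h6
      · have := szt_pos (M := M) h d₁ s t i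
        positivity
      · have h7 : Real.exp (M.wt i (M.θ (M.sec g))) ≤ Real.exp (S₀ * M.C0) := by
          apply Real.exp_le_exp.2
          rw [DB.θ_sec]
          by_cases hi : M.wt i = 0
          · rw [hi, ContinuousLinearMap.zero_apply]; positivity
          · have hb := (M.wt_mem i).resolve_right hi
            calc M.wt i (M.θ g) ≤ ‖M.wt i‖ * ‖M.θ g‖ := (le_abs_self _).trans ((M.wt i).le_opNorm _)
              _ ≤ S₀ * M.C0 := mul_le_mul (hbS _ hb) hθg (norm_nonneg _) hS₀0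
        have h8 := hszt i
        have h9 : 0 ≤ szt M h d₁ s t i := (szt_pos h d₁ s t i).le
        have hFc0 : Fc ≠ 0 := by rw [hFc]; positivity
        calc B.C * (1 + (nτ : ℝ)) ^ B.dg * Real.exp (M.wt i (M.θ (M.sec g))) * szt M h d₁ s t i
            ≤ B.C * (1 + (nτ : ℝ)) ^ B.dg * Real.exp (S₀ * M.C0) *
              (q / Fc * M.szh h d₁ s i) := by gcongr
          _ = Fc * (q / Fc * M.szh h d₁ s i) := by rw [hFc]
          _ = q * M.szh h d₁ s i := by field_simp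
    -- third factor
    have f3 : M.sec g * M.sec z * (M.sec (M.sec g * M.sec z))⁻¹ ∈
        B.Bx fun i => q * M.szh h d₁ s i := by
      refine hs₁' (Multiplicative.toAdd (M.η g)) ?_ (M.sec z) (Or.inl ?_)
      · intro b hb
        have h5 : b (vec (Multiplicative.toAdd (M.η g))) = b (M.θ g) := rfl
        rw [h5]
        have h1 := hbg b hb
        have h2 := hhc b hb
        have h3 : (1 - 1 / 2 : ℝ) * s * h b = 1 / 2 * (s * h b) := by ring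
        rw [h3]
        linarith
      · have h5 : (M.l (M.sec z) : ℝ) ≤ Cl * (1 + κ₄ * s) := by
          refine hl _ _ (by positivity) fun i => ?_
          have h6 : |M.θ z i| ≤ ‖M.θ z‖ := norm_le_pi_norm (M.θ z) i
          exact h6.trans hz2
        have h6 : Cl * (1 + κ₄ * s) = Cl + (Cl * κ₄) * s := by ring
        have h7 : (Cl * κ₄) * s ≤ κ₁ / 2 * s := mul_le_mul_of_nonneg_right hκ₄l u3
        linarith
    have hq' : ∀ i, 0 ≤ q * M.szh h d₁ s i := fun i => (mul_pos hq0 (hszp i)).le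
    have h5 := B.mul _ hq' _ f1 _ f2
    have h6 := B.mul _ (fun i => mul_nonneg (by linarith) (hq' i)) _ h5 _
      (B.mono _ _ hq' (fun i => le_mul_of_one_le_left (hq' i) hBC) f3)
    have h7 : (fun i => B.C * (B.C * (q * M.szh h d₁ s i))) = fun i => 1 * M.szh h d₁ s i := by
      funext i
      rw [hq]
      field_simp
    rw [h7] at h6
    exact h6
  · intro b hb
    rw [M.θ_mul, map_add]
    have h1 := hbz b hb
    have h1' := hbg b hb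
    have h2 := hhc b hb
    have h3 : (1 - 1 / 2 : ℝ) * s * h b = 1 / 2 * (s * h b) := by ring
    rw [h3]
    linarith

/-- the constants -/
theorem ovl_const {X c₂ : ℝ} (hX : 0 < X) (hc₂ : 0 < c₂) : ∃ t : ℝ, 0 ≤ t ∧
    Real.exp (-t) ≤ X ∧ Real.exp (-(t * c₂)) ≤ X := by
  set a : ℝ := |Real.log X| with ha
  have ha0 : 0 ≤ a := abs_nonneg _
  have hea : Real.exp (-a) ≤ X := by
    rw [← Real.le_log_iff_exp_le hX]
    exact neg_abs_le _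
  refine ⟨a + a / c₂, by positivity, le_trans (Real.exp_le_exp.2 ?_) hea,
    le_trans (Real.exp_le_exp.2 ?_) hea⟩
  · have : 0 ≤ a / c₂ := by positivity
    linarith
  · have : (a + a / c₂) * c₂ = a * c₂ + a := by field_simp
    have h2 : 0 ≤ a * c₂ := by positivity
    linarith

theorem ovl_s {t d₁ X c₂ Cl κ₁ y : ℝ} (ht0 : 0 ≤ t) (hd₁ : 0 < d₁) (hX : 0 ≤ X) (hc₂ : 0 < c₂)
    (hCl : 0 ≤ Cl) (hκ₁0 : 0 < κ₁) (hy : 0 ≤ y) : ∃ s₂ : ℝ, ∀ s, s₂ ≤ s → t ≤ d₁ * s ∧ 2 * t ≤ s ∧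
      0 ≤ s ∧ X ≤ 1 / 4 * s * c₂ ∧ Cl ≤ κ₁ / 2 * s ∧ y ≤ κ₁ * s := by
  refine ⟨t / d₁ + 2 * t + 4 * X / c₂ + 2 * Cl / κ₁ + y / κ₁, fun s hs => ?_⟩
  have p1 : 0 ≤ t / d₁ := by positivity
  have p2 : 0 ≤ 4 * X / c₂ := by positivity
  have p3 : 0 ≤ 2 * Cl / κ₁ := by positivity
  have p4 : 0 ≤ y / κ₁ := by positivity
  refine ⟨?_, by linarith, by linarith, ?_, ?_, ?_⟩
  · have : t / d₁ ≤ s := by linarith
    rw [div_le_iff₀ hd₁] at this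
    linarith
  · have : 4 * X / c₂ ≤ s := by linarith
    rw [div_le_iff₀ hc₂] at this
    linarith
  · have : 2 * Cl / κ₁ ≤ s := by linarith
    rw [div_le_iff₀ hκ₁0] at this
    linarith
  · have : y / κ₁ ≤ s := by linarith
    rw [div_le_iff₀ hκ₁0] at this
    linarith

/-- **Overlap.** -/
theorem ovl (B : M.NatBox) (hV : M.DVOLH B) {c₂ : ℝ} (hc₂ : 0 < c₂) : ∃ c : ℝ, 0 < c ∧
    ∀ d₁ : ℝ, 0 < d₁ → d₁ ≤ c₂ / 2 → ∃ s₀ : ℝ, ∀ s : ℝ, s₀ ≤ s →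
    ∀ h : (Ht k →L[ℝ] ℝ) → ℝ, M.HGood c₂ h → ∀ g : S, M.l g ≤ 1 →
    ENNReal.ofReal c * M.μ (B.DboxH h 1 d₁ (1 / 2) s) ≤
      M.μ {z | z ∈ B.DboxH h 1 d₁ (1 / 2) s ∧ g * z ∈ B.DboxH h 1 d₁ (1 / 2) s} := by
  classical
  have hC0 := M.one_le_C0
  have hBC := B.one_le
  obtain ⟨C', hC'1, hsm⟩ := DB.small_memH B hc₂
  obtain ⟨Cl, hCl, hl⟩ := M.l_τ
  set S₀ : ℝ := ∑ b ∈ M.Φ, ‖b‖ with hS₀
  have hS₀0 : 0 ≤ S₀ := Finset.sum_nonneg fun b _ => norm_nonneg b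
  have hbS : ∀ b ∈ M.Φ, ‖b‖ ≤ S₀ := fun b hb =>
    Finset.single_le_sum (f := fun b : Ht k →L[ℝ] ℝ => ‖b‖) (fun _ _ => norm_nonneg _) hb
  set nτ : ℕ := ⌈M.C0 * (1 + M.C0)⌉₊ with hnτ
  set Fc : ℝ := B.C * (1 + nτ) ^ B.dg * Real.exp (S₀ * M.C0) with hFc
  have hFc0 : 0 < Fc := by positivity
  set q : ℝ := 1 / (B.C * B.C) with hq
  have hq0 : 0 < q := by positivity
  -- the reduction `t`
  obtain ⟨t, ht0, ht1, ht2⟩ := ovl_const (X := q / Fc) (by positivity) hc₂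
  set δ : ℝ := min (min (Real.exp (-t)) (Real.exp (-(t * c₂⁻¹)))) 1 with hδ
  have hδ0 : 0 < δ := lt_min (lt_min (Real.exp_pos _) (Real.exp_pos _)) one_pos
  have hδ1 : δ ≤ 1 := min_le_right _ _
  have hδt : δ ≤ Real.exp (-t) := (min_le_left _ _).trans (min_le_left _ _)
  have hδt' : δ ≤ Real.exp (-(t * c₂⁻¹)) := (min_le_left _ _).trans (min_le_right _ _)
  -- the scale `κ₁`
  set κ₁ : ℝ := min 1 (c₂ / (4 * C')) with hκ₁
  have hκ₁0 : 0 < κ₁ := lt_min one_pos (by positivity)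
  have hκ₁1 : κ₁ ≤ 1 := min_le_left _ _
  have hκ₁C : C' * κ₁ < 1 / 2 * c₂ := by
    have h1 : κ₁ ≤ c₂ / (4 * C') := min_le_right _ _
    rw [le_div_iff₀ (by positivity)] at h1
    linarith
  set κ₄ : ℝ := min (c₂ / (4 * (S₀ + 1))) (κ₁ / (2 * Cl)) with hκ₄
  have hκ₄0 : 0 < κ₄ := lt_min (by positivity) (by positivity)
  have hκ₄S : S₀ * κ₄ ≤ c₂ / 4 := by
    have h1 : κ₄ ≤ c₂ / (4 * (S₀ + 1)) := min_le_left _ _
    rw [le_div_iff₀ (by positivity)] at h1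
    have h2 : κ₄ * (4 * (S₀ + 1)) = 4 * (S₀ * κ₄) + 4 * κ₄ := by ring
    linarith
  have hκ₄l : Cl * κ₄ ≤ κ₁ / 2 := by
    have h1 : κ₄ ≤ κ₁ / (2 * Cl) := min_le_right _ _
    rw [le_div_iff₀ (by positivity)] at h1
    linarith
  obtain ⟨Cv, hCv⟩ := hV c₂ hc₂ (1 / 2) κ₄ 1 δ (by norm_num) (by norm_num) hκ₄0 one_pos hδ0
  refine ⟨1 / max Cv 1, by positivity, ?_⟩
  intro d₁ hd₁ hd₁c
  obtain ⟨sv, hsv⟩ := hCv d₁ hd₁
  have hsm' := hsm (1 / 2) κ₁ (d₁ / 2) d₁ q (by norm_num) (by norm_num) hκ₁0 hκ₁1 hκ₁C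
    (by positivity) (by
      have : d₁ / 2 * κ₁ ≤ d₁ / 2 * 1 := mul_le_mul_of_nonneg_left hκ₁1 (by linarith)
      linarith) hq0
  obtain ⟨s₁, hs₁⟩ := hsm'.exists_forall_of_atTop
  obtain ⟨s₂, hs₂⟩ := ovl_s (t := t) (d₁ := d₁) (X := S₀ * M.C0) (c₂ := c₂) (Cl := Cl) (κ₁ := κ₁)
    (y := (M.l (M.τ (0 : Fin k → ℤ)) : ℝ) + 1) ht0 hd₁ (by positivity) hc₂ (by linarith) hκ₁0
    (by positivity)
  refine ⟨max (max sv s₁) s₂, fun s hs h hh g hg => ?_⟩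
  have hsv' := hsv s ((le_max_left _ _).trans ((le_max_left _ _).trans hs)) h hh.bd
  have hs₁' := hs₁ s ((le_max_right _ _).trans ((le_max_left _ _).trans hs)) h hh.bd
  obtain ⟨u1, u2, u3, u4, u5, u6⟩ := hs₂ s ((le_max_right _ _).trans hs)
  have hincl := ovl_incl B hc₂ hh hS₀0 hbS hnτ hFc hq ht0 ht1 ht2 hδ0 hδ1 hδt hδt' hl hκ₄0 hκ₄S
    hκ₄l hs₁' u1 u2 u3 (mul_le_mul_of_nonneg_right hd₁c u3) u4 u5 u6 hg
  calc ENNReal.ofReal (1 / max Cv 1) * M.μ (B.DboxH h 1 d₁ (1 / 2) s)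
      ≤ ENNReal.ofReal (1 / max Cv 1) *
        (ENNReal.ofReal (max Cv 1) * M.μ (B.DsmH h δ d₁ κ₄ s)) := by
        gcongr
        refine hsv'.trans ?_
        gcongr
        exact le_max_left _ _
    _ = M.μ (B.DsmH h δ d₁ κ₄ s) := by
        rw [← mul_assoc, ← ENNReal.ofReal_mul (by positivity), one_div,
          inv_mul_cancel₀ (by positivity), ENNReal.ofReal_one, one_mul]
    _ ≤ _ := measure_mono hincl

/-- **The box sets are test boxes.** -/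
theorem tb (B : M.NatBox) (hD : M.DBOXH B) (hV : M.DVOLH B) {c₂ : ℝ} (hc₂ : 0 < c₂) :
    ∃ c CA : ℝ, 0 < c ∧ 0 < CA ∧ ∀ κ₂ : ℝ, 0 < κ₂ → ∃ κ₁ : ℝ, 0 < κ₁ ∧
    ∀ d₁ : ℝ, 0 < d₁ → d₁ ≤ c₂ / 2 → ∃ s₀ : ℝ, ∀ s : ℝ, s₀ ≤ s →
    ∀ h : (Ht k →L[ℝ] ℝ) → ℝ, M.HGood c₂ h →
      TB M (κ₁ * s) κ₂ c (CA * s) (B.DboxH h 1 d₁ (1 / 2) s) := by
  obtain ⟨c, hc, hov⟩ := ovl B hV hc₂
  obtain ⟨CA, hCA, hw⟩ := win_norm M hc₂
  refine ⟨c, CA, hc, hCA, fun κ₂ hκ₂ => ?_⟩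
  obtain ⟨κ₁, hκ₁, h1⟩ := hD c₂ hc₂ (1 / 2) (by norm_num) (by norm_num) 1 one_pos κ₂ hκ₂
  refine ⟨κ₁, hκ₁, fun d₁ hd₁ hd₁c => ?_⟩
  obtain ⟨s₁, hs₁⟩ := h1 d₁ (d₁ / (2 * κ₁)) hd₁ (by positivity) (by
    have : d₁ / (2 * κ₁) * κ₁ = d₁ / 2 := by field_simp
    linarith)
  obtain ⟨s₂, hs₂⟩ := hov d₁ hd₁ hd₁c
  refine ⟨max (max s₁ s₂) 0, fun s hs h hh => ?_⟩
  have hs0 : 0 ≤ s := (le_max_right _ _).trans hs
  obtain ⟨Dp, hF⟩ := hs₁ s ((le_max_left _ _).trans ((le_max_left _ _).trans hs)) h hh.bd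
  refine ⟨hF.meas, hF.pos, hF.fin, dbox_bdd B hc₂ hh.bd one_pos d₁ (1 / 2) s (by linarith), ?_, ?_,
    hs₂ s ((le_max_right _ _).trans ((le_max_left _ _).trans hs)) h hh⟩
  · intro z hz
    refine hw h hh.bd s hs0 _ fun b hb => ?_
    have h3 := hz.2 b hb
    have h4 := (hh.bd b hb).1
    have h5 : 0 ≤ s * h b := mul_nonneg hs0 (hc₂.le.trans h4)
    nlinarith
  · intro g hg
    exact hF.toFat.fol (by positivity) hκ₂.le hg

end Vale.Agent.P188.Z1.Lab
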