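import Vale.Agent.P188.Z1.Lab3
import Vale.Agent.P188.Z1.Lab5
import Vale.Agent.P188.Z1.LabS
import Vale.Agent.P188.H671.Grp

/-!
# P188, Z1, block LAB, part 6: translations, flat slices, labels
-/

set_option linter.all false

open MeasureTheory Set Filter
open scoped ENNReal
open Vale.Agent.P188.H540 (vec)

namespace Vale.Agent.P188.Z1.Lab

variable {S : Type} [Group S] [MeasurableSpace S] {Γ : Type} [Group Γ]
  {V : Type} [AddCommGroup V] [Module ℝ V] {k : ℕ} {M : RModel S Γ V k}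

open RModel

/-! ### translations -/

/-- the map `F`, read at the location `Y` -/
def trL (M : RModel S Γ V k) (Y : S) (F : Γ → Γ) (g : Γ) : Γ := F (M.fl (Y * M.inG g))

/-- the inverse map -/
def trR (M : RModel S Γ V k) (Y : S) (F' : Γ → Γ) (g : Γ) : Γ := M.fl (Y⁻¹ * M.inG (F' g))

noncomputable def K2 (M : RModel S Γ V k) (K : ℝ) : ℝ := K * (2 * M.C0 + 1) + K + 2 * M.C0

noncomputable def cT (M : RModel S Γ V k) (K : ℝ) : ℝ := M.C0 * (K * (3 * M.C0 + 1))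

theorem fl_dist (M : RModel S Γ V k) (x y : S) :
    (M.l (M.inG ((M.fl x)⁻¹ * M.fl y)) : ℝ) ≤ M.l (x⁻¹ * y) + 2 * M.C0 := by
  have t1 := M.fl_close x
  have t2 := M.fl_close y
  have t3 := M.l_triR (M.inG (M.fl x)) x (M.inG (M.fl y))
  have t4 := M.l_triR x y (M.inG (M.fl y))
  have t5 : (M.l (y⁻¹ * M.inG (M.fl y)) : ℝ) = M.l ((M.inG (M.fl y))⁻¹ * y) := by rw [M.l_comm]
  rw [map_mul, map_inv]
  linarith

theorem lip' {K : ℝ} {F F' : Γ → Γ} (h : M.QIm K F F') (a b : Γ) :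
    (M.l (M.inG ((F a)⁻¹ * F b)) : ℝ) ≤ K * (M.l (M.inG (a⁻¹ * b)) + 1) := by
  have := h.lip a (a⁻¹ * b)
  rwa [mul_inv_cancel_left] at this

theorem l_inG_tri (a b c : Γ) :
    (M.l (M.inG (a⁻¹ * c)) : ℝ) ≤ M.l (M.inG (a⁻¹ * b)) + M.l (M.inG (b⁻¹ * c)) := by
  have := M.l_triR (M.inG a) (M.inG b) (M.inG c)
  simpa only [map_mul, map_inv] using this

theorem QIm_trL {K : ℝ} {F F' : Γ → Γ} (h : M.QIm K F F') (Y : S) :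
    M.QIm (K2 M K) (trL M Y F) (trR M Y F') := by
  have hK := h.K_nonneg
  have hC0 := M.C0_pos
  refine ⟨fun g y => ?_, fun g y => ?_, fun g => ?_, fun g => ?_⟩
  · have h1 := lip' h (M.fl (Y * M.inG g)) (M.fl (Y * M.inG (g * y)))
    have h2 := fl_dist M (Y * M.inG g) (Y * M.inG (g * y))
    have h3 : (Y * M.inG g)⁻¹ * (Y * M.inG (g * y)) = M.inG y := by rw [map_mul]; group
    rw [h3] at h2
    have hy : (0 : ℝ) ≤ M.l (M.inG y) := Nat.cast_nonneg _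
    refine h1.trans ?_
    calc K * ((M.l (M.inG ((M.fl (Y * M.inG g))⁻¹ * M.fl (Y * M.inG (g * y)))) : ℝ) + 1)
        ≤ K * (M.l (M.inG y) + 2 * M.C0 + 1) := mul_le_mul_of_nonneg_left (by linarith) hK
      _ ≤ K2 M K * (M.l (M.inG y) + 1) := by
        unfold K2
        have h4 : 0 ≤ K * (2 * M.C0) * M.l (M.inG y) := by positivity
        have h5 : 0 ≤ (K + 2 * M.C0) * (M.l (M.inG y) + 1) := by positivity
        nlinarith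
  · have h1 := h.lip' g y
    have h2 := fl_dist M (Y⁻¹ * M.inG (F' g)) (Y⁻¹ * M.inG (F' (g * y)))
    have h3 : (Y⁻¹ * M.inG (F' g))⁻¹ * (Y⁻¹ * M.inG (F' (g * y))) =
        M.inG ((F' g)⁻¹ * F' (g * y)) := by rw [map_mul, map_inv]; group
    rw [h3] at h2
    have hy : (0 : ℝ) ≤ M.l (M.inG y) := Nat.cast_nonneg _
    refine (h2.trans (add_le_add_left h1 _)).trans ?_
    unfold K2
    have h4 : 0 ≤ K * (2 * M.C0 + 1) * (M.l (M.inG y) + 1) := by positivity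
    have h5 : 0 ≤ 2 * M.C0 * M.l (M.inG y) := by positivity
    nlinarith
  · have h1 := h.inv (M.fl (Y * M.inG g))
    set p := M.fl (Y * M.inG g) with hp
    have h2 := M.fl_close (Y⁻¹ * M.inG (F' (F p)))
    have h3 := M.fl_close (Y * M.inG g)
    have h4 := M.l_triR (M.inG g) (Y⁻¹ * M.inG (F' (F p)))
      (M.inG (M.fl (Y⁻¹ * M.inG (F' (F p)))))
    have h5 : (M.l ((Y⁻¹ * M.inG (F' (F p)))⁻¹ * M.inG (M.fl (Y⁻¹ * M.inG (F' (F p))))) : ℝ) =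
      M.l ((M.inG (M.fl (Y⁻¹ * M.inG (F' (F p)))))⁻¹ * (Y⁻¹ * M.inG (F' (F p)))) := by
      rw [M.l_comm]
    have h6 := M.l_triR (Y * M.inG g) (M.inG p) (M.inG (F' (F p)))
    have h7 : (Y * M.inG g)⁻¹ * M.inG (F' (F p)) = (M.inG g)⁻¹ * (Y⁻¹ * M.inG (F' (F p))) := by
      group
    have h8 : (M.l ((Y * M.inG g)⁻¹ * M.inG p) : ℝ) = M.l ((M.inG p)⁻¹ * (Y * M.inG g)) := by
      rw [M.l_comm]
    rw [h7, h8, ← map_inv M.inG p, ← map_mul] at h6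
    show (M.l (M.inG (g⁻¹ * M.fl (Y⁻¹ * M.inG (F' (F p))))) : ℝ) ≤ K2 M K
    rw [map_mul, map_inv]
    have h9 : (M.l (M.inG p⁻¹ * (Y * M.inG g)) : ℝ) = M.l ((M.inG p)⁻¹ * (Y * M.inG g)) := by
      rw [map_inv]
    unfold K2
    have h10 : 0 ≤ K * (2 * M.C0 + 1) := by positivity
    rw [← hp] at h3
    first
      | linarith
      | (rw [map_inv] at h6; linarith)
  · set q := M.fl (Y⁻¹ * M.inG (F' g)) with hq
    have h1 := M.fl_close (Y⁻¹ * M.inG (F' g))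
    rw [← hq] at h1
    have h2 := M.fl_close (Y * M.inG q)
    have h3 := M.l_triR (M.inG (F' g)) (Y * M.inG q) (M.inG (M.fl (Y * M.inG q)))
    have h4 : (M.l ((Y * M.inG q)⁻¹ * M.inG (M.fl (Y * M.inG q))) : ℝ) =
      M.l ((M.inG (M.fl (Y * M.inG q)))⁻¹ * (Y * M.inG q)) := by rw [M.l_comm]
    have h5 : (M.l ((M.inG (F' g))⁻¹ * (Y * M.inG q)) : ℝ) =
        M.l ((M.inG q)⁻¹ * (Y⁻¹ * M.inG (F' g))) := by
      rw [M.l_comm]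
      congr 2
      group
    have h6 := lip' h (F' g) (M.fl (Y * M.inG q))
    have h7 : (M.l (M.inG ((F' g)⁻¹ * M.fl (Y * M.inG q))) : ℝ) ≤ 2 * M.C0 := by
      rw [map_mul, map_inv]
      linarith
    have h8 := h.inv' g
    have h9 := l_inG_tri (M := M) g (F (F' g)) (F (M.fl (Y * M.inG q)))
    show (M.l (M.inG (g⁻¹ * F (M.fl (Y * M.inG q)))) : ℝ) ≤ K2 M K
    have h10 : K * ((M.l (M.inG ((F' g)⁻¹ * M.fl (Y * M.inG q))) : ℝ) + 1) ≤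
        K * (2 * M.C0 + 1) := mul_le_mul_of_nonneg_left (by linarith) hK
    unfold K2
    linarith

theorem f_trL {K : ℝ} {F F' : Γ → Γ} (h : M.QIm K F F') (Y z : S) :
    ‖M.f (trL M Y F) z - M.f F (Y * z)‖ ≤ cT M K := by
  have hK := h.K_nonneg
  have h1 := lip' h (M.fl (Y * z)) (M.fl (Y * M.inG (M.fl z)))
  have h2 := fl_dist M (Y * z) (Y * M.inG (M.fl z))
  have h3 : (Y * z)⁻¹ * (Y * M.inG (M.fl z)) = z⁻¹ * M.inG (M.fl z) := by group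
  rw [h3, M.l_comm] at h2
  have h4 := M.fl_close z
  refine (θ_inG_le M (g := F (M.fl (Y * z))) (g' := F (M.fl (Y * M.inG (M.fl z)))) h1).trans ?_
  unfold cT
  refine mul_le_mul_of_nonneg_left (mul_le_mul_of_nonneg_left ?_ hK) M.C0_pos.le
  linarith

/-! ### flat slices -/

/-- flat slices (the two clauses of FLATG) -/
def SF (B : M.NatBox) (h : (Ht k →L[ℝ] ℝ) → ℝ) (d₁ s c₁ ε κ A : ℝ) (g : S → Ht k)
    (T : Ht k →L[ℝ] Ht k) : Prop :=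
  ∃ c : Ht k, (∀ x : S, (M.l x : ℝ) ≤ c₁ * s →
      M.μ {v | v ∈ B.Bx (M.szh h d₁ s) ∧ ε * s < ‖g (v * x) - c - T (M.θ x)‖} ≤
        ENNReal.ofReal ε * M.μ (B.Bx (M.szh h d₁ s))) ∧
    (∀ n : ℕ, (n : ℝ) ≤ A * s → ∀ x ∈ M.CB n, (∀ b ∈ M.Φ, b (M.θ x) ≤ (1 - κ) * s * h b) →
      M.μ {v | v ∈ B.Bx (M.szh h d₁ s) ∧ ε * s < ‖g (v * x) - c - T (M.θ x)‖} ≤
        ENNReal.ofReal ε * M.μ (B.Bx (M.szh h d₁ s)))

theorem SF.congr {B : M.NatBox} {h : (Ht k →L[ℝ] ℝ) → ℝ} {d₁ s c₁ ε κ A : ℝ} {g g' : S → Ht k}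
    {T T' : Ht k →L[ℝ] Ht k} {ε' κ' A' δ' t X : ℝ} (hS : SF B h d₁ s c₁ ε κ A g T) (hs : 0 ≤ s)
    (hh : ∀ b ∈ M.Φ, 0 ≤ h b)
    (hε : ε ≤ ε') (hκ : κ ≤ κ') (hA : A' ≤ A) (hg : ∀ z, ‖g' z - g z‖ ≤ δ') (hT : ‖T' - T‖ ≤ t)
    (hX : ∀ x : S, (M.l x : ℝ) ≤ c₁ * s → ‖M.θ x‖ ≤ X)
    (hX' : ∀ n : ℕ, (n : ℝ) ≤ A' * s → ∀ x ∈ M.CB n, ‖M.θ x‖ ≤ X)
    (hsum : ε * s + δ' + t * X ≤ ε' * s) : SF B h d₁ s c₁ ε' κ' A' g' T' := by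
  obtain ⟨c, h1, h2⟩ := hS
  have key : ∀ x : S, ‖M.θ x‖ ≤ X →
      M.μ {v | v ∈ B.Bx (M.szh h d₁ s) ∧ ε * s < ‖g (v * x) - c - T (M.θ x)‖} ≤
        ENNReal.ofReal ε * M.μ (B.Bx (M.szh h d₁ s)) →
      M.μ {v | v ∈ B.Bx (M.szh h d₁ s) ∧ ε' * s < ‖g' (v * x) - c - T' (M.θ x)‖} ≤
        ENNReal.ofReal ε' * M.μ (B.Bx (M.szh h d₁ s)) := by
    intro x hx h3
    refine (measure_mono ?_).trans (h3.trans (by gcongr))
    rintro v ⟨hv, hv'⟩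
    refine ⟨hv, ?_⟩
    by_contra h4
    rw [not_lt] at h4
    have e : g' (v * x) - c - T' (M.θ x) = (g (v * x) - c - T (M.θ x)) +
        ((g' (v * x) - g (v * x)) - (T' - T) (M.θ x)) := by
      rw [ContinuousLinearMap.sub_apply]; abel
    rw [e] at hv'
    have n1 := norm_add_le (g (v * x) - c - T (M.θ x))
      ((g' (v * x) - g (v * x)) - (T' - T) (M.θ x))
    have n2 := norm_sub_le (g' (v * x) - g (v * x)) ((T' - T) (M.θ x))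
    have n3 := (T' - T).le_opNorm (M.θ x)
    have n4 : ‖T' - T‖ * ‖M.θ x‖ ≤ t * X :=
      mul_le_mul hT hx (norm_nonneg _) ((norm_nonneg _).trans hT)
    have n5 := hg (v * x)
    linarith
  refine ⟨c, fun x hx => key x (hX x hx) (h1 x hx), fun n hn x hx hb => ?_⟩
  have hn' : (n : ℝ) ≤ A * s := hn.trans (mul_le_mul_of_nonneg_right hA hs)
  refine key x (hX' n hn x hx) (h2 n hn' x hx fun b hb' => (hb b hb').trans ?_)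
  refine mul_le_mul_of_nonneg_right (mul_le_mul_of_nonneg_right (by linarith) hs) (hh b hb')

/-- flat slices give flatness on the box set -/
theorem SF.flt {B : M.NatBox} {h : (Ht k →L[ℝ] ℝ) → ℝ} {d₁ s c₁ ε κ A : ℝ} {g : S → Ht k}
    {T : Ht k →L[ℝ] Ht k} (hS : SF B h d₁ s c₁ ε κ A g T) (hs : 0 < s)
    (hh : ∀ b ∈ M.Φ, 0 ≤ h b) (hκ : κ ≤ 1 / 2) {CW : ℝ}
    (hW : ∀ x : Ht k, (∀ b ∈ M.Φ, b x ≤ s * h b) → ‖x‖ ≤ CW * s)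
    (hA : M.C0 * (1 + CW * s) + 1 ≤ A * s) :
    Flt M g (B.DboxH h 1 d₁ (1 / 2) s) T (ε * s) ε := by
  classical
  obtain ⟨c, -, h2⟩ := hS
  refine ⟨c, ?_⟩
  have hs2 : 0 < (1 - 1 / 2 : ℝ) * s := by linarith
  set W := DB.WnH M h ((1 - 1 / 2) * s) with hWdef
  have hWf : W.Finite := DB.WnH_finite h hs2
  have hD : B.DboxH h 1 d₁ (1 / 2) s = BW M (B.Bx (M.szh h d₁ s)) W := by
    have : (fun i => 1 * M.szh h d₁ s i) = M.szh h d₁ s := by funext i; rw [one_mul]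
    unfold NatBox.DboxH
    rw [this]
    rfl
  have hμ : M.μ (B.DboxH h 1 d₁ (1 / 2) s) = W.ncard * M.μ (B.Bx (M.szh h d₁ s)) := by
    rw [hD]; exact BW_measure (B.meas _) (B.sub _) hWf
  set E : (Fin k → ℤ) → Set S := fun w =>
    {v | v ∈ B.Bx (M.szh h d₁ s) ∧ ε * s < ‖g (v * M.τ w) - c - T (M.θ (M.τ w))‖} with hE
  have hEw : ∀ w ∈ W, M.μ (E w) ≤ ENNReal.ofReal ε * M.μ (B.Bx (M.szh h d₁ s)) := by
    intro w hw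
    have hw1 : ∀ b ∈ M.Φ, b (vec w) ≤ (1 - 1 / 2) * s * h b := hw
    have hw2 : ∀ b ∈ M.Φ, b (vec w) ≤ s * h b := by
      intro b hb
      refine (hw1 b hb).trans (mul_le_mul_of_nonneg_right (by linarith) (hh b hb))
    have hw3 : ‖vec w‖ ≤ CW * s := hW _ hw2
    refine h2 ⌈M.C0 * (1 + ‖(fun i => (w i : ℝ))‖)⌉₊ ?_ (M.τ w) (M.τ_CB w) ?_
    · have h4 : M.C0 * (1 + ‖(fun i => (w i : ℝ))‖) ≤ M.C0 * (1 + CW * s) :=
        mul_le_mul_of_nonneg_left (by have : ‖(fun i => (w i : ℝ))‖ ≤ CW * s := hw3; linarith)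
          M.C0_pos.le
      have h5 := (Nat.ceil_lt_add_one (a := M.C0 * (1 + ‖(fun i => (w i : ℝ))‖))
        (by have := M.C0_pos; positivity)).le
      linarith
    · intro b hb
      rw [DB.θ_vec]
      refine (hw1 b hb).trans (mul_le_mul_of_nonneg_right
        (mul_le_mul_of_nonneg_right (by linarith) hs.le) (hh b hb))
  have hsub : {z | z ∈ B.DboxH h 1 d₁ (1 / 2) s ∧ ε * s < ‖g z - c - T (M.θ z)‖} ⊆
      ⋃ w ∈ hWf.toFinset, {z | z * (M.τ w)⁻¹ ∈ E w} := by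
    rintro z ⟨hz, hz'⟩
    rw [hD] at hz
    simp only [mem_iUnion, Finite.mem_toFinset, exists_prop]
    refine ⟨_, hz.2, hz.1, ?_⟩
    have e : z * (M.τ (Multiplicative.toAdd (M.η z)))⁻¹ * M.τ (Multiplicative.toAdd (M.η z)) = z :=
      inv_mul_cancel_right _ _
    show ε * s < ‖g (z * (M.τ (Multiplicative.toAdd (M.η z)))⁻¹ *
      M.τ (Multiplicative.toAdd (M.η z))) - c - T (M.θ (M.τ (Multiplicative.toAdd (M.η z))))‖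
    rw [e, DB.θ_vec]
    exact hz'
  calc M.μ {z | z ∈ B.DboxH h 1 d₁ (1 / 2) s ∧ ε * s < ‖g z - c - T (M.θ z)‖}
      ≤ ∑ w ∈ hWf.toFinset, M.μ {z | z * (M.τ w)⁻¹ ∈ E w} :=
        (measure_mono hsub).trans (measure_biUnion_finset_le _ _)
    _ ≤ ∑ w ∈ hWf.toFinset, ENNReal.ofReal ε * M.μ (B.Bx (M.szh h d₁ s)) := by
        refine Finset.sum_le_sum fun w hw => ?_
        rw [preimage_right]
        exact hEw w (hWf.mem_toFinset.1 hw)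
    _ = ENNReal.ofReal ε * M.μ (B.DboxH h 1 d₁ (1 / 2) s) := by
        rw [hμ, Finset.sum_const, nsmul_eq_mul, ← ncard_eq_toFinset_card W hWf]
        ring

/-! ### labels -/

theorem lab_sub {Φ₁ : Finset (Ht k →L[ℝ] ℝ)} {V₁ : Finset (Fin k → ℤ)} {c₀ X : ℝ} (hc₀ : 0 < c₀)
    (hX0 : 0 < X) (hle : ∀ b ∈ Φ₁, ∀ v ∈ V₁, ‖b‖ * ‖(RModel.ht v : Ht k)‖ ≤ X)
    {L L' : ℝ} {T T' : Ht k →L[ℝ] Ht k} {a a' : V₁ → Set (Ht k →L[ℝ] ℝ)}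
    (ha : GoodLab Φ₁ V₁ c₀ L T a) (ha' : GoodLab Φ₁ V₁ c₀ L' T' a') (hTT : ‖T - T'‖ < c₀ / X)
    (v : V₁) : a v ⊆ a' v := by
  intro b hb
  have hbΦ : b ∈ Φ₁ := ha.sub v hb
  by_contra hb'
  have h1 := ha.pos v b hbΦ hb
  have h2 := ha'.neg v b hbΦ hb'
  set x : Ht k := RModel.ht (v : Fin k → ℤ) with hx
  have hle' : ‖b‖ * ‖x‖ ≤ X := hle b hbΦ v v.2
  have h3 : b ((T - T') x) = b (T x) - b (T' x) := by
    rw [ContinuousLinearMap.sub_apply, map_sub]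
  have h4 : b ((T - T') x) ≤ ‖b‖ * (‖T - T'‖ * ‖x‖) :=
    (le_abs_self _).trans ((b.le_opNorm _).trans
      (mul_le_mul_of_nonneg_left ((T - T').le_opNorm _) (norm_nonneg _)))
  have h5 : ‖b‖ * (‖T - T'‖ * ‖x‖) = ‖T - T'‖ * (‖b‖ * ‖x‖) := by ring
  have h6 : ‖T - T'‖ * (‖b‖ * ‖x‖) ≤ ‖T - T'‖ * X :=
    mul_le_mul_of_nonneg_left hle' (norm_nonneg _)
  rw [lt_div_iff₀ hX0] at hTT
  linarith

/-- good labels are separated -/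
theorem lab_sep {Φ₁ : Finset (Ht k →L[ℝ] ℝ)} {V₁ : Finset (Fin k → ℤ)} {c₀ : ℝ} (hc₀ : 0 < c₀) :
    ∃ c : ℝ, 0 < c ∧ ∀ (L L' : ℝ) (T T' : Ht k →L[ℝ] Ht k) (a a' : V₁ → Set (Ht k →L[ℝ] ℝ)),
      GoodLab Φ₁ V₁ c₀ L T a → GoodLab Φ₁ V₁ c₀ L' T' a' → ‖T - T'‖ < c → a = a' := by
  set X : ℝ := 1 + ∑ b ∈ Φ₁, ∑ v ∈ V₁, ‖b‖ * ‖(RModel.ht v : Ht k)‖ with hX
  have hsum : 0 ≤ ∑ b ∈ Φ₁, ∑ v ∈ V₁, ‖b‖ * ‖(RModel.ht v : Ht k)‖ :=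
    Finset.sum_nonneg fun b _ => Finset.sum_nonneg fun v _ =>
      mul_nonneg (norm_nonneg _) (norm_nonneg _)
  have hX0 : 0 < X := by linarith
  have hle : ∀ b ∈ Φ₁, ∀ v ∈ V₁, ‖b‖ * ‖(RModel.ht v : Ht k)‖ ≤ X := by
    intro b hb v hv
    have h1 : ‖b‖ * ‖(RModel.ht v : Ht k)‖ ≤ ∑ v ∈ V₁, ‖b‖ * ‖(RModel.ht v : Ht k)‖ :=
      Finset.single_le_sum (f := fun v => ‖b‖ * ‖(RModel.ht v : Ht k)‖)
        (fun _ _ => mul_nonneg (norm_nonneg _) (norm_nonneg _)) hv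
    have h2 : ∑ v ∈ V₁, ‖b‖ * ‖(RModel.ht v : Ht k)‖ ≤
        ∑ b ∈ Φ₁, ∑ v ∈ V₁, ‖b‖ * ‖(RModel.ht v : Ht k)‖ :=
      Finset.single_le_sum
        (f := fun b : Ht k →L[ℝ] ℝ => ∑ v ∈ V₁, ‖b‖ * ‖(RModel.ht v : Ht k)‖)
        (fun _ _ => Finset.sum_nonneg fun _ _ => mul_nonneg (norm_nonneg _) (norm_nonneg _)) hb
    linarith
  refine ⟨c₀ / X, div_pos hc₀ hX0, ?_⟩
  intro L L' T T' a a' ha ha' hTT
  funext v
  refine Subset.antisymm (lab_sub hc₀ hX0 hle ha ha' hTT v) (lab_sub hc₀ hX0 hle ha' ha ?_ v)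
  rw [norm_sub_rev]
  exact hTT

/-- **Labels from pairs.** -/
theorem labels {𝓧 𝓐 E : Type*} [NormedAddCommGroup E] (Fl : 𝓧 → E → Prop) (Tf : ℕ → 𝓐 → E)
    (GLb : E → 𝓐 → Prop) {η : ℝ}
    (pair : ∀ F₁ F₂ : 𝓧, ∃ (ρ : ℕ) (a₁ a₂ : 𝓐), (GLb (Tf ρ a₁) a₁ ∧ Fl F₁ (Tf ρ a₁)) ∧
      GLb (Tf ρ a₂) a₂ ∧ Fl F₂ (Tf ρ a₂))
    (uni : ∀ F T T', Fl F T → Fl F T' → ‖T - T'‖ ≤ η)
    (sep : ∀ T T' a a', GLb T a → GLb T' a' → ‖T - T'‖ ≤ η → a = a') :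
    ∃ (lab : 𝓧 → 𝓐) (𝕋 : 𝓧 → E), (∀ F, GLb (𝕋 F) (lab F) ∧ Fl F (𝕋 F)) ∧
      (∀ F₁ F₂, lab F₁ = lab F₂ → ‖𝕋 F₁ - 𝕋 F₂‖ ≤ 2 * η) ∧
      (∀ F₁ F₂, (∀ T T', Fl F₁ T → Fl F₂ T' → ‖T - T'‖ ≤ η) → lab F₁ = lab F₂) := by
  have h1 : ∀ F : 𝓧, ∃ (a : 𝓐) (T : E), GLb T a ∧ Fl F T := fun F => by
    obtain ⟨ρ, a₁, a₂, h1, h2⟩ := pair F F
    exact ⟨a₁, _, h1⟩
  choose lab 𝕋 hlab using h1
  refine ⟨lab, 𝕋, hlab, ?_, ?_⟩
  · intro F₁ F₂ h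
    obtain ⟨ρ, a₁, a₂, ⟨h1, h2⟩, h3, h4⟩ := pair F₁ F₂
    have e1 := sep _ _ _ _ h1 (hlab F₁).1 (uni F₁ _ _ h2 (hlab F₁).2)
    have e2 := sep _ _ _ _ h3 (hlab F₂).1 (uni F₂ _ _ h4 (hlab F₂).2)
    have e3 : a₁ = a₂ := by rw [e1, e2, h]
    subst e3
    have d1 := uni F₁ _ _ (hlab F₁).2 h2
    have d2 := uni F₂ _ _ h4 (hlab F₂).2
    have d3 := norm_add_le (𝕋 F₁ - Tf ρ a₁) (Tf ρ a₁ - 𝕋 F₂)
    rw [sub_add_sub_cancel] at d3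
    linarith
  · intro F₁ F₂ h
    exact sep _ _ _ _ (hlab F₁).1 (hlab F₂).1 (h _ _ (hlab F₁).2 (hlab F₂).2)

end Vale.Agent.P188.Z1.Lab
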