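import Vale.Agent.P188.Z1.Lab6

/-!
# P188, Z1, block LAB, part 7: the labels at one scale
-/

set_option linter.all false

open MeasureTheory Set Filter
open scoped ENNReal

namespace Vale.Agent.P188.Z1.Lab

variable {S : Type} [Group S] [MeasurableSpace S] {Γ : Type} [Group Γ]
  {V : Type} [AddCommGroup V] [Module ℝ V] {k : ℕ} {M : RModel S Γ V k}

open RModel

theorem cT_nonneg {K : ℝ} (hK : 0 ≤ K) : 0 ≤ cT M K := by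
  have := M.C0_pos
  unfold cT
  positivity

/-- flatness at a location -/
theorem flt_at {K : ℝ} {H : Type} [Group H] {Ps : H → Γ → Γ} (hF : M.Fam K Ps)
    {B : M.NatBox} {h : (Ht k →L[ℝ] ℝ) → ℝ} {d₁ s c₁ ε κ A : ℝ} {D : Set S}
    (flt : ∀ (g : S → Ht k) (T : Ht k →L[ℝ] Ht k), SF B h d₁ s c₁ ε κ A g T →
      Flt M g D T (ε * s) ε) {x : H} {Y : S} {T : Ht k →L[ℝ] Ht k}
    (hS : SF B h d₁ s c₁ ε κ A (M.f (trL M Y (Ps x))) T) :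
    Flt M (fun z => M.f (Ps x) (Y * z)) D T (ε * s + cT M K) ε := by
  refine (flt _ _ hS).congr fun z _ => ?_
  rw [norm_sub_rev]
  exact f_trL (hF.qi x) Y z

/-- **Labels at one scale.** -/
theorem stepA {K : ℝ} {H : Type} [Group H] {Ps : H → Γ → Γ} (hF : M.Fam K Ps)
    {Φ₁ : Finset (Ht k →L[ℝ] ℝ)} {V₁ : Finset (Fin k → ℤ)} {c₀ L : ℝ} {B : M.NatBox}
    {h : (Ht k →L[ℝ] ℝ) → ℝ} {d₁ s c₁ ε κ A : ℝ}
    {Tf : ℕ → (V₁ → Set (Ht k →L[ℝ] ℝ)) → (Ht k →L[ℝ] Ht k)}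
    (pair : ∀ F F' : Fin 2 → Γ → Γ, (∀ α, M.QIm (K2 M K) (F α) (F' α)) → ∃ ρ : ℕ, ∀ α,
      ∃ a : V₁ → Set (Ht k →L[ℝ] ℝ), GoodLab Φ₁ V₁ c₀ L (Tf ρ a) a ∧
        SF B h d₁ s c₁ ε κ A (M.f (F α)) (Tf ρ a))
    {D : Set S} {δ₂ η csep : ℝ}
    (flt : ∀ (g : S → Ht k) (T : Ht k →L[ℝ] Ht k), SF B h d₁ s c₁ ε κ A g T →
      Flt M g D T (ε * s) ε)
    (hδ₂ : ε * s + cT M K ≤ δ₂)
    (hu : ∀ (f : S → Ht k) (T T' : Ht k →L[ℝ] Ht k) (g : S), M.l g ≤ 1 → Flt M f D T δ₂ ε →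
      Flt M (fun z => f (g * z)) D T' δ₂ ε → ‖T - T'‖ ≤ η)
    (hsep : ∀ (T T' : Ht k →L[ℝ] Ht k) (a a' : V₁ → Set (Ht k →L[ℝ] ℝ)),
      GoodLab Φ₁ V₁ c₀ L T a → GoodLab Φ₁ V₁ c₀ L T' a' → ‖T - T'‖ < csep → a = a')
    (hη : η < csep) :
    ∃ (lab : H → V₁ → Set (Ht k →L[ℝ] ℝ)) (𝕋 : H → Ht k →L[ℝ] Ht k)
      (𝕋' : H → S → (Ht k →L[ℝ] Ht k)),
      (∀ x, GoodLab Φ₁ V₁ c₀ L (𝕋 x) (lab x)) ∧
      (∀ x Y, ‖𝕋' x Y - 𝕋 x‖ ≤ 2 * η ∧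
        SF B h d₁ s c₁ ε κ A (M.f (trL M Y (Ps x))) (𝕋' x Y)) ∧
      (∀ x y, lab x = lab y → ‖𝕋 x - 𝕋 y‖ ≤ 2 * η) := by
  have hK : 0 ≤ K := (hF.qi 1).K_nonneg
  have hcT := cT_nonneg (M := M) hK
  obtain ⟨lab, 𝕋, h1, h2, h3⟩ := labels
    (𝓧 := {p : (Γ → Γ) × (Γ → Γ) // M.QIm (K2 M K) p.1 p.2})
    (fun p T => SF B h d₁ s c₁ ε κ A (M.f p.1.1) T) Tf
    (fun T a => GoodLab Φ₁ V₁ c₀ L T a) (η := η)
    (by
      intro p₁ p₂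
      obtain ⟨ρ, hρ⟩ := pair ![p₁.1.1, p₂.1.1] ![p₁.1.2, p₂.1.2] (by
        intro α
        fin_cases α
        · exact p₁.2
        · exact p₂.2)
      obtain ⟨a₁, ha₁⟩ := hρ 0
      obtain ⟨a₂, ha₂⟩ := hρ 1
      exact ⟨ρ, a₁, a₂, ha₁, ha₂⟩)
    (by
      intro p T T' hT hT'
      refine hu (M.f p.1.1) T T' 1 (by rw [M.len.one]; exact zero_le_one)
        ((flt _ _ hT).mono (by linarith) le_rfl) ?_
      simp only [one_mul]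
      exact (flt _ _ hT').mono (by linarith) le_rfl)
    (fun T T' a a' ha ha' hTT => hsep T T' a a' ha ha' (hTT.trans_lt hη))
  set pt : H → S → {p : (Γ → Γ) × (Γ → Γ) // M.QIm (K2 M K) p.1 p.2} := fun x Y =>
    ⟨(trL M Y (Ps x), trR M Y (Ps x⁻¹)), QIm_trL (hF.qi x) Y⟩ with hpt
  -- neighbours
  have hnb : ∀ (x : H) (Y g : S), M.l g ≤ 1 → lab (pt x Y) = lab (pt x (Y * g)) := by
    intro x Y g hg
    refine h3 _ _ fun T T' hT hT' => ?_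
    have e1 := (flt_at hF flt (x := x) (Y := Y) hT).mono hδ₂ le_rfl
    have e2 := (flt_at hF flt (x := x) (Y := Y * g) hT').mono hδ₂ le_rfl
    refine hu (fun z => M.f (Ps x) (Y * z)) T T' g hg e1 ?_
    simp only [mul_assoc] at e2
    exact e2
  have hall : ∀ (x : H) (Y : S), lab (pt x Y) = lab (pt x 1) := by
    intro x Y
    obtain ⟨p, hp0, hp1, hp2⟩ := M.l_path Y
    have key : ∀ i, lab (pt x (p i)) = lab (pt x 1) := by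
      intro i
      induction i with
      | zero => rw [hp0]
      | succ i ih =>
        rw [← ih, hnb x (p i) _ (hp2 i), mul_inv_cancel_left]
    rw [← hp1]
    exact key _
  refine ⟨fun x => lab (pt x 1), fun x => 𝕋 (pt x 1), fun x Y => 𝕋 (pt x Y), fun x => (h1 _).1,
    fun x Y => ⟨h2 _ _ (hall x Y), (h1 (pt x Y)).2⟩, fun x y hxy => h2 _ _ hxy⟩

/-- the map `Ps 1` is flat with linear part `1` -/
theorem flt_one {K : ℝ} {H : Type} [Group H] {Ps : H → Γ → Γ} (hF : M.Fam K Ps) {D : Set S}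
    {δ ε : ℝ} (hδ : M.C0 * K + M.C0 * M.C0 ≤ δ) :
    Flt M (M.f (Ps 1)) D (1 : Ht k →L[ℝ] Ht k) δ ε := by
  refine ⟨0, ?_⟩
  have : {z | z ∈ D ∧ δ < ‖M.f (Ps 1) z - 0 - (1 : Ht k →L[ℝ] Ht k) (M.θ z)‖} = ∅ := by
    rw [Set.eq_empty_iff_forall_notMem]
    rintro z ⟨-, hz⟩
    have h1 := θ_inG_le M (hF.one (M.fl z))
    have h2 := θ_inG_close M z
    have e : M.f (Ps 1) z - 0 - (1 : Ht k →L[ℝ] Ht k) (M.θ z) =
        (M.θ (M.inG (Ps 1 (M.fl z))) - M.θ (M.inG (M.fl z))) -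
          (M.θ z - M.θ (M.inG (M.fl z))) := by
      rw [sub_zero, ContinuousLinearMap.one_apply]
      show M.θ (M.inG (Ps 1 (M.fl z))) - M.θ z = _
      abel
    rw [e] at hz
    have := norm_sub_le (M.θ (M.inG (Ps 1 (M.fl z))) - M.θ (M.inG (M.fl z)))
      (M.θ z - M.θ (M.inG (M.fl z)))
    linarith
  rw [this, measure_empty]
  exact zero_le

/-- **The linear parts are trivial on a subgroup of bounded index** (at one scale). -/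
theorem scale {K : ℝ} {H : Type} [Group H] {Ps : H → Γ → Γ} (hF : M.Fam K Ps)
    {Φ₁ : Finset (Ht k →L[ℝ] ℝ)} {V₁ : Finset (Fin k → ℤ)} {c₀ L : ℝ} {B : M.NatBox}
    {h : (Ht k →L[ℝ] ℝ) → ℝ} {d₁ s c₁ ε κ A : ℝ}
    {Tf : ℕ → (V₁ → Set (Ht k →L[ℝ] ℝ)) → (Ht k →L[ℝ] Ht k)}
    (pair : ∀ F F' : Fin 2 → Γ → Γ, (∀ α, M.QIm (K2 M K) (F α) (F' α)) → ∃ ρ : ℕ, ∀ α,
      ∃ a : V₁ → Set (Ht k →L[ℝ] ℝ), GoodLab Φ₁ V₁ c₀ L (Tf ρ a) a ∧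
        SF B h d₁ s c₁ ε κ A (M.f (F α)) (Tf ρ a))
    {D : Set S} {δ₂ η csep : ℝ}
    (flt : ∀ (g : S → Ht k) (T : Ht k →L[ℝ] Ht k), SF B h d₁ s c₁ ε κ A g T →
      Flt M g D T (ε * s) ε)
    (hδ₂ : ε * s + cT M K ≤ δ₂) (hδ₂' : M.C0 * K + M.C0 * M.C0 ≤ δ₂)
    (hu : ∀ (f : S → Ht k) (T T' : Ht k →L[ℝ] Ht k) (g : S), M.l g ≤ 1 → Flt M f D T δ₂ ε →
      Flt M (fun z => f (g * z)) D T' δ₂ ε → ‖T - T'‖ ≤ η)
    (hsep : ∀ (T T' : Ht k →L[ℝ] Ht k) (a a' : V₁ → Set (Ht k →L[ℝ] ℝ)),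
      GoodLab Φ₁ V₁ c₀ L T a → GoodLab Φ₁ V₁ c₀ L T' a' → ‖T - T'‖ < csep → a = a')
    {r κ₂ c AD : ℝ} (hD : TB M r κ₂ c AD D) (hκ₂ : κ₂ ≤ 1 / 8) (hε : 0 ≤ ε) (hs : 0 ≤ s)
    (hcst : cst M K * ε ≤ 1)
    (hbig : ∀ R : ℝ, ∃ Db Dbp, M.Fat R (1 / 8) Db Dbp)
    {r' Cn η₀ L' : ℝ} (hr0 : 0 ≤ r') (hr' : r' ≤ r)
    (hr'' : K * (r' + 2 * M.C0 + 1) + 2 * M.C0 ≤ r) (hCn : 0 ≤ Cn)
    (hn : ∀ (Bm : Ht k →L[ℝ] Ht k) (δ : ℝ), 0 ≤ δ →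
      (∀ u : S, (M.l u : ℝ) ≤ r' → ‖Bm (M.θ u)‖ ≤ δ) → ‖Bm‖ ≤ Cn * δ / r')
    (hL : L ≤ L') (hL' : 1 ≤ L') (hη0 : 0 ≤ η) (hAD : 0 ≤ AD)
    (hη₀ : Cn * ((8 + 4 * L') * (δ₂ + 2 * η * AD) +
      (2 * M.C0 * K + 2 * L' * M.C0 * M.C0)) / r' ≤ η₀)
    (h3η : 3 * η ≤ η₀) (h8 : 8 * L' * η₀ < csep) :
    ∃ H₁ : Subgroup H, H₁.index ≠ 0 ∧ H₁.index ≤ Nat.card (V₁ → Set Φ₁) ∧
      ∀ x ∈ H₁, ∀ Y, ∃ T', ‖T' - 1‖ ≤ 3 * η₀ ∧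
        SF B h d₁ s c₁ ε κ A (M.f (trL M Y (Ps x))) T' := by
  classical
  have hK : 0 ≤ K := (hF.qi 1).K_nonneg
  have hcT := cT_nonneg (M := M) hK
  have hC0 := M.C0_pos
  have hηη₀ : η ≤ η₀ := by linarith
  have hη₀0 : 0 ≤ η₀ := by linarith
  have hcs : η₀ < csep := by nlinarith
  obtain ⟨lab, 𝕋, 𝕋', a1, a2, a3⟩ := stepA hF pair flt hδ₂ hu hsep (by linarith)
  have hδ₂0 : 0 ≤ δ₂ := le_trans (by positivity) hδ₂'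
  -- flatness at all locations
  have hflt : ∀ (x : H) (Y : S), Flt M (fun z => M.f (Ps x) (Y * z)) D (𝕋 x)
      (δ₂ + 2 * η * AD) ε := by
    intro x Y
    obtain ⟨b1, b2⟩ := a2 x Y
    have e1 := (flt_at hF flt b2).mono hδ₂ le_rfl
    refine e1.congrT hD.hts ?_
    rw [norm_sub_rev]
    exact b1
  have hnorm : ∀ x, ‖𝕋 x‖ ≤ L' := fun x => (a1 x).norm_le.trans hL
  -- multiplicativity
  have hmul : ∀ x y, ‖𝕋 (x * y) - 𝕋 x * 𝕋 y‖ ≤ η₀ := by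
    intro x y
    obtain ⟨R₀, hR₀⟩ := hD.bd
    set R : ℝ := max (max R₀ r) 0 with hR
    obtain ⟨Db, Dbp, hDb⟩ := hbig (R + 2 * M.C0 + K + K * (K + 2 * M.C0 + R + 1))
    refine (hn _ ((8 + 4 * L') * (δ₂ + 2 * η * AD) + (2 * M.C0 * K + 2 * L' * M.C0 * M.C0))
      (by positivity) fun u hu' => ?_).trans hη₀
    refine comp (hF.qi y) (hF.mul x y) hD hκ₂ (by positivity) hε (hnorm x) (hflt x) (hflt y)
      (hflt (x * y)) hcst (le_max_right _ _) ((le_max_right _ _).trans (le_max_left _ _))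
      (fun z hz => (hR₀ z hz).trans ((le_max_left _ _).trans (le_max_left _ _))) hDb
      (hu'.trans hr') ?_
    have : K * ((M.l u : ℝ) + 2 * M.C0 + 1) ≤ K * (r' + 2 * M.C0 + 1) :=
      mul_le_mul_of_nonneg_left (by linarith) hK
    linarith
  -- the identity
  have hone : ‖𝕋 1 - 1‖ ≤ 3 * η := by
    obtain ⟨b1, b2⟩ := a2 1 1
    have e1 := (flt_at hF flt b2).mono hδ₂ le_rfl
    have e2 := flt_one hF (D := D) (ε := ε) hδ₂'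
    have e3 := hu (fun z => M.f (Ps 1) (1 * z)) (𝕋' 1 1) 1 1 (by rw [M.len.one]; exact zero_le_one)
      e1 (by simpa only [one_mul] using e2)
    have e4 := norm_add_le (𝕋 1 - 𝕋' 1 1) (𝕋' 1 1 - 1)
    rw [sub_add_sub_cancel, norm_sub_rev (𝕋 1) (𝕋' 1 1)] at e4
    linarith
  -- the labels
  obtain ⟨H₁, i1, i2, i3⟩ := Vale.Agent.P188.H671.lab_subgroup
    (ι := V₁ → Set Φ₁) (lab := fun x v => {b : Φ₁ | (b : Ht k →L[ℝ] ℝ) ∈ lab x v}) 𝕋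
    (L := L') (ε := η₀) (c := csep) hL' hnorm hη₀0 hmul (hone.trans h3η)
    (by
      intro x y hxy
      refine (a3 x y ?_).trans (by linarith)
      funext v
      have h1 := congrFun hxy v
      ext b
      constructor
      · intro hb
        have h2 : (⟨b, (a1 x).sub v hb⟩ : Φ₁) ∈ {b : Φ₁ | (b : Ht k →L[ℝ] ℝ) ∈ lab x v} := hb
        rw [h1] at h2
        exact h2
      · intro hb
        have h2 : (⟨b, (a1 y).sub v hb⟩ : Φ₁) ∈ {b : Φ₁ | (b : Ht k →L[ℝ] ℝ) ∈ lab y v} := hb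
        rw [← h1] at h2
        exact h2)
    (by
      intro x y hxy
      have h1 := hsep _ _ _ _ (a1 x) (a1 y) hxy
      simp only [h1])
    h8
  refine ⟨H₁, i1, i2, fun x hx Y => ⟨𝕋' x Y, ?_, (a2 x Y).2⟩⟩
  have e1 := norm_add_le (𝕋' x Y - 𝕋 x) (𝕋 x - 1)
  rw [sub_add_sub_cancel] at e1
  have e2 := (a2 x Y).1
  have e3 := i3 x hx
  linarith

end Vale.Agent.P188.Z1.Lab
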