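import Vale.Agent.P188.Z1.Lab8
import Vale.Agent.P188.Z1.Holds

/-!
# P188, Z1: LAB in the model, from FLATG only
-/

set_option linter.all false

namespace Vale.Agent.P188.Z1

namespace RModel

variable {S : Type} [Group S] [MeasurableSpace S] {Γ : Type} [Group Γ]
  {V : Type} [AddCommGroup V] [Module ℝ V] {k : ℕ} (M : RModel S Γ V k)

/-- **LAB** in the model. -/
theorem lab_holds (B : M.NatBox) (hB : B.Fine) (hF : M.FLATG B) : M.LAB B :=
  Lab.lab B (M.dboxH_holds B hB) (M.dvolH_holds B) hF

end RModel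

end Vale.Agent.P188.Z1
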