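import Vale.Agent.P188.Z1.LinPre

/-!
# P188, Z1, block LIN: coarse differentiation in the model
-/

set_option linter.all false

open MeasureTheory Set Filter
open scoped ENNReal
open Agent.P188.H428 (IsLen)
open Vale.Agent.P188.H530 (hgt hgt_mul)
open _root_.P188.H882 (Mrg Typed Rel dq Aff)

namespace Vale.Agent.P188.Z1

theorem Typed_mono {S : Type*} [Group S] {ι : Type*} {l : S → ℝ} {t : ι → S} {h : ι → S → ℝ}
    {ρ ρ2 ρ2' : ℕ} {τ2 τ2' : ℝ} {Nt Nt' : Set S} (h2 : ρ2 ≤ ρ2') (hτ : τ2 ≤ τ2') (hN : Nt ⊆ Nt')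
    {v : S} (hv : Typed l t h ρ ρ2 τ2 Nt v) : Typed l t h ρ ρ2' τ2' Nt' v := by
  have h2' : (ρ2 : ℤ) ≤ ρ2' := by exact_mod_cast h2
  rcases hv with ⟨i, n, h3, h4, h5⟩ | ⟨h3, i, m, h4, h5, h6⟩ | ⟨h3, h4⟩ | ⟨h3, h4⟩
  · exact Or.inl ⟨i, n, h3, h4.trans h2', h5⟩
  · exact Or.inr (Or.inl ⟨h3, i, m, h4, h5.trans h2', h6.trans hτ⟩)
  · exact Or.inr (Or.inr (Or.inl ⟨h3, hN h4⟩))
  · exact Or.inr (Or.inr (Or.inr ⟨h3.trans hτ, fun j => (h4 j).trans hτ⟩))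

theorem Mrg_mono {S : Type*} [Group S] {l : S → ℝ} {t : S} {ρ : ℕ} {τ : ℝ} {Nt Nt' : Set S}
    (hN : Nt ⊆ Nt') {v : S} (hv : Mrg l Nt t ρ τ v) : Mrg l Nt' t ρ τ v := by
  obtain ⟨σ, hσ, h⟩ := hv
  refine ⟨σ, hσ, fun m hm => ?_⟩
  obtain ⟨a, z, h1, h2, h3⟩ := h m hm
  exact ⟨a, z, h1, h2, hN h3⟩

namespace RModel

variable {S : Type} [Group S] [MeasurableSpace S] {Γ : Type} [Group Γ]
  {V : Type} [AddCommGroup V] [Module ℝ V] {k : ℕ} (M : RModel S Γ V k)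

/-- decomposition of fat elements into merging steps -/
def DEC1 (v : Fin k → Fin k → ℤ) : Prop := ∃ (c : ℕ) (C : ℝ), 1 ≤ C ∧ ∀ ε1 : ℝ, 0 < ε1 → ε1 ≤ 1 →
  ∃ d1 : ℝ, 0 < d1 ∧ d1 ≤ 1 ∧ ∀ δ : ℝ, 0 < δ → δ ≤ 1 / C → ∃ ρ0 : ℕ, ∀ ρ : ℕ, ρ0 ≤ ρ →
  ∀ i, ∀ u ∈ M.FB δ (d1 * ρ), ∃ us : List S, us.length ≤ c ∧ us.prod = u ∧
    (∀ a ∈ us, Mrg (fun x => (M.l x : ℝ)) (M.Nt (C * δ) ρ) (M.τ (v i)) ρ (ε1 * ρ) a) ∧
    ∀ ws, ws <+: us → ws.prod ∈ M.FB (C * δ) (C * ρ) ∧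
      ∀ m : ℤ, |m| ≤ (ρ : ℤ) → ∀ a, (M.l a : ℝ) ≤ ε1 * ρ →
        ws.prod * M.τ (v i) ^ m * a ∈ M.FB (C * δ) (C * ρ)

/-- decomposition of fat elements into steps of known type -/
def DEC2 (v : Fin k → Fin k → ℤ) (hh : Fin k → Ht k →L[ℝ] ℝ) : Prop :=
  ∃ (c : ℕ) (C : ℝ), 1 ≤ C ∧ ∀ d : ℝ, 0 < d → C * d ≤ 1 → ∀ δ : ℝ, 0 < δ → δ ≤ d →
  ∃ ρ0 : ℕ, ∀ ρ : ℕ, ρ0 ≤ ρ → ∀ u ∈ M.FB δ (d * ρ), ∃ us : List S, us.length ≤ c ∧ us.prod = u ∧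
    (∀ a ∈ us, Typed (fun x => (M.l x : ℝ)) (fun i => M.τ (v i)) (fun j x => hh j (M.θ x)) ρ
      ⌈C * (C * d * ρ)⌉₊ C (M.Nt (C * δ) ρ) a) ∧
    ∀ ws, ws <+: us → ws.prod ∈ M.FB (C * δ) (C * d * ρ)

variable {M}

theorem lin_Nt_mono {δ δ' ρ : ℝ} (h : δ * ρ ≤ δ' * ρ) : M.Nt δ ρ ⊆ M.Nt δ' ρ := by
  rintro z ⟨y, hy, h1, h2⟩
  exact ⟨y, hy, h1.trans (Real.exp_le_exp.2 h), h2⟩

theorem FB_θ_le {δ R : ℝ} (hR : 0 ≤ R) {g : S} (hg : g ∈ M.FB δ R) : ‖M.θ g‖ ≤ R := by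
  obtain ⟨v, hv, h1, y, hy, h2, w, h3, rfl⟩ := hg
  rw [M.θ_mul, M.θ_mul, M.θ_ex, M.θ_ex, zero_add, zero_add, M.θ_τ]
  exact (pi_norm_le_iff_of_nonneg hR).2 h3

/-- **All sets of displacements at one scale.** -/
theorem scale_pack (hBQ : M.BOXQ) {v : Fin k → Fin k → ℤ} {hh : Fin k → Ht k →L[ℝ] ℝ}
    {c1 c2 : ℕ} {C1 C2 : ℝ} (hC1 : 1 ≤ C1) (hC2 : 1 ≤ C2) :
    ∃ Cq X : ℝ, 1 ≤ Cq ∧ 1 ≤ X ∧ ∀ C : ℝ, C1 ≤ C → C2 ≤ C → C2 * Cq ≤ C → (∑ j, ‖hh j‖) ≤ C →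
      Cq ≤ C → ∀ ε1 d1 : ℝ, 0 < ε1 → 0 < d1 → d1 ≤ 1 →
      (∀ δ : ℝ, 0 < δ → δ ≤ 1 / C1 → ∃ ρ0 : ℕ, ∀ ρ : ℕ, ρ0 ≤ ρ →
        ∀ i, ∀ u ∈ M.FB δ (d1 * ρ), ∃ us : List S, us.length ≤ c1 ∧ us.prod = u ∧
        (∀ a ∈ us, Mrg (fun x => (M.l x : ℝ)) (M.Nt (C1 * δ) ρ) (M.τ (v i)) ρ (ε1 * ρ) a) ∧
        ∀ ws, ws <+: us → ws.prod ∈ M.FB (C1 * δ) (C1 * ρ) ∧
          ∀ m : ℤ, |m| ≤ (ρ : ℤ) → ∀ a, (M.l a : ℝ) ≤ ε1 * ρ →
            ws.prod * M.τ (v i) ^ m * a ∈ M.FB (C1 * δ) (C1 * ρ)) →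
      (∀ d : ℝ, 0 < d → C2 * d ≤ 1 → ∀ δ : ℝ, 0 < δ → δ ≤ d →
        ∃ ρ0 : ℕ, ∀ ρ : ℕ, ρ0 ≤ ρ → ∀ u ∈ M.FB δ (d * ρ), ∃ us : List S, us.length ≤ c2 ∧
          us.prod = u ∧
          (∀ a ∈ us, Typed (fun x => (M.l x : ℝ)) (fun i => M.τ (v i)) (fun j x => hh j (M.θ x)) ρ
            ⌈C2 * (C2 * d * ρ)⌉₊ C2 (M.Nt (C2 * δ) ρ) a) ∧
          ∀ ws, ws <+: us → ws.prod ∈ M.FB (C2 * δ) (C2 * d * ρ)) →
      ∀ d : ℝ, 0 < d → C2 * (Cq * d) ≤ d1 → ∀ δ : ℝ, 0 < δ → X * δ ≤ 1 → δ ≤ d →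
      ∀ᶠ ρ : ℕ in atTop, ∃ W0 W2 Q : Set S,
        Sc M.μ (fun x => (M.l x : ℝ)) (fun i => M.τ (v i)) (fun j x => hh j (M.θ x)) C ε1 d
          (c1 + c2) ρ (M.Nt (X * δ) ρ) W0 W2 (M.FB (X * δ) (C1 * ρ)) Q ∧
        ∀ g, ((M.l g : ℝ) ≤ d * ρ ∨ g ∈ M.FB δ (d * ρ)) →
          M.μ.real {y ∈ Q | y * g ∉ Q} ≤ M.μ.real Q / 4 := by
  obtain ⟨Cb0, Hb⟩ := hBQ
  obtain ⟨Ci, hCi, Hi⟩ := M.fb_inv
  obtain ⟨Cl, hCl, Hl⟩ := M.fb_of_len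
  set Cb : ℝ := |Cb0| + 1 with hCb
  have hCb1 : 1 ≤ Cb := by rw [hCb]; linarith [abs_nonneg Cb0]
  have hCb0 : Cb0 ≤ Cb := by rw [hCb]; linarith [le_abs_self Cb0]
  have hCb2 : Cb0 * Cb0 ≤ Cb * Cb := by
    rw [← abs_mul_abs_self Cb0]
    have : |Cb0| ≤ Cb := by rw [hCb]; linarith
    exact mul_le_mul this this (abs_nonneg _) (by linarith)
  have hCi0 : 0 < Ci := by linarith
  have hCl0 : 0 < Cl := by linarith
  have hCb00 : 0 < Cb := by linarith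
  have hC10 : 0 < C1 := by linarith
  have hC20 : 0 < C2 := by linarith
  have m1 : 1 ≤ Ci * Cb := one_le_mul_of_one_le_of_one_le hCi hCb1
  have m2 : 1 ≤ C2 * (Ci * Cb) := one_le_mul_of_one_le_of_one_le hC2 m1
  refine ⟨Ci * Cb * Cl, C1 * (C2 * (Ci * Cb)), one_le_mul_of_one_le_of_one_le m1 hCl,
    one_le_mul_of_one_le_of_one_le hC1 m2, ?_⟩
  intro C hCC1 hCC2 hCC3 hCC4 hCC5 ε1 d1 hε1 hd1 hd11 H1 H2 d hd hdd δ hδ hδX hδd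
  set Cq : ℝ := Ci * Cb * Cl with hCq
  have hCq1 : 1 ≤ Cq := one_le_mul_of_one_le_of_one_le m1 hCl
  have hC1' : 1 ≤ C := hC1.trans hCC1
  have hCqd0 : 0 < Cq * d := by positivity
  have hCqd : Cq * d ≤ d1 := (le_mul_of_one_le_left hCqd0.le hC2).trans hdd
  set δ0 : ℝ := Ci * (Cb * δ) with hδ0
  set δ1 : ℝ := C2 * δ0 with hδ1
  have hδ00 : 0 < δ0 := by positivity
  have hδ10 : 0 < δ1 := by positivity
  have hXδ : C1 * (C2 * (Ci * Cb)) * δ = C1 * δ1 := by rw [hδ1, hδ0]; ring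
  rw [hXδ] at hδX ⊢
  have hδ1C : δ1 ≤ 1 / C1 := by
    rw [le_div_iff₀ hC10]; linarith
  have hδ1le : δ1 ≤ 1 := (le_mul_of_one_le_left hδ10.le hC1).trans hδX
  have hδ0le : δ0 ≤ δ1 := le_mul_of_one_le_left hδ00.le hC2
  have hCbδ0 : 0 < Cb * δ := mul_pos hCb00 hδ
  have hCbδ : Cb * δ ≤ δ0 := le_mul_of_one_le_left hCbδ0.le hCi
  have hδle : δ ≤ Cb * δ := le_mul_of_one_le_left hδ.le hCb1
  have hδ0d : δ0 ≤ Cq * d := by
    rw [hδ0, hCq]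
    have e1 : Ci * (Cb * δ) ≤ Ci * (Cb * d) := by gcongr
    have e2 : Ci * (Cb * d) ≤ (Ci * (Cb * d)) * Cl :=
      le_mul_of_one_le_right (by positivity) hCl
    calc _ ≤ _ := e1
      _ ≤ _ := e2
      _ = _ := by ring
  obtain ⟨ρ1, K1⟩ := H1 δ1 hδ10 hδ1C
  obtain ⟨ρ2, K2⟩ := H2 (Cq * d) hCqd0 (by linarith) δ0 hδ00 hδ0d
  obtain ⟨r0, K3⟩ := Hb δ hδ (by linarith)
  have hT0 : Tendsto (fun ρ : ℕ => (ρ : ℝ)) atTop atTop := tendsto_natCast_atTop_atTop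
  have hT1 : Tendsto (fun ρ : ℕ => d * (ρ : ℝ)) atTop atTop := hT0.const_mul_atTop hd
  have hT2 : Tendsto (fun ρ : ℕ => Cl * (d * (ρ : ℝ))) atTop atTop := hT1.const_mul_atTop hCl0
  have hT3 : Tendsto (fun ρ : ℕ => Cb * (Cl * (d * (ρ : ℝ)))) atTop atTop :=
    hT2.const_mul_atTop hCb00
  filter_upwards [hT2.eventually (eventually_ge_atTop r0), hT3.eventually
    (Hi (Cb * δ) (by positivity) (by linarith)), hT1.eventually (Hl δ hδ),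
    eventually_ge_atTop ρ1, eventually_ge_atTop ρ2] with ρ e1 e2 e3 e4 e5
  have hρ0 : (0 : ℝ) ≤ ρ := Nat.cast_nonneg _
  obtain ⟨Q, Qp, hQ, hQp⟩ := K3 _ e1
  set r : ℝ := Cl * (d * (ρ : ℝ)) with hr
  have hr0 : 0 ≤ r := by positivity
  have hQFB : Q ⊆ M.FB (Cb * δ) (Cb * r) := by
    intro q hq
    have h1 := hQ.sub q hq 1 (by rw [M.len.one]; simpa using hr0)
    rw [mul_one] at h1
    refine M.FB_mono (mul_le_mul_of_nonneg_right hCb0 hr0) ?_ (hQp h1)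
    have : Cb0 * δ * (Cb0 * r) = (Cb0 * Cb0) * (δ * r) := by ring
    rw [this, show Cb * δ * (Cb * r) = (Cb * Cb) * (δ * r) by ring]
    exact mul_le_mul_of_nonneg_right hCb2 (by positivity)
  refine ⟨M.FB δ0 (Cq * d * ρ), M.FB δ1 (d1 * ρ), Q, ?_, ?_⟩
  · refine ⟨?_, ?_, ?_, ?_, hQ.meas, hQ.pos, hQ.fin, ?_, ?_⟩
    · have a1 : d1 * ρ ≤ C1 * ρ := mul_le_mul_of_nonneg_right (hd11.trans hC1) hρ0
      refine M.FB_mono a1 ?_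
      have a2 : δ1 ≤ C1 * δ1 := le_mul_of_one_le_left hδ10.le hC1
      exact mul_le_mul a2 a1 (by positivity) (by positivity)
    · refine M.FB_mono (mul_le_mul_of_nonneg_right hCqd hρ0) ?_
      exact mul_le_mul hδ0le (mul_le_mul_of_nonneg_right hCqd hρ0) (by positivity) hδ10.le
    · intro i u hu
      obtain ⟨us, h1, h2, h3, h4⟩ := K1 ρ e4 i u hu
      exact ⟨us, by omega, h2, h3, h4⟩
    · intro u hu
      obtain ⟨us, h1, h2, h3, h4⟩ := K2 ρ e5 u hu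
      refine ⟨us, by omega, h2, fun a ha => ?_, fun ws hws => ?_⟩
      · refine Typed_mono ?_ hCC2 ?_ (h3 a ha)
        · refine Nat.ceil_mono ?_
          have a1 : C2 * (C2 * (Cq * d) * ρ) = (C2 * (C2 * Cq)) * (d * ρ) := by ring
          have a2 : C * (C * d * ρ) = (C * C) * (d * ρ) := by ring
          rw [a1, a2]
          have a3 : C2 * (C2 * Cq) ≤ C * C := mul_le_mul hCC2 hCC3 (by positivity) (by linarith)
          exact mul_le_mul_of_nonneg_right a3 (by positivity)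
        · refine lin_Nt_mono ?_
          refine mul_le_mul_of_nonneg_right ?_ hρ0
          rw [← hδ1]; exact le_mul_of_one_le_left hδ10.le hC1
      · refine M.FB_mono ?_ ?_ (h4 ws hws)
        · exact mul_le_mul_of_nonneg_right hdd hρ0
        · rw [← hδ1]
          exact mul_le_mul_of_nonneg_left (mul_le_mul_of_nonneg_right hdd hρ0) hδ10.le
    · intro q hq
      have h1 := e2 q (hQFB hq)
      have a1 : Ci * (Cb * r) = Cq * d * ρ := by rw [hr, hCq]; ring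
      rwa [a1] at h1
    · intro q hq i
      have h1 : ‖M.θ q‖ ≤ Cb * r := FB_θ_le (by positivity) (hQFB hq)
      have h2 : |hh i (M.θ q)| ≤ ‖hh i‖ * ‖M.θ q‖ := (hh i).le_opNorm _
      have h3 : ‖hh i‖ ≤ C := (Finset.single_le_sum (f := fun j => ‖hh j‖)
        (fun j _ => norm_nonneg _) (Finset.mem_univ i)).trans hCC4
      have h4 : Cb * r ≤ C * (d * ρ) := by
        have a1 : Cb * r = (Cb * Cl) * (d * ρ) := by rw [hr]; ring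
        rw [a1]
        refine mul_le_mul_of_nonneg_right (le_trans ?_ hCC5) (by positivity)
        rw [hCq, mul_assoc]
        exact le_mul_of_one_le_left (by positivity) hCi
      calc |hh i (M.θ q)| ≤ ‖hh i‖ * ‖M.θ q‖ := h2
        _ ≤ C * (C * (d * ρ)) := mul_le_mul h3 (h1.trans h4) (norm_nonneg _) (by linarith)
        _ ≤ 2 * C ^ 2 * (d * ρ) := by
          have : 0 ≤ C ^ 2 * (d * ρ) := by positivity
          nlinarith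
  · intro g hg
    have hg' : g ∈ M.FB δ r := by
      rcases hg with hg | hg
      · exact e3 g hg
      · have a1 : d * (ρ : ℝ) ≤ r := le_mul_of_one_le_left (by positivity) hCl
        exact M.FB_mono a1 (mul_le_mul_of_nonneg_left a1 hδ.le) hg
    have h1 := real_le_of_le hQ.fin (by norm_num) (hQ.folf hr0 (by norm_num) hg')
    have h2 : 0 ≤ M.μ.real Q := measureReal_nonneg
    have h3 : M.μ.real {y ∈ Q | y * g ∉ Q} ≤ 1 / 8 * M.μ.real Q := h1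
    linarith

/-- neutral flatness for the elements of `Nt` -/
theorem nf_pack (h : M.NFp) (K κ : ℝ) (hκ : 0 < κ) : ∃ CR : ℝ, 0 ≤ CR ∧ ∀ δ : ℝ, 0 < δ →
    ∃ δ₀ : ℝ, 0 < δ₀ ∧ δ₀ ≤ δ ∧ ∀ ε : ℝ, 0 < ε → ∀ δn : ℝ, 0 < δn → δn ≤ δ₀ →
    ∀ᶠ ρ : ℝ in atTop, ∀ a : ℝ, ρ ≤ a → ∀ F F' : Γ → Γ, M.QIm K F F' → ∀ D Dp : Set S,
    M.FFat δ (CR * a) 1 D Dp → ∀ z ∈ M.Nt δn ρ,
    M.μ {x | x ∈ D ∧ κ * ρ < ‖M.f F (x * z) - M.f F x‖} ≤ ENNReal.ofReal ε * M.μ D := by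
  obtain ⟨δN, cN, CN, rN, hδN, hcN, hCN, HN⟩ := NFp.apply M h K κ 1 hκ
  obtain ⟨Cm, hCm, Hm⟩ := M.fb_mul
  obtain ⟨Cl, hCl, Hl⟩ := M.fb_of_len
  obtain ⟨Ce, hCe, He⟩ := M.ex_mem_FB
  have hCm0 : 0 < Cm := by linarith
  have hCl0 : 0 < Cl := by linarith
  have hCe0 : 0 < Ce := by linarith
  refine ⟨Cm * (Cl * (CN + 1)), by positivity, fun δ hδ => ?_⟩
  set δg : ℝ := min (δ / Cm) 1 with hδg
  have hδg0 : 0 < δg := lt_min (by positivity) one_pos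
  have hδg1 : δg ≤ 1 := min_le_right _ _
  have hδg2 : Cm * δg ≤ δ := by
    have : δg ≤ δ / Cm := min_le_left _ _
    rw [le_div_iff₀ hCm0] at this
    linarith
  refine ⟨min (min (δg / Ce) δN) δ, lt_min (lt_min (by positivity) hδN) hδ, min_le_right _ _,
    fun ε hε δn hδn hδn' => ?_⟩
  have d1 : Ce * δn ≤ δg := by
    have : δn ≤ δg / Ce := hδn'.trans ((min_le_left _ _).trans (min_le_left _ _))
    rw [le_div_iff₀ hCe0] at this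
    linarith
  have d2 : δn ≤ δN := hδn'.trans ((min_le_left _ _).trans (min_le_right _ _))
  have hT1 : Tendsto (fun ρ : ℝ => (CN + 1) * ρ) atTop atTop :=
    tendsto_id.const_mul_atTop (by positivity)
  have hT2 : Tendsto (fun ρ : ℝ => Cl * ((CN + 1) * ρ)) atTop atTop :=
    hT1.const_mul_atTop hCl0
  filter_upwards [eventually_ge_atTop (0 : ℝ), eventually_ge_atTop rN, He δn hδn,
    hT1.eventually (Hl δg hδg0), hT2.eventually (Hm δg hδg0 hδg1), ev_const (2 / ε) hcN]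
    with ρ h0 h1 h2 h3 h4 h5 a ha F F' hF D Dp hD z hz
  obtain ⟨y, hy, hyn, rfl⟩ := hz
  have hle : M.μ Dp ≤ ENNReal.ofReal (1 + 1) * M.μ D := hD.le
  have key := HN ρ h1 F F' hF D Dp hD.meas' hD.pos hD.fin hle y hy (hyn.trans
    (Real.exp_le_exp.2 (mul_le_mul_of_nonneg_right d2 h0))) ?_
  · refine key.trans ?_
    calc ENNReal.ofReal (Real.exp (-(cN * ρ))) * M.μ Dp
        ≤ ENNReal.ofReal (Real.exp (-(cN * ρ))) * (ENNReal.ofReal (1 + 1) * M.μ D) := by gcongr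
      _ = ENNReal.ofReal (Real.exp (-(cN * ρ)) * (1 + 1)) * M.μ D := by
        rw [← mul_assoc, ENNReal.ofReal_mul (Real.exp_pos _).le]
      _ ≤ ENNReal.ofReal ε * M.μ D := by
        gcongr
        rw [div_le_iff₀ hε] at h5
        rw [Real.exp_neg, inv_mul_le_iff₀ (Real.exp_pos _)]
        linarith
  · intro x hx t ht0 ht1 g hg
    have b1 : M.ex (t • y) ∈ M.Nt δn ρ := by
      refine ⟨t • y, Submodule.smul_mem _ _ hy, ?_, rfl⟩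
      rw [map_smul_eq_mul, Real.norm_of_nonneg ht0]
      exact (mul_le_of_le_one_left (M.nm_nonneg _) ht1).trans hyn
    have r1 : ρ ≤ Cl * ((CN + 1) * ρ) := by
      have e1 : ρ ≤ (CN + 1) * ρ := le_mul_of_one_le_left h0 (by linarith)
      exact e1.trans (le_mul_of_one_le_left (by positivity) hCl)
    have b2 : M.ex (t • y) ∈ M.FB δg (Cl * ((CN + 1) * ρ)) :=
      M.FB_mono r1 (mul_le_mul d1 r1 h0 hδg0.le) (h2 b1)
    have b3 : g ∈ M.FB δg (Cl * ((CN + 1) * ρ)) := h3 g (hg.trans (by nlinarith))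
    have b4 := h4 _ b2 _ b3
    have r2 : Cm * (Cl * ((CN + 1) * ρ)) ≤ Cm * (Cl * (CN + 1)) * a := by
      calc _ = Cm * (Cl * (CN + 1)) * ρ := by ring
        _ ≤ _ := mul_le_mul_of_nonneg_left ha (by positivity)
    have b5 := M.FB_mono r2 (mul_le_mul hδg2 r2 (by positivity) hδ.le) b4
    rw [mul_assoc]
    exact hD.subf x hx _ b5

theorem l_pow_le (t : S) (n : ℕ) : M.l (t ^ n) ≤ n * M.l t := by
  induction n with
  | zero => simp [M.len.one]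
  | succ n ih =>
    rw [pow_succ]
    refine (M.len.mul _ _).trans ?_
    rw [Nat.succ_mul]
    exact Nat.add_le_add_right ih _

theorem l_zpow_le (t : S) (m : ℤ) : (M.l (t ^ m) : ℝ) ≤ |(m : ℝ)| * M.l t := by
  have h1 : M.l (t ^ m) ≤ m.natAbs * M.l t := by
    rcases Int.natAbs_eq m with h | h
    · conv_lhs => rw [h, zpow_natCast]
      exact l_pow_le _ _
    · conv_lhs => rw [h, zpow_neg, zpow_natCast, M.len.inv]
      exact l_pow_le _ _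
  have h2 : ((m.natAbs : ℕ) : ℝ) = |(m : ℝ)| := by
    rw [Nat.cast_natAbs, Int.cast_abs]
  calc (M.l (t ^ m) : ℝ) ≤ ((m.natAbs * M.l t : ℕ) : ℝ) := by exact_mod_cast h1
    _ = _ := by rw [Nat.cast_mul, h2]

theorem scl_le {q n0 J j : ℕ} (hq : 0 < q) (hj : j < J) : scl q n0 j ≤ (2 * q) ^ J * n0 := by
  unfold scl
  calc q * ((2 * q) ^ j * n0) ≤ (2 * q) * ((2 * q) ^ j * n0) :=
        Nat.mul_le_mul_right _ (by omega)
    _ = (2 * q) ^ (j + 1) * n0 := by ring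
    _ ≤ _ := Nat.mul_le_mul_right _ (Nat.pow_le_pow_right (by omega) hj)

theorem le_scl {q n0 j : ℕ} (hq : 0 < q) : n0 ≤ scl q n0 j := by
  unfold scl
  have h1 : 1 ≤ (2 * q) ^ j := Nat.one_le_pow _ _ (by omega)
  calc n0 = 1 * (1 * n0) := by ring
    _ ≤ q * ((2 * q) ^ j * n0) := Nat.mul_le_mul hq (Nat.mul_le_mul_right _ h1)

/-- from the relations of the coordinates to linear parts -/
theorem lin_fin {F : Γ → Γ} {D : Set S} {v : Fin k → Fin k → ℤ} {hh : Fin k → Ht k →L[ℝ] ℝ}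
    {ρ : ℕ} {ε ε' r : ℝ} (hDm : MeasurableSet D) (hDf : M.μ D ≠ ⊤) (hε : 0 < ε) (hε' : 0 < ε')
    (hε'1 : ε' ≤ ε) (hε'2 : ε' * ((k + 1) * ((∑ j, ‖hh j‖) + 1)) ≤ ε) (hr : 0 ≤ r)
    {Pr : S → Prop}
    (h : ∀ i : Fin k, ∃ D0 ⊆ D, MeasurableSet D0 ∧ M.μ.real (D \ D0) ≤ ε' * M.μ.real D ∧
      ∀ x ∈ D0, ∀ x' ∈ D0, Pr (x⁻¹ * x') → Rel (fun x => M.f F x i) (fun i => M.τ (v i))
        (fun j x => hh j (M.θ x)) ρ (ε' * r) ε' x x') :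
    ∃ (D₀ : Set S) (T : S → Ht k →L[ℝ] Ht k), D₀ ⊆ D ∧ MeasurableSet D₀ ∧
      M.μ (D \ D₀) ≤ ENNReal.ofReal ε * M.μ D ∧ ∀ x ∈ D₀, ∀ x' ∈ D₀, Pr (x⁻¹ * x') →
        ‖M.f F x' - M.f F x - T x (M.θ (x⁻¹ * x'))‖ ≤ ε * r ∧ ‖T x' - T x‖ ≤ ε := by
  choose E0 hE0D hE0m hE0 hE0r using h
  obtain ⟨Hn, hHn⟩ : ∃ Hn : ℝ, Hn = ∑ j, ‖hh j‖ := ⟨_, rfl⟩
  have hHn0 : 0 ≤ Hn := by rw [hHn]; exact Finset.sum_nonneg fun _ _ => norm_nonneg _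
  rw [← hHn] at hε'2
  have hk0 : (0 : ℝ) ≤ k := Nat.cast_nonneg _
  refine ⟨D ∩ ⋂ i, E0 i, fun x => ContinuousLinearMap.pi fun i =>
    ∑ l, (dq (fun x => M.f F x i) (M.τ (v l)) ρ x) • hh l,
    inter_subset_left, hDm.inter (MeasurableSet.iInter hE0m), ?_, ?_⟩
  · refine le_of_real_le (ne_top_of_le_ne_top hDf (measure_mono sdiff_subset)) hDf
      hε.le ?_
    have h1 : D \ (D ∩ ⋂ i, E0 i) ⊆ ⋃ i ∈ (Finset.univ : Finset (Fin k)), (D \ E0 i) := by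
      rintro x ⟨hx, hx'⟩
      by_contra hcon
      simp only [Finset.mem_univ, iUnion_true, mem_iUnion, Set.mem_sdiff, not_exists, not_and,
        not_not] at hcon
      exact hx' ⟨hx, mem_iInter.2 fun i => hcon i hx⟩
    refine (measureReal_mono h1 (ne_top_of_le_ne_top hDf (measure_mono ?_))).trans ?_
    · intro x hx
      simp only [Finset.mem_univ, iUnion_true, mem_iUnion] at hx
      obtain ⟨i, hi⟩ := hx
      exact hi.1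
    · refine (measureReal_biUnion_finset_le _ _).trans ?_
      refine (Finset.sum_le_sum fun i _ => hE0 i).trans ?_
      rw [Finset.sum_const, nsmul_eq_mul, Finset.card_univ, Fintype.card_fin, ← mul_assoc]
      refine mul_le_mul_of_nonneg_right (le_trans ?_ hε'2) measureReal_nonneg
      rw [mul_comm (k : ℝ)]
      refine mul_le_mul_of_nonneg_left ?_ hε'.le
      nlinarith
  · intro x hx x' hx' hxx'
    have hrel : ∀ i : Fin k, Rel (fun x => M.f F x i) (fun i => M.τ (v i))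
        (fun j x => hh j (M.θ x)) ρ (ε' * r) ε' x x' := fun i =>
      hE0r i x (mem_iInter.1 hx.2 i) x' (mem_iInter.1 hx'.2 i) hxx'
    constructor
    · rw [pi_norm_le_iff_of_nonneg (by positivity)]
      intro i
      have h1 := (hrel i).1
      have h2 : (M.f F x' - M.f F x - (ContinuousLinearMap.pi fun i =>
          ∑ l, (dq (fun x => M.f F x i) (M.τ (v l)) ρ x) • hh l)
            (M.θ (x⁻¹ * x'))) i = M.f F x' i - M.f F x i -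
          ∑ l, hh l (M.θ (x⁻¹ * x')) * dq (fun x => M.f F x i) (M.τ (v l)) ρ x := by
        simp only [Pi.sub_apply, ContinuousLinearMap.coe_pi', ContinuousLinearMap.sum_apply,
          ContinuousLinearMap.smul_apply, smul_eq_mul]
        congr 1
        exact Finset.sum_congr rfl fun l _ => mul_comm _ _
      rw [h2, Real.norm_eq_abs]
      exact h1.trans (mul_le_mul_of_nonneg_right hε'1 hr)
    · refine ContinuousLinearMap.opNorm_le_bound _ hε.le fun w => ?_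
      rw [pi_norm_le_iff_of_nonneg (by positivity)]
      intro i
      have h2 : ((ContinuousLinearMap.pi fun i =>
          ∑ l, (dq (fun x => M.f F x i) (M.τ (v l)) ρ x') • hh l) -
          (ContinuousLinearMap.pi fun i =>
          ∑ l, (dq (fun x => M.f F x i) (M.τ (v l)) ρ x) • hh l) :
            Ht k →L[ℝ] Ht k) w i =
          ∑ l, (dq (fun x => M.f F x i) (M.τ (v l)) ρ x' -
            dq (fun x => M.f F x i) (M.τ (v l)) ρ x) * hh l w := by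
        simp only [ContinuousLinearMap.sub_apply, Pi.sub_apply, ContinuousLinearMap.coe_pi',
          ContinuousLinearMap.sum_apply, ContinuousLinearMap.smul_apply, smul_eq_mul,
          ← Finset.sum_sub_distrib, sub_mul]
      rw [h2, Real.norm_eq_abs]
      refine (Finset.abs_sum_le_sum_abs _ _).trans ?_
      calc ∑ l, |(dq (fun x => M.f F x i) (M.τ (v l)) ρ x' -
            dq (fun x => M.f F x i) (M.τ (v l)) ρ x) * hh l w|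
          ≤ ∑ l, ε' * (‖hh l‖ * ‖w‖) := by
            refine Finset.sum_le_sum fun l _ => ?_
            rw [abs_mul]
            exact mul_le_mul ((hrel i).2 l) ((hh l).le_opNorm w) (abs_nonneg _) hε'.le
        _ = (ε' * Hn) * ‖w‖ := by
            rw [← Finset.mul_sum, ← Finset.sum_mul, hHn]; ring
        _ ≤ ε * ‖w‖ := by
            refine mul_le_mul_of_nonneg_right (le_trans ?_ hε'2) (norm_nonneg _)
            refine mul_le_mul_of_nonneg_left ?_ hε'.le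
            nlinarith

theorem lip_coord {K L : ℝ} {F F' : Γ → Γ} (hF : M.QIm K F F')
    (hL : |M.C0 * K * (2 * M.C0 + 1)| + 1 = L) (i : Fin k) (x s : S) :
    |M.f F (x * s) i - M.f F x i| ≤ L * (M.l s + 1) := by
  have h1 := hF.f_lip x s
  have h2 : |M.f F (x * s) i - M.f F x i| ≤ ‖M.f F (x * s) - M.f F x‖ :=
    norm_le_pi_norm (M.f F (x * s) - M.f F x) i
  refine h2.trans (h1.trans ?_)
  refine mul_le_mul_of_nonneg_right ?_ (by positivity)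
  rw [← hL]
  linarith [le_abs_self (M.C0 * K * (2 * M.C0 + 1))]

theorem fol_real_l {δ R κ ε0 : ℝ} {D Dp : Set S} (hD : M.FFat δ R κ D Dp) (hR : 0 ≤ R)
    (hκ : 0 ≤ κ) (hκε : κ ≤ ε0) {w : S} (hw : (M.l w : ℝ) ≤ R) :
    M.μ.real {x ∈ D | x * w ∉ D} ≤ ε0 * M.μ.real D :=
  (real_le_of_le hD.fin hκ (hD.toFat.fol hR hκ hw)).trans
    (mul_le_mul_of_nonneg_right hκε measureReal_nonneg)

theorem fol_real_f {δ R κ ε0 : ℝ} {D Dp : Set S} (hD : M.FFat δ R κ D Dp) (hR : 0 ≤ R)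
    (hκ : 0 ≤ κ) (hκε : κ ≤ ε0) {w : S} (hw : w ∈ M.FB δ R) :
    M.μ.real {x ∈ D | x * w ∉ D} ≤ ε0 * M.μ.real D :=
  (real_le_of_le hD.fin hκ (hD.folf hR hκ hw)).trans
    (mul_le_mul_of_nonneg_right hκε measureReal_nonneg)

theorem nf_real {κ r ε0 : ℝ} {F : Γ → Γ} {D : Set S} {z : S} (hDf : M.μ D ≠ ⊤) (hε0 : 0 ≤ ε0)
    (h : M.μ {x | x ∈ D ∧ κ * r < ‖M.f F (x * z) - M.f F x‖} ≤ ENNReal.ofReal ε0 * M.μ D)
    (i : Fin k) :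
    M.μ.real {x ∈ D | ¬ |M.f F (x * z) i - M.f F x i| ≤ κ * r} ≤ ε0 * M.μ.real D := by
  refine (measureReal_mono ?_ (ne_top_of_le_ne_top hDf
    (measure_mono (Set.sep_subset _ _)))).trans (real_le_of_le hDf hε0 h)
  rintro x ⟨hx, hxb⟩
  refine ⟨hx, ?_⟩
  by_contra hcon
  refine hxb (le_trans ?_ (not_lt.1 hcon))
  exact norm_le_pi_norm (M.f F (x * z) - M.f F x) i

theorem base_of {v : Fin k → Fin k → ℤ} {hh : Fin k → Ht k →L[ℝ] ℝ} {C : ℝ} (hC : 1 ≤ C)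
    (hdual : ∀ i j, hh j (ht (v i)) = if i = j then 1 else 0)
    (hl : (∑ i, (M.l (M.τ (v i)) : ℝ)) ≤ C) :
    Base M.μ (fun x => (M.l x : ℝ)) (fun i => M.τ (v i)) (fun j x => hh j (M.θ x)) C :=
  { one_le_C := hC
    h_mul := fun i x y => by rw [M.θ_mul, map_add]
    h_t := fun i j => by rw [M.θ_τ]; exact hdual i j
    h_meas := fun i => (hh i).continuous.measurable.comp M.measurable_θ
    l_t := fun i => (Finset.single_le_sum (f := fun i => (M.l (M.τ (v i)) : ℝ))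
      (fun j _ => Nat.cast_nonneg _) (Finset.mem_univ i)).trans hl
    mp := M.mp }

/-- the number `n0` -/
theorem exists_n0 {P a : ℝ} (hP : 1 ≤ P) (N : ℕ) (ha : P * ((max N 1 : ℕ) + 1) ≤ a) :
    ∃ n0 : ℕ, N ≤ n0 ∧ 0 < n0 ∧ P * n0 ≤ a ∧ a / (2 * P) ≤ n0 ∧ 0 ≤ a := by
  have hP0 : 0 < P := by linarith
  have h0 : (0 : ℝ) ≤ ((max N 1 : ℕ) : ℝ) := Nat.cast_nonneg _
  have h1 : (1 : ℝ) ≤ ((max N 1 : ℕ) : ℝ) := by exact_mod_cast le_max_right _ _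
  have haP : ((max N 1 : ℕ) : ℝ) + 1 ≤ a / P := by
    rw [le_div_iff₀ hP0]; linarith
  have haP0 : 0 ≤ a / P := by linarith
  have hn0 : max N 1 ≤ ⌊a / P⌋₊ := Nat.le_floor (by linarith)
  refine ⟨⌊a / P⌋₊, (le_max_left _ _).trans hn0, lt_of_lt_of_le one_pos
    ((le_max_right _ _).trans hn0), ?_, ?_, ?_⟩
  · have : (⌊a / P⌋₊ : ℝ) ≤ a / P := Nat.floor_le haP0
    rw [le_div_iff₀ hP0] at this; linarith
  · have h2 : a / P < ⌊a / P⌋₊ + 1 := Nat.lt_floor_add_one _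
    have h3 : a / (2 * P) = a / P / 2 := by rw [mul_comm 2 P, div_div]
    rw [h3]; linarith
  · have := mul_nonneg haP0 hP0.le
    rwa [div_mul_cancel₀ _ hP0.ne'] at this

/-- the big constant -/
theorem exists_C {C1 C2 Cq Hn Lt : ℝ} (h1 : 1 ≤ C1) (h2 : 1 ≤ C2) (hq : 1 ≤ Cq) (hHn : 0 ≤ Hn)
    (hLt : 0 ≤ Lt) : ∃ C : ℝ, 1 ≤ C ∧ C1 ≤ C ∧ C2 ≤ C ∧ C2 * Cq ≤ C ∧ Hn ≤ C ∧ Cq ≤ C ∧ Lt ≤ C := by
  have h3 : 1 ≤ C2 * Cq := one_le_mul_of_one_le_of_one_le h2 hq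
  refine ⟨C1 + C2 + C2 * Cq + Hn + Cq + Lt, ?_, ?_, ?_, ?_, ?_, ?_, ?_⟩ <;> linarith

/-- the small fatness -/
theorem exists_δQ {X δN d : ℝ} (hX : 0 < X) (hδN : 0 < δN) (hd : 0 < d) :
    ∃ δQ : ℝ, 0 < δQ ∧ X * δQ ≤ δN ∧ X * δQ ≤ 1 ∧ δQ ≤ d := by
  refine ⟨min (min (δN / X) (1 / X)) d, lt_min (lt_min (by positivity) (by positivity)) hd,
    ?_, ?_, min_le_right _ _⟩
  · have : min (min (δN / X) (1 / X)) d ≤ δN / X := (min_le_left _ _).trans (min_le_left _ _)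
    rw [le_div_iff₀ hX] at this; linarith
  · have : min (min (δN / X) (1 / X)) d ≤ 1 / X := (min_le_left _ _).trans (min_le_right _ _)
    rw [le_div_iff₀ hX] at this; linarith

/-- the part of `LIN` with fixed constants -/
theorem lin_step {p : ℕ} {K ε ε' ε0 ε1 C C1 CR d δ δN δQ X κ L a : ℝ} {c q J n0 T : ℕ}
    {v : Fin k → Fin k → ℤ} {hh : Fin k → Ht k →L[ℝ] ℝ}
    (hbase : Base M.μ (fun x => (M.l x : ℝ)) (fun i => M.τ (v i)) (fun j x => hh j (M.θ x)) C)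
    (hL : |M.C0 * K * (2 * M.C0 + 1)| + 1 = L)
    (hε : 0 < ε) (hε' : 0 < ε') (hε'1 : ε' ≤ ε)
    (hε'2 : ε' * ((k + 1) * ((∑ j, ‖hh j‖) + 1)) ≤ ε) (hε0 : 0 < ε0) (hd : 0 < d)
    (hκ : 0 ≤ κ) (hκε : κ ≤ ε0) (hκ1 : κ ≤ 1) (hC1 : 0 ≤ C1) (hCR1 : C1 ≤ CR) (hCR2 : C ≤ CR)
    {CN : ℝ} (hCR3 : CN ≤ CR) (hδ : 0 < δ) (hXδ : X * δQ ≤ δ) (hδ' : X * δQ ≤ δN)
    (hX : 0 < X * δQ) (ha : 0 ≤ a) (hq : 0 < q)
    (hn0 : ((((2 * q) ^ J : ℕ)) : ℝ) * n0 ≤ a) (hT : T ≤ n0)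
    (hpack : ∀ ρ : ℕ, T ≤ ρ → ∃ W0 W2 Q : Set S,
        Sc M.μ (fun x => (M.l x : ℝ)) (fun i => M.τ (v i)) (fun j x => hh j (M.θ x)) C ε1 d
          c ρ (M.Nt (X * δQ) ρ) W0 W2 (M.FB (X * δQ) (C1 * ρ)) Q ∧
        ∀ g, ((M.l g : ℝ) ≤ d * ρ ∨ g ∈ M.FB δQ (d * ρ)) →
          M.μ.real {y ∈ Q | y * g ∉ Q} ≤ M.μ.real Q / 4)
    (hnf : ∀ ρ : ℕ, T ≤ ρ → ∀ a : ℝ, (ρ : ℝ) ≤ a → ∀ F F' : Γ → Γ, M.QIm K F F' →
      ∀ D Dp : Set S, M.FFat δ (CN * a) 1 D Dp → ∀ z ∈ M.Nt (X * δQ) ρ,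
      M.μ {x | x ∈ D ∧ ε0 * ρ < ‖M.f F (x * z) - M.f F x‖} ≤ ENNReal.ofReal ε0 * M.μ D)
    {F F' : Fin p → Γ → Γ} {D Dp : Fin p → Set S}
    (hF : ∀ α, M.QIm K (F α) (F' α)) (hD : ∀ α, M.FFat δ (CR * a) κ (D α) (Dp α))
    (core : ∀ Nt W0 W2 W3 Q : ℕ → Set S,
      (∀ j ∈ Finset.range J, Sc M.μ (fun x => (M.l x : ℝ)) (fun i => M.τ (v i))
        (fun j x => hh j (M.θ x)) C ε1 d c (scl q n0 j) (Nt j) (W0 j) (W2 j) (W3 j) (Q j)) →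
      ∀ (A : Type) [Fintype A], Fintype.card A ≤ p * k →
      ∀ (f : A → S → ℝ) (D : A → Set S), (∀ α, Measurable (f α)) →
      (∀ α x s, |f α (x * s) - f α x| ≤ L * (M.l s + 1)) →
      (∀ α, MeasurableSet (D α)) → (∀ α, M.μ (D α) ≠ ∞) →
      (∀ α i (m : ℤ), |m| ≤ ((2 * q) ^ J * n0 : ℕ) →
        M.μ.real {x ∈ D α | x * M.τ (v i) ^ m ∉ D α} ≤ ε0 * M.μ.real (D α)) →
      (∀ α, ∀ j ∈ Finset.range J, ∀ w ∈ W3 j,
        M.μ.real {x ∈ D α | x * w ∉ D α} ≤ ε0 * M.μ.real (D α)) →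
      (∀ α, ∀ j ∈ Finset.range J, ∀ v ∈ Nt j,
        M.μ.real {x ∈ D α | ¬ |f α (x * v) - f α x| ≤ ε0 * (scl q n0 j : ℕ)} ≤
          ε0 * M.μ.real (D α)) →
      ∃ j ∈ Finset.range J, ∀ α, ∃ D0 ⊆ D α, MeasurableSet D0 ∧
        M.μ.real (D α \ D0) ≤ ε' * M.μ.real (D α) ∧
        ∀ x ∈ D0, ∀ x' ∈ D0,
          M.μ.real {y ∈ Q j | y * (x⁻¹ * x') ∉ Q j} ≤ M.μ.real (Q j) / 4 →
          Rel (f α) (fun i => M.τ (v i)) (fun j x => hh j (M.θ x)) (scl q n0 j)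
            (ε' * (d * (scl q n0 j : ℕ))) ε' x x') :
    ∃ ρ : ℕ, n0 ≤ ρ ∧ (ρ : ℝ) ≤ a ∧ ∀ α, ∃ (D₀ : Set S) (T : S → Ht k →L[ℝ] Ht k),
    D₀ ⊆ D α ∧ MeasurableSet D₀ ∧ M.μ (D α \ D₀) ≤ ENNReal.ofReal ε * M.μ (D α) ∧
    ∀ x ∈ D₀, ∀ x' ∈ D₀, ((M.l (x⁻¹ * x') : ℝ) ≤ d * ρ ∨ x⁻¹ * x' ∈ M.FB δQ (d * ρ)) →
      ‖M.f (F α) x' - M.f (F α) x - T x (M.θ (x⁻¹ * x'))‖ ≤ ε * (d * ρ) ∧ ‖T x' - T x‖ ≤ ε := by
  have hscT : ∀ j, T ≤ scl q n0 j := fun j => hT.trans (le_scl hq)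
  have hsca : ∀ j < J, (scl q n0 j : ℝ) ≤ a := by
    intro j hj
    refine le_trans ?_ hn0
    rw [← Nat.cast_mul]
    exact_mod_cast scl_le hq hj
  have hC := hbase.one_le_C
  have hCR : 0 ≤ CR := (zero_le_one.trans hC).trans hCR2
  have hCRa : 0 ≤ CR * a := mul_nonneg hCR ha
  choose W0 W2 Q hSc hQ using fun j : ℕ => hpack (scl q n0 j) (hscT j)
  obtain ⟨j, hj, hres⟩ := core (fun j => M.Nt (X * δQ) (scl q n0 j : ℕ)) W0 W2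
    (fun j => M.FB (X * δQ) (C1 * (scl q n0 j : ℕ))) Q (fun j _ => hSc j) (Fin p × Fin k)
    (by simp) (fun α x => M.f (F α.1) x α.2) (fun α => D α.1)
    (fun α => (measurable_pi_apply _).comp (M.measurable_f _))
    (fun α x s => lip_coord (hF α.1) hL α.2 x s)
    (fun α => (hD α.1).meas) (fun α => (hD α.1).fin)
    (fun α i m hm => by
      refine fol_real_l (hD α.1) hCRa hκ hκε ((l_zpow_le _ _).trans ?_)
      have h2 : |(m : ℝ)| ≤ a := by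
        refine le_trans ?_ hn0
        rw [← Nat.cast_mul]
        exact_mod_cast hm
      have h3 : (M.l (M.τ (v i)) : ℝ) ≤ C := hbase.l_t i
      calc |(m : ℝ)| * (M.l (M.τ (v i)) : ℝ) ≤ a * CR :=
            mul_le_mul h2 (h3.trans hCR2) (Nat.cast_nonneg _) ha
        _ = CR * a := mul_comm _ _)
    (fun α j hj w hw => by
      have hj' := hsca j (Finset.mem_range.1 hj)
      have r1 : C1 * ((scl q n0 j : ℕ) : ℝ) ≤ CR * a :=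
        mul_le_mul hCR1 hj' (Nat.cast_nonneg _) hCR
      exact fol_real_f (hD α.1) hCRa hκ hκε (M.FB_mono r1 (mul_le_mul hXδ r1
        (mul_nonneg hC1 (Nat.cast_nonneg _)) hδ.le) hw))
    (fun α j hj z hz => by
      have hj' := hsca j (Finset.mem_range.1 hj)
      have r1 : CN * a ≤ CR * a := mul_le_mul_of_nonneg_right hCR3 ha
      exact nf_real (hD α.1).fin hε0.le (hnf (scl q n0 j) (hscT j) a hj' (F α.1) (F' α.1)
        (hF α.1) (D α.1) (Dp α.1)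
        ((hD α.1).mono r1 (mul_le_mul_of_nonneg_left r1 hδ.le) hκ1) z hz) α.2)
  refine ⟨scl q n0 j, le_scl hq, hsca j (Finset.mem_range.1 hj), fun α => ?_⟩
  refine lin_fin (v := v) (hh := hh) (ρ := scl q n0 j) (ε' := ε') (hD α).meas (hD α).fin hε hε'
    hε'1 hε'2 (mul_nonneg hd.le (Nat.cast_nonneg _))
    (Pr := fun g => (M.l g : ℝ) ≤ d * (scl q n0 j : ℕ) ∨ g ∈ M.FB δQ (d * (scl q n0 j : ℕ)))
    fun i => ?_
  obtain ⟨E0, hE0D, hE0m, hE0, hE0r⟩ := hres (α, i)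
  exact ⟨E0, hE0D, hE0m, hE0, fun x hx x' hx' hxx' =>
    hE0r x hx x' hx' (hQ j (x⁻¹ * x') hxx')⟩

/-- **LIN.** -/
theorem lin_of (hNF : M.NFp) (hBQ : M.BOXQ)
    (hD1 : ∀ v : Fin k → Fin k → ℤ, (∀ i, M.Generic (v i)) → M.DEC1 v)
    (hD2 : ∀ (v : Fin k → Fin k → ℤ) (hh : Fin k → Ht k →L[ℝ] ℝ), (∀ i, M.Generic (v i)) →
      (∀ i j, hh j (ht (v i)) = if i = j then 1 else 0) → M.DEC2 v hh) : M.LIN := by
  haveI := M.mm
  haveI := M.mi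
  intro p K ε hε
  obtain ⟨v, hh, hgen, hdual⟩ := exists_mom k M.Wt
  obtain ⟨c1, C1, hC1, H1⟩ := hD1 v hgen
  obtain ⟨c2, C2, hC2, H2⟩ := hD2 v hh hgen hdual
  obtain ⟨Cq, X, hCq, hX, HS⟩ := scale_pack (M := M) hBQ (v := v) (hh := hh) (c1 := c1)
    (c2 := c2) hC1 hC2
  have hHn0 : 0 ≤ ∑ j, ‖hh j‖ := Finset.sum_nonneg fun _ _ => norm_nonneg _
  have hLt0 : 0 ≤ ∑ i, (M.l (M.τ (v i)) : ℝ) := Finset.sum_nonneg fun _ _ => Nat.cast_nonneg _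
  obtain ⟨C, hC, k1, k2, k3, k4, k5, k6⟩ := exists_C hC1 hC2 hCq hHn0 hLt0
  have hbase := base_of (M := M) hC hdual k6
  have hX0 : 0 < X := zero_lt_one.trans_le hX
  have hC2q1 : 1 ≤ C2 * Cq := one_le_mul_of_one_le_of_one_le hC2 hCq
  have hC2q : 0 < C2 * Cq := zero_lt_one.trans_le hC2q1
  obtain ⟨L, hLdef⟩ : ∃ L : ℝ, |M.C0 * K * (2 * M.C0 + 1)| + 1 = L := ⟨_, rfl⟩
  have hL : 0 < L := by rw [← hLdef]; positivity
  have hk1 : 0 < ((k : ℝ) + 1) * ((∑ j, ‖hh j‖) + 1) := by positivity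
  obtain ⟨ε', hε', hε'1, hε'2⟩ : ∃ ε' : ℝ, 0 < ε' ∧ ε' ≤ ε ∧
      ε' * ((k + 1) * ((∑ j, ‖hh j‖) + 1)) ≤ ε :=
    ⟨min ε (ε / ((k + 1) * ((∑ j, ‖hh j‖) + 1))), lt_min hε (div_pos hε hk1), min_le_left _ _, by
      rw [← le_div_iff₀ hk1]; exact min_le_right _ _⟩
  obtain ⟨ε1, hε1, hε11, core⟩ := lin_core.{0} (Fin k) (p * k) (c1 + c2) hC hL hε'
  obtain ⟨d1, hd1, hd11, H1'⟩ := H1 ε1 hε1 hε11
  obtain ⟨d, hd, hdd1, hd1'⟩ : ∃ d : ℝ, 0 < d ∧ C2 * (Cq * d) = d1 ∧ d ≤ 1 :=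
    ⟨d1 / (C2 * Cq), by positivity, by rw [← mul_assoc, mul_div_cancel₀ _ hC2q.ne'], by
      rw [div_le_one hC2q]; exact hd11.trans hC2q1⟩
  obtain ⟨ε0, hε0, q, J, ρ0, hq, hJ, core'⟩ := core d hd hd1'
  obtain ⟨P, hPdef⟩ : ∃ P : ℝ, P = (((2 * q) ^ J : ℕ) : ℝ) := ⟨_, rfl⟩
  have hP1 : 1 ≤ P := by
    rw [hPdef]
    exact_mod_cast Nat.one_le_pow _ _ (by omega)
  obtain ⟨CN, hCN, HN⟩ := nf_pack hNF K ε0 hε0
  have hC10 : 0 ≤ C1 := zero_le_one.trans hC1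
  have hC0 : 0 ≤ C := zero_le_one.trans hC
  refine ⟨min ε0 1, d / (2 * P), C1 + C + CN, lt_min hε0 one_pos, by positivity, ?_, ?_⟩
  · rw [div_le_one (by positivity)]
    exact hd1'.trans (hP1.trans (le_mul_of_one_le_left (zero_le_one.trans hP1) one_le_two))
  intro δ hδ
  obtain ⟨δN, hδN, hδNδ, HN'⟩ := HN δ hδ
  obtain ⟨δQ, hδQ, q1, q2, q3⟩ := exists_δQ hX0 hδN hd
  have hXQ : 0 < X * δQ := mul_pos hX0 hδQ
  have hEv := (HS C k1 k2 k3 k4 k5 ε1 d1 hε1 hd1 hd11 H1' H2 d hd hdd1.le δQ hδQ q2 q3).and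
    ((tendsto_natCast_atTop_atTop (R := ℝ)).eventually (HN' ε0 hε0 (X * δQ) hXQ q1))
  obtain ⟨T, hT⟩ := eventually_atTop.1 hEv
  refine ⟨min δQ δ, P * ((max (max T ρ0) 1 : ℕ) + 1), lt_min hδQ hδ, min_le_right _ _, ?_⟩
  intro a ha F F' D Dp hF hD
  obtain ⟨n0, hn0, hn01, hn0le, hn0ge, ha0⟩ := exists_n0 hP1 (max T ρ0) ha
  have hn0T : T ≤ n0 := (le_max_left _ _).trans hn0
  have hn0ρ : ρ0 ≤ n0 := (le_max_right _ _).trans hn0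
  rw [hPdef] at hn0le
  obtain ⟨ρ, hρ1, hρ2, hρ3⟩ := lin_step (CN := CN) (δN := δN) (p := p) hbase hLdef hε hε' hε'1
    hε'2 hε0 hd (lt_min hε0 one_pos).le (min_le_left _ _) (min_le_right _ _) hC10
    (show C1 ≤ C1 + C + CN by linarith only [hC0, hCN])
    (show C ≤ C1 + C + CN by linarith only [hC10, hCN])
    (show CN ≤ C1 + C + CN by linarith only [hC0, hC10]) hδ (q1.trans hδNδ) q1 hXQ ha0 hq hn0le
    hn0T (fun ρ hρ => (hT ρ hρ).1) (fun ρ hρ => (hT ρ hρ).2) hF hD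
    (fun Nt W0 W2 W3 Q hSc A _ hA f D => core' n0 hn0ρ hn01 (Finset.range J)
      (Finset.Subset.refl _) (by rw [Finset.card_range]; omega) S M.μ (fun x => (M.l x : ℝ))
      (fun i => M.τ (v i)) (fun j x => hh j (M.θ x)) hbase Nt W0 W2 W3 Q hSc A hA f D)
  have hρ0 : (0 : ℝ) ≤ ρ := Nat.cast_nonneg _
  refine ⟨d * ρ, ?_, (mul_le_of_le_one_left hρ0 hd1').trans hρ2, fun α => ?_⟩
  · have h1 : (n0 : ℝ) ≤ ρ := by exact_mod_cast hρ1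
    calc d / (2 * P) * a = d * (a / (2 * P)) := by ring
      _ ≤ d * ρ := mul_le_mul_of_nonneg_left (hn0ge.trans h1) hd.le
  obtain ⟨D₀, T₀, h1, h2, h3, h4⟩ := hρ3 α
  refine ⟨D₀, T₀, h1, h2, h3, fun x hx x' hx' hxx' => h4 x hx x' hx' ?_⟩
  rcases hxx' with h | h
  · exact Or.inl h
  · refine Or.inr (M.FB_mono le_rfl ?_ h)
    exact mul_le_mul_of_nonneg_right (min_le_left _ _) (mul_nonneg hd.le hρ0)

end RModel

end Vale.Agent.P188.Z1
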