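import Vale.Agent.P188.H882.Lin3

/-!
# LIN in the model, 1: the measure estimate with arbitrary sets of displacements

882's `rel_meas`, with the balls `{l ≤ r}` replaced by sets `W0 ⊆ W2 ⊆ W3` of displacements.
-/

open MeasureTheory Set Finset
open scoped ENNReal BigOperators

namespace Vale.Agent.P188.Z1

open _root_.P188.H882

section A

variable {S : Type*} [Group S] [MeasurableSpace S] {μ : Measure S} {ι : Type*} [Fintype ι]

/-- **Measure form of LIN**: for every `u ∈ W0`, most `x` satisfy `Rel x (x u)`. -/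
theorem rel_meas' [DecidableEq ι] {l : S → ℝ}
    {f : S → ℝ} {L L1 : ℝ} (hL : 0 ≤ L) (hL1 : 0 ≤ L1)
    (hf : ∀ x s, |f (x * s) - f x| ≤ L * (l s + 1)) {t : ι → S} {h : ι → S → ℝ}
    (hh : ∀ i x y, h i (x * y) = h i x + h i y) (ht : ∀ i j, h j (t i) = if i = j then 1 else 0)
    (hmp : ∀ w : S, MeasurePreserving (fun x : S => x * w) μ μ)
    {ρ ρ2 c : ℕ} (hρ : 2 ≤ ρ) {e0 τ τ2 τ3 : ℝ} (he0 : 0 ≤ e0) (hτ : 0 ≤ τ) (hτ2 : 0 ≤ τ2)
    (hτ3 : 0 ≤ τ3)
    {Nt D Gd : Set S} (hDf : μ D ≠ ∞) (hGD : Gd ⊆ D)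
    (hGd : ∀ x ∈ Gd, ∀ i, Aff f (t i) ρ e0 x) (hdq : ∀ x i, |dq f (t i) ρ x| ≤ L1)
    {ε0 δ θ : ℝ} (hε0 : 0 ≤ ε0) (hδ : 0 ≤ δ) (hθ : 0 ≤ θ)
    (hGm : μ.real (D \ Gd) ≤ ε0) {W0 W2 W3 : Set S} (h23 : W2 ⊆ W3) (h02 : W0 ⊆ W2)
    (hFol : ∀ w ∈ W3, μ.real {x ∈ D | x * w ∉ D} ≤ δ)
    (dec1 : ∀ i, ∀ u ∈ W2, ∃ us : List S, us.length ≤ c ∧ us.prod = u ∧
      (∀ v ∈ us, Mrg l Nt (t i) ρ τ v) ∧ ∀ ws, ws <+: us → ws.prod ∈ W3 ∧
        ∀ m : ℤ, |m| ≤ (ρ : ℤ) → ∀ a, l a ≤ τ → ws.prod * t i ^ m * a ∈ W3)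
    (dec2 : ∀ u ∈ W0, ∃ us : List S, us.length ≤ c ∧ us.prod = u ∧
      (∀ v ∈ us, Typed l t h ρ ρ2 τ2 Nt v) ∧ ∀ ws, ws <+: us → ws.prod ∈ W2)
    (hNt : ∀ v ∈ Nt, μ.real {x ∈ D | ¬ |f (x * v) - f x| ≤ τ3} ≤ θ)
    {ω : ℝ} (hω : ω = c * (3 * (4 * e0 + 2 * L * (τ + 1) + 2 * τ3) / ρ))
    (u : S) (hu : u ∈ W0) :
    μ.real {x ∈ D | ¬ Rel f t h ρ (c * (2 * e0 + 2 * ρ2 * ω + L * (τ2 + 1) + τ3
        + Fintype.card ι * (τ2 * L1))) ω x (x * u)} ≤
      8 * (c + 1) ^ 2 * (Fintype.card ι + 1) * (ε0 + δ + θ) := by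
  have hρ0 : (0:ℝ) < ρ := by positivity
  have hω0 : 0 ≤ ω := by rw [hω]; positivity
  set η : ℝ := δ + ε0 with hη
  have hη0 : 0 ≤ η := by positivity
  set ηN : ℝ := δ + θ with hηN
  have hηN0 : 0 ≤ ηN := by positivity
  set k : ℝ := (Fintype.card ι : ℝ) with hk
  have hk0 : 0 ≤ k := by positivity
  set η1 : ℝ := k * (c * (2 * η + 2 * ηN)) with hη1
  have hη10 : 0 ≤ η1 := by positivity
  -- translates of the good set
  have hW : ∀ w ∈ W3, μ.real {x ∈ D | x * w ∉ Gd} ≤ η := fun w hw =>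
    shift_meas' hDf hGD (hmp w) hGm (hFol w hw)
  -- neutral
  have hWN : ∀ w ∈ W3, ∀ v ∈ Nt, μ.real {x ∈ D | ¬ NFlat f τ3 x w v} ≤ ηN := by
    intro w hw v hv
    have h1 := shift_meas' (A := {x ∈ D | |f (x * v) - f x| ≤ τ3}) hDf (Set.sep_subset _ _) (hmp w)
      (a := θ) (δ := δ) (by
        refine le_trans (le_of_eq ?_) (hNt v hv)
        congr 1
        ext x
        simp only [Set.mem_sdiff, Set.mem_ofPred_eq, not_and]
        exact ⟨fun h => ⟨h.1, h.2 h.1⟩, fun h => ⟨h.1, fun _ => h.2⟩⟩) (hFol w hw)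
    refine (measureReal_mono ?_ (ne_top_of_le_ne_top hDf (measure_mono (Set.sep_subset _ _)))).trans h1
    rintro x ⟨hx, hxb⟩
    exact ⟨hx, fun hc => hxb hc.2⟩
  -- slopes
  have hW1 : ∀ w ∈ W2,
      μ.real {x ∈ D | ¬ ∀ i, |dq f (t i) ρ (x * w) - dq f (t i) ρ x| ≤ ω} ≤ η1 := by
    intro w hw
    have h1 : ∀ i, μ.real {x ∈ D | ¬ |dq f (t i) ρ (x * w) - dq f (t i) ρ x| ≤ ω}
        ≤ c * (2 * η + 2 * ηN) := by
      intro i
      obtain ⟨us, hlen, hprod, hus, hpre⟩ := dec1 i w hw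
      have hlenR : (us.length : ℝ) ≤ c := by exact_mod_cast hlen
      have h2 := slope_chain_meas (W := W3) hL hf hρ hDf (fun x hx => hGd x hx i)
        (fun w hw => hW w hw) (fun w hw => hWN w hw) us hus 1 (by
        intro ws hws
        rw [one_mul]
        exact hpre ws hws)
      have hsub : {x ∈ D | ¬ |dq f (t i) ρ (x * w) - dq f (t i) ρ x| ≤ ω} ⊆
          {x ∈ D | ¬ |dq f (t i) ρ (x * 1 * us.prod) - dq f (t i) ρ (x * 1)|
            ≤ us.length * (3 * (4 * e0 + 2 * L * (τ + 1) + 2 * τ3) / ρ)} := by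
        rintro x ⟨hx, hxb⟩
        refine ⟨hx, fun hch => hxb ?_⟩
        rw [mul_one, hprod] at hch
        refine hch.trans ?_
        rw [hω]
        exact mul_le_mul_of_nonneg_right hlenR (by positivity)
      refine (measureReal_mono hsub (ne_top_of_le_ne_top hDf (measure_mono (Set.sep_subset _ _)))).trans
        (h2.trans ?_)
      exact mul_le_mul_of_nonneg_right hlenR (by positivity)
    have hsub : {x ∈ D | ¬ ∀ i, |dq f (t i) ρ (x * w) - dq f (t i) ρ x| ≤ ω} ⊆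
        ⋃ i ∈ (Finset.univ : Finset ι), {x ∈ D | ¬ |dq f (t i) ρ (x * w) - dq f (t i) ρ x| ≤ ω} := by
      rintro x ⟨hx, hxb⟩
      push Not at hxb
      obtain ⟨i, hi⟩ := hxb
      simp only [Finset.mem_univ, Set.iUnion_true, Set.mem_iUnion]
      exact ⟨i, hx, not_le.mpr hi⟩
    refine (measureReal_mono hsub (ne_top_of_le_ne_top hDf (measure_mono ?_))).trans ?_
    · intro x hx
      simp only [Finset.mem_univ, Set.iUnion_true, Set.mem_iUnion] at hx
      obtain ⟨i, hi⟩ := hx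
      exact hi.1
    · refine (measureReal_biUnion_finset_le _ _).trans ?_
      refine (Finset.sum_le_sum fun i _ => h1 i).trans ?_
      rw [Finset.sum_const, nsmul_eq_mul, Finset.card_univ, hη1, hk]
  obtain ⟨us, hlen, hprod, hus, hpre⟩ := dec2 u hu
  have hlenR : (us.length : ℝ) ≤ c := by exact_mod_cast hlen
  have h2 := step_chain_meas (μ := μ) (W := W2) (ρ := ρ) (ρ2 := ρ2) (η := η) (η1 := η1)
    (ηN := ηN) hL hL1 hf hh ht he0 hω0 hτ2 hτ3 hDf hGd hdq (by positivity)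
    (fun w hw => hW w (h23 hw)) (fun w hw => hW1 w hw)
    (fun w hw => hWN w (h23 hw)) us 1 (by
        intro ws hws
        rw [one_mul]
        exact hpre ws hws) hus
  have h3 := hW1 u (h02 hu)
  set es := 2 * e0 + 2 * ρ2 * ω + L * (τ2 + 1) + τ3 + Fintype.card ι * (τ2 * L1) with hes
  have hes0 : 0 ≤ es := by positivity
  have hsub : {x ∈ D | ¬ Rel f t h ρ (c * es) ω x (x * u)} ⊆
      {x ∈ D | ¬ |f (x * 1 * us.prod) - f (x * 1) - ∑ i, h i us.prod * dq f (t i) ρ x|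
        ≤ us.length * es} ∪
      {x ∈ D | ¬ ∀ i, |dq f (t i) ρ (x * u) - dq f (t i) ρ x| ≤ ω} := by
    rintro x ⟨hx, hxb⟩
    by_contra hcon
    simp only [Set.mem_union, Set.mem_ofPred_eq, not_or, not_and, not_not] at hcon
    obtain ⟨c1, c2⟩ := hcon
    apply hxb
    refine ⟨?_, c2 hx⟩
    have c1' := c1 hx
    rw [mul_one, hprod] at c1'
    have e1 : x⁻¹ * (x * u) = u := by group
    rw [e1]
    exact c1'.trans (mul_le_mul_of_nonneg_right hlenR hes0)
  refine (measureReal_mono hsub (ne_top_of_le_ne_top hDf (measure_mono ?_))).trans ?_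
  · rintro x (h | h) <;> exact h.1
  · refine (measureReal_union_le _ _).trans ((add_le_add h2 h3).trans ?_)
    have h4 : (us.length : ℝ) * (2 * η + 2 * η1 + ηN) ≤ c * (2 * η + 2 * η1 + ηN) :=
      mul_le_mul_of_nonneg_right hlenR (by positivity)
    have hc0 : (0:ℝ) ≤ c := by positivity
    set X := ε0 + δ + θ with hX
    have hX0 : 0 ≤ X := by positivity
    have hηX : η ≤ X := by rw [hη, hX]; linarith
    have hNX : ηN ≤ X := by rw [hηN, hX]; linarith
    have h1X : η1 ≤ k * (c * (4 * X)) := by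
      rw [hη1]
      have : 2 * η + 2 * ηN ≤ 4 * X := by linarith
      gcongr
    calc _ ≤ c * (2 * η + 2 * η1 + ηN) + η1 := by linarith
      _ ≤ c * (2 * X + 2 * (k * (c * (4 * X))) + X) + k * (c * (4 * X)) := by gcongr
      _ = (3 * c + (8 * c * c + 4 * c) * k) * X := by ring
      _ ≤ (8 * (c + 1) ^ 2 * (k + 1)) * X := by
          refine mul_le_mul_of_nonneg_right ?_ hX0
          nlinarith [mul_nonneg hc0 hk0, mul_nonneg (mul_nonneg hc0 hc0) hk0]
      _ = _ := by ring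

end A

/-! ### coarse differentiation with prescribed scales -/

section Lin0

/-- **Coarse differentiation with a common scale**, the scale being chosen in a prescribed set
of at least half of the indices. -/
theorem lin0'.{u} (p : ℕ) {L ε : ℝ} (hL0 : 0 < L) (hε : 0 < ε) :
    ∃ q J : ℕ, 0 < q ∧ 0 < J ∧ ∃ δ : ℝ, 0 < δ ∧ ∀ (n0 : ℕ), 0 < n0 →
    ∀ 𝒥 : Finset ℕ, 𝒥 ⊆ range J → J ≤ 2 * 𝒥.card →
    ∀ (A : Type) [Fintype A], Fintype.card A ≤ p →
    ∀ (S : A → Type u) [∀ a, Group (S a)] [∀ a, MeasurableSpace (S a)]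
      (μ : ∀ a, Measure (S a)) (f : ∀ a, S a → ℝ) (t : ∀ a, S a) (D : ∀ a, Set (S a)),
      (∀ a (m : ℤ), MeasurePreserving (fun x => x * t a ^ m) (μ a) (μ a)) →
      (∀ a, Measurable (f a)) → (∀ a x, |f a (x * t a) - f a x| ≤ L) →
      (∀ a, MeasurableSet (D a)) → (∀ a, μ a (D a) ≠ ∞) →
      (∀ a (m : ℤ), |m| ≤ ((2 * q) ^ J * n0 : ℕ) →
        (μ a).real {x ∈ D a | x * t a ^ m ∉ D a} ≤ δ * (μ a).real (D a)) →
      ∃ j ∈ 𝒥, ∀ a, (μ a).real {x ∈ D a | ∃ m : ℤ, |m| ≤ (q * ((2 * q) ^ j * n0) : ℕ) ∧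
          ε * (q * ((2 * q) ^ j * n0) : ℕ) <
            |f a (x * t a ^ m) - f a x - m * dq (f a) (t a) (q * ((2 * q) ^ j * n0)) x|}
        ≤ ε * (μ a).real (D a) := by
  classical
  obtain ⟨q, hq⟩ := exists_nat_gt (4 * L / ε)
  have hq0 : 0 < q := by
    have : (0:ℝ) < q := lt_trans (by positivity) hq
    exact_mod_cast this
  have hqR : (0:ℝ) < q := by exact_mod_cast hq0
  have hqL : 4 * L ≤ ε * q := by rw [div_lt_iff₀ hε] at hq; linarith
  set ω : ℝ := ε / 4 with hω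
  set c : ℝ := ω ^ 2 / (2 * q : ℕ) with hc
  have hc0 : 0 < c := by rw [hc, hω]; positivity
  obtain ⟨J, hJ⟩ := exists_nat_gt (4 * p * L ^ 2 / (c * ε))
  have hJ0 : 0 < J := by
    have : (0:ℝ) < J := lt_of_le_of_lt (by positivity) hJ
    exact_mod_cast this
  have hJR : (0:ℝ) < J := by exact_mod_cast hJ0
  have hJ' : 4 * p * L ^ 2 ≤ J * (c * ε) := by
    rw [div_lt_iff₀ (by positivity)] at hJ; exact hJ.le
  set δ : ℝ := c * ε / (8 * L ^ 2 * (p + 1)) with hδ
  have hδ0 : 0 < δ := by rw [hδ]; positivity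
  refine ⟨q, J, hq0, hJ0, δ, hδ0, ?_⟩
  intro n0 hn0 𝒥 h𝒥 h𝒥c A _ hA S _ _ μ f t D hmp hf hL hD hDf hinv
  set nn : ℕ → ℕ := fun j => (2 * q) ^ j * n0 with hnn
  have hnn0 : ∀ j, 0 < nn j := fun j => by positivity
  have hnns : ∀ j, 2 * q * nn j = nn (j + 1) := fun j => by simp only [hnn]; ring
  set Bad : ∀ (a : A) (_ : ℕ), Set (S a) := fun a j => {x ∈ D a | ∃ m : ℤ, |m| ≤ (q * nn j : ℕ) ∧
          ε * (q * nn j : ℕ) < |f a (x * t a ^ m) - f a x - m * dq (f a) (t a) (q * nn j) x|}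
    with hBad
  set E : A → ℕ → ℝ := fun a j => ∫ x in D a, (dq (f a) (t a) (nn j) x) ^ 2 ∂(μ a) with hE
  -- one scale
  have key : ∀ a, ∀ j < J, c * (μ a).real (Bad a j) ≤
      E a j - E a (j + 1) + 2 * L ^ 2 * δ * (μ a).real (D a) := by
    intro a j hj
    have h1 := int_vr_le (hD a) (hDf a) (hmp a) (hf a) (δ := δ) (hL a) (hnn0 j) hq0 (by
      intro m hm
      refine hinv a m (hm.trans ?_)
      rw [hnns j]
      have : nn (j+1) ≤ (2 * q) ^ J * n0 :=
        Nat.mul_le_mul_right _ (Nat.pow_le_pow_right (by omega) hj)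
      exact_mod_cast this)
    rw [hnns j] at h1
    refine le_trans ?_ h1
    have hmeas : Measurable (fun x => vr (f a) (t a) (nn j) (2 * q)
        (x * t a ^ (-((q * nn j : ℕ) : ℤ)))) :=
      (measurable_vr (hf a) fun m => (hmp a m).measurable).comp (hmp a _).measurable
    have h2 := markov_real (hD a) (hDf a) hmeas
      (fun x => vr_nonneg (f a) (t a) (hnn0 j) (by omega) _)
      (fun x => vr_le (hL a) (hnn0 j) (by omega) _) hc0
    rw [le_div_iff₀ hc0, mul_comm] at h2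
    refine le_trans (mul_le_mul_of_nonneg_left ?_ hc0.le) h2
    refine measureReal_mono ?_ (ne_top_of_le_ne_top (hDf a) (measure_mono (Set.sep_subset _ _)))
    rintro x ⟨hx, m, hm, hlt⟩
    refine ⟨hx, ?_⟩
    by_contra hcon
    have h3 := affine_of_vr hL0.le (hL a) (hnn0 j) hq0 (by positivity : 0 ≤ ω) x
      (not_lt.mp hcon) m hm
    have h4 : 2 * ((q * nn j : ℕ) : ℝ) * ω + 2 * (nn j : ℝ) * L ≤ ε * (q * nn j : ℕ) := by
      push_cast
      have hnr : (0:ℝ) < nn j := by exact_mod_cast hnn0 j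
      rw [hω]
      nlinarith
    linarith
  -- normalised quantities
  set d : A → ℝ := fun a => (μ a).real (D a) with hd
  have hd0 : ∀ a, 0 ≤ d a := fun a => measureReal_nonneg
  have hBd : ∀ a j, (μ a).real (Bad a j) ≤ d a := fun a j =>
    measureReal_mono (Set.sep_subset _ _) (hDf a)
  have hEbd : ∀ a j, 0 ≤ E a j ∧ E a j ≤ L ^ 2 * d a := by
    intro a j
    constructor
    · exact integral_nonneg fun x => sq_nonneg _
    · have h1 : ∀ x, (dq (f a) (t a) (nn j) x) ^ 2 ≤ L ^ 2 := fun x => by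
        rw [← sq_abs]
        exact pow_le_pow_left₀ (abs_nonneg _) (abs_dq_le (hL a) (hnn0 j) _) 2
      have hm : Measurable (dq (f a) (t a) (nn j)) := measurable_dq (hf a) (by
        simpa using (hmp a (nn j)).measurable)
      calc E a j ≤ ∫ x in D a, L ^ 2 ∂(μ a) := by
            refine setIntegral_mono ?_ ?_ h1
            · exact Measure.integrableOn_of_bounded (M := L ^ 2) (hDf a)
                (hm.pow_const 2).aestronglyMeasurable (Filter.Eventually.of_forall fun x => by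
                  rw [Real.norm_eq_abs, abs_of_nonneg (sq_nonneg _)]; exact h1 x)
            · exact (integrableOn_const_iff).mpr (Or.inr (hDf a).lt_top)
        _ = _ := by rw [setIntegral_const, smul_eq_mul, mul_comm]
  -- pigeonhole
  have hsum0 : ∑ j ∈ range J, ∑ a, c * ((μ a).real (Bad a j) / d a) ≤ J / 2 * (c * ε) := by
    have h1 : ∀ a, ∑ j ∈ range J, c * ((μ a).real (Bad a j) / d a) ≤
        L ^ 2 + J * (2 * L ^ 2 * δ) := by
      intro a
      rcases (hd0 a).eq_or_lt with h0 | h0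
      · rw [← h0]
        simp only [div_zero, mul_zero, Finset.sum_const_zero]
        positivity
      · have h2 : ∀ j ∈ range J, c * ((μ a).real (Bad a j) / d a) ≤
            (E a j / d a - E a (j + 1) / d a) + 2 * L ^ 2 * δ := by
          intro j hj
          have := key a j (Finset.mem_range.mp hj)
          rw [← sub_div, ← mul_div_assoc, div_le_iff₀ h0, add_mul, div_mul_cancel₀ _ h0.ne']
          exact this
        refine (Finset.sum_le_sum h2).trans ?_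
        rw [Finset.sum_add_distrib, Finset.sum_range_sub', Finset.sum_const, Finset.card_range,
          nsmul_eq_mul]
        have h3 : E a 0 / d a ≤ L ^ 2 := by rw [div_le_iff₀ h0]; exact (hEbd a 0).2
        have h4 : 0 ≤ E a J / d a := div_nonneg (hEbd a J).1 h0.le
        linarith
    rw [Finset.sum_comm]
    refine (Finset.sum_le_sum fun a _ => h1 a).trans ?_
    rw [Finset.sum_const, nsmul_eq_mul, Finset.card_univ]
    have hAp : (Fintype.card A : ℝ) ≤ p := by exact_mod_cast hA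
    have h5 : (Fintype.card A : ℝ) * (L ^ 2 + J * (2 * L ^ 2 * δ)) ≤
        p * (L ^ 2 + J * (2 * L ^ 2 * δ)) :=
      mul_le_mul_of_nonneg_right hAp (by positivity)
    refine h5.trans ?_
    have h6 : 2 * L ^ 2 * δ * p ≤ c * ε / 4 := by
      have hp : (p:ℝ) / (p + 1) ≤ 1 := by rw [div_le_one (by positivity)]; linarith
      have : 2 * L ^ 2 * δ * p = c * ε / 4 * ((p:ℝ) / (p + 1)) := by
        rw [hδ]; field_simp; ring
      rw [this]
      have : 0 ≤ c * ε / 4 := by positivity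
      nlinarith
    have h7 : (p:ℝ) * (L ^ 2 + J * (2 * L ^ 2 * δ)) = p * L ^ 2 + J * (2 * L ^ 2 * δ * p) := by ring
    rw [h7]
    have h8 : J * (2 * L ^ 2 * δ * p) ≤ J * (c * ε / 4) := mul_le_mul_of_nonneg_left h6 hJR.le
    nlinarith
  have hsum : ∑ j ∈ 𝒥, ∑ a, c * ((μ a).real (Bad a j) / d a) ≤ ∑ j ∈ 𝒥, c * ε := by
    refine (Finset.sum_le_sum_of_subset_of_nonneg h𝒥 fun j _ _ =>
      Finset.sum_nonneg fun a _ => mul_nonneg hc0.le (div_nonneg measureReal_nonneg (hd0 a))).trans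
      (hsum0.trans ?_)
    rw [Finset.sum_const, nsmul_eq_mul]
    refine mul_le_mul_of_nonneg_right ?_ (by positivity)
    have : (J : ℝ) ≤ 2 * 𝒥.card := by exact_mod_cast h𝒥c
    linarith
  have hne : 𝒥.Nonempty := by
    rw [← Finset.card_pos]; omega
  obtain ⟨j, hj, hjle⟩ := Finset.exists_le_of_sum_le hne hsum
  refine ⟨j, hj, fun a => ?_⟩
  have h9 : c * ((μ a).real (Bad a j) / d a) ≤ c * ε := by
    refine le_trans ?_ hjle
    exact Finset.single_le_sum (f := fun a => c * ((μ a).real (Bad a j) / d a))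
      (fun a _ => mul_nonneg hc0.le (div_nonneg measureReal_nonneg (hd0 a))) (Finset.mem_univ a)
  have h10 : (μ a).real (Bad a j) / d a ≤ ε := le_of_mul_le_mul_left h9 hc0
  rcases (hd0 a).eq_or_lt with h0 | h0
  · have := hBd a j
    rw [← h0] at this
    change (μ a).real (Bad a j) ≤ ε * d a
    rw [← h0]; simpa using this
  · rw [div_le_iff₀ h0] at h10
    exact h10

end Lin0

end Vale.Agent.P188.Z1
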