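import Vale.Agent.P188.Z1.LineA

/-!
# P188, Z1, block STRAIGHT, part B: labels, the data of the comparison
-/

set_option linter.all false

open MeasureTheory Set
open scoped ENNReal
open Vale.P188.H654

namespace Vale.Agent.P188.Z1

namespace RModel

variable {k : ℕ}

/-- labels with the right cardinalities -/
def LnLab (Φ₁ : Finset (Ht k →L[ℝ] ℝ)) (V₁ : Finset (Fin k → ℤ)) : Type :=
  {a : V₁ → Set (Ht k →L[ℝ] ℝ) // (∀ v, a v ⊆ ↑Φ₁) ∧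
    ∀ v : V₁, (a v).ncard = {b | b ∈ Φ₁ ∧ 0 < b (ht (v : Fin k → ℤ))}.ncard}

/-- the sets of the labels: `p.2` is the sign of the direction -/
def lnP (Φ₁ : Finset (Ht k →L[ℝ] ℝ)) (V₁ : Finset (Fin k → ℤ)) (p : V₁ × Bool)
    (a : LnLab Φ₁ V₁) : Set Φ₁ :=
  {b | (b : Ht k →L[ℝ] ℝ) ∈ a.1 p.1 ↔ p.2 = true}

theorem lnP_card {Φ₁ : Finset (Ht k →L[ℝ] ℝ)} {V₁ : Finset (Fin k → ℤ)} (p : V₁ × Bool)
    (a a' : LnLab Φ₁ V₁) : (lnP Φ₁ V₁ p a).ncard = (lnP Φ₁ V₁ p a').ncard := by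
  have key : ∀ a : LnLab Φ₁ V₁, {b : Φ₁ | (b : Ht k →L[ℝ] ℝ) ∈ a.1 p.1}.ncard =
      {b | b ∈ Φ₁ ∧ 0 < b (ht (p.1 : Fin k → ℤ))}.ncard := by
    intro a
    rw [← a.2.2 p.1, ← Set.ncard_image_of_injective _ Subtype.val_injective]
    congr 1
    ext b
    simp only [mem_image, mem_setOf_eq, Subtype.exists, exists_and_right, exists_eq_right]
    exact ⟨fun ⟨_, h⟩ => h, fun h => ⟨a.2.1 p.1 h, h⟩⟩
  have key2 : ∀ a : LnLab Φ₁ V₁, (lnP Φ₁ V₁ p a).ncard =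
      if p.2 = true then {b | b ∈ Φ₁ ∧ 0 < b (ht (p.1 : Fin k → ℤ))}.ncard else
        Nat.card Φ₁ - {b | b ∈ Φ₁ ∧ 0 < b (ht (p.1 : Fin k → ℤ))}.ncard := by
    intro a
    split_ifs with h
    · rw [← key a]
      congr 1
      ext b
      simp [lnP, h]
    · rw [← key a, ← Set.ncard_compl]
      congr 1
      ext b
      simp [lnP, h]
  rw [key2, key2]

/-- The data of the comparison of labels for one map. -/
noncomputable def lnData {S : Type} [Group S] [MeasurableSpace S] {Γ : Type} [Group Γ]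
    {V : Type} [AddCommGroup V] [Module ℝ V] {M : RModel S Γ V k} {K : ℝ} {F F' : Γ → Γ}
    (h : M.QIm K F F') (Φ₁ : Finset (Ht k →L[ℝ] ℝ)) (V₁ : Finset (Fin k → ℤ)) :
    LData S (Ht k) Φ₁ (LnLab Φ₁ V₁) (V₁ × Bool) where
  t p := if p.2 = true then M.τ p.1 else (M.τ p.1)⁻¹
  neg p := (p.1, !p.2)
  t_neg p := by
    rcases p with ⟨v, s⟩
    cases s <;> simp
  β b x := (b : Ht k →L[ℝ] ℝ) x
  B := ∑ b ∈ Φ₁, ‖b‖
  B_nonneg := Finset.sum_nonneg fun b _ => norm_nonneg b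
  lipβ b x y := by
    rw [← map_sub, ← Real.norm_eq_abs]
    refine ((b : Ht k →L[ℝ] ℝ).le_opNorm _).trans (mul_le_mul_of_nonneg_right ?_ (norm_nonneg _))
    exact Finset.single_le_sum (f := fun b : Ht k →L[ℝ] ℝ => ‖b‖) (fun b _ => norm_nonneg b) b.2
  P := lnP Φ₁ V₁
  P_neg p a := by
    rcases p with ⟨v, s⟩
    ext b
    cases s <;> simp [lnP]
  P_inj a a' hh := by
    apply Subtype.ext
    funext v
    ext b
    constructor
    · intro hb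
      have h1 := hh (v, true)
      have h2 : (⟨b, a.2.1 v hb⟩ : Φ₁) ∈ lnP Φ₁ V₁ (v, true) a := by simpa [lnP] using hb
      rw [h1] at h2
      simpa [lnP] using h2
    · intro hb
      have h1 := hh (v, true)
      have h2 : (⟨b, a'.2.1 v hb⟩ : Φ₁) ∈ lnP Φ₁ V₁ (v, true) a' := by simpa [lnP] using hb
      rw [← h1] at h2
      simpa [lnP] using h2
  f := M.f F
  l := fun g => (M.l g : ℝ)
  L := M.lnLf K
  L_nonneg := M.lnLf_nonneg h.K_nonneg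
  lipf := h.ln_lip

variable {S : Type} [Group S] [MeasurableSpace S] {Γ : Type} [Group Γ]
  {V : Type} [AddCommGroup V] [Module ℝ V] (M : RModel S Γ V k)

/-- sets defined by the cells of a point and of a translate are measurable -/
theorem ln_meas_two (P : Γ → Γ → Prop) (g : S) : MeasurableSet {z | P (M.fl z) (M.fl (z * g))} := by
  haveI := M.countable
  have : {z | P (M.fl z) (M.fl (z * g))} = ⋃ p : {p : Γ × Γ // P p.1 p.2},
      (M.fl ⁻¹' {p.1.1} ∩ (fun z => z * g) ⁻¹' (M.fl ⁻¹' {p.1.2})) := by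
    ext z
    simp only [mem_setOf_eq, mem_iUnion, mem_inter_iff, mem_preimage, mem_singleton_iff]
    constructor
    · intro h
      exact ⟨⟨(M.fl z, M.fl (z * g)), h⟩, rfl, rfl⟩
    · rintro ⟨⟨⟨a, b⟩, h⟩, h1, h2⟩
      rw [h1, h2]
      exact h
  rw [this]
  exact MeasurableSet.iUnion fun p => (M.fl_meas _).inter ((M.mp g).measurable (M.fl_meas _))

include M in
theorem ln_meas_trans {A : Set S} (hA : MeasurableSet A) (g : S) : MeasurableSet {z | z * g ∈ A} :=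
  (M.mp g).measurable hA

open Classical in
/-- **A measurable version of the labels.** -/
theorem ln_lab_meas {F : Γ → Γ} {Φ₁ : Finset (Ht k →L[ℝ] ℝ)} {V₁ : Finset (Fin k → ℤ)}
    {c₀ L ε₁ B : ℝ} {ρ ρ₁ : ℕ} {T : (V₁ → Set (Ht k →L[ℝ] ℝ)) → (Ht k →L[ℝ] Ht k)}
    {D₀ : Set S} (hD₀ : MeasurableSet D₀) (hne : D₀.Nonempty) {σ₀ : S → V₁ → Set (Ht k →L[ℝ] ℝ)}
    (hgood : ∀ x ∈ D₀, GoodLab Φ₁ V₁ c₀ L (T (σ₀ x)) (σ₀ x))
    (hlin : ∀ x ∈ D₀, ∀ x' ∈ D₀, (M.l (x⁻¹ * x') : ℝ) ≤ ρ →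
      ‖M.f F x' - M.f F x - T (σ₀ x) (M.θ (x⁻¹ * x'))‖ ≤ ε₁ * ρ ∧ σ₀ x' = σ₀ x)
    (hB : ∀ b ∈ Φ₁, ‖b‖ ≤ B) (hε : B * (ε₁ * ρ) < c₀ * ρ₁)
    (hρ : ∀ v ∈ V₁, (M.l (M.τ v ^ ρ₁) : ℝ) ≤ ρ) :
    ∃ (σ : S → LnLab Φ₁ V₁), (∀ a, MeasurableSet {z | (σ z).1 = a}) ∧
      (∀ z, GoodLab Φ₁ V₁ c₀ L (T (σ z).1) (σ z).1) ∧
      ∀ x ∈ D₀, (∀ v ∈ V₁, x * M.τ v ^ ρ₁ ∈ D₀) → (σ x).1 = σ₀ x := by
  obtain ⟨x₀, hx₀⟩ := hne
  set D₁ : Set S := {x | x ∈ D₀ ∧ ∀ v : V₁, x * M.τ v ^ ρ₁ ∈ D₀} with hD₁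
  set σ₁ : S → V₁ → Set (Ht k →L[ℝ] ℝ) := fun x v =>
    {b | b ∈ Φ₁ ∧ 0 < b (M.f F (x * M.τ v ^ ρ₁) - M.f F x)} with hσ₁
  have h1 : ∀ x ∈ D₁, σ₁ x = σ₀ x := by
    rintro x ⟨hx, hx'⟩
    funext v
    have hg := hgood x hx
    have hl := (hlin x hx _ (hx' v) (by rw [inv_mul_cancel_left]; exact hρ v v.2)).1
    rw [inv_mul_cancel_left, M.ln_θ_pow, M.ln_θ_τ] at hl
    ext b
    by_cases hb : b ∈ Φ₁
    · have h2 : |b (M.f F (x * M.τ v ^ ρ₁) - M.f F x) -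
          ρ₁ * b (T (σ₀ x) (ht (v : Fin k → ℤ)))| ≤ B * (ε₁ * ρ) := by
        have e : b (M.f F (x * M.τ v ^ ρ₁) - M.f F x) -
          ρ₁ * b (T (σ₀ x) (ht (v : Fin k → ℤ))) = b (M.f F (x * M.τ v ^ ρ₁) - M.f F x -
            T (σ₀ x) ((ρ₁ : ℝ) • ht (v : Fin k → ℤ))) := by
          rw [map_sub b (M.f F (x * M.τ v ^ ρ₁) - M.f F x), map_smul, map_smul, smul_eq_mul]
        rw [e, ← Real.norm_eq_abs]
        exact (b.le_opNorm _).trans (mul_le_mul (hB b hb) hl (norm_nonneg _)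
          ((norm_nonneg _).trans (hB b hb)))
      rw [abs_le] at h2
      have hρ0 : (0 : ℝ) ≤ ρ₁ := Nat.cast_nonneg _
      constructor
      · rintro ⟨_, h3⟩
        by_contra hcon
        have h4 := hg.neg v b hb hcon
        nlinarith [mul_le_mul_of_nonneg_left h4 hρ0]
      · intro h3
        have h4 := hg.pos v b hb h3
        refine ⟨hb, ?_⟩
        nlinarith [mul_le_mul_of_nonneg_left h4 hρ0]
    · constructor
      · intro h3; exact absurd h3.1 hb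
      · intro h3; exact absurd (hg.sub v h3) hb
  set σ₂ : S → V₁ → Set (Ht k →L[ℝ] ℝ) := fun z => if z ∈ D₁ then σ₁ z else σ₀ x₀ with hσ₂
  have h2 : ∀ z, GoodLab Φ₁ V₁ c₀ L (T (σ₂ z)) (σ₂ z) := by
    intro z
    by_cases hz : z ∈ D₁
    · have : σ₂ z = σ₀ z := by rw [hσ₂]; simp only [if_pos hz]; exact h1 z hz
      rw [this]
      exact hgood z hz.1
    · have : σ₂ z = σ₀ x₀ := by rw [hσ₂]; simp only [if_neg hz]
      rw [this]
      exact hgood x₀ hx₀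
  have hD₁m : MeasurableSet D₁ := by
    have : D₁ = D₀ ∩ ⋂ v : V₁, {x | x * M.τ v ^ ρ₁ ∈ D₀} := by
      ext x; simp [hD₁]
    rw [this]
    exact hD₀.inter (MeasurableSet.iInter fun v => M.ln_meas_trans hD₀ _)
  have hσ₁m : ∀ a, MeasurableSet {z | σ₁ z = a} := by
    intro a
    have : {z | σ₁ z = a} = ⋂ v : V₁, {z | (fun g g' : Γ =>
        {b | b ∈ Φ₁ ∧ 0 < b (M.θ (M.inG (F g')) - M.θ (M.inG (F g)))} = a v) (M.fl z)
          (M.fl (z * M.τ v ^ ρ₁))} := by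
      ext z
      simp only [mem_setOf_eq, mem_iInter]
      constructor
      · intro h v
        rw [← h]; rfl
      · intro h
        funext v
        rw [← h v]; rfl
    rw [this]
    exact MeasurableSet.iInter fun v => M.ln_meas_two (fun g g' : Γ =>
        {b | b ∈ Φ₁ ∧ 0 < b (M.θ (M.inG (F g')) - M.θ (M.inG (F g)))} = a v) _
  refine ⟨fun z => ⟨σ₂ z, (h2 z).sub, (h2 z).card⟩, ?_, h2, ?_⟩
  · intro a
    have : {z | σ₂ z = a} = (D₁ ∩ {z | σ₁ z = a}) ∪ (D₁ᶜ ∩ {z | σ₀ x₀ = a}) := by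
      ext z
      by_cases hz : z ∈ D₁
      · simp [hσ₂, hz]
      · simp [hσ₂, hz]
    show MeasurableSet {z | σ₂ z = a}
    rw [this]
    exact (hD₁m.inter (hσ₁m a)).union (hD₁m.compl.inter (MeasurableSet.const _))
  · intro x hx hx'
    have hx1 : x ∈ D₁ := ⟨hx, fun v => hx' v v.2⟩
    show σ₂ x = σ₀ x
    rw [hσ₂]
    simp only [if_pos hx1]
    exact h1 x hx1

/-- affine on `D₁` at distances `≤ ρ` implies `LinAt` around the points with many translates in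
`D₁`. -/
theorem ln_linAt {K : ℝ} {F F' : Γ → Γ} (hQ : M.QIm K F F') {Φ₁ : Finset (Ht k →L[ℝ] ℝ)}
    {V₁ : Finset (Fin k → ℤ)} {c₀ L ε₁ : ℝ} {ρ ρ₁ h n₄ lm : ℕ}
    {T : (V₁ → Set (Ht k →L[ℝ] ℝ)) → (Ht k →L[ℝ] Ht k)} {σ : S → LnLab Φ₁ V₁}
    (hgood : ∀ z, GoodLab Φ₁ V₁ c₀ L (T (σ z).1) (σ z).1) {D₁ : Set S}
    (hlin : ∀ x ∈ D₁, ∀ x' ∈ D₁, (M.l (x⁻¹ * x') : ℝ) ≤ ρ →
      ‖M.f F x' - M.f F x - T (σ x).1 (M.θ (x⁻¹ * x'))‖ ≤ ε₁ * ρ)
    (hlm : ∀ v ∈ V₁, M.l (M.τ v) ≤ lm) (hh : 0 < h) (hn : ρ₁ ≤ n₄ * h) (hρ : ρ₁ * lm ≤ ρ)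
    (p : V₁ × Bool) :
    LinAt (lnData hQ Φ₁ V₁) σ p
      {x | x ∈ D₁ ∧ ∀ v : V₁, ∀ j : ℤ, |j| ≤ n₄ → x * M.τ v ^ (j * h) ∈ D₁} c₀
      ((∑ b ∈ Φ₁, ‖b‖) * (ε₁ * ρ + (M.lnLf K + L * M.C0) * (lm * h))) ρ₁ := by
  have hC0 := M.ln_C0
  have hLf := M.lnLf_nonneg hQ.K_nonneg
  -- the statement for `τ v`
  have key : ∀ x, x ∈ D₁ → (∀ v : V₁, ∀ j : ℤ, |j| ≤ n₄ → x * M.τ v ^ (j * h) ∈ D₁) →
      ∀ v : V₁, ∀ i : ℤ, |i| ≤ ρ₁ → ‖M.f F (x * M.τ v ^ i) - M.f F x -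
        (i : ℝ) • T (σ x).1 (ht (v : Fin k → ℤ))‖ ≤
        ε₁ * ρ + (M.lnLf K + L * M.C0) * (lm * h) := by
    intro x hx hx' v i hi
    have hh' : (0 : ℤ) < h := by exact_mod_cast hh
    set j : ℤ := i.tdiv h with hj
    set r : ℤ := i.tmod h with hr
    have hir : i = j * h + r := by
      have := Int.mul_tdiv_add_tmod i h
      rw [hj, hr]; linarith [mul_comm (h:ℤ) (i.tdiv h)]
    have hrn : r.natAbs ≤ h := by
      rw [hr, Int.natAbs_tmod]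
      simpa using (Nat.mod_lt _ hh).le
    have hjn : j.natAbs * h ≤ i.natAbs := by
      rw [hj, Int.natAbs_tdiv]
      rw [Int.natAbs_natCast]
      exact Nat.div_mul_le_self i.natAbs h
    have hin : i.natAbs ≤ ρ₁ := by
      have : (i.natAbs : ℤ) ≤ ρ₁ := by rw [Int.natCast_natAbs]; exact hi
      exact_mod_cast this
    have hjn4 : |j| ≤ n₄ := by
      have h3 : j.natAbs * h ≤ n₄ * h := hjn.trans (hin.trans hn)
      have h4 : j.natAbs ≤ n₄ := Nat.le_of_mul_le_mul_right h3 hh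
      rw [← Int.natCast_natAbs]
      exact_mod_cast h4
    have hlv := hlm v v.2
    -- from `x` to `x τ^(j h)`
    have h1 : ‖M.f F (x * M.τ v ^ (j * h)) - M.f F x -
        ((j * h : ℤ) : ℝ) • T (σ x).1 (ht (v : Fin k → ℤ))‖ ≤ ε₁ * ρ := by
      have h2 := hlin x hx _ (hx' v j hjn4) (by
        rw [inv_mul_cancel_left]
        have h3 := M.ln_zpow (M.τ v) (j * h)
        have h4 : (j * h).natAbs * M.l (M.τ v) ≤ ρ := by
          rw [Int.natAbs_mul, Int.natAbs_natCast]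
          calc j.natAbs * h * M.l (M.τ v) ≤ ρ₁ * lm :=
                Nat.mul_le_mul (hjn.trans hin) hlv
            _ ≤ ρ := hρ
        exact_mod_cast h3.trans h4)
      rwa [inv_mul_cancel_left, M.ln_θ_zpow, M.ln_θ_τ, map_smul] at h2
    -- from `x τ^(j h)` to `x τ^i`
    have h2 : ‖M.f F (x * M.τ v ^ i) - M.f F (x * M.τ v ^ (j * h))‖ ≤ M.lnLf K * (lm * h) := by
      have e : x * M.τ v ^ i = x * M.τ v ^ (j * h) * M.τ v ^ r := by
        rw [mul_assoc, ← zpow_add, ← hir]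
      rw [e]
      refine (hQ.ln_lip _ _).trans (mul_le_mul_of_nonneg_left ?_ hLf)
      have h3 := M.ln_zpow (M.τ v) r
      have h4 : r.natAbs * M.l (M.τ v) ≤ lm * h := by
        rw [mul_comm]; exact Nat.mul_le_mul hlv hrn
      exact_mod_cast h3.trans h4
    have h3 : ‖(r : ℝ) • T (σ x).1 (ht (v : Fin k → ℤ))‖ ≤ L * M.C0 * (lm * h) := by
      rw [norm_smul]
      have h4 : ‖T (σ x).1 (ht (v : Fin k → ℤ))‖ ≤ L * (M.C0 * lm) := by
        refine ((T (σ x).1).le_opNorm _).trans ?_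
        refine mul_le_mul (hgood x).norm_le ?_ (norm_nonneg _)
          ((norm_nonneg _).trans (hgood x).norm_le)
        rw [← M.ln_θ_τ]
        refine (M.θ_le _).trans (mul_le_mul_of_nonneg_left (by exact_mod_cast hlv) hC0)
      have h5 : ‖(r : ℝ)‖ ≤ h := by
        rw [Real.norm_eq_abs, ← Int.cast_abs, ← Int.natCast_natAbs]
        exact_mod_cast hrn
      calc ‖(r : ℝ)‖ * ‖T (σ x).1 (ht (v : Fin k → ℤ))‖ ≤ h * (L * (M.C0 * lm)) :=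
            mul_le_mul h5 h4 (norm_nonneg _) (Nat.cast_nonneg _)
        _ = L * M.C0 * (lm * h) := by ring
    have e : M.f F (x * M.τ v ^ i) - M.f F x - (i : ℝ) • T (σ x).1 (ht (v : Fin k → ℤ)) =
        (M.f F (x * M.τ v ^ (j * h)) - M.f F x -
        ((j * h : ℤ) : ℝ) • T (σ x).1 (ht (v : Fin k → ℤ))) +
        (M.f F (x * M.τ v ^ i) - M.f F (x * M.τ v ^ (j * h))) -
        (r : ℝ) • T (σ x).1 (ht (v : Fin k → ℤ)) := by
      have : (i : ℝ) = ((j * h : ℤ) : ℝ) + r := by exact_mod_cast hir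
      rw [this, add_smul]; abel
    rw [e]
    refine (norm_sub_le _ _).trans ?_
    refine (add_le_add ((norm_add_le _ _).trans (add_le_add h1 h2)) h3).trans (le_of_eq ?_)
    ring
  constructor
  rintro x ⟨hx, hx'⟩ b
  have hB : ‖(b : Ht k →L[ℝ] ℝ)‖ ≤ ∑ b ∈ Φ₁, ‖b‖ :=
    Finset.single_le_sum (f := fun b : Ht k →L[ℝ] ℝ => ‖b‖) (fun b _ => norm_nonneg b) b.2
  have hB0 : 0 ≤ ∑ b ∈ Φ₁, ‖b‖ := (norm_nonneg _).trans hB
  have hg := hgood x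
  rcases p with ⟨v, s⟩
  have key2 : ∀ i : ℤ, |i| ≤ ρ₁ → |(b : Ht k →L[ℝ] ℝ) (M.f F (x * M.τ v ^ i)) -
      (b : Ht k →L[ℝ] ℝ) (M.f F x) - i * (b : Ht k →L[ℝ] ℝ) (T (σ x).1 (ht (v : Fin k → ℤ)))| ≤
      (∑ b ∈ Φ₁, ‖b‖) * (ε₁ * ρ + (M.lnLf K + L * M.C0) * (lm * h)) := by
    intro i hi
    have h1 := key x hx hx' v i hi
    have e : (b : Ht k →L[ℝ] ℝ) (M.f F (x * M.τ v ^ i)) -
      (b : Ht k →L[ℝ] ℝ) (M.f F x) - i * (b : Ht k →L[ℝ] ℝ) (T (σ x).1 (ht (v : Fin k → ℤ))) =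
      (b : Ht k →L[ℝ] ℝ) (M.f F (x * M.τ v ^ i) - M.f F x -
        (i : ℝ) • T (σ x).1 (ht (v : Fin k → ℤ))) := by
      rw [map_sub, map_sub, map_smul, smul_eq_mul]
    rw [e, ← Real.norm_eq_abs]
    exact ((b : Ht k →L[ℝ] ℝ).le_opNorm _).trans (mul_le_mul hB h1 (norm_nonneg _) hB0)
  cases s with
  | true =>
    refine ⟨(b : Ht k →L[ℝ] ℝ) (T (σ x).1 (ht (v : Fin k → ℤ))), ?_, ?_, ?_⟩
    · intro hb
      exact hg.pos v b b.2 (by simpa [lnData, lnP] using hb)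
    · intro hb
      exact hg.neg v b b.2 (by simpa [lnData, lnP] using hb)
    · intro i hi
      have := key2 i hi
      simpa [lnData] using this
  | false =>
    refine ⟨-(b : Ht k →L[ℝ] ℝ) (T (σ x).1 (ht (v : Fin k → ℤ))), ?_, ?_, ?_⟩
    · intro hb
      have := hg.neg v b b.2 (by simpa [lnData, lnP] using hb)
      linarith
    · intro hb
      have := hg.pos v b b.2 (by simpa [lnData, lnP] using hb)
      linarith
    · intro i hi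
      have := key2 (-i) (by rwa [abs_neg])
      have e : (lnData hQ Φ₁ V₁).t (v, false) ^ i = M.τ v ^ (-i) := by
        simp [lnData]
      rw [e]
      have e2 : (i : ℝ) * -(b : Ht k →L[ℝ] ℝ) (T (σ x).1 (ht (v : Fin k → ℤ))) =
        ((-i : ℤ) : ℝ) * (b : Ht k →L[ℝ] ℝ) (T (σ x).1 (ht (v : Fin k → ℤ))) := by
        push_cast; ring
      rw [e2]
      exact this

end RModel

end Vale.Agent.P188.Z1
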