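import Vale.Agent.P188.Z1.LineB

/-!
# P188, Z1, block STRAIGHT, part C: margins at a fixed scale
-/

set_option linter.all false

open MeasureTheory Set
open scoped ENNReal
open Vale.P188.H654

namespace Vale.Agent.P188.Z1

namespace RModel

variable {S : Type} [Group S] [MeasurableSpace S] {Γ : Type} [Group Γ]
  {V : Type} [AddCommGroup V] [Module ℝ V] {k : ℕ} (M : RModel S Γ V k)

/-- points of `D₀` whose `ρ₁`-translates are in `D₀` -/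
def lnD1 (V₁ : Finset (Fin k → ℤ)) (ρ₁ : ℕ) (D₀ : Set S) : Set S :=
  {x | x ∈ D₀ ∧ ∀ v ∈ V₁, x * M.τ v ^ ρ₁ ∈ D₀}

open Classical in
theorem ln_mu_D1 {V₁ : Finset (Fin k → ℤ)} {ρ₁ lm : ℕ} {D D₀ : Set S}
    (hlm : ∀ v ∈ V₁, M.l (M.τ v) ≤ lm) {e₀ : ℝ≥0∞} (he₀ : M.μ (D \ D₀) ≤ e₀) {r : ℝ}
    (hr : (ρ₁ * lm : ℕ) ≤ r) :
    M.μ (M.In r D \ M.lnD1 V₁ ρ₁ D₀) ≤ (1 + V₁.card : ℕ) * e₀ := by
  have hr0 : (0 : ℝ) ≤ r := (Nat.cast_nonneg _).trans hr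
  have hsub : M.In r D \ M.lnD1 V₁ ρ₁ D₀ ⊆ (D \ D₀) ∪
      {x | x ∈ M.In r D ∧ ∃ v ∈ V₁, x * M.τ v ^ ρ₁ ∉ D₀} := by
    rintro x ⟨hx, hx'⟩
    by_cases h0 : x ∈ D₀
    · right
      refine ⟨hx, ?_⟩
      by_contra hcon
      push Not at hcon
      exact hx' ⟨h0, hcon⟩
    · left
      exact ⟨ln_In_sub hr0 hx, h0⟩
  have h2 := ln_In_union (M := M) (r := r) (r' := 0) (D := D) (A := D₀) V₁
    (fun v => M.τ v ^ ρ₁) (by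
      intro v hv
      rw [add_zero]
      refine le_trans ?_ hr
      exact_mod_cast (M.ln_pow _ _).trans (Nat.mul_le_mul_left _ (hlm v hv))) (e := e₀)
      ((measure_mono (diff_subset_diff_left (ln_In_sub le_rfl))).trans he₀)
  calc M.μ (M.In r D \ M.lnD1 V₁ ρ₁ D₀) ≤ _ := measure_mono hsub
    _ ≤ e₀ + V₁.card * e₀ := (measure_union_le _ _).trans (add_le_add he₀ h2)
    _ = _ := by push_cast; ring

/-- points of `D₁` whose translates by a grid are in `D₁` -/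
def lnD2 (V₁ : Finset (Fin k → ℤ)) (h n₄ : ℕ) (D₁ : Set S) : Set S :=
  {x | x ∈ D₁ ∧ ∀ v : V₁, ∀ j : ℤ, |j| ≤ n₄ → x * M.τ v ^ (j * h) ∈ D₁}

open Classical in
theorem ln_mu_D2 {V₁ : Finset (Fin k → ℤ)} {h n₄ lm : ℕ} {D D₁ : Set S}
    (hlm : ∀ v ∈ V₁, M.l (M.τ v) ≤ lm) {e₁ : ℝ≥0∞} {r r' : ℝ}
    (he₁ : M.μ (M.In r' D \ D₁) ≤ e₁) (hr : (n₄ * h * lm : ℕ) + r' ≤ r) :
    M.μ (M.In r D \ M.lnD2 V₁ h n₄ D₁) ≤ (1 + V₁.card * (2 * n₄ + 1) : ℕ) * e₁ := by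
  have hrr : r' ≤ r := le_trans (by have : (0:ℝ) ≤ (n₄ * h * lm : ℕ) := Nat.cast_nonneg _; linarith) hr
  set I : Finset ((Fin k → ℤ) × ℤ) := V₁ ×ˢ Finset.Icc (-(n₄ : ℤ)) n₄ with hI
  have hsub : M.In r D \ M.lnD2 V₁ h n₄ D₁ ⊆ (M.In r' D \ D₁) ∪
      {x | x ∈ M.In r D ∧ ∃ p ∈ I, x * M.τ p.1 ^ (p.2 * h) ∉ D₁} := by
    rintro x ⟨hx, hx'⟩
    by_cases h0 : x ∈ D₁
    · right
      refine ⟨hx, ?_⟩
      by_contra hcon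
      push Not at hcon
      refine hx' ⟨h0, fun v j hj => ?_⟩
      refine hcon ((v : Fin k → ℤ), j) ?_
      rw [hI, Finset.mem_product, Finset.mem_Icc]
      exact ⟨v.2, (abs_le.1 hj).1, (abs_le.1 hj).2⟩
    · left
      exact ⟨ln_In_mono hrr hx, h0⟩
  have h2 := ln_In_union (M := M) (r := r) (r' := r') (D := D) (A := D₁) I
    (fun p => M.τ p.1 ^ (p.2 * h)) (by
      rintro ⟨v, j⟩ hp
      rw [hI, Finset.mem_product, Finset.mem_Icc] at hp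
      refine le_trans ?_ hr
      have h3 : (j * h).natAbs * M.l (M.τ v) ≤ n₄ * h * lm := by
        rw [Int.natAbs_mul, Int.natAbs_natCast]
        refine Nat.mul_le_mul (Nat.mul_le_mul_right _ ?_) (hlm v hp.1)
        have := hp.2
        simp only at this
        omega
      have h4 := (M.ln_zpow (M.τ v) (j * h)).trans h3
      have h5 : (M.l (M.τ v ^ (j * h)) : ℝ) ≤ (n₄ * h * lm : ℕ) := by exact_mod_cast h4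
      linarith) (e := e₁) he₁
  have hcard : I.card = V₁.card * (2 * n₄ + 1) := by
    rw [hI, Finset.card_product, Int.card_Icc]
    congr 1
    omega
  calc M.μ (M.In r D \ M.lnD2 V₁ h n₄ D₁) ≤ _ := measure_mono hsub
    _ ≤ e₁ + I.card * e₁ := (measure_union_le _ _).trans (add_le_add he₁ h2)
    _ = _ := by rw [hcard]; push_cast; ring

open Classical in
/-- **Margins at a fixed scale.** -/
theorem ln_margin1 {K : ℝ} {F F' : Γ → Γ} (hQ : M.QIm K F F') {Φ₁ : Finset (Ht k →L[ℝ] ℝ)}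
    {V₁ : Finset (Fin k → ℤ)} {c₀ L ε₁ : ℝ} {ρ ρ₁ h n₄ lm r n Mn : ℕ}
    {T : (V₁ → Set (Ht k →L[ℝ] ℝ)) → (Ht k →L[ℝ] Ht k)} {D D₀ : Set S}
    (hD₀ : MeasurableSet D₀) (hne : D₀.Nonempty) {σ₀ : S → V₁ → Set (Ht k →L[ℝ] ℝ)}
    (hgood : ∀ x ∈ D₀, GoodLab Φ₁ V₁ c₀ L (T (σ₀ x)) (σ₀ x))
    (hlin : ∀ x ∈ D₀, ∀ x' ∈ D₀, (M.l (x⁻¹ * x') : ℝ) ≤ ρ →
      ‖M.f F x' - M.f F x - T (σ₀ x) (M.θ (x⁻¹ * x'))‖ ≤ ε₁ * ρ ∧ σ₀ x' = σ₀ x)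
    (hlm : ∀ v ∈ V₁, M.l (M.τ v) ≤ lm) (hρ : ρ₁ * lm ≤ ρ) (hh : 0 < h) (hn : ρ₁ ≤ n₄ * h)
    (hc₀ : 0 < c₀) (hL : 0 ≤ L) (hε₁ : 0 ≤ ε₁)
    {e1 L1 : ℝ} (he1 : (∑ b ∈ Φ₁, ‖b‖) * (ε₁ * ρ + (M.lnLf K + L * M.C0) * (lm * h)) ≤ e1)
    (he : 2 * e1 < c₀ * ρ₁)
    (hL1 : 0 < L1) (hlip : (∑ b ∈ Φ₁, ‖b‖) * (M.lnLf K * lm) ≤ L1)
    (hr : L1 * r ≤ c₀ * ρ₁ - e1) {e₀ θ : ℝ≥0∞} (he₀ : M.μ (D \ D₀) ≤ e₀)
    (hθ : ∀ b ∈ Φ₁, ∀ v ∈ V₁, M.μ {x | x ∈ D ∧ ∀ n : ℤ, |n| ≤ r →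
      b (M.f F (x * M.τ v ^ n)) ≤ b (M.f F x)} ≤ θ)
    {m : ℝ} (hm : m ≤ n * (c₀ * ρ₁ - e1) - (L1 + c₀) * ρ₁ * Mn) (hMn : 0 < Mn)
    {R : ℝ} (hR : ((n * ρ₁ * lm + n₄ * h * lm + ρ₁ * lm : ℕ) : ℝ) ≤ R) :
    ∃ σ : S → LnLab Φ₁ V₁, (∀ a, MeasurableSet {z | (σ z).1 = a}) ∧
      (∀ z, GoodLab Φ₁ V₁ c₀ L (T (σ z).1) (σ z).1) ∧
      (∀ x ∈ M.lnD1 V₁ ρ₁ D₀, ∀ x' ∈ M.lnD1 V₁ ρ₁ D₀, (M.l (x⁻¹ * x') : ℝ) ≤ ρ →
        ‖M.f F x' - M.f F x - T (σ x).1 (M.θ (x⁻¹ * x'))‖ ≤ ε₁ * ρ) ∧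
      M.μ (M.In R D \ M.lnD1 V₁ ρ₁ D₀) ≤ (1 + V₁.card : ℕ) * e₀ ∧
      M.μ (M.In R D \ {z | (lnData hQ Φ₁ V₁).Good σ (n * ρ₁) m z}) ≤
        (Fintype.card (V₁ × Bool) : ℕ) *
        (((1 + V₁.card * (2 * n₄ + 1) : ℕ) * ((1 + V₁.card : ℕ) * e₀)) +
          Φ₁.card * ((n * ρ₁ + 1 : ℕ) * θ) +
          n * ((1 + V₁.card * (2 * n₄ + 1) : ℕ) * ((1 + V₁.card : ℕ) * e₀)) / Mn) := by
  have hLf := M.lnLf_nonneg hQ.K_nonneg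
  have hC0 := M.ln_C0
  have hB0 : 0 ≤ ∑ b ∈ Φ₁, ‖b‖ := Finset.sum_nonneg fun b _ => norm_nonneg b
  have hX : 0 ≤ (M.lnLf K + L * M.C0) * (lm * h) := by positivity
  have he10 : 0 ≤ e1 := le_trans (by positivity) he1
  have hBρ : (∑ b ∈ Φ₁, ‖b‖) * (ε₁ * ρ) < c₀ * ρ₁ := by
    have h1 : (∑ b ∈ Φ₁, ‖b‖) * (ε₁ * ρ) ≤ e1 :=
      (mul_le_mul_of_nonneg_left (by linarith) hB0).trans he1
    linarith
  obtain ⟨σ, hσm, hσg, hσe⟩ := M.ln_lab_meas (F := F) (B := ∑ b ∈ Φ₁, ‖b‖) (ρ₁ := ρ₁) hD₀ hne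
    hgood hlin (fun b hb => Finset.single_le_sum (f := fun b : Ht k →L[ℝ] ℝ => ‖b‖)
      (fun b _ => norm_nonneg b) hb) hBρ (by
      intro v hv
      exact_mod_cast ((M.ln_pow _ _).trans (Nat.mul_le_mul_left _ (hlm v hv))).trans hρ)
  have hlin1 : ∀ x ∈ M.lnD1 V₁ ρ₁ D₀, ∀ x' ∈ M.lnD1 V₁ ρ₁ D₀, (M.l (x⁻¹ * x') : ℝ) ≤ ρ →
        ‖M.f F x' - M.f F x - T (σ x).1 (M.θ (x⁻¹ * x'))‖ ≤ ε₁ * ρ := by
    intro x hx x' hx' hl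
    rw [hσe x hx.1 hx.2]
    exact (hlin x hx.1 x' hx'.1 hl).1
  have hR1 : ((ρ₁ * lm : ℕ) : ℝ) ≤ R := le_trans (by exact_mod_cast Nat.le_add_left _ _) hR
  have hμ1 : M.μ (M.In R D \ M.lnD1 V₁ ρ₁ D₀) ≤ (1 + V₁.card : ℕ) * e₀ := M.ln_mu_D1 hlm he₀ hR1
  refine ⟨σ, hσm, hσg, hlin1, hμ1, ?_⟩
  have hμ1' : M.μ (M.In ((ρ₁ * lm : ℕ) : ℝ) D \ M.lnD1 V₁ ρ₁ D₀) ≤ (1 + V₁.card : ℕ) * e₀ :=
    M.ln_mu_D1 hlm he₀ le_rfl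
  set D₁ := M.lnD1 V₁ ρ₁ D₀ with hD₁
  set R' : ℝ := ((n₄ * h * lm + ρ₁ * lm : ℕ) : ℝ) with hR'
  have hμ2 : M.μ (M.In R' D \ M.lnD2 V₁ h n₄ D₁) ≤
      (1 + V₁.card * (2 * n₄ + 1) : ℕ) * ((1 + V₁.card : ℕ) * e₀) :=
    M.ln_mu_D2 hlm hμ1' (by rw [hR']; push_cast; exact le_rfl)
  set e : ℝ≥0∞ := (1 + V₁.card * (2 * n₄ + 1) : ℕ) * ((1 + V₁.card : ℕ) * e₀) with hee
  have key : ∀ p : V₁ × Bool, M.μ {z ∈ M.In R D | ¬ (lnData hQ Φ₁ V₁).Mg σ (n * ρ₁) m z p} ≤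
      e + Φ₁.card * ((n * ρ₁ + 1 : ℕ) * θ) + n * e / Mn := by
    intro p
    have htl : M.l ((lnData hQ Φ₁ V₁).t p) ≤ lm := by
      rcases p with ⟨v, s⟩
      cases s
      · simpa [lnData, M.len.inv] using hlm v v.2
      · simpa [lnData] using hlm v v.2
    have hlinp : LinAt (lnData hQ Φ₁ V₁) σ p (M.lnD2 V₁ h n₄ D₁) c₀ e1 ρ₁ := by
      have h1 := M.ln_linAt hQ (ρ₁ := ρ₁) (h := h) (n₄ := n₄) (lm := lm) hσg hlin1 hlm hh hn hρ p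
      constructor
      intro x hx b
      obtain ⟨lam, h2, h3, h4⟩ := h1.lin x hx b
      exact ⟨lam, h2, h3, fun i hi => (h4 i hi).trans he1⟩
    have := line (lnData hQ Φ₁ V₁) σ p (fun s s' => lnP_card p s s') M.ln_ri
      (D := M.In R D) (Dp := M.In R' D) (D0 := M.lnD2 V₁ h n₄ D₁) c₀ e1 L1 0 ρ₁ r r 0 n Mn hL1
      (by
        refine le_trans ?_ hlip
        refine mul_le_mul_of_nonneg_left (mul_le_mul_of_nonneg_left ?_ hLf) hB0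
        show (M.l _ : ℝ) ≤ _
        exact_mod_cast htl) hlinp hr he he10 hc₀.le (by simp) (by omega)
      (by
        intro j hj z hz
        refine ln_In_mul hz (le_trans ?_ hR)
        have h1 : M.l ((lnData hQ Φ₁ V₁).t p ^ j) ≤ n * ρ₁ * lm :=
          (M.ln_pow _ _).trans (Nat.mul_le_mul (by simpa using hj) htl)
        rw [hR']
        have h2 : (M.l ((lnData hQ Φ₁ V₁).t p ^ j) : ℝ) ≤ (n * ρ₁ * lm : ℕ) := by exact_mod_cast h1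
        push_cast at h2 ⊢
        linarith) hμ2 (θ := θ) (by
        intro b
        refine le_trans (measure_mono ?_) (hθ b b.2 p.1 p.1.2)
        rintro x ⟨hx, hx'⟩
        refine ⟨ln_In_sub (by rw [hR']; positivity) hx, fun i hi => ?_⟩
        rcases p with ⟨v, s⟩
        cases s
        · have := hx' (-i) (by rwa [abs_neg])
          simpa [lnData] using this
        · have := hx' i hi
          simpa [lnData] using this) hm hMn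
    refine this.trans (le_of_eq ?_)
    simp
  have hsub : M.In R D \ {z | (lnData hQ Φ₁ V₁).Good σ (n * ρ₁) m z} ⊆
      ⋃ p ∈ (Finset.univ : Finset (V₁ × Bool)),
        {z ∈ M.In R D | ¬ (lnData hQ Φ₁ V₁).Mg σ (n * ρ₁) m z p} := by
    rintro z ⟨hz, hz'⟩
    have : ∃ p, ¬ (lnData hQ Φ₁ V₁).Mg σ (n * ρ₁) m z p := by
      by_contra hcon
      push Not at hcon
      exact hz' hcon
    obtain ⟨p, hp⟩ := this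
    simp only [mem_iUnion]
    exact ⟨p, Finset.mem_univ _, hz, hp⟩
  refine (measure_mono hsub).trans ((measure_biUnion_finset_le _ _).trans ?_)
  refine (Finset.sum_le_sum fun p _ => key p).trans ?_
  rw [Finset.sum_const, Finset.card_univ, nsmul_eq_mul]

end RModel

end Vale.Agent.P188.Z1
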