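import Vale.Agent.P188.Z1.LineC

/-!
# P188, Z1, block STRAIGHT, part C2: arithmetic of the scales
-/

set_option linter.all false

open MeasureTheory Set
open scoped ENNReal
open Vale.P188.H654

namespace Vale.Agent.P188.Z1

theorem ln_ar1 {lm ρ : ℕ} (hlm : 1 ≤ lm) (h1 : 2 * (lm : ℝ) ≤ ρ) :
    ∃ ρ₁ : ℕ, ρ₁ * lm ≤ ρ ∧ (ρ : ℝ) ≤ 2 * lm * ρ₁ ∧ (0 : ℝ) < ρ₁ ∧ (ρ₁ : ℝ) ≤ ρ := by
  have hlmR : (1 : ℝ) ≤ lm := by exact_mod_cast hlm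
  refine ⟨ρ / lm, Nat.div_mul_le_self _ _, ?_, ?_, by exact_mod_cast Nat.div_le_self ρ lm⟩
  · have h2 : ρ < lm * (ρ / lm) + lm := Nat.lt_mul_div_succ ρ (by omega)
    have h3 : (ρ : ℝ) < lm * (ρ / lm : ℕ) + lm := by exact_mod_cast h2
    linarith
  · have h2 : ρ < lm * (ρ / lm) + lm := Nat.lt_mul_div_succ ρ (by omega)
    have h3 : (ρ : ℝ) < lm * (ρ / lm : ℕ) + lm := by exact_mod_cast h2
    by_contra hcon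
    push Not at hcon
    have : (lm : ℝ) * (ρ / lm : ℕ) ≤ 0 := mul_nonpos_of_nonneg_of_nonpos (by positivity) hcon
    linarith

theorem ln_ar2 {ε₄ : ℝ} {ρ ρ₁ : ℕ} (h0 : 0 < ε₄) (h01 : ε₄ ≤ 1) (h2 : 2 ≤ ε₄ * ρ)
    (h1 : (ρ₁ : ℝ) ≤ ρ) :
    ∃ h : ℕ, 0 < h ∧ (h : ℝ) ≤ ε₄ * ρ ∧ ρ₁ ≤ ⌈2 / ε₄⌉₊ * h ∧ ((⌈2 / ε₄⌉₊ * h : ℕ) : ℝ) ≤ 3 * ρ := by
  obtain ⟨h, hh⟩ : ∃ h : ℕ, h = ⌊ε₄ * ρ⌋₊ := ⟨_, rfl⟩
  have hρ : (0 : ℝ) ≤ ρ := Nat.cast_nonneg _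
  have c1 : (h : ℝ) ≤ ε₄ * ρ := by rw [hh]; exact Nat.floor_le (by positivity)
  have c2 : ε₄ * ρ < h + 1 := by rw [hh]; exact Nat.lt_floor_add_one _
  have c3 : ε₄ * ρ ≤ 2 * h := by linarith
  have hh0 : (0 : ℝ) < h := by linarith
  have hhn : 0 < h := by exact_mod_cast hh0
  have d1 : 2 / ε₄ ≤ ⌈2 / ε₄⌉₊ := Nat.le_ceil _
  have d2 : (⌈2 / ε₄⌉₊ : ℝ) < 2 / ε₄ + 1 := Nat.ceil_lt_add_one (by positivity)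
  refine ⟨h, hhn, c1, ?_, ?_⟩
  · have h5 : 2 / ε₄ * h ≤ ⌈2 / ε₄⌉₊ * h := mul_le_mul_of_nonneg_right d1 hh0.le
    have h6 : (ρ : ℝ) ≤ 2 / ε₄ * h := by
      rw [div_mul_eq_mul_div, le_div_iff₀ h0]; linarith
    have : (ρ₁ : ℝ) ≤ ⌈2 / ε₄⌉₊ * h := h1.trans (h6.trans h5)
    exact_mod_cast this
  · push_cast
    have h5 : (⌈2 / ε₄⌉₊ : ℝ) * h ≤ (2 / ε₄ + 1) * (ε₄ * ρ) :=
      mul_le_mul d2.le c1 hh0.le (by positivity)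
    have h6 : (2 / ε₄ + 1) * (ε₄ * ρ) = 2 * ρ + ε₄ * ρ := by field_simp
    have h7 : ε₄ * ρ ≤ 1 * ρ := mul_le_mul_of_nonneg_right h01 hρ
    linarith

theorem ln_ar3 {x y e1 L1 lm : ℝ} (hlm : 1 ≤ lm) (hL1 : 0 < L1) (hxy : y ≤ 2 * lm * x)
    (hy : 16 * lm * L1 ≤ y) (he1 : 8 * e1 ≤ x) (he0 : 0 ≤ e1) (hyx : x ≤ y) :
    ∃ r : ℕ, L1 * r ≤ x - e1 ∧ y ≤ 4 * lm * L1 * r ∧ L1 * r ≤ y := by
  have hx0 : 0 < x := by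
    by_contra hcon
    push Not at hcon
    have : 2 * lm * x ≤ 0 := mul_nonpos_of_nonneg_of_nonpos (by linarith) hcon
    have : 0 < 16 * lm * L1 := by positivity
    linarith
  obtain ⟨r, hr⟩ : ∃ r : ℕ, r = ⌊(x - e1) / L1⌋₊ := ⟨_, rfl⟩
  have hpos : 0 ≤ (x - e1) / L1 := div_nonneg (by linarith) hL1.le
  have r1 : (r : ℝ) ≤ (x - e1) / L1 := by rw [hr]; exact Nat.floor_le hpos
  have r2 : (x - e1) / L1 < r + 1 := by rw [hr]; exact Nat.lt_floor_add_one _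
  rw [le_div_iff₀ hL1] at r1
  rw [div_lt_iff₀ hL1] at r2
  refine ⟨r, by linarith, ?_, by linarith⟩
  -- `7/8 x < (r+1) L1`
  have h1 : 7 / 8 * x < (r + 1) * L1 := by linarith
  have h2 : 16 * L1 ≤ 2 * x := by
    have h3 : lm * (16 * L1) ≤ lm * (2 * x) := by linarith
    exact le_of_mul_le_mul_left h3 (by linarith)
  have h3 : L1 * 6 ≤ L1 * r := by linarith
  have h4 : x ≤ 2 * (L1 * r) := by linarith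
  have h5 : lm * x ≤ lm * (2 * (L1 * r)) := mul_le_mul_of_nonneg_left h4 (by linarith)
  linarith

theorem ln_ar4 {c₀ L1 κs e1 N₀ lm : ℝ} {ρ₁ : ℕ} (hc₀ : 0 < c₀) (hL1 : 0 < L1) (hlm : 1 ≤ lm)
    (hN₀ : N₀ = 4 * (L1 + c₀) / c₀ + 2) (hρ₁ : (0 : ℝ) < ρ₁) (he1 : 8 * e1 ≤ c₀ * ρ₁)
    (h3 : 16 * lm * (N₀ + 1) * ρ₁ ≤ κs) :
    ∃ n Mn : ℕ, c₀ * ((n * ρ₁ : ℕ) : ℝ) / 2 ≤ n * (c₀ * ρ₁ - e1) - (L1 + c₀) * ρ₁ * Mn ∧ 0 < Mn ∧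
      (n : ℝ) ≤ 8 * (L1 + c₀) / c₀ * Mn ∧ κs ≤ 8 * lm * (n * ρ₁ : ℕ) ∧
      4 * lm * ((n * ρ₁ : ℕ) : ℝ) ≤ κs := by
  have hlm0 : 0 < lm := by linarith
  have hN₀0 : 2 < N₀ := by
    have : 0 < 4 * (L1 + c₀) / c₀ := by positivity
    rw [hN₀]; linarith
  have hκs : 0 < κs := lt_of_lt_of_le (by positivity) h3
  obtain ⟨n, hn⟩ : ∃ n : ℕ, n = ⌊κs / (4 * lm * ρ₁)⌋₊ := ⟨_, rfl⟩
  have hw : 0 < 4 * lm * ρ₁ := by positivity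
  have n1 : (n : ℝ) ≤ κs / (4 * lm * ρ₁) := by rw [hn]; exact Nat.floor_le (by positivity)
  have n2 : κs / (4 * lm * ρ₁) < n + 1 := by rw [hn]; exact Nat.lt_floor_add_one _
  rw [le_div_iff₀ hw] at n1
  rw [div_lt_iff₀ hw] at n2
  have n3 : N₀ < n := by
    have h6 : (4 * (N₀ + 1)) * (4 * lm * ρ₁) < (n + 1) * (4 * lm * ρ₁) := by linarith
    have h7 := lt_of_mul_lt_mul_right h6 hw.le
    linarith
  have n4 : 4 * (L1 + c₀) ≤ c₀ * n := by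
    have h5 : 4 * (L1 + c₀) / c₀ ≤ n := by rw [hN₀] at n3; linarith
    rw [div_le_iff₀ hc₀] at h5
    linarith
  obtain ⟨δM, hδM⟩ : ∃ δM : ℝ, δM = c₀ / (8 * (L1 + c₀)) := ⟨_, rfl⟩
  have hδM0 : 0 < δM := by rw [hδM]; positivity
  have hn0 : (0 : ℝ) < n := by linarith
  obtain ⟨Mn, hMn⟩ : ∃ Mn : ℕ, Mn = ⌈δM * n⌉₊ := ⟨_, rfl⟩
  have m1 : δM * n ≤ Mn := by rw [hMn]; exact Nat.le_ceil _
  have m2 : (Mn : ℝ) < δM * n + 1 := by rw [hMn]; exact Nat.ceil_lt_add_one (by positivity)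
  have hMn0 : (0 : ℝ) < Mn := lt_of_lt_of_le (by positivity) m1
  refine ⟨n, Mn, ?_, by exact_mod_cast hMn0, ?_, ?_, ?_⟩
  · have h5 : (L1 + c₀) * ρ₁ * Mn ≤ (L1 + c₀) * ρ₁ * (δM * n + 1) :=
      mul_le_mul_of_nonneg_left m2.le (by positivity)
    have h6 : (L1 + c₀) * ρ₁ * (δM * n + 1) = c₀ * n * ρ₁ / 8 + (L1 + c₀) * ρ₁ := by
      rw [hδM]; field_simp
    have h7 : n * (8 * e1) ≤ n * (c₀ * ρ₁) := mul_le_mul_of_nonneg_left he1 hn0.le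
    have h8 : 4 * (L1 + c₀) * ρ₁ ≤ c₀ * n * ρ₁ := mul_le_mul_of_nonneg_right n4 hρ₁.le
    have e : n * (c₀ * ρ₁ - e1) = n * (c₀ * ρ₁) - n * (8 * e1) / 8 := by ring
    push_cast
    rw [e]
    linarith
  · have h5 : 8 * (L1 + c₀) / c₀ * (δM * n) = n := by rw [hδM]; field_simp
    calc (n : ℝ) = 8 * (L1 + c₀) / c₀ * (δM * n) := h5.symm
      _ ≤ _ := mul_le_mul_of_nonneg_left m1 (by positivity)
  · have h5 : (N₀ + 1) * (4 * lm * ρ₁) ≤ n * (4 * lm * ρ₁) + (4 * lm * ρ₁) := by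
      have := mul_le_mul_of_nonneg_right n3.le hw.le
      linarith
    have h6 : (4 * lm * ρ₁ : ℝ) ≤ n * (4 * lm * ρ₁) := by
      have h7 : (1 : ℝ) ≤ n := by linarith
      have := mul_le_mul_of_nonneg_right h7 hw.le
      linarith
    push_cast
    linarith
  · push_cast
    linarith

end Vale.Agent.P188.Z1
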