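import Vale.Agent.P188.Z1.LineC3

/-!
# P188, Z1, block STRAIGHT, part D: neutral flatness for short neutral elements
-/

set_option linter.all false

open MeasureTheory Set
open scoped ENNReal
open Vale.P188.H654

namespace Vale.Agent.P188.Z1

namespace RModel

variable {S : Type} [Group S] [MeasurableSpace S] {Γ : Type} [Group Γ]
  {V : Type} [AddCommGroup V] [Module ℝ V] {k : ℕ} (M : RModel S Γ V k)

/-- fat elements: `ex y * g`, `y` neutral of polynomial size, `g` short -/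
theorem ln_fb {κ₃ δ : ℝ} (hκ₃ : 0 < κ₃) (hδ : 0 < δ) : ∃ c₅ : ℝ, 0 < c₅ ∧ ∀ (C : ℝ) (m : ℕ),
    ∃ s₀ : ℝ, ∀ s : ℝ, s₀ ≤ s → ∀ y ∈ M.Vw 0, M.nm y ≤ C * (1 + s) ^ m →
      ∀ g, (M.l g : ℝ) ≤ c₅ * s → M.ex y * g ∈ M.FB δ (κ₃ * s) := by
  obtain ⟨C1, hC1, h1⟩ := M.fb_of_len
  obtain ⟨C2, hC2, h2⟩ := M.fb_mul
  have hC10 : 0 < C1 := by linarith
  have hC20 : 0 < C2 := by linarith
  obtain ⟨δ₂, hδ₂⟩ : ∃ δ₂, δ₂ = min δ 1 / C2 := ⟨_, rfl⟩
  have hm0 : 0 < min δ 1 := lt_min hδ one_pos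
  have hδ₂0 : 0 < δ₂ := by rw [hδ₂]; positivity
  have hδ₂1 : δ₂ ≤ 1 := by
    rw [hδ₂, div_le_one hC20]; exact (min_le_right _ _).trans hC2
  obtain ⟨R1, hR1⟩ := Filter.eventually_atTop.1 (h1 δ₂ hδ₂0)
  obtain ⟨R2, hR2⟩ := Filter.eventually_atTop.1 (h2 δ₂ hδ₂0 hδ₂1)
  refine ⟨κ₃ / (2 * C1 * C2), by positivity, fun C m => ?_⟩
  obtain ⟨s1, hs1, hs1'⟩ := ln_poly_exp C (δ₂ * (κ₃ / C2)) 1 m (by positivity) one_pos
  obtain ⟨W, hW⟩ : ∃ W : ℝ, W = |R1| + |R2| + 2 * M.l (M.τ 0) := ⟨_, rfl⟩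
  have hW0 : 0 ≤ W := by rw [hW]; positivity
  refine ⟨max s1 (W * (C1 * C2 / κ₃)), ?_⟩
  intro s hs y hy hyn g hg
  have hs1s : s1 ≤ s := (le_max_left _ _).trans hs
  have hs0 : 0 ≤ s := hs1.trans hs1s
  have hWs : W ≤ κ₃ / (C1 * C2) * s := by
    have h3 : W * (C1 * C2 / κ₃) ≤ s := (le_max_right _ _).trans hs
    have h4 := mul_le_mul_of_nonneg_left h3 (show 0 ≤ κ₃ / (C1 * C2) by positivity)
    have h5 : κ₃ / (C1 * C2) * (W * (C1 * C2 / κ₃)) = W := by field_simp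
    linarith
  -- the two scales
  have e1 : C1 * (κ₃ / (C1 * C2) * s) = κ₃ / C2 * s := by field_simp
  have e2 : C2 * (κ₃ / C2 * s) = κ₃ * s := by field_simp
  have e3 : κ₃ / (2 * C1 * C2) * s = κ₃ / (C1 * C2) * s / 2 := by field_simp
  have hR₃ : R1 ≤ κ₃ / (C1 * C2) * s := (le_abs_self _).trans (by
    have := abs_nonneg R2
    have : (0:ℝ) ≤ M.l (M.τ 0) := Nat.cast_nonneg _
    linarith)
  have hR₂ : R2 ≤ κ₃ / C2 * s := (le_abs_self _).trans (by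
    have := abs_nonneg R1
    have h4 : (0:ℝ) ≤ M.l (M.τ 0) := Nat.cast_nonneg _
    have h5 : κ₃ / (C1 * C2) * s ≤ C1 * (κ₃ / (C1 * C2) * s) :=
      le_mul_of_one_le_left (by positivity) hC1
    linarith)
  have f1 : M.ex y * M.τ 0 ∈ M.FB δ₂ (κ₃ / C2 * s) := by
    rw [mem_FB]
    refine ⟨0, M.e.zero_mem, ?_, M.ex y * M.τ 0, ⟨y, hy, ?_, 0, ?_, rfl⟩, ?_⟩
    · rw [map_zero]; exact (Real.exp_pos _).le
    · have h3 := hs1' s hs1s
      rw [Real.exp_neg, mul_inv_le_iff₀ (Real.exp_pos _), one_mul] at h3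
      refine (hyn.trans h3).trans (Real.exp_le_exp.2 ?_)
      rw [mul_assoc]
    · intro i
      have : (0 : ℝ) ≤ κ₃ / C2 * s := by positivity
      simpa using this
    · rw [M.ex_zero, one_mul]
  have f2 : (M.τ 0)⁻¹ * g ∈ M.FB δ₂ (κ₃ / C2 * s) := by
    rw [← e1]
    refine hR1 _ hR₃ _ ?_
    refine (M.ln_mulR _ _).trans ?_
    rw [M.len.inv]
    have := abs_nonneg R2
    have := abs_nonneg R1
    rw [e3] at hg
    linarith
  have f3 := hR2 _ hR₂ _ f1 _ f2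
  rw [mul_assoc, mul_inv_cancel_left, e2] at f3
  refine M.FB_mono le_rfl ?_ f3
  have h3 : C2 * δ₂ = min δ 1 := by rw [hδ₂]; field_simp
  rw [h3]
  exact mul_le_mul_of_nonneg_right (min_le_left _ _) (by positivity)

/-- the union of the cells well inside `D` -/
def lnC (r : ℝ) (D : Set S) : Set S := M.cells {γ | M.inG γ ∈ M.In r D}

theorem ln_C_meas (r : ℝ) (D : Set S) : MeasurableSet (M.lnC r D) := M.measurableSet_cells _

theorem ln_C_mul {r : ℝ} {D : Set S} {z g : S} (hz : z ∈ M.lnC r D)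
    (hg : M.C0 + (M.l g : ℝ) ≤ r) : z * g ∈ D := by
  have h1 : M.inG (M.fl z) ∈ M.In r D := hz
  have h2 := M.fl_close z
  have e : z * g = M.inG (M.fl z) * (((M.inG (M.fl z))⁻¹ * z) * g) := by group
  rw [e]
  refine h1 _ ((M.ln_mulR _ _).trans ?_)
  linarith

theorem ln_C_sub {r : ℝ} {D : Set S} (hr : M.C0 ≤ r) : M.lnC r D ⊆ D := by
  intro z hz
  have := M.ln_C_mul hz (g := 1) (by rw [M.ln_one]; simpa using hr)
  rwa [mul_one] at this

theorem ln_mem_C {r r' : ℝ} {D : Set S} {z : S} (hz : z ∈ M.In r' D) (h : M.C0 + r ≤ r') :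
    z ∈ M.lnC r D := by
  show M.inG (M.fl z) ∈ M.In r D
  have h2 := M.fl_close z
  rw [M.l_comm] at h2
  have := ln_In_mul (M := M) (g := z⁻¹ * M.inG (M.fl z)) (r' := r) hz (by linarith)
  rwa [mul_inv_cancel_left] at this

/-- `lnC r' D` times a ball is in `lnC r D` -/
theorem ln_C_C {r r' : ℝ} {D : Set S} {z g : S} (hz : z ∈ M.lnC r' D)
    (h : 2 * M.C0 + (M.l g : ℝ) + r ≤ r') : z * g ∈ M.lnC r D := by
  have h1 : M.inG (M.fl z) ∈ M.In r' D := hz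
  have h2 := M.fl_close z
  have e : z * g = M.inG (M.fl z) * (((M.inG (M.fl z))⁻¹ * z) * g) := by group
  have h3 : z * g ∈ M.In (M.C0 + r) D := by
    rw [e]
    refine ln_In_mul h1 ?_
    have := M.ln_mulR ((M.inG (M.fl z))⁻¹ * z) g
    linarith
  exact M.ln_mem_C h3 le_rfl

/-- **Neutral flatness for neutral elements of polynomial size.** -/
theorem ln_nf (hN : M.NFp) (K κ κ₃ δ C : ℝ) (m : ℕ) (hκ : 0 < κ) (hκ₃ : 0 < κ₃) (hδ : 0 < δ) :
    ∃ c s₀ : ℝ, 0 < c ∧ ∀ s : ℝ, s₀ ≤ s → ∀ F F' : Γ → Γ, M.QIm K F F' → ∀ D Dp : Set S,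
      M.FFat δ (κ₃ * s) 1 D Dp → ∀ y ∈ M.Vw 0, M.nm y ≤ C * (1 + s) ^ m →
      M.μ {x | x ∈ D ∧ κ * s < ‖M.f F (x * M.ex y) - M.f F x‖} ≤
        ENNReal.ofReal (Real.exp (-(c * s))) * M.μ D := by
  obtain ⟨δN, c₀, CR, r₀, hδN, hc₀, hNF⟩ := hN K κ 1 hκ
  obtain ⟨c₅, hc₅, hfb⟩ := M.ln_fb hκ₃ hδ
  obtain ⟨CR', hCR'⟩ : ∃ CR', CR' = max CR 1 := ⟨_, rfl⟩
  have hCR'1 : 1 ≤ CR' := by rw [hCR']; exact le_max_right _ _
  have hCRC : CR ≤ CR' := by rw [hCR']; exact le_max_left _ _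
  obtain ⟨cr, hcr⟩ : ∃ cr, cr = min 1 (c₅ / (2 * CR')) := ⟨_, rfl⟩
  have hcr0 : 0 < cr := by rw [hcr]; exact lt_min one_pos (by positivity)
  have hcr1 : cr ≤ 1 := by rw [hcr]; exact min_le_left _ _
  have hcr2 : CR' * cr ≤ c₅ / 2 := by
    have h1 : cr ≤ c₅ / (2 * CR') := by rw [hcr]; exact min_le_right _ _
    rw [le_div_iff₀ (by positivity)] at h1
    linarith
  have hC0 := M.ln_C0
  obtain ⟨s1, hs1⟩ := hfb C m
  obtain ⟨s2, hs2, hs2'⟩ := ln_poly_exp C (δN * cr) 1 m (by positivity) one_pos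
  obtain ⟨s3, hs3, hs3'⟩ := ln_poly_exp 2 (c₀ * cr / 2) 1 0 (by positivity) one_pos
  refine ⟨c₀ * cr / 2, max (max s1 s2) (max s3 (max (|r₀| / cr) (4 * M.C0 / c₅))), by positivity, ?_⟩
  intro s hs F F' hQ D Dp hD y hy hyn
  have t1 : s1 ≤ s := (le_max_left _ _).trans ((le_max_left _ _).trans hs)
  have t2 : s2 ≤ s := (le_max_right _ _).trans ((le_max_left _ _).trans hs)
  have t3 : s3 ≤ s := (le_max_left _ _).trans ((le_max_right _ _).trans hs)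
  have t4 : |r₀| / cr ≤ s :=
    (le_max_left _ _).trans ((le_max_right _ _).trans ((le_max_right _ _).trans hs))
  have t5 : 4 * M.C0 / c₅ ≤ s :=
    (le_max_right _ _).trans ((le_max_right _ _).trans ((le_max_right _ _).trans hs))
  have hs0 : 0 ≤ s := hs2.trans t2
  rw [div_le_iff₀ hcr0] at t4
  rw [div_le_iff₀ hc₅] at t5
  obtain ⟨r, hr⟩ : ∃ r, r = cr * s := ⟨_, rfl⟩
  have hr0 : r₀ ≤ r := by rw [hr]; exact (le_abs_self _).trans (by linarith)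
  have hrs : r ≤ s := by rw [hr]; exact mul_le_of_le_one_left hs0 hcr1
  have hrp : 0 ≤ r := by rw [hr]; positivity
  have hCRr : CR' * r ≤ c₅ / 2 * s := by
    rw [hr, ← mul_assoc]; exact mul_le_mul_of_nonneg_right hcr2 hs0
  obtain ⟨R, hR⟩ : ∃ R, R = CR' * r + M.C0 := ⟨_, rfl⟩
  have hin : ∀ x ∈ D, ∀ y' ∈ M.Vw 0, M.nm y' ≤ C * (1 + s) ^ m → x * M.ex y' ∈ M.lnC R Dp := by
    intro x hx y' hy' hyn'
    refine M.ln_mem_C (r' := c₅ * s) ?_ (by rw [hR]; linarith)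
    intro g hg
    rw [mul_assoc]
    exact hD.subf x hx _ (hs1 s t1 y' hy' hyn' g hg)
  have hDC : D ⊆ M.lnC R Dp := by
    intro x hx
    refine M.ln_mem_C (r' := c₅ * s) ?_ (by rw [hR]; linarith)
    intro g hg
    have h0 : (0 : ℝ) ≤ C * (1 + s) ^ m := (M.nm_nonneg y).trans hyn
    have := hD.subf x hx _ (hs1 s t1 0 (M.Vw 0).zero_mem (by rw [map_zero]; exact h0) g hg)
    rwa [M.ex_zero, one_mul] at this
  have hCD : M.lnC R Dp ⊆ Dp := by
    refine M.ln_C_sub ?_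
    have : 0 ≤ CR' * r := mul_nonneg (by linarith) hrp
    rw [hR]
    linarith
  have hDpf : M.μ Dp ≠ ⊤ :=
    ne_top_of_le_ne_top (ENNReal.mul_ne_top ENNReal.ofReal_ne_top hD.fin) hD.le
  have hFat : M.Fat (CR * r) 1 (M.lnC R Dp) Dp :=
    { meas := M.ln_C_meas _ _
      meas' := hD.meas'
      pos := fun h0 => hD.pos (le_antisymm ((measure_mono hDC).trans h0.le) bot_le)
      fin := ne_top_of_le_ne_top hDpf (measure_mono hCD)
      sub := by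
        intro z hz g hg
        refine M.ln_C_mul hz ?_
        have : CR * r ≤ CR' * r := mul_le_mul_of_nonneg_right hCRC hrp
        rw [hR]; linarith
      le := hD.le.trans (mul_le_mul_right (measure_mono hDC) _) }
  have h1 := hNF r hr0 F F' hQ (M.lnC R Dp) Dp hFat y hy (by
    have h3 := hs2' s t2
    rw [Real.exp_neg, mul_inv_le_iff₀ (Real.exp_pos _), one_mul] at h3
    refine (hyn.trans h3).trans (Real.exp_le_exp.2 ?_)
    rw [hr, mul_assoc]) D (by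
    intro z hz x hx0 hx1
    refine hin z hz (x • y) ((M.Vw 0).smul_mem _ hy) ?_
    rw [map_smul_eq_mul, Real.norm_of_nonneg hx0]
    exact (mul_le_of_le_one_left (M.nm_nonneg y) hx1).trans hyn)
  calc M.μ {x | x ∈ D ∧ κ * s < ‖M.f F (x * M.ex y) - M.f F x‖}
      ≤ M.μ {x | x ∈ D ∧ κ * r < ‖M.f F (x * M.ex y) - M.f F x‖} := by
        refine measure_mono fun x hx => ⟨hx.1, lt_of_le_of_lt ?_ hx.2⟩
        exact mul_le_mul_of_nonneg_left hrs hκ.le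
    _ ≤ ENNReal.ofReal (Real.exp (-(c₀ * r))) * M.μ (M.lnC R Dp) := h1
    _ ≤ ENNReal.ofReal (Real.exp (-(c₀ * r))) * (ENNReal.ofReal 2 * M.μ D) := by
        refine mul_le_mul_right ((measure_mono hCD).trans (hD.le.trans (le_of_eq ?_))) _
        norm_num
    _ = ENNReal.ofReal (2 * Real.exp (-(c₀ * r))) * M.μ D := by
        rw [ENNReal.ofReal_mul (by norm_num)]; ring
    _ ≤ ENNReal.ofReal (Real.exp (-(c₀ * cr / 2 * s))) * M.μ D := by
        refine mul_le_mul_left (ENNReal.ofReal_le_ofReal ?_) _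
        have h3 := hs3' s t3
        have e : Real.exp (-(c₀ * r)) = Real.exp (-(c₀ * cr / 2 * s)) *
            Real.exp (-(c₀ * cr / 2 * s)) := by
          rw [← Real.exp_add, hr]; congr 1; ring
        rw [e, ← mul_assoc]
        rw [pow_zero, mul_one] at h3
        exact mul_le_of_le_one_left (Real.exp_pos _).le h3

end RModel

end Vale.Agent.P188.Z1
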