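import Vale.Agent.P188.Z1.LineD

/-!
# P188, Z1, block STRAIGHT, part E: labels along Cartan paths
-/

set_option linter.all false

open MeasureTheory Set
open scoped ENNReal
open Vale.P188.H654

namespace Vale.Agent.P188.Z1

namespace RModel

variable {S : Type} [Group S] [MeasurableSpace S] {Γ : Type} [Group Γ]
  {V : Type} [AddCommGroup V] [Module ℝ V] {k : ℕ} (M : RModel S Γ V k)

theorem ln_t_CB {K : ℝ} {F F' : Γ → Γ} (hQ : M.QIm K F F') {Φ₁ : Finset (Ht k →L[ℝ] ℝ)}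
    {V₁ : Finset (Fin k → ℤ)} {lm : ℕ} (hlm : ∀ v ∈ V₁, M.τ v ∈ M.CB lm) (p : V₁ × Bool) :
    (lnData hQ Φ₁ V₁).t p ∈ M.CB lm := by
  rcases p with ⟨v, s⟩
  cases s
  · simpa [lnData] using M.CB_inv (hlm v v.2)
  · simpa [lnData] using hlm v v.2

theorem ln_t_l {K : ℝ} {F F' : Γ → Γ} (hQ : M.QIm K F F') {Φ₁ : Finset (Ht k →L[ℝ] ℝ)}
    {V₁ : Finset (Fin k → ℤ)} {lm : ℕ} (hlm : ∀ v ∈ V₁, M.l (M.τ v) ≤ lm) (p : V₁ × Bool) :
    M.l ((lnData hQ Φ₁ V₁).t p) ≤ lm := by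
  rcases p with ⟨v, s⟩
  cases s
  · simpa [lnData, M.len.inv] using hlm v v.2
  · simpa [lnData] using hlm v v.2

open Classical in
/-- closeness of the lines through `z` and `z * g`, `g` a short Cartan word -/
theorem ln_near {K : ℝ} {F F' : Γ → Γ} (hQ : M.QIm K F F') {Φ₁ : Finset (Ht k →L[ℝ] ℝ)}
    {V₁ : Finset (Fin k → ℤ)} {lm J n : ℕ} (hlm : ∀ v ∈ V₁, M.l (M.τ v) ≤ lm)
    (hlm' : ∀ v ∈ V₁, M.τ v ∈ M.CB lm) {g : S} (hg : g ∈ M.CB n) {d d' R : ℝ} {D : Set S}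
    (hBg : (∑ b ∈ Φ₁, ‖b‖) * (M.lnLf K * M.l g) ≤ d / 2) (hBd : (∑ b ∈ Φ₁, ‖b‖) * d' ≤ d / 2)
    (hd : 0 ≤ d) (hR : (J * lm : ℕ) + (M.l g : ℝ) ≤ R)
    {e : ℝ≥0∞} (he : ∀ y ∈ M.Vw 0, M.nm y ≤ M.C0 * (1 + (2 * n + 2 * (J * lm) : ℕ)) ^ M.deg →
      M.μ {x | x ∈ D ∧ d' < ‖M.f F (x * M.ex y) - M.f F x‖} ≤ e) :
    M.μ {z ∈ M.In R D | ¬ (lnData hQ Φ₁ V₁).Near J d g z} ≤ (Fintype.card (V₁ × Bool) : ℕ) * e := by
  have hB0 : 0 ≤ ∑ b ∈ Φ₁, ‖b‖ := Finset.sum_nonneg fun b _ => norm_nonneg b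
  have hb : ∀ b : Φ₁, ‖(b : Ht k →L[ℝ] ℝ)‖ ≤ ∑ b ∈ Φ₁, ‖b‖ := fun b =>
    Finset.single_le_sum (f := fun b : Ht k →L[ℝ] ℝ => ‖b‖) (fun b _ => norm_nonneg b) b.2
  have hdist : ∀ (b : Φ₁) (x y : Ht k), |(b : Ht k →L[ℝ] ℝ) x - (b : Ht k →L[ℝ] ℝ) y| ≤
      (∑ b ∈ Φ₁, ‖b‖) * ‖x - y‖ := by
    intro b x y
    rw [← map_sub, ← Real.norm_eq_abs]
    exact ((b : Ht k →L[ℝ] ℝ).le_opNorm _).trans (mul_le_mul_of_nonneg_right (hb b) (norm_nonneg _))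
  -- the neutral commutator
  have hy : ∀ p : V₁ × Bool, ∃ y ∈ M.Vw 0,
      M.ex y = g⁻¹ * ((lnData hQ Φ₁ V₁).t p ^ J)⁻¹ * g * (lnData hQ Φ₁ V₁).t p ^ J ∧
      M.nm y ≤ M.C0 * (1 + (2 * n + 2 * (J * lm) : ℕ)) ^ M.deg := by
    intro p
    have ht := M.CB_pow (M.ln_t_CB hQ (Φ₁ := Φ₁) hlm' p) J
    have h1 := M.CB_mul (M.CB_mul (M.CB_mul (M.CB_inv hg) (M.CB_inv ht)) hg) ht
    have h2 : M.η (g⁻¹ * ((lnData hQ Φ₁ V₁).t p ^ J)⁻¹ * g * (lnData hQ Φ₁ V₁).t p ^ J) = 1 := by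
      simp only [map_mul, map_inv]
      rw [mul_comm (M.η g)⁻¹, mul_assoc, mul_assoc, inv_mul_cancel_left, inv_mul_cancel]
    obtain ⟨y, hy0, hye, hyn⟩ := M.C_ker _ _ (M.CB_mono (show n + J * lm + n + J * lm ≤
      2 * n + 2 * (J * lm) by omega) h1) h2
    exact ⟨y, hy0, hye, hyn⟩
  choose y hy0 hye hyn using hy
  have hsub : {z ∈ M.In R D | ¬ (lnData hQ Φ₁ V₁).Near J d g z} ⊆
      ⋃ p ∈ (Finset.univ : Finset (V₁ × Bool)),
        (fun z => z * ((lnData hQ Φ₁ V₁).t p ^ J * g)) ⁻¹'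
          {x | x ∈ D ∧ d' < ‖M.f F (x * M.ex (y p)) - M.f F x‖} := by
    rintro z ⟨hz, hz'⟩
    have h1 : ∃ p, ¬ (lnData hQ Φ₁ V₁).NearAt J d g p z := by
      by_contra hcon
      push Not at hcon
      exact hz' fun p => Or.inl (hcon p)
    obtain ⟨p, hp⟩ := h1
    simp only [mem_iUnion]
    refine ⟨p, Finset.mem_univ _, ?_, ?_⟩
    · refine hz _ (le_trans (M.ln_mulR _ _) (le_trans ?_ hR))
      have h2 : M.l ((lnData hQ Φ₁ V₁).t p ^ J) ≤ J * lm :=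
        (M.ln_pow _ _).trans (Nat.mul_le_mul_left _ (M.ln_t_l hQ hlm p))
      have h3 : (M.l ((lnData hQ Φ₁ V₁).t p ^ J) : ℝ) ≤ (J * lm : ℕ) := by exact_mod_cast h2
      linarith
    · by_contra hcon
      push Not at hcon
      apply hp
      intro b
      have h2 : |(b : Ht k →L[ℝ] ℝ) (M.f F (z * g)) - (b : Ht k →L[ℝ] ℝ) (M.f F z)| ≤ d / 2 :=
        (hdist b _ _).trans ((mul_le_mul_of_nonneg_left (hQ.ln_lip z g) hB0).trans hBg)
      refine ⟨h2.trans (by linarith), ?_⟩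
      set T := (lnData hQ Φ₁ V₁).t p ^ J with hT
      have e1 : z * g * T = z * (T * g) * M.ex (y p) := by rw [hye, ← hT]; group
      show |(b : Ht k →L[ℝ] ℝ) (M.f F (z * g * T)) - (b : Ht k →L[ℝ] ℝ) (M.f F (z * T))| ≤ d
      have h3 : |(b : Ht k →L[ℝ] ℝ) (M.f F (z * g * T)) -
          (b : Ht k →L[ℝ] ℝ) (M.f F (z * (T * g)))| ≤ d / 2 := by
        rw [e1]
        exact (hdist b _ _).trans ((mul_le_mul_of_nonneg_left hcon hB0).trans hBd)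
      have h4 : |(b : Ht k →L[ℝ] ℝ) (M.f F (z * (T * g))) -
          (b : Ht k →L[ℝ] ℝ) (M.f F (z * T))| ≤ d / 2 := by
        rw [← mul_assoc]
        exact (hdist b _ _).trans ((mul_le_mul_of_nonneg_left (hQ.ln_lip _ g) hB0).trans hBg)
      have h5 := abs_sub_le ((b : Ht k →L[ℝ] ℝ) (M.f F (z * g * T)))
        ((b : Ht k →L[ℝ] ℝ) (M.f F (z * (T * g)))) ((b : Ht k →L[ℝ] ℝ) (M.f F (z * T)))
      linarith
  refine (measure_mono hsub).trans ((measure_biUnion_finset_le _ _).trans ?_)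
  refine (Finset.sum_le_sum fun p _ => (M.ln_ri _ _).trans (he (y p) (hy0 p) (hyn p))).trans ?_
  rw [Finset.sum_const, Finset.card_univ, nsmul_eq_mul]

/-- Cartan paths -/
theorem ln_path_CB {B n : ℕ} {q : ℕ → S} (hq : ∀ i < n, (q i)⁻¹ * q (i + 1) ∈ M.CB B) {a b : ℕ}
    (hab : a ≤ b) (hb : b ≤ n) : (q a)⁻¹ * q b ∈ M.CB ((b - a) * B) := by
  induction b, hab using Nat.le_induction with
  | base => simpa using M.one_mem_CB _
  | succ b hab ih =>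
    have h1 := M.CB_mul (ih (by omega)) (hq b (by omega))
    have e : (q a)⁻¹ * q b * ((q b)⁻¹ * q (b + 1)) = (q a)⁻¹ * q (b + 1) := by group
    rw [e] at h1
    have e2 : (b + 1 - a) * B = (b - a) * B + B := by
      rw [Nat.succ_sub hab, Nat.succ_mul]
    rw [e2]
    exact h1

/-- **Labels along a Cartan path**, fixed scale. -/
theorem ln_path_label {K : ℝ} {F F' : Γ → Γ} (hQ : M.QIm K F F') {Φ₁ : Finset (Ht k →L[ℝ] ℝ)}
    {V₁ : Finset (Fin k → ℤ)} {σ : S → LnLab Φ₁ V₁} {J B qb N : ℕ} {m d : ℝ} (hdm : d < m)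
    {D G : Set S} (hG : ∀ z ∈ G, (lnData hQ Φ₁ V₁).Good σ J m z) {e e' : ℝ≥0∞}
    (he : M.μ (D \ G) ≤ e)
    (hNear : ∀ g ∈ M.CB (qb * B), M.μ {z ∈ D | ¬ (lnData hQ Φ₁ V₁).Near J d g z} ≤ e')
    {n : ℕ} {q : ℕ → S} (hq0 : q 0 = 1) (hq : ∀ i < n, (q i)⁻¹ * q (i + 1) ∈ M.CB B)
    {Din : Set S} (hDin : ∀ z ∈ Din, ∀ i ≤ n, z * q i ∈ D) (hn : n ≤ N * qb) {j : ℕ} (hj : j ≤ n) :
    M.μ {z | z ∈ Din ∧ σ (z * q j) ≠ σ z} ≤ (N + 1) * e + N * e' := by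
  set Q : ℕ → S := fun i => q (min (i * qb) j) with hQd
  set gs : List S := (List.range N).map fun i => (Q i)⁻¹ * Q (i + 1) with hgs
  have hlen : gs.length = N := by simp [hgs]
  have htake : ∀ i ≤ N, (gs.take i).prod = Q i := by
    intro i hi
    induction i with
    | zero => simp [hQd, hq0]
    | succ i ih =>
      rw [List.prod_take_succ _ _ (by rw [hlen]; omega), ih (by omega)]
      simp [hgs]
  have hprod : gs.prod = q j := by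
    have h1 := htake N le_rfl
    rw [← hlen, List.take_length] at h1
    rw [h1, hQd]
    show q (min (gs.length * qb) j) = q j
    rw [hlen, min_eq_right (hj.trans hn)]
  have hmain := LData.mu_sigma_ne_le' (Δ := lnData hQ Φ₁ V₁) (σ := σ) (J := J) (m := m) (d := d)
    M.ln_ri hdm (D := Din) (Dp := D) (G := G) hG gs (e := e) (e' := e') (by
      intro g hg
      rw [hgs, List.mem_map] at hg
      obtain ⟨i, _, rfl⟩ := hg
      refine hNear _ ?_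
      have h1 : min (i * qb) j ≤ min ((i + 1) * qb) j :=
        min_le_min_right _ (Nat.mul_le_mul_right _ (Nat.le_succ i))
      have h2 := M.ln_path_CB hq h1 ((min_le_right _ _).trans hj)
      refine M.CB_mono (Nat.mul_le_mul_right _ ?_) h2
      have : (i + 1) * qb = i * qb + qb := Nat.succ_mul i qb
      omega) (by
      intro i hi z hz
      rw [htake i (by rwa [hlen] at hi)]
      exact hDin z hz _ ((min_le_right _ _).trans hj)) he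
  rw [hprod, hlen] at hmain
  exact hmain

end RModel

end Vale.Agent.P188.Z1
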