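import Vale.Agent.P188.Z1.LineE

/-!
# P188, Z1, block STRAIGHT, part F: straightness and neutral moves at a fixed scale
-/

set_option linter.all false

open MeasureTheory Set
open scoped ENNReal
open Vale.P188.H654

namespace Vale.Agent.P188.Z1

namespace RModel

variable {S : Type} [Group S] [MeasurableSpace S] {Γ : Type} [Group Γ]
  {V : Type} [AddCommGroup V] [Module ℝ V] {k : ℕ} (M : RModel S Γ V k)

open Classical in
/-- **Straightness along a Cartan path**, fixed scale. -/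
theorem ln_path_straight {K : ℝ} {F F' : Γ → Γ} (hQ : M.QIm K F F')
    {Φ₁ : Finset (Ht k →L[ℝ] ℝ)} {V₁ : Finset (Fin k → ℤ)} {σ : S → LnLab Φ₁ V₁} {c₀ L : ℝ}
    {T : (V₁ → Set (Ht k →L[ℝ] ℝ)) → (Ht k →L[ℝ] Ht k)} (hL : 0 ≤ L)
    (hgood : ∀ z, GoodLab Φ₁ V₁ c₀ L (T (σ z).1) (σ z).1)
    {D₁ D : Set S} {ρ ε₁ Cc : ℝ} (hρ : 0 ≤ ρ) (hε₁ : 0 ≤ ε₁)
    (hlin : ∀ x ∈ D₁, ∀ x' ∈ D₁, (M.l (x⁻¹ * x') : ℝ) ≤ ρ →
      ‖M.f F x' - M.f F x - T (σ x).1 (M.θ (x⁻¹ * x'))‖ ≤ ε₁)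
    (hCc0 : 0 ≤ Cc) (hCc : ∀ n, ∀ c ∈ M.CB n, (M.l c : ℝ) ≤ Cc * n) {B q₁ N n : ℕ}
    (hq₁ : 0 < q₁) (hq₁ρ : Cc * (q₁ * B : ℕ) ≤ ρ) (hn : n ≤ N * q₁)
    {q : ℕ → S} (hq0 : q 0 = 1) (hq : ∀ i < n, (q i)⁻¹ * q (i + 1) ∈ M.CB B)
    {Din : Set S} (hDin : ∀ z ∈ Din, ∀ i ≤ n, z * q i ∈ D) {e : ℝ≥0∞}
    (he : M.μ (D \ D₁) ≤ e) (hσ : ∀ j ≤ n, M.μ {z | z ∈ Din ∧ σ (z * q j) ≠ σ z} ≤ e) (m : ℕ)
    {E : ℝ} (hE : N * ε₁ + (M.lnLf K + L * M.C0) * ρ * (m + 1) ≤ E) :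
    (m : ℝ≥0∞) * M.μ {z | z ∈ Din ∧ ∃ i ≤ n,
      E < ‖M.f F (z * q i) - M.f F z - T (σ z).1 (M.θ (q i))‖} ≤ 3 * N * e := by
  have hLf := M.lnLf_nonneg hQ.K_nonneg
  have hC0 := M.ln_C0
  have hLC : 0 ≤ L * M.C0 := mul_nonneg hL hC0
  set T' : LnLab Φ₁ V₁ → (Ht k →L[ℝ] Ht k) := fun a => if ‖T a.1‖ ≤ L then T a.1 else 0 with hT'
  have hT'n : ∀ a, ‖T' a‖ ≤ L := by
    intro a
    simp only [hT']
    split_ifs with h
    · exact h
    · rw [norm_zero]; exact hL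
  have hT'σ : ∀ z, T' (σ z) = T (σ z).1 := by
    intro z
    simp only [hT']
    rw [if_pos (hgood z).norm_le]
  have hT'l : ∀ a g, ‖T' a (M.θ g)‖ ≤ L * M.C0 * M.l g := by
    intro a g
    refine ((T' a).le_opNorm _).trans ?_
    rw [mul_assoc]
    exact mul_le_mul (hT'n a) (M.θ_le g) (norm_nonneg _) hL
  set w : ℕ → S := fun i => q (min (i * q₁) n) with hw
  have hwstep : ∀ i, (M.l ((w i)⁻¹ * w (i + 1)) : ℝ) ≤ ρ := by
    intro i
    have h1 : min (i * q₁) n ≤ min ((i + 1) * q₁) n :=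
      min_le_min_right _ (Nat.mul_le_mul_right _ (Nat.le_succ i))
    have h2 := M.ln_path_CB hq h1 (min_le_right _ _)
    have h3 : min ((i + 1) * q₁) n - min (i * q₁) n ≤ q₁ := by
      have : (i + 1) * q₁ = i * q₁ + q₁ := Nat.succ_mul i q₁
      omega
    exact (hCc _ _ (M.CB_mono (Nat.mul_le_mul_right _ h3) h2)).trans hq₁ρ
  have hmain := mu_straight_le (μ := M.μ) Din (M.f F) M.θ M.θ_mul M.θ_one
    (fun a => (T' a).toLinearMap.toAddMonoidHom) σ D₁ (fun g => (M.l g : ℝ)) (M.lnLf K) (L * M.C0)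
    ρ ε₁ (fun z g => hQ.ln_lip z g) (fun a g => hT'l a g) hLf hLC hρ (by
      intro x u hx hxu hu
      have h1 := hlin x hx (x * u) hxu (by rw [inv_mul_cancel_left]; exact hu)
      rw [inv_mul_cancel_left] at h1
      have h2 : (T' (σ x)).toLinearMap.toAddMonoidHom (M.θ u) = T (σ x).1 (M.θ u) := by
        rw [← hT'σ]; rfl
      rw [h2]
      exact h1) hε₁ w (by simp [hw, hq0]) hwstep N e (by
      intro i hi
      have h1 : {z ∈ Din | z * w i ∉ D₁} ⊆ (fun z => z * w i) ⁻¹' (D \ D₁) := by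
        rintro z ⟨hz, hz'⟩
        exact ⟨hDin z hz _ (min_le_right _ _), hz'⟩
      exact (measure_mono h1).trans ((M.ln_ri _ _).trans he)) (by
      intro i hi
      exact hσ _ (min_le_right _ _)) m
  refine le_trans (mul_le_mul_right (measure_mono ?_) _) hmain
  rintro z ⟨hz, i, hi, hE'⟩
  refine ⟨hz, i / q₁, ?_, ?_⟩
  · exact Nat.div_le_of_le_mul (by rw [mul_comm]; exact hi.trans hn)
  · have h1 : i / q₁ * q₁ ≤ i := Nat.div_mul_le_self i q₁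
    have h2 : w (i / q₁) = q (i / q₁ * q₁) := by
      simp only [hw]
      rw [min_eq_left (h1.trans hi)]
    have h3 := M.ln_path_CB hq h1 hi
    have h4 : i - i / q₁ * q₁ ≤ q₁ := by
      have h5 := Nat.lt_div_mul_add (a := i) hq₁
      omega
    have h5 : (M.l ((w (i / q₁))⁻¹ * q i) : ℝ) ≤ ρ := by
      rw [h2]
      exact (hCc _ _ (M.CB_mono (Nat.mul_le_mul_right _ h4) h3)).trans hq₁ρ
    set u := (w (i / q₁))⁻¹ * q i with hu
    have h6 : q i = w (i / q₁) * u := by rw [hu, mul_inv_cancel_left]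
    have h7 : (T' (σ z)).toLinearMap.toAddMonoidHom (M.θ (w (i / q₁))) =
        T (σ z).1 (M.θ (w (i / q₁))) := by rw [← hT'σ]; rfl
    rw [h7]
    have h8 : M.f F (z * q i) - M.f F z - T (σ z).1 (M.θ (q i)) =
        (M.f F (z * w (i / q₁)) - M.f F z - T (σ z).1 (M.θ (w (i / q₁)))) +
        (M.f F (z * w (i / q₁) * u) - M.f F (z * w (i / q₁))) - T (σ z).1 (M.θ u) := by
      rw [h6, M.θ_mul, map_add, ← mul_assoc]; abel
    have h9 : ‖M.f F (z * w (i / q₁) * u) - M.f F (z * w (i / q₁))‖ ≤ M.lnLf K * ρ :=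
      (hQ.ln_lip _ _).trans (mul_le_mul_of_nonneg_left h5 hLf)
    have h10 : ‖T (σ z).1 (M.θ u)‖ ≤ L * M.C0 * ρ := by
      rw [← hT'σ]
      exact (hT'l _ _).trans (mul_le_mul_of_nonneg_left h5 hLC)
    have h11 := norm_sub_le ((M.f F (z * w (i / q₁)) - M.f F z - T (σ z).1 (M.θ (w (i / q₁)))) +
        (M.f F (z * w (i / q₁) * u) - M.f F (z * w (i / q₁)))) (T (σ z).1 (M.θ u))
    have h12 := norm_add_le (M.f F (z * w (i / q₁)) - M.f F z - T (σ z).1 (M.θ (w (i / q₁))))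
        (M.f F (z * w (i / q₁) * u) - M.f F (z * w (i / q₁)))
    rw [h8] at hE'
    have h13 : ((i / q₁ : ℕ) : ℝ) * ε₁ ≤ N * ε₁ := by
      refine mul_le_mul_of_nonneg_right ?_ hε₁
      exact_mod_cast Nat.div_le_of_le_mul (by rw [mul_comm]; exact hi.trans hn)
    linarith

/-- class-dependent right translations by elements of `ker η` do not increase the measure -/
theorem ln_class_trans (g : Multiplicative (Fin k → ℤ) → S) (hg : ∀ w, M.η (g w) = 1)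
    (A : Set S) : M.μ {z | z * g (M.η z) ∈ A} ≤ M.μ A := by
  have hc : Countable (Multiplicative (Fin k → ℤ)) :=
    Multiplicative.toAdd.injective.countable
  set A' := toMeasurable M.μ A with hA'
  have hA'm : MeasurableSet A' := measurableSet_toMeasurable _ _
  have hsub : {z | z * g (M.η z) ∈ A} ⊆ ⋃ w, (fun z => z * g w) ⁻¹' (A' ∩ {z | M.η z = w}) := by
    intro z hz
    simp only [mem_iUnion, mem_preimage]
    exact ⟨M.η z, subset_toMeasurable _ _ hz, by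
      show M.η (z * g (M.η z)) = M.η z
      rw [map_mul, hg, mul_one]⟩
  calc M.μ {z | z * g (M.η z) ∈ A} ≤ _ := measure_mono hsub
    _ ≤ ∑' w, M.μ ((fun z => z * g w) ⁻¹' (A' ∩ {z | M.η z = w})) := measure_iUnion_le _
    _ = ∑' w, M.μ (A' ∩ {z | M.η z = w}) := by
        congr 1
        funext w
        exact (M.mp (g w)).measure_preimage (hA'm.inter (M.η_meas w)).nullMeasurableSet
    _ = M.μ (⋃ w, A' ∩ {z | M.η z = w}) := by
        rw [measure_iUnion]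
        · intro w w' hww
          rw [Function.onFun, Set.disjoint_left]
          rintro z ⟨_, hz⟩ ⟨_, hz'⟩
          exact hww (hz.symm.trans hz')
        · exact fun w => hA'm.inter (M.η_meas w)
    _ ≤ M.μ A' := measure_mono (iUnion_subset fun w => inter_subset_left)
    _ = M.μ A := measure_toMeasurable A

open Classical in
/-- **Neutral moves**, fixed scale. -/
theorem ln_neutral {K : ℝ} {F F' : Γ → Γ} (hQ : M.QIm K F F')
    {Φ₁ : Finset (Ht k →L[ℝ] ℝ)} {V₁ : Finset (Fin k → ℤ)} {σ : S → LnLab Φ₁ V₁} {J lm : ℕ}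
    {m d d' R R' Y : ℝ} (hdm : d < m) (hd : 0 ≤ d) {D G : Set S}
    (hlm : ∀ v ∈ V₁, M.l (M.τ v) ≤ lm) (hlm' : ∀ v ∈ V₁, M.τ v ∈ M.CB lm)
    (hG : ∀ z ∈ G, (lnData hQ Φ₁ V₁).Good σ J m z) {eG eN : ℝ≥0∞} (hR0 : 0 ≤ R)
    (heG : M.μ (M.In R D \ G) ≤ eG) (hR : (J * lm : ℕ) + R' ≤ R)
    (hBd : (∑ b ∈ Φ₁, ‖b‖) * d' ≤ d)
    (hNF : ∀ y ∈ M.Vw 0, M.nm y ≤ Y → ∀ Din : Set S,
      (∀ z ∈ Din, ∀ x : ℝ, 0 ≤ x → x ≤ 1 → z * M.ex (x • y) ∈ M.In R' D) →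
      M.μ {x | x ∈ Din ∧ d' < ‖M.f F (x * M.ex y) - M.f F x‖} ≤ eN)
    (y : Multiplicative (Fin k → ℤ) → V) (hy : ∀ w, y w ∈ M.Vw 0)
    (hyY : ∀ w, M.C0 * (1 + (J * lm : ℕ)) ^ M.deg * M.nm (y w) ≤ Y)
    {Din : Set S} (W : Finset (Multiplicative (Fin k → ℤ))) (hW : ∀ z ∈ Din, M.η z ∈ W)
    (hDin : ∀ z ∈ Din, ∀ x : ℝ, 0 ≤ x → x ≤ 1 → z * M.ex (x • y (M.η z)) ∈ M.In R D) :
    M.μ {z | z ∈ Din ∧ (σ (z * M.ex (y (M.η z))) ≠ σ z ∨
        d' < ‖M.f F (z * M.ex (y (M.η z))) - M.f F z‖)} ≤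
      2 * eG + (W.card : ℕ) * ((1 + Fintype.card (V₁ × Bool) : ℕ) * eN) := by
  have hB0 : 0 ≤ ∑ b ∈ Φ₁, ‖b‖ := Finset.sum_nonneg fun b _ => norm_nonneg b
  have hb : ∀ b : Φ₁, ‖(b : Ht k →L[ℝ] ℝ)‖ ≤ ∑ b ∈ Φ₁, ‖b‖ := fun b =>
    Finset.single_le_sum (f := fun b : Ht k →L[ℝ] ℝ => ‖b‖) (fun b _ => norm_nonneg b) b.2
  have hdist : ∀ (b : Φ₁) (x y : Ht k), |(b : Ht k →L[ℝ] ℝ) x - (b : Ht k →L[ℝ] ℝ) y| ≤
      (∑ b ∈ Φ₁, ‖b‖) * ‖x - y‖ := by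
    intro b x y
    rw [← map_sub, ← Real.norm_eq_abs]
    exact ((b : Ht k →L[ℝ] ℝ).le_opNorm _).trans (mul_le_mul_of_nonneg_right (hb b) (norm_nonneg _))
  have hC0 := M.one_le_C0
  have hfac : 1 ≤ M.C0 * (1 + (J * lm : ℕ)) ^ M.deg := by
    have h1 : (1 : ℝ) ≤ (1 + (J * lm : ℕ)) ^ M.deg := one_le_pow₀ (by
      have : (0 : ℝ) ≤ (J * lm : ℕ) := Nat.cast_nonneg _
      linarith)
    nlinarith
  have hyY0 : ∀ w, M.nm (y w) ≤ Y := fun w =>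
    (le_mul_of_one_le_left (M.nm_nonneg _) hfac).trans (hyY w)
  have hRR' : R' ≤ R := by
    have : (0 : ℝ) ≤ (J * lm : ℕ) := Nat.cast_nonneg _
    linarith
  -- the conjugated vectors
  set y' : Multiplicative (Fin k → ℤ) → (V₁ × Bool) → V := fun w p =>
    M.Ad ((lnData hQ Φ₁ V₁).t p ^ J)⁻¹ (y w) with hy'
  have hy'0 : ∀ w p, y' w p ∈ M.Vw 0 := fun w p =>
    M.C_inv _ _ (M.CB_inv (M.CB_pow (M.ln_t_CB hQ (Φ₁ := Φ₁) hlm' p) J)) _ _ (hy w)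
  have hy'Y : ∀ w p, M.nm (y' w p) ≤ Y := by
    intro w p
    have h1 := M.C_le _ _ (M.CB_inv (M.CB_pow (M.ln_t_CB hQ (Φ₁ := Φ₁) hlm' p) J)) 0
      M.zero_mem_Wt _ (hy w)
    refine h1.trans ?_
    rw [ContinuousLinearMap.zero_apply, Real.exp_zero, mul_one]
    exact hyY w
  -- the bad sets
  set Dw : Multiplicative (Fin k → ℤ) → Set S := fun w => {z | z ∈ Din ∧ M.η z = w} with hDw
  set N1 : Multiplicative (Fin k → ℤ) → Set S := fun w =>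
    {x | x ∈ Dw w ∧ d' < ‖M.f F (x * M.ex (y w)) - M.f F x‖} with hN1
  set N2 : Multiplicative (Fin k → ℤ) → (V₁ × Bool) → Set S := fun w p =>
    {x | x ∈ {x | x * ((lnData hQ Φ₁ V₁).t p ^ J)⁻¹ ∈ Dw w} ∧
      d' < ‖M.f F (x * M.ex (y' w p)) - M.f F x‖} with hN2
  have hN1μ : ∀ w, M.μ (N1 w) ≤ eN := by
    intro w
    refine hNF (y w) (hy w) (hyY0 w) (Dw w) ?_
    rintro z ⟨hz, hzw⟩ x hx0 hx1
    have := hDin z hz x hx0 hx1
    rw [hzw] at this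
    exact ln_In_mono hRR' this
  have hN2μ : ∀ w p, M.μ (N2 w p) ≤ eN := by
    intro w p
    refine hNF (y' w p) (hy'0 w p) (hy'Y w p) _ ?_
    rintro z ⟨hz, hzw⟩ x hx0 hx1
    have h1 := hDin _ hz x hx0 hx1
    rw [hzw] at h1
    have h2 : z * M.ex (x • y' w p) = z * ((lnData hQ Φ₁ V₁).t p ^ J)⁻¹ * M.ex (x • y w) *
        (lnData hQ Φ₁ V₁).t p ^ J := by
      rw [hy', ← map_smul, M.ex_Ad, inv_inv]; group
    rw [h2]
    refine ln_In_mul h1 (le_trans ?_ hR)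
    have h3 : M.l ((lnData hQ Φ₁ V₁).t p ^ J) ≤ J * lm :=
      (M.ln_pow _ _).trans (Nat.mul_le_mul_left _ (M.ln_t_l hQ hlm p))
    have h4 : (M.l ((lnData hQ Φ₁ V₁).t p ^ J) : ℝ) ≤ (J * lm : ℕ) := by exact_mod_cast h3
    linarith
  -- decomposition
  have hsub : {z | z ∈ Din ∧ (σ (z * M.ex (y (M.η z))) ≠ σ z ∨
        d' < ‖M.f F (z * M.ex (y (M.η z))) - M.f F z‖)} ⊆
      (M.In R D \ G) ∪ ({z | z * M.ex (y (M.η z)) ∈ M.In R D \ G} ∪
        ⋃ w ∈ W, (N1 w ∪ ⋃ p ∈ (Finset.univ : Finset (V₁ × Bool)),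
          (fun z => z * (lnData hQ Φ₁ V₁).t p ^ J) ⁻¹' (N2 w p))) := by
    rintro z ⟨hz, hz'⟩
    by_contra hcon
    rw [mem_union, mem_union, not_or, not_or] at hcon
    obtain ⟨c1, c2, c3⟩ := hcon
    simp only [mem_iUnion, mem_union, not_exists, not_or] at c3
    have hzw := hW z hz
    obtain ⟨c4, c5⟩ := c3 (M.η z) hzw
    have d0 := hDin z hz 0 le_rfl zero_le_one
    rw [zero_smul, M.ex_zero, mul_one] at d0
    have d1 := hDin z hz 1 zero_le_one le_rfl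
    rw [one_smul] at d1
    have g0 : z ∈ G := by by_contra h; exact c1 ⟨d0, h⟩
    have g1 : z * M.ex (y (M.η z)) ∈ G := by by_contra h; exact c2 ⟨d1, h⟩
    have hfz : ‖M.f F (z * M.ex (y (M.η z))) - M.f F z‖ ≤ d' := by
      by_contra h
      exact c4 ⟨⟨hz, rfl⟩, not_le.1 h⟩
    rcases hz' with hz' | hz'
    · refine hz' (LData.sigma_eq_near (hG _ g0) (hG _ g1) ?_ hdm).symm
      intro p
      refine Or.inl fun b => ⟨?_, ?_⟩
      · exact (hdist b _ _).trans ((mul_le_mul_of_nonneg_left hfz hB0).trans hBd)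
      · have h5 : ‖M.f F (z * (lnData hQ Φ₁ V₁).t p ^ J * M.ex (y' (M.η z) p)) -
            M.f F (z * (lnData hQ Φ₁ V₁).t p ^ J)‖ ≤ d' := by
          by_contra h
          refine c5 p (Finset.mem_univ _) ⟨?_, not_le.1 h⟩
          show z * (lnData hQ Φ₁ V₁).t p ^ J * ((lnData hQ Φ₁ V₁).t p ^ J)⁻¹ ∈ Dw (M.η z)
          rw [mul_inv_cancel_right]
          exact ⟨hz, rfl⟩
        have h6 : z * M.ex (y (M.η z)) * (lnData hQ Φ₁ V₁).t p ^ J =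
            z * (lnData hQ Φ₁ V₁).t p ^ J * M.ex (y' (M.η z) p) := by
          rw [hy', M.ex_Ad, inv_inv]; group
        show |(b : Ht k →L[ℝ] ℝ) (M.f F (z * M.ex (y (M.η z)) * (lnData hQ Φ₁ V₁).t p ^ J)) -
          (b : Ht k →L[ℝ] ℝ) (M.f F (z * (lnData hQ Φ₁ V₁).t p ^ J))| ≤ d
        rw [h6]
        exact (hdist b _ _).trans ((mul_le_mul_of_nonneg_left h5 hB0).trans hBd)
    · exact absurd hz' (not_lt.2 hfz)
  have hcl : M.μ {z | z * M.ex (y (M.η z)) ∈ M.In R D \ G} ≤ eG :=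
    (M.ln_class_trans (fun w => M.ex (y w)) (fun w => M.η_ex _) _).trans heG
  refine (measure_mono hsub).trans ((measure_union_le _ _).trans ?_)
  have hlast : M.μ (⋃ w ∈ W, (N1 w ∪ ⋃ p ∈ (Finset.univ : Finset (V₁ × Bool)),
      (fun z => z * (lnData hQ Φ₁ V₁).t p ^ J) ⁻¹' (N2 w p))) ≤
      (W.card : ℕ) * ((1 + Fintype.card (V₁ × Bool) : ℕ) * eN) := by
    refine (measure_biUnion_finset_le _ _).trans ?_
    have h1 : ∀ w ∈ W, M.μ (N1 w ∪ ⋃ p ∈ (Finset.univ : Finset (V₁ × Bool)),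
      (fun z => z * (lnData hQ Φ₁ V₁).t p ^ J) ⁻¹' (N2 w p)) ≤
        (1 + Fintype.card (V₁ × Bool) : ℕ) * eN := by
      intro w _
      refine (measure_union_le _ _).trans ?_
      have h2 : M.μ (⋃ p ∈ (Finset.univ : Finset (V₁ × Bool)),
          (fun z => z * (lnData hQ Φ₁ V₁).t p ^ J) ⁻¹' (N2 w p)) ≤
          (Fintype.card (V₁ × Bool) : ℕ) * eN := by
        refine (measure_biUnion_finset_le _ _).trans ?_
        refine (Finset.sum_le_sum fun p _ => (M.ln_ri _ _).trans (hN2μ w p)).trans ?_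
        rw [Finset.sum_const, Finset.card_univ, nsmul_eq_mul]
      refine (add_le_add (hN1μ w) h2).trans (le_of_eq ?_)
      push_cast; ring
    refine (Finset.sum_le_sum h1).trans ?_
    rw [Finset.sum_const, nsmul_eq_mul]
  calc M.μ (M.In R D \ G) + M.μ _ ≤ eG + (eG + (W.card : ℕ) *
        ((1 + Fintype.card (V₁ × Bool) : ℕ) * eN)) :=
        add_le_add heG ((measure_union_le _ _).trans (add_le_add hcl hlast))
    _ = _ := by ring

end RModel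

end Vale.Agent.P188.Z1
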