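import Vale.Agent.P188.Z1.LineF

/-!
# P188, Z1, block STRAIGHT, part G: neutral flatness with constants independent of the fatness
-/

set_option linter.all false

open MeasureTheory Set
open scoped ENNReal
open Vale.P188.H654

namespace Vale.Agent.P188.Z1

/-- in an increasing tower of sets of finite measure either one step is small, or the first set is
small -/
theorem ln_tower {S : Type} [MeasurableSpace S] {μ : Measure S} (D : ℕ → Set S) (N : ℕ)
    (h : ∀ j < N, 2 * μ (D j) < μ (D (j + 1))) : 2 ^ N * μ (D 0) ≤ μ (D N) := by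
  induction N with
  | zero => simp
  | succ N ih =>
    have h1 := ih fun j hj => h j (by omega)
    have h2 := h N (by omega)
    calc 2 ^ (N + 1) * μ (D 0) = 2 * (2 ^ N * μ (D 0)) := by ring
      _ ≤ 2 * μ (D N) := mul_le_mul_right h1 _
      _ ≤ μ (D (N + 1)) := h2.le

namespace RModel

variable {S : Type} [Group S] [MeasurableSpace S] {Γ : Type} [Group Γ]
  {V : Type} [AddCommGroup V] [Module ℝ V] {k : ℕ} (M : RModel S Γ V k)

/-- **Neutral flatness in the inner sets**: the size `e ^ (dm s)` of the neutral moves does not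
depend on the fatness of `D`. -/
theorem ln_nf2 (hN : M.NFp) (K κ ε κ₁ : ℝ) (hκ : 0 < κ) (hε : 0 < ε) (hκ₁ : 0 < κ₁) :
    ∃ dm c s₀ : ℝ, 0 < dm ∧ 0 < c ∧ ∀ s : ℝ, s₀ ≤ s → ∀ F F' : Γ → Γ, M.QIm K F F' →
      ∀ D : Set S, M.μ D ≠ ⊤ →
      M.μ (M.In (κ₁ * s) D) ≤ ENNReal.ofReal ε * M.μ D ∨
      ∀ y ∈ M.Vw 0, M.nm y ≤ Real.exp (dm * s) → ∀ Din : Set S,
        (∀ z ∈ Din, ∀ x : ℝ, 0 ≤ x → x ≤ 1 → z * M.ex (x • y) ∈ M.In (3 / 4 * (κ₁ * s)) D) →
        M.μ {x | x ∈ Din ∧ κ * s < ‖M.f F (x * M.ex y) - M.f F x‖} ≤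
          ENNReal.ofReal (Real.exp (-(c * s))) * M.μ D := by
  obtain ⟨δN, c₀, CR, r₀, hδN, hc₀, hNF⟩ := hN K κ 1 hκ
  have hC0 := M.ln_C0
  obtain ⟨CR', hCR'⟩ : ∃ CR', CR' = max CR 1 := ⟨_, rfl⟩
  have hCR'1 : 1 ≤ CR' := by rw [hCR']; exact le_max_right _ _
  have hCRC : CR ≤ CR' := by rw [hCR']; exact le_max_left _ _
  -- number of steps
  obtain ⟨Nt, hNt⟩ : ∃ Nt : ℕ, 1 / ε < 2 ^ Nt := pow_unbounded_of_one_lt _ (by norm_num)
  have hNt1 : (0 : ℝ) < Nt + 1 := by positivity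
  obtain ⟨cr, hcr⟩ : ∃ cr, cr = min 1 (κ₁ / (8 * (Nt + 1) * CR')) := ⟨_, rfl⟩
  have hcr0 : 0 < cr := by rw [hcr]; exact lt_min one_pos (by positivity)
  have hcr1 : cr ≤ 1 := by rw [hcr]; exact min_le_left _ _
  have hcr2 : (Nt + 1) * (CR' * cr) ≤ κ₁ / 8 := by
    have h1 : cr ≤ κ₁ / (8 * (Nt + 1) * CR') := by rw [hcr]; exact min_le_right _ _
    rw [le_div_iff₀ (by positivity)] at h1
    linarith
  refine ⟨δN * cr, c₀ * cr, max 0 (max (|r₀| / cr) (8 * (2 * (Nt + 1) * M.C0 + M.C0) / κ₁)),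
    by positivity, by positivity, ?_⟩
  intro s hs F F' hQ D hDfin
  have hs0 : 0 ≤ s := (le_max_left _ _).trans hs
  have t4 : |r₀| / cr ≤ s := (le_max_left _ _).trans ((le_max_right _ _).trans hs)
  have t5 : 8 * (2 * (Nt + 1) * M.C0 + M.C0) / κ₁ ≤ s :=
    (le_max_right _ _).trans ((le_max_right _ _).trans hs)
  rw [div_le_iff₀ hcr0] at t4
  rw [div_le_iff₀ hκ₁] at t5
  obtain ⟨r, hr⟩ : ∃ r, r = cr * s := ⟨_, rfl⟩
  have hr0 : r₀ ≤ r := by rw [hr]; exact (le_abs_self _).trans (by linarith)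
  have hrs : r ≤ s := by rw [hr]; exact mul_le_of_le_one_left hs0 hcr1
  have hrp : 0 ≤ r := by rw [hr]; positivity
  obtain ⟨w, hw⟩ : ∃ w, w = 2 * M.C0 + CR' * r := ⟨_, rfl⟩
  have hw0 : 0 ≤ w := by rw [hw]; have : 0 ≤ CR' * r := mul_nonneg (by linarith) hrp; linarith
  have hNw : (Nt + 1) * w + M.C0 ≤ κ₁ * s / 2 := by
    have h1 : (Nt + 1) * (CR' * r) ≤ κ₁ / 8 * s := by
      rw [hr]
      have := mul_le_mul_of_nonneg_right hcr2 hs0
      linarith
    have h2 : 0 ≤ κ₁ * s := by positivity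
    rw [hw]
    linarith
  -- the tower
  set DD : ℕ → Set S := fun j => M.lnC (κ₁ * s / 2 - j * w) D with hDD
  have hrad : ∀ j : ℕ, j ≤ Nt → M.C0 ≤ κ₁ * s / 2 - j * w := by
    intro j hj
    have h1 : (j : ℝ) * w ≤ (Nt + 1) * w := by
      refine mul_le_mul_of_nonneg_right ?_ hw0
      have : (j : ℝ) ≤ Nt := by exact_mod_cast hj
      linarith
    linarith
  have hDsub : ∀ j ≤ Nt, DD j ⊆ D := fun j hj => M.ln_C_sub (hrad j hj)
  have hin : ∀ j : ℕ, M.In (3 / 4 * (κ₁ * s)) D ⊆ DD j := by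
    intro j z hz
    refine M.ln_mem_C hz ?_
    have h1 : 0 ≤ (j : ℝ) * w := by positivity
    have h2 : 8 * M.C0 ≤ s * κ₁ := by
      have : 0 ≤ 8 * (2 * (Nt + 1) * M.C0) := by positivity
      linarith
    linarith
  have hin0 : M.In (κ₁ * s) D ⊆ DD 0 :=
    (ln_In_mono (by have : 0 ≤ κ₁ * s := by positivity
                    linarith)).trans (hin 0)
  have hstep : ∀ j, ∀ z ∈ DD j, ∀ g, (M.l g : ℝ) ≤ CR * r → z * g ∈ DD (j + 1) := by
    intro j z hz g hg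
    refine M.ln_C_C hz ?_
    have h1 : CR * r ≤ CR' * r := mul_le_mul_of_nonneg_right hCRC hrp
    push_cast
    rw [hw] at *
    linarith
  by_cases hsmall : M.μ (DD 0) ≤ ENNReal.ofReal ε * M.μ D
  · exact Or.inl ((measure_mono hin0).trans hsmall)
  right
  have hex : ∃ j < Nt, M.μ (DD (j + 1)) ≤ 2 * M.μ (DD j) := by
    by_contra hcon
    push Not at hcon
    apply hsmall
    have h1 := (ln_tower (μ := M.μ) DD Nt hcon).trans (measure_mono (hDsub Nt le_rfl))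
    have h2 : (1 : ℝ≥0∞) ≤ ENNReal.ofReal ε * 2 ^ Nt := by
      have h3 : (2 : ℝ≥0∞) ^ Nt = ENNReal.ofReal (2 ^ Nt) := by
        rw [ENNReal.ofReal_pow (by norm_num)]; norm_num
      rw [h3, ← ENNReal.ofReal_mul hε.le, ← ENNReal.ofReal_one]
      refine ENNReal.ofReal_le_ofReal ?_
      rw [div_lt_iff₀ hε] at hNt
      linarith
    calc M.μ (DD 0) = 1 * M.μ (DD 0) := (one_mul _).symm
      _ ≤ ENNReal.ofReal ε * 2 ^ Nt * M.μ (DD 0) := mul_le_mul_left h2 _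
      _ = ENNReal.ofReal ε * (2 ^ Nt * M.μ (DD 0)) := by ring
      _ ≤ ENNReal.ofReal ε * M.μ D := mul_le_mul_right h1 _
  obtain ⟨j, hj, hjμ⟩ := hex
  intro y hy hyn Din hDin
  have hmono0 : DD 0 ⊆ DD j := by
    have : ∀ i, DD 0 ⊆ DD i := by
      intro i z hz
      have h1 : M.inG (M.fl z) ∈ M.In (κ₁ * s / 2 - (0 : ℕ) * w) D := hz
      show M.inG (M.fl z) ∈ M.In (κ₁ * s / 2 - i * w) D
      refine ln_In_mono ?_ h1
      have : 0 ≤ (i : ℝ) * w := by positivity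
      push_cast
      linarith
    exact this j
  have hpos : M.μ (DD j) ≠ 0 := by
    intro h0
    apply hsmall
    have : M.μ (DD 0) ≤ 0 := (measure_mono hmono0).trans h0.le
    exact this.trans bot_le
  have hFat : M.Fat (CR * r) 1 (DD j) (DD (j + 1)) :=
    { meas := M.ln_C_meas _ _
      meas' := M.ln_C_meas _ _
      pos := hpos
      fin := ne_top_of_le_ne_top hDfin (measure_mono (hDsub j hj.le))
      sub := hstep j
      le := hjμ.trans (le_of_eq (by norm_num)) }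
  have h1 := hNF r hr0 F F' hQ (DD j) (DD (j + 1)) hFat y hy (by
    refine hyn.trans (Real.exp_le_exp.2 ?_)
    rw [hr, mul_assoc]) Din (fun z hz x hx0 hx1 => hin j (hDin z hz x hx0 hx1))
  calc M.μ {x | x ∈ Din ∧ κ * s < ‖M.f F (x * M.ex y) - M.f F x‖}
      ≤ M.μ {x | x ∈ Din ∧ κ * r < ‖M.f F (x * M.ex y) - M.f F x‖} := by
        refine measure_mono fun x hx => ⟨hx.1, lt_of_le_of_lt ?_ hx.2⟩
        exact mul_le_mul_of_nonneg_left hrs hκ.le
    _ ≤ ENNReal.ofReal (Real.exp (-(c₀ * r))) * M.μ (DD j) := h1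
    _ ≤ ENNReal.ofReal (Real.exp (-(c₀ * cr * s))) * M.μ D := by
        rw [hr, mul_assoc]
        exact mul_le_mul_right (measure_mono (hDsub j hj.le)) _

end RModel

end Vale.Agent.P188.Z1
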