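import Vale.Agent.P188.Z1.LineG

/-!
# P188, Z1, block STRAIGHT, part H: the two conclusions at a fixed scale
-/

set_option linter.all false

open MeasureTheory Set
open scoped ENNReal
open Vale.P188.H654

namespace Vale.Agent.P188.Z1

theorem ln_ofReal_nat (n : ℕ) (a : ℝ) (X : ℝ≥0∞) :
    (n : ℝ≥0∞) * (ENNReal.ofReal a * X) = ENNReal.ofReal (n * a) * X := by
  rw [ENNReal.ofReal_mul (Nat.cast_nonneg _), ENNReal.ofReal_natCast, mul_assoc]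

theorem ln_ofReal_add {a b : ℝ} (ha : 0 ≤ a) (hb : 0 ≤ b) (X : ℝ≥0∞) :
    ENNReal.ofReal a * X + ENNReal.ofReal b * X = ENNReal.ofReal (a + b) * X := by
  rw [ENNReal.ofReal_add ha hb, add_mul]

namespace RModel

variable {S : Type} [Group S] [MeasurableSpace S] {Γ : Type} [Group Γ]
  {V : Type} [AddCommGroup V] [Module ℝ V] {k : ℕ} (M : RModel S Γ V k)

open Classical in
/-- Conclusion (a) at a fixed scale. -/
theorem ln_partA {K : ℝ} {F F' : Γ → Γ} (hQ : M.QIm K F F')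
    {Φ₁ : Finset (Ht k →L[ℝ] ℝ)} {V₁ : Finset (Fin k → ℤ)} {σ : S → LnLab Φ₁ V₁} {c₀ L : ℝ}
    {T : (V₁ → Set (Ht k →L[ℝ] ℝ)) → (Ht k →L[ℝ] Ht k)} (hL : 0 ≤ L) (hc₀ : 0 < c₀)
    (hgood : ∀ z, GoodLab Φ₁ V₁ c₀ L (T (σ z).1) (σ z).1)
    {D₁ D : Set S} {ρ εm Cc d' R E ε t Q : ℝ} {J lm qb Nb q₁ N m' B n : ℕ} (hρ : 0 ≤ ρ)
    (hεm : 0 ≤ εm) (ht : 0 ≤ t) (hJ : 0 < J)
    (hlin : ∀ x ∈ D₁, ∀ x' ∈ D₁, (M.l (x⁻¹ * x') : ℝ) ≤ ρ →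
      ‖M.f F x' - M.f F x - T (σ x).1 (M.θ (x⁻¹ * x'))‖ ≤ εm * ρ)
    (hCc0 : 0 ≤ Cc) (hCc : ∀ n, ∀ c ∈ M.CB n, (M.l c : ℝ) ≤ Cc * n)
    (hlm : ∀ v ∈ V₁, M.l (M.τ v) ≤ lm) (hlm' : ∀ v ∈ V₁, M.τ v ∈ M.CB lm)
    (hD₁ : M.μ (M.In R D \ D₁) ≤ ENNReal.ofReal εm * M.μ D)
    (hG : M.μ (M.In R D \ {z | (lnData hQ Φ₁ V₁).Good σ J (c₀ * J / 2) z}) ≤
      ENNReal.ofReal εm * M.μ D)
    (hNF : ∀ y ∈ M.Vw 0, M.nm y ≤ M.C0 * (1 + (2 * (qb * B) + 2 * (J * lm) : ℕ)) ^ M.deg →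
      M.μ {x | x ∈ D ∧ d' < ‖M.f F (x * M.ex y) - M.f F x‖} ≤ ENNReal.ofReal t * M.μ D)
    (h1 : (∑ b ∈ Φ₁, ‖b‖) * (M.lnLf K * (Cc * (qb * B : ℕ))) ≤ c₀ * J / 8)
    (h2 : (∑ b ∈ Φ₁, ‖b‖) * d' ≤ c₀ * J / 8) (h3 : (J * lm : ℕ) + Cc * (qb * B : ℕ) ≤ R)
    (h4 : n ≤ Nb * qb) (hq₁ : 0 < q₁) (h5 : Cc * (q₁ * B : ℕ) ≤ ρ) (h6 : n ≤ N * q₁)
    (h7 : N * (εm * ρ) + (M.lnLf K + L * M.C0) * ρ * (m' + 1) ≤ E)
    (hm' : 0 < m') (hQ0 : 0 ≤ Q) (h8 : (N : ℝ) ≤ Q * m')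
    (h9 : (1 + 3 * Q) * ((Nb + 2) * εm + Nb * (Fintype.card (V₁ × Bool) * t)) ≤ ε)
    {q : ℕ → S} (hq0 : q 0 = 1) (hq : ∀ i < n, (q i)⁻¹ * q (i + 1) ∈ M.CB B)
    {Din : Set S} (hDin : ∀ z ∈ Din, ∀ i ≤ n, z * q i ∈ M.In R D) :
    M.μ {z | z ∈ Din ∧ ((σ (z * q n)).1 ≠ (σ z).1 ∨
      ∃ i ≤ n, E < ‖M.f F (z * q i) - M.f F z - T (σ z).1 (M.θ (q i))‖)} ≤
      ENNReal.ofReal ε * M.μ D := by
  have hLf := M.lnLf_nonneg hQ.K_nonneg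
  have hB0 : 0 ≤ ∑ b ∈ Φ₁, ‖b‖ := Finset.sum_nonneg fun b _ => norm_nonneg b
  have hJ0 : (0 : ℝ) < J := by exact_mod_cast hJ
  have hcJ : 0 < c₀ * J := by positivity
  obtain ⟨pc, hpc⟩ : ∃ pc : ℕ, pc = Fintype.card (V₁ × Bool) := ⟨_, rfl⟩
  rw [← hpc] at h9
  -- closeness
  have hNear : ∀ g ∈ M.CB (qb * B), M.μ {z ∈ M.In R D |
      ¬ (lnData hQ Φ₁ V₁).Near J (c₀ * J / 4) g z} ≤ (pc : ℕ) * (ENNReal.ofReal t * M.μ D) := by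
    intro g hg
    have hl := hCc _ g hg
    rw [hpc]
    refine M.ln_near hQ (Φ₁ := Φ₁) (V₁ := V₁) (J := J) (d := c₀ * J / 4) (d' := d') (R := R)
      hlm hlm' hg ?_ ?_ (by positivity) ?_ hNF
    · refine le_trans (mul_le_mul_of_nonneg_left (mul_le_mul_of_nonneg_left hl hLf) hB0) ?_
      linarith
    · linarith
    · linarith
  have hlab : ∀ j ≤ n, M.μ {z | z ∈ Din ∧ σ (z * q j) ≠ σ z} ≤
      (Nb + 1) * (ENNReal.ofReal εm * M.μ D) + Nb * ((pc : ℕ) * (ENNReal.ofReal t * M.μ D)) :=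
    fun j hj => M.ln_path_label hQ (m := c₀ * J / 2) (d := c₀ * J / 4) (by linarith)
      (G := {z | (lnData hQ Φ₁ V₁).Good σ J (c₀ * J / 2) z}) (fun z hz => hz) hG hNear hq0 hq hDin
      h4 hj
  obtain ⟨eS, heS⟩ : ∃ eS : ℝ, eS = (Nb + 2) * εm + Nb * (pc * t) := ⟨_, rfl⟩
  have heS0 : 0 ≤ eS := by rw [heS]; positivity
  have hlab' : ∀ j ≤ n, M.μ {z | z ∈ Din ∧ σ (z * q j) ≠ σ z} ≤ ENNReal.ofReal eS * M.μ D := by
    intro j hj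
    refine (hlab j hj).trans ?_
    have e1 : ((Nb : ℝ≥0∞) + 1) * (ENNReal.ofReal εm * M.μ D) =
        ENNReal.ofReal (((Nb + 1 : ℕ) : ℝ) * εm) * M.μ D := by
      rw [← ln_ofReal_nat]; push_cast; rfl
    rw [e1, ln_ofReal_nat, ln_ofReal_nat, ln_ofReal_add (by positivity) (by positivity)]
    refine mul_le_mul_left (ENNReal.ofReal_le_ofReal ?_) _
    rw [heS]
    push_cast
    linarith
  have hst := M.ln_path_straight hQ (σ := σ) hL hgood (D₁ := D₁) (D := M.In R D) (ρ := ρ)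
    (ε₁ := εm * ρ) (Cc := Cc) hρ (by positivity) hlin hCc0 hCc hq₁ h5 h6 hq0 hq hDin
    (e := ENNReal.ofReal eS * M.μ D) (hD₁.trans (mul_le_mul_left (ENNReal.ofReal_le_ofReal (by
      rw [heS]
      have : 0 ≤ (Nb + 1) * εm + Nb * (pc * t) := by positivity
      linarith)) _)) hlab' m' h7
  have hst' : M.μ {z | z ∈ Din ∧ ∃ i ≤ n,
      E < ‖M.f F (z * q i) - M.f F z - T (σ z).1 (M.θ (q i))‖} ≤
      ENNReal.ofReal (3 * Q * eS) * M.μ D := by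
    have hm0 : (0 : ℝ) < m' := by exact_mod_cast hm'
    have e2 : (3 : ℝ≥0∞) * N * (ENNReal.ofReal eS * M.μ D) =
        ENNReal.ofReal (3 * N * eS) * M.μ D := by
      rw [ENNReal.ofReal_mul (by positivity), ENNReal.ofReal_mul (by norm_num),
        ENNReal.ofReal_natCast]
      norm_num
      ring
    rw [e2] at hst
    have e3 : ENNReal.ofReal (3 * N * eS) * M.μ D ≤
        (m' : ℝ≥0∞) * (ENNReal.ofReal (3 * Q * eS) * M.μ D) := by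
      rw [ln_ofReal_nat]
      refine mul_le_mul_left (ENNReal.ofReal_le_ofReal ?_) _
      have := mul_le_mul_of_nonneg_right h8 (by positivity : (0:ℝ) ≤ 3 * eS)
      linarith
    have e4 := hst.trans e3
    exact (ENNReal.mul_le_mul_iff_right (by exact_mod_cast hm'.ne') (ENNReal.natCast_ne_top _)).1 e4
  have hsub : {z | z ∈ Din ∧ ((σ (z * q n)).1 ≠ (σ z).1 ∨
      ∃ i ≤ n, E < ‖M.f F (z * q i) - M.f F z - T (σ z).1 (M.θ (q i))‖)} ⊆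
      {z | z ∈ Din ∧ σ (z * q n) ≠ σ z} ∪ {z | z ∈ Din ∧ ∃ i ≤ n,
      E < ‖M.f F (z * q i) - M.f F z - T (σ z).1 (M.θ (q i))‖} := by
    rintro z ⟨hz, hz' | hz'⟩
    · exact Or.inl ⟨hz, fun h => hz' (by rw [h])⟩
    · exact Or.inr ⟨hz, hz'⟩
  calc _ ≤ ENNReal.ofReal eS * M.μ D + ENNReal.ofReal (3 * Q * eS) * M.μ D :=
        (measure_mono hsub).trans ((measure_union_le _ _).trans
          (add_le_add (hlab' n le_rfl) hst'))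
    _ = ENNReal.ofReal (eS + 3 * Q * eS) * M.μ D := ln_ofReal_add heS0 (by positivity) _
    _ ≤ ENNReal.ofReal ε * M.μ D := by
        refine mul_le_mul_left (ENNReal.ofReal_le_ofReal ?_) _
        rw [← heS] at h9
        linarith

/-- the classes of bounded height -/
theorem ln_classes (r : ℝ) (hr : 0 ≤ r) : ∃ W : Finset (Multiplicative (Fin k → ℤ)),
    (∀ z, ‖M.θ z‖ ≤ r → M.η z ∈ W) ∧ (W.card : ℝ) ≤ (2 * r + 1) ^ k := by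
  classical
  obtain ⟨n, hn⟩ : ∃ n : ℕ, n = ⌊r⌋₊ := ⟨_, rfl⟩
  refine ⟨(Fintype.piFinset fun _ : Fin k => Finset.Icc (-(n : ℤ)) n).map
    Multiplicative.ofAdd.toEmbedding, ?_, ?_⟩
  · intro z hz
    rw [Finset.mem_map_equiv, Fintype.mem_piFinset]
    intro i
    have h1 : ‖M.θ z i‖ ≤ r := (norm_le_pi_norm _ i).trans hz
    have h2 : M.θ z i = ((Multiplicative.toAdd (M.η z) i : ℤ) : ℝ) := rfl
    rw [h2, Real.norm_eq_abs, ← Int.cast_abs] at h1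
    have h3 : (Multiplicative.toAdd (M.η z) i).natAbs ≤ n := by
      rw [hn]; exact Nat.le_floor (by rw [Nat.cast_natAbs]; exact h1)
    have h4 : Multiplicative.ofAdd.symm (M.η z) i = Multiplicative.toAdd (M.η z) i := rfl
    rw [Finset.mem_Icc, h4]
    omega
  · rw [Finset.card_map, Fintype.card_piFinset_const]
    have h1 : (Finset.Icc (-(n : ℤ)) n).card = 2 * n + 1 := by
      rw [Int.card_Icc]; omega
    rw [h1]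
    push_cast
    refine pow_le_pow_left₀ (by positivity) ?_ k
    have : (n : ℝ) ≤ r := by rw [hn]; exact Nat.floor_le hr
    linarith

open Classical in
/-- Conclusion (b) at a fixed scale. -/
theorem ln_partB {K : ℝ} {F F' : Γ → Γ} (hQ : M.QIm K F F')
    {Φ₁ : Finset (Ht k →L[ℝ] ℝ)} {V₁ : Finset (Fin k → ℤ)} {σ : S → LnLab Φ₁ V₁} {c₀ : ℝ}
    (hc₀ : 0 < c₀) {D : Set S} {εm d' R R' E ε t Y r : ℝ} {J lm : ℕ}
    (hεm : 0 ≤ εm) (ht : 0 ≤ t) (hJ : 0 < J) (hr : 0 ≤ r) (hR0 : 0 ≤ R)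
    (hlm : ∀ v ∈ V₁, M.l (M.τ v) ≤ lm) (hlm' : ∀ v ∈ V₁, M.τ v ∈ M.CB lm)
    (hG : M.μ (M.In R D \ {z | (lnData hQ Φ₁ V₁).Good σ J (c₀ * J / 2) z}) ≤
      ENNReal.ofReal εm * M.μ D)
    (hNF : ∀ y ∈ M.Vw 0, M.nm y ≤ Y → ∀ Din : Set S,
      (∀ z ∈ Din, ∀ x : ℝ, 0 ≤ x → x ≤ 1 → z * M.ex (x • y) ∈ M.In R' D) →
      M.μ {x | x ∈ Din ∧ d' < ‖M.f F (x * M.ex y) - M.f F x‖} ≤ ENNReal.ofReal t * M.μ D)
    (h1 : (∑ b ∈ Φ₁, ‖b‖) * d' ≤ c₀ * J / 8) (h2 : (J * lm : ℕ) + R' ≤ R) (h3 : d' ≤ E)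
    (h4 : 2 * εm + (2 * r + 1) ^ k * ((1 + Fintype.card (V₁ × Bool) : ℕ) * t) ≤ ε)
    (y : Multiplicative (Fin k → ℤ) → V) (hy : ∀ w, y w ∈ M.Vw 0)
    (hyY : ∀ w, M.C0 * (1 + (J * lm : ℕ)) ^ M.deg * M.nm (y w) ≤ Y)
    {Din : Set S} (hDr : ∀ z ∈ Din, ‖M.θ z‖ ≤ r)
    (hDin : ∀ z ∈ Din, ∀ x : ℝ, 0 ≤ x → x ≤ 1 → z * M.ex (x • y (M.η z)) ∈ M.In R D) :
    M.μ {z | z ∈ Din ∧ ((σ (z * M.ex (y (M.η z)))).1 ≠ (σ z).1 ∨
        E < ‖M.f F (z * M.ex (y (M.η z))) - M.f F z‖)} ≤ ENNReal.ofReal ε * M.μ D := by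
  have hJ0 : (0 : ℝ) < J := by exact_mod_cast hJ
  have hcJ : 0 < c₀ * J := by positivity
  obtain ⟨W, hW, hWc⟩ := M.ln_classes r hr
  have h5 := M.ln_neutral hQ (σ := σ) (J := J) (m := c₀ * J / 2) (d := c₀ * J / 4) (d' := d')
    (R := R) (R' := R') (Y := Y) (by linarith) (by positivity)
    (G := {z | (lnData hQ Φ₁ V₁).Good σ J (c₀ * J / 2) z}) hlm hlm' (fun z hz => hz) hR0 hG h2
    (by linarith) hNF y hy hyY W (fun z hz => hW z (hDr z hz)) hDin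
  refine le_trans (measure_mono ?_) (h5.trans ?_)
  · rintro z ⟨hz, hz' | hz'⟩
    · exact ⟨hz, Or.inl fun h => hz' (by rw [h])⟩
    · exact ⟨hz, Or.inr (lt_of_le_of_lt h3 hz')⟩
  · have e1 : (2 : ℝ≥0∞) * (ENNReal.ofReal εm * M.μ D) = ENNReal.ofReal (2 * εm) * M.μ D := by
      have := ln_ofReal_nat 2 εm (M.μ D)
      simpa using this
    rw [e1, ln_ofReal_nat, ln_ofReal_nat, ln_ofReal_add (by positivity) (by positivity)]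
    refine mul_le_mul_left (ENNReal.ofReal_le_ofReal ?_) _
    have h6 : (W.card : ℝ) * ((1 + Fintype.card (V₁ × Bool) : ℕ) * t) ≤
        (2 * r + 1) ^ k * ((1 + Fintype.card (V₁ × Bool) : ℕ) * t) :=
      mul_le_mul_of_nonneg_right hWc (by positivity)
    linarith

end RModel

end Vale.Agent.P188.Z1
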