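import Vale.Agent.P188.Z1.LinPre

/-!
# P188, Z1: neutral flatness (NFp and NF) from GCL (helper893)
-/

set_option linter.all false

open MeasureTheory Set Filter
open scoped ENNReal
open Agent.P188.H428 (IsLen)
open Vale.Agent.P188.H530 (hgt hgt_mul)

namespace Vale.Agent.P188.Z1

namespace RModel

variable {S : Type} [Group S] [MeasurableSpace S] {Γ : Type} [Group Γ]
  {V : Type} [AddCommGroup V] [Module ℝ V] {k : ℕ} (M : RModel S Γ V k)

/-! ### layers with doubling -/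

/-- union of the cells at distance `≤ t` from the cells of `D` -/
def thick (D : Set S) (t : ℝ) : Set S :=
  M.cells {γ | ∃ z ∈ D, (M.l ((M.inG (M.fl z))⁻¹ * M.inG γ) : ℝ) ≤ t}

theorem thick_meas (D : Set S) (t : ℝ) : MeasurableSet (M.thick D t) := M.measurableSet_cells _

theorem subset_thick {D : Set S} {t : ℝ} (ht : 0 ≤ t) : D ⊆ M.thick D t := by
  intro z hz
  refine ⟨z, hz, ?_⟩
  rw [inv_mul_cancel, M.len.one]
  simpa using ht

theorem thick_step {D : Set S} {t R : ℝ} {z g : S} (hz : z ∈ M.thick D t) (hg : (M.l g : ℝ) ≤ R) :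
    z * g ∈ M.thick D (t + (R + 2 * M.C0)) := by
  obtain ⟨w, hw, h⟩ := hz
  refine ⟨w, hw, ?_⟩
  have h1 := M.fl_close z
  have h2 := M.fl_close (z * g)
  rw [M.l_comm] at h2
  have h3 := M.l_triR (M.inG (M.fl w)) (M.inG (M.fl z)) (M.inG (M.fl (z * g)))
  have h4 := M.l_triR (M.inG (M.fl z)) z (M.inG (M.fl (z * g)))
  have h5 := M.l_triR z (z * g) (M.inG (M.fl (z * g)))
  rw [inv_mul_cancel_left] at h5
  linarith

theorem thick_le {D : Set S} {t : ℝ} {z : S} (hz : z ∈ M.thick D t) :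
    ∃ w ∈ D, (M.l (w⁻¹ * z) : ℝ) ≤ t + 2 * M.C0 := by
  obtain ⟨w, hw, h⟩ := hz
  refine ⟨w, hw, ?_⟩
  have h1 := M.fl_close w
  have h2 := M.fl_close z
  rw [M.l_comm] at h1
  have h3 := M.l_triR w (M.inG (M.fl w)) z
  have h4 := M.l_triR (M.inG (M.fl w)) (M.inG (M.fl z)) z
  linarith

/-- A fat set is contained in a set with doubling constant `2`. -/
theorem exists_layer {C₁ R : ℝ} {J : ℕ} (hJ : 1 + C₁ < 2 ^ J) (hR : 0 ≤ R) {D Dp : Set S}
    (h : M.Fat (J * (R + 2 * M.C0) + 2 * M.C0) C₁ D Dp) :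
    ∃ D₁ D₂, M.Fat R 1 D₁ D₂ ∧ D ⊆ D₁ ∧ M.μ D₁ ≤ ENNReal.ofReal (1 + C₁) * M.μ D := by
  have hC := M.C0_pos
  set E : ℕ → Set S := fun t => M.thick D (t * (R + 2 * M.C0)) with hE
  have hsub : ∀ t ≤ J, E t ⊆ Dp := by
    intro t ht z hz
    obtain ⟨w, hw, h1⟩ := M.thick_le hz
    have h2 := h.sub w hw (w⁻¹ * z) (h1.trans (by
      have : (t : ℝ) ≤ J := by exact_mod_cast ht
      gcongr))
    rwa [mul_inv_cancel_left] at h2
  have hD : ∀ t, D ⊆ E t := fun t => M.subset_thick (by positivity)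
  have hstep : ∀ t : ℕ, ∀ z ∈ E t, ∀ g, (M.l g : ℝ) ≤ R → z * g ∈ E (t + 1) := by
    intro t z hz g hg
    have := M.thick_step hz hg
    have e : (t : ℝ) * (R + 2 * M.C0) + (R + 2 * M.C0) = ((t + 1 : ℕ) : ℝ) * (R + 2 * M.C0) := by
      push_cast; ring
    rwa [e] at this
  have hDp : M.μ Dp ≠ ⊤ :=
    ne_top_of_le_ne_top (ENNReal.mul_ne_top ENNReal.ofReal_ne_top h.fin) h.le
  -- pigeonhole
  obtain ⟨t, htJ, ht⟩ : ∃ t < J, M.μ (E (t + 1)) ≤ 2 * M.μ (E t) := by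
    by_contra hcon
    push Not at hcon
    have h1 : ∀ t ≤ J, 2 ^ t * M.μ D ≤ M.μ (E t) := by
      intro t
      induction t with
      | zero => intro _; rw [pow_zero, one_mul]; exact measure_mono (hD 0)
      | succ t ih =>
        intro ht
        rw [pow_succ', mul_assoc]
        exact (mul_le_mul_right (ih (by omega)) 2).trans (hcon t (by omega)).le
    have h2 := (h1 J le_rfl).trans ((measure_mono (hsub J le_rfl)).trans h.le)
    rw [ENNReal.mul_le_mul_iff_left h.pos h.fin] at h2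
    have h3 : (2 : ℝ≥0∞) ^ J = ENNReal.ofReal (2 ^ J) := by
      rw [ENNReal.ofReal_pow (by norm_num)]; simp
    rw [h3, ENNReal.ofReal_le_ofReal_iff'] at h2
    rcases h2 with h2 | h2
    · linarith
    · have : (0 : ℝ) < 2 ^ J := by positivity
      linarith
  refine ⟨E t, E (t + 1), ?_, hD t, (measure_mono (hsub t htJ.le)).trans h.le⟩
  refine
    { meas := M.thick_meas _ _
      meas' := M.thick_meas _ _
      pos := fun h0 => h.pos (measure_mono_null (hD t) h0)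
      fin := ne_top_of_le_ne_top hDp (measure_mono (hsub t htJ.le))
      sub := hstep t
      le := ?_ }
  refine ht.trans (le_of_eq ?_)
  norm_num

/-! ### linear algebra -/

/-- the heights are controlled by the classes -/
theorem norm_le_Φ : ∃ C : ℝ, 0 < C ∧ ∀ (w : Ht k) (t : ℝ), 0 ≤ t → (∀ b ∈ M.Φ, |b w| ≤ t) →
    ‖w‖ ≤ C * t := by
  set L : Ht k →ₗ[ℝ] (M.Φ → ℝ) := LinearMap.pi fun b => (b.1 : Ht k →ₗ[ℝ] ℝ) with hL
  have hker : LinearMap.ker L = ⊥ := by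
    rw [LinearMap.ker_eq_bot']
    intro w hw
    refine M.Φ_span w fun b hb => ?_
    have := congrFun hw ⟨b, hb⟩
    simpa [hL] using this
  obtain ⟨K, hK0, hK⟩ := L.exists_antilipschitzWith hker
  refine ⟨K, by exact_mod_cast hK0, fun w t ht h => ?_⟩
  have h1 := hK.le_mul_dist w 0
  rw [dist_zero_right, map_zero, dist_zero_right] at h1
  refine h1.trans (mul_le_mul_of_nonneg_left ?_ (by positivity))
  rw [pi_norm_le_iff_of_nonneg ht]
  intro b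
  exact h b.1 b.2

/-- an integral direction expanded by `b` -/
theorem exists_dir {b : Ht k →L[ℝ] ℝ} (hb : b ≠ 0) : ∃ w : Fin k → ℤ, 1 ≤ b (ht w) := by
  have h1 : ∃ i : Fin k, b (Pi.single i 1) ≠ 0 := by
    by_contra hcon
    push Not at hcon
    apply hb
    refine ContinuousLinearMap.ext fun x => ?_
    have e : x = ∑ i, x i • (Pi.single i 1 : Fin k → ℝ) := by
      funext j
      simp [Finset.sum_apply, Pi.single_apply]
    rw [e, map_sum]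
    simp [hcon]
  obtain ⟨i, hi⟩ := h1
  obtain ⟨n, hn⟩ := exists_nat_gt (1 / |b (Pi.single i 1)|)
  have hbi : 0 < |b (Pi.single i 1)| := abs_pos.2 hi
  rw [div_lt_iff₀ hbi] at hn
  obtain ⟨m, hm⟩ : ∃ m : ℤ, (m : ℝ) * b (Pi.single i 1) = n * |b (Pi.single i 1)| := by
    rcases le_or_gt 0 (b (Pi.single i 1)) with h | h
    · exact ⟨n, by rw [abs_of_nonneg h]; push_cast; ring⟩
    · exact ⟨-n, by rw [abs_of_neg h]; push_cast; ring⟩
  refine ⟨Pi.single i m, ?_⟩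
  have h2 : (ht (Pi.single i m) : Ht k) = (m : ℝ) • (Pi.single i 1 : Fin k → ℝ) := by
    funext j
    simp only [ht, Pi.smul_apply, smul_eq_mul]
    by_cases hij : j = i
    · subst hij; simp
    · simp [Pi.single_apply, hij]
  rw [h2, map_smul, smul_eq_mul, hm]
  exact hn.le

/-! ### paths -/

/-- along `ex (n v)` up to `n = q`, then powers of `t i` -/
noncomputable def npath (v : V) (q : ℕ) (t : M.ι → S) (i : M.ι) (n : ℕ) : S :=
  open Classical in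
  if M.wt i = 0 then 1 else if n ≤ q then M.ex ((n : ℝ) • v) else M.ex ((q : ℝ) • v) * t i ^ (n - q)

theorem npath_zero (v : V) (q : ℕ) (t : M.ι → S) (i : M.ι) : M.npath v q t i 0 = 1 := by
  unfold npath
  split_ifs <;> simp_all [M.ex_zero]

theorem npath_neutral {v : V} {q : ℕ} {t : M.ι → S} {i : M.ι} (hi : M.wt i = 0) (n : ℕ) :
    M.npath v q t i n = 1 := by
  unfold npath
  rw [if_pos hi]

theorem npath_ge {v : V} {q : ℕ} {t : M.ι → S} {i : M.ι} (hi : M.wt i ≠ 0) {n : ℕ} (hn : q ≤ n) :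
    M.npath v q t i n = M.ex ((q : ℝ) • v) * t i ^ (n - q) := by
  unfold npath
  rw [if_neg hi]
  split_ifs with h
  · have : n = q := le_antisymm h hn
    rw [this]; simp
  · rfl

theorem npath_le {v : V} {q : ℕ} {t : M.ι → S} {i : M.ι} (hi : M.wt i ≠ 0) {n : ℕ} (hn : n ≤ q) :
    M.npath v q t i n = M.ex ((n : ℝ) • v) := by
  unfold npath
  rw [if_neg hi, if_pos hn]

theorem npath_step {v : V} (hv : M.nm v ≤ 1) {q : ℕ} {t : M.ι → S} {A : ℝ} (hA : 2 * M.C0 ≤ A)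
    (ht : ∀ i, (M.l (t i) : ℝ) ≤ A) (i : M.ι) (n : ℕ) :
    (M.l ((M.npath v q t i n)⁻¹ * M.npath v q t i (n + 1)) : ℝ) ≤ A := by
  have hC := M.C0_pos
  by_cases hi : M.wt i = 0
  · rw [M.npath_neutral hi, M.npath_neutral hi, inv_one, one_mul, M.len.one]
    push_cast; linarith
  · rcases Nat.lt_or_ge n q with h | h
    · rw [M.npath_le hi h.le, M.npath_le hi h]
      have e : (M.ex ((n : ℝ) • v))⁻¹ * M.ex (((n + 1 : ℕ) : ℝ) • v) = M.ex v := by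
        push_cast
        rw [M.ex_add, one_smul, inv_mul_cancel_left]
      rw [e]
      refine (M.met_V v).trans ?_
      nlinarith
    · rw [M.npath_ge hi h, M.npath_ge hi (by omega), show n + 1 - q = n - q + 1 by omega, pow_succ]
      have e : (M.ex ((q : ℝ) • v) * t i ^ (n - q))⁻¹ *
          (M.ex ((q : ℝ) • v) * (t i ^ (n - q) * t i)) = t i := by group
      rw [e]
      exact ht i

theorem θ_inv' (x : S) : M.θ x⁻¹ = - M.θ x := by
  have := M.θ_mul x⁻¹ x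
  rw [inv_mul_cancel, M.θ_one] at this
  exact eq_neg_of_add_eq_zero_left this.symm

theorem θ_pow' (x : S) (n : ℕ) : M.θ (x ^ n) = (n : ℝ) • M.θ x := by
  induction n with
  | zero => simp [M.θ_one]
  | succ n ih => rw [pow_succ, M.θ_mul, ih]; push_cast; rw [add_smul, one_smul]

/-- contraction at the end of the path -/
theorem npath_end {v : V} (hv0 : v ∈ M.Vw 0) (hv : M.nm v ≤ 1) (q m N : ℕ) {t : M.ι → S} {i : M.ι}
    (hi : M.wt i ≠ 0) (ht : t i ∈ M.CB N) (ht1 : 1 ≤ M.wt i (M.θ (t i))) :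
    M.nm (M.Ad (M.npath v q t i (q + m))⁻¹ (M.X i)) ≤
      M.C0 * (1 + (m * N : ℕ)) ^ M.deg * Real.exp (-m) * (M.C0 * (1 + q) ^ M.C0) := by
  have hC := M.C0_pos
  have hwt : M.wt i ∈ M.Wt := by
    rcases M.wt_mem i with h | h
    · exact M.Φ_sub h
    · exact absurd h hi
  rw [M.npath_ge hi (by omega), Nat.add_sub_cancel_left, mul_inv_rev, ← M.ex_neg, map_mul]
  have hq0 : (q : ℝ) • v ∈ M.Vw 0 := (M.Vw 0).smul_mem _ hv0
  have hqn : M.nm (-((q : ℝ) • v)) ≤ q := by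
    rw [M.nm_neg, map_smul_eq_mul, Real.norm_of_nonneg (Nat.cast_nonneg _)]
    exact mul_le_of_le_one_right (Nat.cast_nonneg _) hv
  have h1 := M.Ad_ex_le (-((q : ℝ) • v)) (M.X i)
  have h2 : M.Ad (M.ex (-((q : ℝ) • v))) (M.X i) ∈ M.Vw (M.wt i) :=
    M.Ad_ex_Vw ((M.Vw 0).neg_mem hq0) (M.X_mem i)
  have h3 : (t i ^ m)⁻¹ ∈ M.CB (m * N) := M.CB_inv (M.CB_pow ht m)
  have h4 := M.C_le (m * N) _ h3 (M.wt i) hwt _ h2
  have h5 : hgt M.η (t i ^ m)⁻¹ = -((m : ℝ) • M.θ (t i)) := by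
    show M.θ _ = _
    rw [M.θ_inv', M.θ_pow']
  rw [h5, map_neg, map_smul, smul_eq_mul] at h4
  show M.nm (M.Ad (t i ^ m)⁻¹ (M.Ad (M.ex (-((q : ℝ) • v))) (M.X i))) ≤ _
  refine h4.trans ?_
  have h6 : M.nm (M.Ad (M.ex (-((q : ℝ) • v))) (M.X i)) ≤ M.C0 * (1 + q) ^ M.C0 := by
    refine h1.trans ?_
    calc M.C0 * (1 + M.nm (-((q : ℝ) • v))) ^ M.C0 * M.nm (M.X i)
        ≤ M.C0 * (1 + M.nm (-((q : ℝ) • v))) ^ M.C0 * 1 := by
          refine mul_le_mul_of_nonneg_left (M.X_le i) ?_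
          have := M.nm_nonneg (-((q : ℝ) • v))
          positivity
      _ ≤ M.C0 * (1 + q) ^ M.C0 := by
          rw [mul_one]
          refine mul_le_mul_of_nonneg_left ?_ hC.le
          refine Real.rpow_le_rpow ?_ (by linarith) hC.le
          have := M.nm_nonneg (-((q : ℝ) • v))
          linarith
  have h7 : Real.exp (-((m : ℝ) * M.wt i (M.θ (t i)))) ≤ Real.exp (-m) := by
    refine Real.exp_le_exp.2 ?_
    have : (m : ℝ) * 1 ≤ m * M.wt i (M.θ (t i)) :=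
      mul_le_mul_of_nonneg_left ht1 (Nat.cast_nonneg _)
    linarith
  refine mul_le_mul (mul_le_mul_of_nonneg_left h7 (by positivity)) h6 (M.nm_nonneg _) ?_
  positivity

/-- the argmax argument: along the path `ex (j v)`, `j ≤ N`, the largest height is attained at a
point of `TolP` of a forward or of a backward path. -/
theorem argmax_mem {F : Γ → Γ} {b : Ht k →L[ℝ] ℝ} {v : V} {N m : ℕ} {t : M.ι → S}
    {κ τ : ℝ} (hτ : 0 ≤ τ)
    (hlip : ∀ i, ∀ z, ∀ n ≤ m, |b (M.f F (z * t i ^ n)) - b (M.f F z)| ≤ κ)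
    {x : S} (hx : κ < |b (M.f F (x * M.ex ((N : ℝ) • v))) - b (M.f F x)|) :
    ∃ j ≤ N, x * M.ex ((j : ℝ) • v) ∈
        M.TolP (fun z => b (M.f F z)) (M.npath v (N - j) t) (N - j + m) τ ∨
      x * M.ex ((j : ℝ) • v) ∈
        M.TolP (fun z => b (M.f F z)) (M.npath (-v) j t) (j + m) τ := by
  set h : S → ℝ := fun z => b (M.f F z) with hh
  obtain ⟨j, hj, hmax⟩ := Finset.exists_max_image (Finset.range (N + 1))
    (fun j => h (x * M.ex ((j : ℝ) • v))) ⟨0, Finset.mem_range.2 (by omega)⟩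
  have hj' : j ≤ N := by
    have := Finset.mem_range.1 hj
    omega
  have hmax' : ∀ j' ≤ N, h (x * M.ex ((j' : ℝ) • v)) ≤ h (x * M.ex ((j : ℝ) • v)) :=
    fun j' hj' => hmax j' (Finset.mem_range.2 (by omega))
  refine ⟨j, hj', ?_⟩
  have hx0 : h (x * M.ex (((0 : ℕ) : ℝ) • v)) = h x := by
    rw [Nat.cast_zero, zero_smul, M.ex_zero, mul_one]
  have hstay : ∀ i, ∀ z, ∀ n ≤ m, h (z * t i ^ n) ≤ h z + κ := by
    intro i z n hn
    have := abs_le.1 (hlip i z n hn)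
    show b (M.f F (z * t i ^ n)) ≤ b (M.f F z) + κ
    linarith
  rcases lt_abs.1 hx with h1 | h1
  · -- the end is higher: backward path
    right
    intro i n hn
    show h (x * M.ex ((j : ℝ) • v) * M.npath (-v) j t i n) ≤ h (x * M.ex ((j : ℝ) • v)) + τ
    by_cases hi : M.wt i = 0
    · rw [M.npath_neutral hi, mul_one]; linarith
    rcases le_total n j with hnj | hnj
    · rw [M.npath_le hi hnj, mul_assoc]
      have e : M.ex ((j : ℝ) • v) * M.ex ((n : ℝ) • -v) = M.ex (((j - n : ℕ) : ℝ) • v) := by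
        rw [Nat.cast_sub hnj, sub_eq_add_neg, M.ex_add, smul_neg, neg_smul]
      rw [e]
      linarith [hmax' (j - n) (by omega)]
    · rw [M.npath_ge hi hnj]
      have e : x * M.ex ((j : ℝ) • v) * (M.ex ((j : ℝ) • -v) * t i ^ (n - j)) =
          x * t i ^ (n - j) := by
        rw [smul_neg, M.ex_neg]; group
      rw [e]
      have h2 := hstay i x (n - j) (by omega)
      have h3 := hmax' N le_rfl
      have h4 : h (x * M.ex ((N : ℝ) • v)) - h x = b (M.f F (x * M.ex ((N : ℝ) • v))) - b (M.f F x) :=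
        rfl
      linarith
  · left
    intro i n hn
    show h (x * M.ex ((j : ℝ) • v) * M.npath v (N - j) t i n) ≤ h (x * M.ex ((j : ℝ) • v)) + τ
    by_cases hi : M.wt i = 0
    · rw [M.npath_neutral hi, mul_one]; linarith
    rcases le_total n (N - j) with hnj | hnj
    · rw [M.npath_le hi hnj, mul_assoc]
      have e : M.ex ((j : ℝ) • v) * M.ex ((n : ℝ) • v) = M.ex (((j + n : ℕ) : ℝ) • v) := by
        rw [Nat.cast_add, M.ex_add]
      rw [e]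
      linarith [hmax' (j + n) (by omega)]
    · rw [M.npath_ge hi hnj]
      have e : x * M.ex ((j : ℝ) • v) * (M.ex (((N - j : ℕ) : ℝ) • v) * t i ^ (n - (N - j))) =
          x * M.ex ((N : ℝ) • v) * t i ^ (n - (N - j)) := by
        have : M.ex ((N : ℝ) • v) = M.ex ((j : ℝ) • v) * M.ex (((N - j : ℕ) : ℝ) • v) := by
          rw [← M.ex_add, Nat.cast_sub hj']; congr 2; ring
        rw [this]; group
      rw [e]
      have h2 := hstay i (x * M.ex ((N : ℝ) • v)) (n - (N - j)) (by omega)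
      have h3 := hmax' 0 (Nat.zero_le _)
      rw [hx0] at h3
      have h4 : h (x * M.ex ((N : ℝ) • v)) - h x = b (M.f F (x * M.ex ((N : ℝ) • v))) - b (M.f F x) :=
        rfl
      linarith

/-! ### numerical estimates -/

theorem nfp_num_end {C0 ρ r δ : ℝ} {N0 dg m q : ℕ} (hC : 0 < C0) (hρ0 : 0 < ρ) (hr0 : 0 ≤ r)
    (hq' : (1 : ℝ) + q ≤ 4 * Real.exp (δ * r)) (hδρ : C0 * δ ≤ ρ / 4)
    (hmr : (m : ℝ) ≤ ρ * r) (hmr' : ρ * r - 1 ≤ m)
    (h3 : (C0 * (1 + ρ * N0) ^ dg * Real.exp 1 * (C0 * 4 ^ C0)) * (1 + r) ^ dg ≤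
      Real.exp (ρ / 4 * r)) :
    C0 * (1 + ((m * N0 : ℕ) : ℝ)) ^ dg * Real.exp (-(m : ℝ)) * (C0 * (1 + (q : ℝ)) ^ C0) ≤
      Real.exp (-(ρ / 2 * r)) := by
  have e1 : C0 * (1 + (q : ℝ)) ^ C0 ≤ C0 * 4 ^ C0 * Real.exp (ρ / 4 * r) := by
    rw [mul_assoc]
    refine mul_le_mul_of_nonneg_left ?_ hC.le
    calc (1 + (q : ℝ)) ^ C0 ≤ (4 * Real.exp (δ * r)) ^ C0 :=
          Real.rpow_le_rpow (by positivity) hq' hC.le
      _ = 4 ^ C0 * Real.exp (C0 * δ * r) := by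
          rw [Real.mul_rpow (by norm_num) (Real.exp_pos _).le, ← Real.exp_mul]
          congr 2; ring
      _ ≤ 4 ^ C0 * Real.exp (ρ / 4 * r) := by gcongr
  have e2 : (1 + ((m * N0 : ℕ) : ℝ)) ≤ (1 + ρ * N0) * (1 + r) := by
    push_cast
    have a1 : (0 : ℝ) ≤ N0 := Nat.cast_nonneg _
    have a2 : (m : ℝ) * N0 ≤ ρ * r * N0 := mul_le_mul_of_nonneg_right hmr a1
    have a3 : 0 ≤ ρ * N0 := by positivity
    nlinarith
  have e3 : Real.exp (-(m : ℝ)) ≤ Real.exp 1 * Real.exp (-(ρ * r)) := by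
    rw [← Real.exp_add]
    exact Real.exp_le_exp.2 (by linarith)
  calc C0 * (1 + ((m * N0 : ℕ) : ℝ)) ^ dg * Real.exp (-(m : ℝ)) * (C0 * (1 + (q : ℝ)) ^ C0)
      ≤ C0 * ((1 + ρ * N0) * (1 + r)) ^ dg * (Real.exp 1 * Real.exp (-(ρ * r))) *
        (C0 * 4 ^ C0 * Real.exp (ρ / 4 * r)) := by
        gcongr
    _ = ((C0 * (1 + ρ * N0) ^ dg * Real.exp 1 * (C0 * 4 ^ C0)) * (1 + r) ^ dg) *
        (Real.exp (-(ρ * r)) * Real.exp (ρ / 4 * r)) := by
        rw [mul_pow]; ring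
    _ ≤ Real.exp (ρ / 4 * r) * (Real.exp (-(ρ * r)) * Real.exp (ρ / 4 * r)) :=
        mul_le_mul_of_nonneg_right h3 (by positivity)
    _ = Real.exp (-(ρ / 2 * r)) := by
        rw [← Real.exp_add, ← Real.exp_add]; congr 1; ring

theorem nfp_num_len {N : ℕ} {r δ η ρ : ℝ} (hr0 : 0 ≤ r) (hδη : δ ≤ η / 2)
    (hNle : (N : ℝ) ≤ Real.exp (δ * r) + 2) (h4 : ρ * r + 2 ≤ Real.exp (η / 2 * r))
    (h5 : (2 : ℝ) ≤ Real.exp (η / 2 * r)) : (N : ℝ) + ρ * r ≤ Real.exp (η * r) := by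
  have e1 : Real.exp (δ * r) ≤ Real.exp (η / 2 * r) :=
    Real.exp_le_exp.2 (mul_le_mul_of_nonneg_right hδη hr0)
  have e2 : Real.exp (η * r) = Real.exp (η / 2 * r) * Real.exp (η / 2 * r) := by
    rw [← Real.exp_add]; congr 1; ring
  rw [e2]
  have e3 : 2 * Real.exp (η / 2 * r) ≤ Real.exp (η / 2 * r) * Real.exp (η / 2 * r) :=
    mul_le_mul_of_nonneg_right h5 (Real.exp_pos _).le
  linarith

theorem nfp_num_tot {P N : ℕ} {r δ c₀ C₁ : ℝ} (hr0 : 0 ≤ r) (hc₀ : 0 < c₀) (hδc : δ ≤ c₀ / 4)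
    (hNle : (N : ℝ) ≤ Real.exp (δ * r) + 2) (hC₁ : 0 ≤ C₁)
    (h6 : 8 * P * (1 + C₁) ≤ Real.exp (c₀ / 4 * r)) :
    (P : ℝ) * ((N + 1 : ℕ) : ℝ) * 2 * Real.exp (-(c₀ * r)) * (1 + C₁) ≤
      Real.exp (-(c₀ / 2 * r)) := by
  have e1 : Real.exp (δ * r) ≤ Real.exp (c₀ / 4 * r) :=
    Real.exp_le_exp.2 (mul_le_mul_of_nonneg_right hδc hr0)
  have e2 : 1 ≤ Real.exp (c₀ / 4 * r) := Real.one_le_exp (by positivity)
  have e3 : ((N + 1 : ℕ) : ℝ) ≤ 4 * Real.exp (c₀ / 4 * r) := by push_cast; linarith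
  calc (P : ℝ) * ((N + 1 : ℕ) : ℝ) * 2 * Real.exp (-(c₀ * r)) * (1 + C₁)
      ≤ (P : ℝ) * (4 * Real.exp (c₀ / 4 * r)) * 2 * Real.exp (-(c₀ * r)) * (1 + C₁) := by gcongr
    _ = (8 * P * (1 + C₁)) * (Real.exp (c₀ / 4 * r) * Real.exp (-(c₀ * r))) := by ring
    _ ≤ Real.exp (c₀ / 4 * r) * (Real.exp (c₀ / 4 * r) * Real.exp (-(c₀ * r))) :=
        mul_le_mul_of_nonneg_right h6 (by positivity)
    _ = Real.exp (-(c₀ / 2 * r)) := by
        rw [← Real.exp_add, ← Real.exp_add]; congr 1; ring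

theorem nfp_ennreal {P N : ℕ} {e c e' : ℝ} (he : 0 ≤ e) (h : (P : ℝ) * ((N + 1 : ℕ) : ℝ) * 2 * e * c ≤ e')
    (x : ℝ≥0∞) : (P : ℝ≥0∞) * (((N + 1 : ℕ) : ℝ≥0∞) * (2 * (ENNReal.ofReal e *
      (ENNReal.ofReal c * x)))) ≤ ENNReal.ofReal e' * x := by
  rw [← mul_assoc, ← mul_assoc, ← mul_assoc, ← mul_assoc]
  refine mul_le_mul_left ?_ _
  refine le_trans (le_of_eq ?_) (ENNReal.ofReal_le_ofReal h)
  rw [ENNReal.ofReal_mul (by positivity), ENNReal.ofReal_mul (by positivity),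
    ENNReal.ofReal_mul (by positivity), ENNReal.ofReal_mul (by positivity),
    ENNReal.ofReal_natCast, ENNReal.ofReal_natCast, ENNReal.ofReal_ofNat]

theorem nfp_sum {α β : Type*} [MeasurableSpace α] {μ : Measure α} {Φ : Finset β} {N : ℕ}
    {V₁ : β → ℕ → Set α} {c : ℝ≥0∞} (h : ∀ b ∈ Φ, ∀ j ∈ Finset.range N, μ (V₁ b j) ≤ c) :
    μ (⋃ b ∈ Φ, ⋃ j ∈ Finset.range N, V₁ b j) ≤ (Φ.card : ℝ≥0∞) * ((N : ℝ≥0∞) * c) := by
  calc μ (⋃ b ∈ Φ, ⋃ j ∈ Finset.range N, V₁ b j)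
      ≤ ∑ b ∈ Φ, μ (⋃ j ∈ Finset.range N, V₁ b j) := measure_biUnion_finset_le _ _
    _ ≤ ∑ b ∈ Φ, ∑ j ∈ Finset.range N, μ (V₁ b j) :=
        Finset.sum_le_sum fun b _ => measure_biUnion_finset_le _ _
    _ ≤ ∑ b ∈ Φ, ∑ j ∈ Finset.range N, c :=
        Finset.sum_le_sum fun b hb => Finset.sum_le_sum fun j hj => h b hb j hj
    _ = _ := by rw [Finset.sum_const, Finset.sum_const, Finset.card_range, nsmul_eq_mul,
        nsmul_eq_mul]

/-- the powers of the letters stay close -/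
theorem power_close {h : S → ℝ} {κ' r ρ Lp A1 : ℝ} {m : ℕ} {t : M.ι → S} (hκ'0 : 0 < κ')
    (hr0 : 0 ≤ r) (hLp0 : 0 ≤ Lp) (hA10 : 0 ≤ A1) (hρκ : Lp * (A1 * ρ) ≤ κ' / 2)
    (h2 : 2 * Lp / κ' ≤ r) (hmr : (m : ℝ) ≤ ρ * r) (hA1 : ∀ i, (M.l (t i) : ℝ) ≤ A1)
    (hLip : ∀ z s, |h (z * s) - h z| ≤ Lp * (M.l s + 1)) :
    ∀ i, ∀ z, ∀ n ≤ m, |h (z * t i ^ n) - h z| ≤ κ' * r := by
  intro i z n hn
  refine (hLip z _).trans ?_
  have e1 : ∀ n : ℕ, (M.l (t i ^ n) : ℝ) ≤ n * A1 := by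
    intro n
    induction n with
    | zero => rw [pow_zero, M.len.one]; simp
    | succ n ih =>
      rw [pow_succ]
      have e := M.len.mul (t i ^ n) (t i)
      have e' : (M.l (t i ^ n * t i) : ℝ) ≤ M.l (t i ^ n) + M.l (t i) := by exact_mod_cast e
      have := hA1 i
      push_cast
      linarith
  have e2 : (n : ℝ) ≤ ρ * r := le_trans (by exact_mod_cast hn) hmr
  have e3 : Lp ≤ κ' / 2 * r := by
    rw [div_le_iff₀ hκ'0] at h2
    linarith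
  calc Lp * ((M.l (t i ^ n) : ℝ) + 1) ≤ Lp * (ρ * r * A1 + 1) := by
        refine mul_le_mul_of_nonneg_left ?_ hLp0
        have := mul_le_mul_of_nonneg_right e2 hA10
        linarith [e1 n]
    _ = Lp * (A1 * ρ) * r + Lp := by ring
    _ ≤ κ' / 2 * r + κ' / 2 * r := by
        refine add_le_add (mul_le_mul_of_nonneg_right hρκ hr0) e3
    _ = κ' * r := by ring

/-- the estimate for one map, all paths being given -/
theorem nfp_core {F : Γ → Γ} {κ r τ Cn : ℝ} (hκr : 0 < κ * r) (hτ : 0 ≤ τ) (hCn : 0 < Cn)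
    (hnorm : ∀ (w : Ht k) (t : ℝ), 0 ≤ t → (∀ b ∈ M.Φ, |b w| ≤ t) → ‖w‖ ≤ Cn * t)
    {v : V} {N m : ℕ} {t : M.ι → S} {D₁ Din : Set S} {c : ℝ≥0∞}
    (hlet : ∀ b ∈ M.Φ, ∀ i, ∀ z, ∀ n ≤ m,
      |b (M.f F (z * t i ^ n)) - b (M.f F z)| ≤ κ * r / (2 * Cn))
    (hjv : ∀ j : ℕ, j ≤ N → ∀ z ∈ Din, z * M.ex ((j : ℝ) • v) ∈ D₁)
    (hf : ∀ b ∈ M.Φ, ∀ q ≤ N,
      M.μ (D₁ ∩ M.TolP (fun z => b (M.f F z)) (M.npath v q t) (q + m) τ) ≤ c)
    (hb : ∀ b ∈ M.Φ, ∀ q ≤ N,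
      M.μ (D₁ ∩ M.TolP (fun z => b (M.f F z)) (M.npath (-v) q t) (q + m) τ) ≤ c) :
    M.μ {x | x ∈ Din ∧ κ * r < ‖M.f F (x * M.ex ((N : ℝ) • v)) - M.f F x‖} ≤
      (M.Φ.card : ℝ≥0∞) * (((N + 1 : ℕ) : ℝ≥0∞) * (2 * c)) := by
  classical
  set V₁ : (Ht k →L[ℝ] ℝ) → ℕ → Set S := fun b j =>
    (fun x => x * M.ex ((j : ℝ) • v)) ⁻¹'
      (D₁ ∩ M.TolP (fun z => b (M.f F z)) (M.npath v (N - j) t) (N - j + m) τ) ∪
    (fun x => x * M.ex ((j : ℝ) • v)) ⁻¹'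
      (D₁ ∩ M.TolP (fun z => b (M.f F z)) (M.npath (-v) j t) (j + m) τ) with hV₁
  have hsub : {x | x ∈ Din ∧ κ * r < ‖M.f F (x * M.ex ((N : ℝ) • v)) - M.f F x‖} ⊆
      ⋃ b ∈ M.Φ, ⋃ j ∈ Finset.range (N + 1), V₁ b j := by
    rintro x ⟨hx, hbad⟩
    obtain ⟨b, hb1, hb'⟩ : ∃ b ∈ M.Φ,
        κ * r / (2 * Cn) < |b (M.f F (x * M.ex ((N : ℝ) • v)) - M.f F x)| := by
      by_contra hcon
      push Not at hcon
      have h1 := hnorm _ (κ * r / (2 * Cn)) (by positivity) hcon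
      have e : Cn * (κ * r / (2 * Cn)) = κ * r / 2 := by field_simp
      rw [e] at h1
      linarith
    rw [map_sub] at hb'
    obtain ⟨j, hj, hmem⟩ := M.argmax_mem hτ (hlet b hb1) hb'
    simp only [mem_iUnion, Finset.mem_range]
    refine ⟨b, hb1, j, by omega, ?_⟩
    rcases hmem with h | h
    · exact Or.inl ⟨hjv j hj x hx, h⟩
    · exact Or.inr ⟨hjv j hj x hx, h⟩
  refine (measure_mono hsub).trans (nfp_sum fun b hb1 j hj => ?_)
  have hj' : j ≤ N := by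
    have := Finset.mem_range.1 hj
    omega
  refine (measure_union_le _ _).trans ?_
  rw [two_mul]
  exact add_le_add (((M.mp _).measure_preimage_le _).trans (hf b hb1 (N - j) (by omega)))
    (((M.mp _).measure_preimage_le _).trans (hb b hb1 j hj'))

/-- **Neutral flatness, path form, from GCL.** -/
theorem nfp_of_gcl (hG : M.GCL) : M.NFp := by
  classical
  intro K κ C₁ hκ
  have hC := M.C0_pos
  obtain ⟨Cn, hCn, hnorm⟩ := M.norm_le_Φ
  set κ' : ℝ := κ / (2 * Cn) with hκ'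
  have hκ'0 : 0 < κ' := by positivity
  -- directions
  have hdir : ∀ i, M.wt i ≠ 0 → ∃ w : Fin k → ℤ, 1 ≤ M.wt i (ht w) := fun i hi => exists_dir hi
  choose! w hw using hdir
  set t : M.ι → S := fun i => M.τ (w i) with ht'
  obtain ⟨A1, hA10, hA1⟩ : ∃ A1 : ℝ, 0 ≤ A1 ∧ ∀ i, (M.l (t i) : ℝ) ≤ A1 :=
    ⟨∑ i, (M.l (t i) : ℝ), Finset.sum_nonneg fun _ _ => Nat.cast_nonneg _, fun i =>
      Finset.single_le_sum (f := fun i => (M.l (t i) : ℝ)) (fun _ _ => Nat.cast_nonneg _)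
        (Finset.mem_univ i)⟩
  obtain ⟨N0, hN0⟩ : ∃ N : ℕ, ∀ i, t i ∈ M.CB N := by
    refine ⟨∑ i, ⌈M.C0 * (1 + ‖(fun j => (w i j : ℝ))‖)⌉₊, fun i => ?_⟩
    refine M.CB_mono ?_ (M.τ_CB (w i))
    exact Finset.single_le_sum (f := fun i => ⌈M.C0 * (1 + ‖(fun j => (w i j : ℝ))‖)⌉₊)
      (fun _ _ => Nat.zero_le _) (Finset.mem_univ i)
  obtain ⟨B, hB0, hB⟩ : ∃ B : ℝ, 0 ≤ B ∧ ∀ b ∈ M.Φ, ‖b‖ ≤ B :=
    ⟨∑ b ∈ M.Φ, ‖b‖, Finset.sum_nonneg fun _ _ => norm_nonneg _, fun b hb =>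
      Finset.single_le_sum (f := fun b : Ht k →L[ℝ] ℝ => ‖b‖) (fun _ _ => norm_nonneg _) hb⟩
  set Lp : ℝ := B * (M.C0 * |K| * (2 * M.C0 + 1)) with hLp
  have hLp0 : 0 ≤ Lp := by positivity
  have hLip : ∀ F F' : Γ → Γ, M.QIm K F F' → ∀ b ∈ M.Φ, ∀ z s,
      |b (M.f F (z * s)) - b (M.f F z)| ≤ Lp * (M.l s + 1) := by
    intro F F' hF b hb z s
    rw [← map_sub]
    calc |b (M.f F (z * s) - M.f F z)| ≤ ‖b‖ * ‖M.f F (z * s) - M.f F z‖ := b.le_opNorm _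
      _ ≤ B * (M.C0 * |K| * (2 * M.C0 + 1) * (M.l s + 1)) := by
          refine mul_le_mul (hB b hb) ((hF.f_lip z s).trans ?_) (norm_nonneg _) hB0
          rw [abs_of_nonneg hF.K_nonneg]
      _ = Lp * (M.l s + 1) := by rw [hLp]; ring
  set ρ : ℝ := κ' / (2 * (Lp + 1) * (A1 + 1)) with hρ
  have hρ0 : 0 < ρ := by positivity
  have hρκ : Lp * (A1 * ρ) ≤ κ' / 2 := by
    have e : κ' / 2 = (Lp + 1) * (A1 + 1) * ρ := by
      rw [hρ]; field_simp
    rw [e]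
    have h1 : Lp * A1 ≤ (Lp + 1) * (A1 + 1) := by nlinarith
    nlinarith
  obtain ⟨η, c₀, CR, r₀, hη, hc₀, H⟩ := hG K (max A1 (2 * M.C0)) (ρ / 2) (by positivity)
  obtain ⟨J, hJ⟩ : ∃ J : ℕ, 1 + |C₁| < 2 ^ J := pow_unbounded_of_one_lt _ (by norm_num)
  obtain ⟨δ, hδ0, hδη, hδc, hδρ⟩ : ∃ δ : ℝ, 0 < δ ∧ δ ≤ η / 2 ∧ δ ≤ c₀ / 4 ∧ M.C0 * δ ≤ ρ / 4 := by
    refine ⟨min (η / 2) (min (c₀ / 4) (ρ / (4 * M.C0))), by positivity, min_le_left _ _,
      (min_le_right _ _).trans (min_le_left _ _), ?_⟩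
    calc M.C0 * min (η / 2) (min (c₀ / 4) (ρ / (4 * M.C0)))
        ≤ M.C0 * (ρ / (4 * M.C0)) :=
          mul_le_mul_of_nonneg_left ((min_le_right _ _).trans (min_le_right _ _)) hC.le
      _ = ρ / 4 := by field_simp
  set CT : ℝ := M.C0 * (1 + ρ * N0) ^ M.deg * Real.exp 1 * (M.C0 * 4 ^ M.C0) with hCT
  have hev : ∀ᶠ r : ℝ in atTop, 1 ≤ r ∧ 2 * Lp / κ' ≤ r ∧
      CT * (1 + r) ^ M.deg ≤ Real.exp (ρ / 4 * r) ∧
      ρ * r + 2 ≤ Real.exp (η / 2 * r) ∧ (2 : ℝ) ≤ Real.exp (η / 2 * r) ∧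
      8 * M.Φ.card * (1 + |C₁|) ≤ Real.exp (c₀ / 4 * r) := by
    refine (eventually_ge_atTop _).and ((eventually_ge_atTop _).and
      ((ev_poly CT M.deg (by positivity)).and (?_ : ∀ᶠ r : ℝ in atTop, _)))
    refine ((ev_poly (ρ + 2) 1 (ε := η / 2) (by positivity)).mp ?_).and
      ((ev_const 2 (ε := η / 2) (by positivity)).and (ev_const _ (ε := c₀ / 4) (by positivity)))
    filter_upwards [eventually_ge_atTop (0 : ℝ)] with r hr h
    refine le_trans ?_ h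
    rw [pow_one]
    nlinarith
  obtain ⟨r₁, hr₁⟩ := hev.exists_forall_of_atTop
  refine ⟨δ, c₀ / 2, J * (|CR| + 2 * M.C0) + 2 * M.C0, max r₀ r₁, hδ0, by positivity, ?_⟩
  intro r hr F F' hF D Dp hD y hy hyn Din hDin
  obtain ⟨h1, h2, h3, h4, h5, h6⟩ := hr₁ r ((le_max_right _ _).trans hr)
  have hrr : r₀ ≤ r := (le_max_left _ _).trans hr
  have hr0 : 0 < r := by linarith
  -- the layer
  have hfat : M.Fat (J * (|CR| * r + 2 * M.C0) + 2 * M.C0) |C₁| D Dp := by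
    refine hD.mono ?_ (le_abs_self _)
    have : (0 : ℝ) ≤ J := Nat.cast_nonneg _
    have e1 : 2 * M.C0 ≤ 2 * M.C0 * r := by nlinarith
    calc (J : ℝ) * (|CR| * r + 2 * M.C0) + 2 * M.C0
        ≤ J * (|CR| * r + 2 * M.C0 * r) + 2 * M.C0 * r := by gcongr
      _ = _ := by ring
  obtain ⟨D₁, D₂, hD₁, hDD₁, hD₁le⟩ := M.exists_layer hJ (by positivity) hfat
  have hD₁' : M.Fat (CR * r) 1 D₁ D₂ := hD₁.mono (by gcongr; exact le_abs_self _) le_rfl
  -- steps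
  set N : ℕ := ⌈M.nm y⌉₊ + 1 with hN
  have hN1 : (1 : ℝ) ≤ N := by rw [hN]; push_cast; linarith [(Nat.cast_nonneg ⌈M.nm y⌉₊ : (0:ℝ) ≤ _)]
  have hNy : M.nm y ≤ N := by
    rw [hN]; push_cast
    linarith [Nat.le_ceil (M.nm y)]
  have hNle : (N : ℝ) ≤ Real.exp (δ * r) + 2 := by
    rw [hN]; push_cast
    have := (Nat.ceil_lt_add_one (M.nm_nonneg y)).le
    linarith
  set v : V := (N : ℝ)⁻¹ • y with hv
  have hNv : (N : ℝ) • v = y := by
    rw [hv, smul_smul, mul_inv_cancel₀ (by positivity), one_smul]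
  have hv0 : v ∈ M.Vw 0 := (M.Vw 0).smul_mem _ hy
  have hvn : M.nm v ≤ 1 := by
    rw [hv, map_smul_eq_mul, norm_inv, Real.norm_of_nonneg (by positivity), ← div_eq_inv_mul,
      div_le_one (by positivity)]
    exact hNy
  have hjv : ∀ j : ℕ, j ≤ N → ∀ z ∈ Din, z * M.ex ((j : ℝ) • v) ∈ D := by
    intro j hj z hz
    have := hDin z hz ((j : ℝ) * (N : ℝ)⁻¹) (by positivity) (by
      rw [← div_eq_mul_inv, div_le_one (by positivity)]
      exact_mod_cast hj)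
    rwa [mul_smul] at this
  set m : ℕ := ⌊ρ * r⌋₊ with hm
  have hmr : (m : ℝ) ≤ ρ * r := Nat.floor_le (by positivity)
  have hmr' : ρ * r - 1 ≤ m := by
    have := Nat.lt_floor_add_one (ρ * r)
    linarith
  -- the powers of the letters stay close
  have hlet : ∀ b ∈ M.Φ, ∀ i, ∀ z, ∀ n ≤ m,
      |b (M.f F (z * t i ^ n)) - b (M.f F z)| ≤ κ' * r :=
    fun b hb => M.power_close (h := fun z => b (M.f F z)) hκ'0 hr0.le hLp0 hA10 hρκ h2 hmr hA1 (hLip F F' hF b hb)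
  -- GCL for the paths
  have hA : ∀ i, (M.l (t i) : ℝ) ≤ max A1 (2 * M.C0) := fun i => (hA1 i).trans (le_max_left _ _)
  have hexpN : (N : ℝ) + ρ * r ≤ Real.exp (η * r) := nfp_num_len hr0.le hδη hNle h4 h5
  have hend : ∀ u : V, u ∈ M.Vw 0 → M.nm u ≤ 1 → ∀ q ≤ N, ∀ i, M.wt i ≠ 0 →
      M.nm (M.Ad (M.npath u q t i (q + m))⁻¹ (M.X i)) ≤ Real.exp (-(ρ / 2 * r)) := by
    intro u hu hun q hq i hi
    refine (M.npath_end hu hun q m N0 hi (hN0 i) (by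
      have := hw i hi
      rw [ht']; simp only; rw [M.θ_τ]; exact this)).trans ?_
    have hq' : (1 : ℝ) + q ≤ 4 * Real.exp (δ * r) := by
      have e1 : (q : ℝ) ≤ N := by exact_mod_cast hq
      have e2 : 1 ≤ Real.exp (δ * r) := Real.one_le_exp (by positivity)
      linarith
    exact nfp_num_end hC hρ0 hr0.le hq' hδρ hmr hmr' h3
  have hGb : ∀ b ∈ M.Φ, ∀ u : V, u ∈ M.Vw 0 → M.nm u ≤ 1 → ∀ q ≤ N,
      M.μ (D₁ ∩ M.TolP (fun z => b (M.f F z)) (M.npath u q t) (q + m) (η * r)) ≤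
        ENNReal.ofReal (Real.exp (-(c₀ * r))) * M.μ D₁ := by
    intro b hb u hu hun q hq
    refine H r hrr F F' hF b hb D₁ D₂ hD₁' (M.npath u q t) (q + m) ?_ (M.npath_zero u q t) ?_ ?_ ?_
    · have e1 : (q : ℝ) ≤ N := by exact_mod_cast hq
      push_cast
      linarith
    · intro i n _
      exact M.npath_step hun (le_max_right _ _) hA i n
    · intro i hi n
      exact M.npath_neutral hi n
    · intro i hi
      exact hend u hu hun q hq i hi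
  have htot := nfp_num_tot (P := M.Φ.card) hr0.le hc₀ hδc hNle (abs_nonneg C₁) h6
  have hle : ENNReal.ofReal (Real.exp (-(c₀ * r))) * M.μ D₁ ≤
      ENNReal.ofReal (Real.exp (-(c₀ * r))) * (ENNReal.ofReal (1 + |C₁|) * M.μ D) :=
    mul_le_mul_right hD₁le _
  have hcore := M.nfp_core (F := F) (κ := κ) (r := r) (τ := η * r) (by positivity) (by positivity)
    hCn hnorm (v := v) (N := N) (m := m) (t := t) (D₁ := D₁) (Din := Din)
    (fun b hb i z n hn => (hlet b hb i z n hn).trans (le_of_eq (by rw [hκ']; ring)))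
    (fun j hj z hz => hDD₁ (hjv j hj z hz))
    (fun b hb q hq => (hGb b hb v hv0 hvn q hq).trans hle)
    (fun b hb q hq => (hGb b hb (-v) ((M.Vw 0).neg_mem hv0) (by rw [M.nm_neg]; exact hvn) q
      hq).trans hle)
  rw [hNv] at hcore
  exact hcore.trans (nfp_ennreal (by positivity) htot _)

/-- **Neutral flatness, fat version, from GCL.** -/
theorem nf_of_nfp (h : M.NFp) : M.NF := by
  intro K κ C₁ hκ
  obtain ⟨δ₀, c₀, CR, r₀, hδ₀, hc₀, hCR, H⟩ := NFp.apply M h K κ C₁ hκ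
  obtain ⟨Cm, hCm, hmul⟩ := M.fb_mul
  obtain ⟨Cl, hCl, hlen⟩ := M.fb_of_len
  obtain ⟨Ce, hCe, hex⟩ := M.ex_mem_FB
  have hCe0 : 0 < Ce := by linarith
  refine ⟨min δ₀ (1 / Ce), by positivity, fun δ hδ hδ' => ?_⟩
  have hδ1 : Ce * δ ≤ 1 := by
    have := hδ'.trans (min_le_right _ _)
    rw [le_div_iff₀ hCe0] at this
    linarith
  have hδ2 : δ ≤ δ₀ := hδ'.trans (min_le_left _ _)
  -- eventually in `r`
  have hA0 : 0 < CR + 1 := by linarith
  have hB0 : 0 < Cl * (CR + 1) := by positivity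
  have ev1 : ∀ᶠ r : ℝ in atTop, ∀ g, (M.l g : ℝ) ≤ (CR + 1) * r → g ∈ M.FB δ (Cl * ((CR + 1) * r)) :=
    (tendsto_id.const_mul_atTop hA0).eventually (hlen δ hδ)
  have ev2 : ∀ᶠ r : ℝ in atTop, ∀ g ∈ M.FB (Ce * δ) (Cl * (CR + 1) * r),
      ∀ g' ∈ M.FB (Ce * δ) (Cl * (CR + 1) * r),
      g * g' ∈ M.FB (Cm * (Ce * δ)) (Cm * (Cl * (CR + 1) * r)) :=
    (tendsto_id.const_mul_atTop hB0).eventually (hmul (Ce * δ) (by positivity) hδ1)
  obtain ⟨r₁, hr₁⟩ := (((ev1.and ev2).and (hex δ hδ)).and ((ev_const (1 + |C₁|)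
    (ε := c₀ / 2) (by positivity)).and (eventually_ge_atTop (1 : ℝ)))).exists_forall_of_atTop
  refine ⟨c₀ / 2, Cm * Ce * (Cm * (Cl * (CR + 1))), max r₀ r₁, by positivity, ?_⟩
  intro r hr F F' hF D Dp hD y hy hyn
  obtain ⟨⟨⟨h1, h2⟩, h3⟩, h4, h5⟩ := hr₁ r ((le_max_right _ _).trans hr)
  have hrr : r₀ ≤ r := (le_max_left _ _).trans hr
  have hr0 : 0 < r := by linarith
  have key := H r hrr F F' hF D Dp hD.meas' hD.pos hD.fin hD.le y hy
    (hyn.trans (Real.exp_le_exp.2 (mul_le_mul_of_nonneg_right hδ2 hr0.le))) ?_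
  · refine key.trans ?_
    calc ENNReal.ofReal (Real.exp (-(c₀ * r))) * M.μ Dp
        ≤ ENNReal.ofReal (Real.exp (-(c₀ * r))) * (ENNReal.ofReal (1 + C₁) * M.μ D) :=
          mul_le_mul_right hD.le _
      _ ≤ ENNReal.ofReal (Real.exp (-(c₀ * r))) * (ENNReal.ofReal (Real.exp (c₀ / 2 * r)) * M.μ D) := by
          refine mul_le_mul_right (mul_le_mul_left (ENNReal.ofReal_le_ofReal ?_) _) _
          have := le_abs_self C₁
          linarith
      _ = ENNReal.ofReal (Real.exp (-(c₀ / 2 * r))) * M.μ D := by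
          rw [← mul_assoc, ← ENNReal.ofReal_mul (Real.exp_pos _).le, ← Real.exp_add]
          congr 3; ring
  · intro z hz x hx0 hx1 g hg
    rw [mul_assoc]
    refine hD.subf z hz _ ?_
    have e1 : M.ex (x • y) ∈ M.FB (Ce * δ) (Cl * (CR + 1) * r) := by
      refine M.FB_mono' (by positivity) hr0.le ?_ le_rfl (h3 ⟨x • y, (M.Vw 0).smul_mem _ hy, ?_, rfl⟩)
      · have : 1 ≤ Cl * (CR + 1) := by nlinarith
        nlinarith
      · rw [map_smul_eq_mul, Real.norm_of_nonneg hx0]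
        exact (mul_le_of_le_one_left (M.nm_nonneg _) hx1).trans hyn
    have e2 : g ∈ M.FB (Ce * δ) (Cl * (CR + 1) * r) := by
      refine M.FB_mono' hδ.le (by positivity) (le_of_eq (by ring)) ?_ (h1 g (hg.trans ?_))
      · nlinarith
      · nlinarith
    refine M.FB_mono ?_ ?_ (h2 _ e1 _ e2)
    · have : Cm * (Cl * (CR + 1)) ≤ Cm * Ce * (Cm * (Cl * (CR + 1))) := by
        have a1 : 1 ≤ Cm * Ce := by nlinarith
        have a2 : 0 ≤ Cm * (Cl * (CR + 1)) := by positivity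
        nlinarith
      calc Cm * (Cl * (CR + 1) * r) = Cm * (Cl * (CR + 1)) * r := by ring
        _ ≤ _ := mul_le_mul_of_nonneg_right this hr0.le
    · apply le_of_eq; ring

theorem nf_of_gcl (hG : M.GCL) : M.NF := M.nf_of_nfp (M.nfp_of_gcl hG)

end RModel

end Vale.Agent.P188.Z1
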