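import Vale.Agent.P188.Z1.DBoxH2

/-!
# P188, Z1: neutral moves of one box (NEUT), from NFp and DBOXH
-/

set_option linter.all false

open MeasureTheory Set Filter Topology
open Vale.Agent.P188.H540 (vec LP LP_finite lat_ratio' vec_injective tendsto_LP ball_dbl ball_finite
  LP_ball)
open scoped Pointwise ENNReal

namespace Vale.Agent.P188.H540

/-- number of lattice points in a cube -/
theorem ball_count (k : ℕ) : ∃ C s₀ : ℝ, 0 < s₀ ∧ 0 ≤ C ∧ ∀ s : ℝ, s₀ ≤ s →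
    (({w : Fin k → ℤ | ‖vec w‖ ≤ s}).ncard : ℝ) ≤ C * s ^ k := by
  have hT := tendsto_LP (k := k) (P := Metric.closedBall 0 1) (convex_closedBall _ _)
    Metric.isBounded_closedBall Metric.isClosed_closedBall.measurableSet
    (Metric.mem_closedBall_self zero_le_one)
  have h1 := hT.eventually_lt_const (show volume.real (Metric.closedBall (0 : Fin k → ℝ) 1) <
    volume.real (Metric.closedBall (0 : Fin k → ℝ) 1) + 1 by linarith)
  obtain ⟨s₀, hs₀⟩ := (h1.and (eventually_gt_atTop 0)).exists_forall_of_atTop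
  refine ⟨volume.real (Metric.closedBall (0 : Fin k → ℝ) 1) + 1, max s₀ 1, by positivity,
    by positivity, fun s hs => ?_⟩
  obtain ⟨h2, h3⟩ := hs₀ s ((le_max_left _ _).trans hs)
  rw [div_lt_iff₀ (by positivity), LP_ball h3] at h2
  exact h2.le

end Vale.Agent.P188.H540

namespace Vale.Agent.P188.Z1

namespace DB

variable {S : Type} [Group S] [MeasurableSpace S] {Γ : Type} [Group Γ]
  {V : Type} [AddCommGroup V] [Module ℝ V] {k : ℕ} {M : RModel S Γ V k}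

open RModel

/-- polynomial growth of the volumes of the boxes -/
theorem dbl_poly (B : M.NatBox) : ∃ (C : ℝ) (a : ℕ), 1 ≤ C ∧ ∀ Λ : ℝ, 1 ≤ Λ → ∀ R : M.ι → ℝ,
    (∀ i, 0 < R i) → M.μ (B.Bx fun i => Λ * R i) ≤ ENNReal.ofReal (C * Λ ^ a) * M.μ (B.Bx R) := by
  obtain ⟨C', hC'⟩ := B.dbl 2 (by norm_num)
  obtain ⟨a, ha⟩ := pow_unbounded_of_one_lt (max C' 1) (one_lt_two (α := ℝ))
  have hC'a : C' ≤ 2 ^ a := (le_max_left _ _).trans ha.le
  have hpow : ∀ (n : ℕ) (R : M.ι → ℝ), (∀ i, 0 < R i) →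
      M.μ (B.Bx fun i => 2 ^ n * R i) ≤ ENNReal.ofReal ((2 ^ a) ^ n) * M.μ (B.Bx R) := by
    intro n
    induction n with
    | zero => intro R hR; simp
    | succ n ih =>
      intro R hR
      have h1 := hC' (fun i => 2 ^ n * R i) fun i => by have := hR i; positivity
      have h2 := ih R hR
      have h3 : (fun i => (2 : ℝ) ^ (n + 1) * R i) = fun i => 2 * (2 ^ n * R i) := by
        funext i; ring
      rw [h3]
      calc M.μ (B.Bx fun i => 2 * (2 ^ n * R i))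
          ≤ ENNReal.ofReal C' * M.μ (B.Bx fun i => 2 ^ n * R i) := h1
        _ ≤ ENNReal.ofReal (2 ^ a) * (ENNReal.ofReal ((2 ^ a) ^ n) * M.μ (B.Bx R)) :=
            mul_le_mul' (ENNReal.ofReal_le_ofReal hC'a) h2
        _ = ENNReal.ofReal ((2 ^ a) ^ (n + 1)) * M.μ (B.Bx R) := by
            rw [← mul_assoc, ← ENNReal.ofReal_mul (by positivity)]
            congr 2
            ring
  refine ⟨2 ^ a, a, one_le_pow₀ (by norm_num), fun Λ hΛ R hR => ?_⟩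
  -- `2 ^ n ≤ Λ < 2 ^ (n + 1)`
  obtain ⟨n, hn1, hn2⟩ := exists_nat_pow_near hΛ (one_lt_two (α := ℝ))
  have h1 := hpow (n + 1) R hR
  have h2 : B.Bx (fun i => Λ * R i) ⊆ B.Bx (fun i => 2 ^ (n + 1) * R i) :=
    B.mono _ _ (fun i => by have := hR i; positivity) fun i =>
      mul_le_mul_of_nonneg_right hn2.le (hR i).le
  refine (measure_mono h2).trans (h1.trans ?_)
  gcongr
  calc ((2 : ℝ) ^ a) ^ (n + 1) = 2 ^ a * (2 ^ n) ^ a := by
        rw [pow_succ, ← pow_mul, ← pow_mul, mul_comm a n]; ring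
    _ ≤ 2 ^ a * Λ ^ a := by gcongr

/-- left translates of fat sets are fat -/
theorem fat_left {R κ : ℝ} {D Dp : Set S} (h : M.Fat R κ D Dp) (g : S) :
    M.Fat R κ {z | g * z ∈ D} {z | g * z ∈ Dp} where
  meas := (M.mpl g).measurable h.meas
  meas' := (M.mpl g).measurable h.meas'
  pos := by
    have := (M.mpl g).measure_preimage h.meas.nullMeasurableSet
    show M.μ ((fun x => g * x) ⁻¹' D) ≠ 0
    rw [this]
    exact h.pos
  fin := by
    have := (M.mpl g).measure_preimage h.meas.nullMeasurableSet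
    show M.μ ((fun x => g * x) ⁻¹' D) ≠ ⊤
    rw [this]
    exact h.fin
  sub := by
    intro z hz x hx
    show g * (z * x) ∈ Dp
    rw [← mul_assoc]
    exact h.sub _ hz x hx
  le := by
    have h1 := (M.mpl g).measure_preimage h.meas.nullMeasurableSet
    have h2 := (M.mpl g).measure_preimage h.meas'.nullMeasurableSet
    show M.μ ((fun x => g * x) ⁻¹' Dp) ≤ _ * M.μ ((fun x => g * x) ⁻¹' D)
    rw [h1, h2]
    exact h.le

end DB

/-- **NEUT**: for every location `g` and every neutral move `ex y`, `|y| ≤ e ^ (A (d₁ s + 1))`, most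
points `g n`, `n` in the (dilated) box, are displaced by at most `ε s`; exponentially small exceptional
proportion, with a rate which does not depend on `A` and `d₁`. -/
def RModel.NEUT {S : Type} [Group S] [MeasurableSpace S] {Γ : Type} [Group Γ]
    {V : Type} [AddCommGroup V] [Module ℝ V] {k : ℕ} (M : RModel S Γ V k) (B : M.NatBox) : Prop :=
  ∀ K c ε Λ : ℝ, 0 < c → 0 < ε → 0 < Λ → ∃ c₁ : ℝ, 0 < c₁ ∧ ∀ A : ℝ, ∃ dm : ℝ, 0 < dm ∧
    ∀ d₁ : ℝ, 0 < d₁ → d₁ ≤ dm → ∃ s₀ : ℝ, ∀ s : ℝ, s₀ ≤ s →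
    ∀ h : (Ht k →L[ℝ] ℝ) → ℝ, M.HB c h → ∀ F F' : Γ → Γ, M.QIm K F F' → ∀ g : S,
    ∀ y ∈ M.Vw 0, M.nm y ≤ Real.exp (A * (d₁ * s + 1)) →
      M.μ {n | n ∈ B.Bx (fun i => Λ * M.szh h d₁ s i) ∧
        ε * s < ‖M.f F (g * (n * M.ex y)) - M.f F (g * n)‖} ≤
        ENNReal.ofReal (Real.exp (-(c₁ * s))) * M.μ (B.Bx (M.szh h d₁ s))

/-- the numerical estimate in `neut` -/
theorem DB.neut_num {c₀ ρ s Ck CQ Cv Λ0 A d₁ : ℝ} {k a : ℕ} (hs0 : 0 ≤ s) (hCk : 0 ≤ Ck)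
    (hCQ : 0 ≤ CQ) (hCv : 0 ≤ Cv) (hΛ0 : 0 ≤ Λ0) (hd2 : (a : ℝ) * (A * d₁) ≤ c₀ * ρ / 4)
    (hexp : (Ck * CQ ^ k * Cv * Λ0 ^ a) * (1 + s) ^ k ≤ Real.exp (c₀ * ρ / 4 * s)) :
    Real.exp (-(c₀ * (ρ * s))) * (Ck * (CQ * s) ^ k) * (Cv * (Λ0 * Real.exp (A * d₁ * s)) ^ a) ≤
      Real.exp (-(c₀ * ρ / 2 * s)) := by
  have h1 : (Λ0 * Real.exp (A * d₁ * s)) ^ a = Λ0 ^ a * Real.exp (a * (A * d₁) * s) := by
    rw [mul_pow, ← Real.exp_nat_mul]
    congr 2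
    ring
  have h2 : s ^ k ≤ (1 + s) ^ k := pow_le_pow_left₀ hs0 (by linarith) _
  have h3 : Real.exp (a * (A * d₁) * s) ≤ Real.exp (c₀ * ρ / 4 * s) :=
    Real.exp_le_exp.2 (mul_le_mul_of_nonneg_right hd2 hs0)
  have hK : 0 ≤ Ck * CQ ^ k * Cv * Λ0 ^ a := by positivity
  have h4 : (Ck * CQ ^ k * Cv * Λ0 ^ a) * s ^ k ≤ Real.exp (c₀ * ρ / 4 * s) :=
    (mul_le_mul_of_nonneg_left h2 hK).trans hexp
  have h5 : Real.exp (-(c₀ * (ρ * s))) * (Ck * (CQ * s) ^ k) *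
      (Cv * (Λ0 * Real.exp (A * d₁ * s)) ^ a) =
      Real.exp (-(c₀ * (ρ * s))) * ((Ck * CQ ^ k * Cv * Λ0 ^ a) * s ^ k) *
        Real.exp (a * (A * d₁) * s) := by rw [h1, mul_pow]; ring
  rw [h5]
  have h6 : Real.exp (-(c₀ * (ρ * s))) * ((Ck * CQ ^ k * Cv * Λ0 ^ a) * s ^ k) ≤
      Real.exp (-(c₀ * (ρ * s))) * Real.exp (c₀ * ρ / 4 * s) :=
    mul_le_mul_of_nonneg_left h4 (Real.exp_pos _).le
  refine (mul_le_mul h6 h3 (Real.exp_pos _).le (by positivity)).trans (le_of_eq ?_)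
  rw [← Real.exp_add, ← Real.exp_add]
  congr 1
  ring

end Vale.Agent.P188.Z1
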